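import Vale.Agent.P150.Fast.Defs

/-!
Exported statement of the module M7 (local law at a TAP point) for P150: uniformly over the
coupling scale and over all diagonals with a margin, the diagonal of the drift correction
`G A G / v²` of the TAP Hessian agrees with its deterministic value up to `O(1)` in `ℓ²`.
-/

open MeasureTheory Real Finset Filter
open scoped Matrix

namespace Vale.Agent.P150.Fast

/-- The mean of the variances. -/
noncomputable def vbar {n : ℕ} (v : Fin n → ℝ) : ℝ := (∑ i, v i) / n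

/-- The Onsager coefficient at coupling scale `s`. -/
noncomputable def tapR {n : ℕ} (β s : ℝ) (v : Fin n → ℝ) : ℝ := s ^ 2 * β ^ 2 * vbar v

/-- The TAP Hessian without its rank-one part. -/
noncomputable def tapH (n : ℕ) (β s : ℝ) (d : Dis n) (v : Fin n → ℝ) :
    Matrix (Fin n) (Fin n) ℝ :=
  Matrix.diagonal (fun i => 1 / v i) + tapR β s v • (1 : Matrix (Fin n) (Fin n) ℝ) - s • kmat n β d

/-- The deterministic value of `(G A G)ᵢᵢ / vᵢ²`. -/
noncomputable def llVal {n : ℕ} (β s : ℝ) (v : Fin n → ℝ) : ℝ :=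
  (shift β + 2 * s * β ^ 2 * vbar v) / (1 - s ^ 2 * β ^ 2 * vbar fun i => v i ^ 2)

/-- The local law. -/
def LocalLawStmt : Prop :=
  ∀ β η : ℝ, 0 ≤ β → β < 1 → 0 < η → ∃ C c : ℝ, 0 < C ∧ 0 < c ∧ ∀ᶠ n : ℕ in atTop,
    (disX n).real {d | ¬ ∀ s : ℝ, 0 ≤ s → s ≤ 1 → ∀ v : Fin n → ℝ, (∀ i, 0 < v i ∧ v i ≤ 1) →
      (∀ u, η * ∑ i, u i ^ 2 ≤ Ent.qform (tapH n β s d v) u) →
        ∑ i, (((tapH n β s d v)⁻¹ * aop n β d * (tapH n β s d v)⁻¹) i i / v i ^ 2 - llVal β s v) ^ 2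
          ≤ C} ≤ exp (-(c * n))

end Vale.Agent.P150.Fast
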