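import Vale.Agent.P150.Fast.Goe
import Vale.Agent.P150.Fast.LocalLawStmt

/-!
Resolvent of the TAP Hessian in the form that tolerates vanishing variances, for the local law
of P150: `P = (1 + X V)⁻¹`, `G = V P`, with `X = R - s K` and `V` the diagonal of variances.
-/

open MeasureTheory Real Finset Filter
open scoped Matrix Matrix.Norms.L2Operator

namespace Vale.Agent.P150.Fast.LL

variable {n : ℕ}

/-- The Euclidean norm of a coordinate vector. -/
noncomputable def nrm (u : Fin n → ℝ) : ℝ := √(∑ i, u i ^ 2)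

theorem nrm_eq (u : Fin n → ℝ) :
    nrm u = ‖(WithLp.toLp 2 u : EuclideanSpace ℝ (Fin n))‖ := by
  rw [nrm, EuclideanSpace.norm_eq]
  simp [sq_abs]

theorem nrm_nonneg (u : Fin n → ℝ) : 0 ≤ nrm u := sqrt_nonneg _

theorem nrm_sq (u : Fin n → ℝ) : nrm u ^ 2 = ∑ i, u i ^ 2 :=
  sq_sqrt (sum_nonneg fun i _ => sq_nonneg _)

theorem nrm_add (u w : Fin n → ℝ) : nrm (u + w) ≤ nrm u + nrm w := by
  simp only [nrm_eq, WithLp.toLp_add]; exact norm_add_le _ _

theorem nrm_neg (u : Fin n → ℝ) : nrm (-u) = nrm u := by simp [nrm]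

theorem dot_le (u w : Fin n → ℝ) : u ⬝ᵥ w ≤ nrm u * nrm w :=
  sum_mul_le_sqrt_mul_sqrt univ u w

theorem nrm_mulVec (M : Matrix (Fin n) (Fin n) ℝ) (u : Fin n → ℝ) :
    nrm (M *ᵥ u) ≤ ‖M‖ * nrm u := by
  simp only [nrm_eq]
  exact Matrix.l2_opNorm_mulVec M (WithLp.toLp 2 u)

theorem norm_le (M : Matrix (Fin n) (Fin n) ℝ) {C : ℝ} (hC : 0 ≤ C)
    (h : ∀ u, nrm (M *ᵥ u) ≤ C * nrm u) : ‖M‖ ≤ C := by
  rw [Matrix.cstar_norm_def]
  refine ContinuousLinearMap.opNorm_le_bound _ hC fun x => ?_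
  have := h x.ofLp
  rwa [nrm_eq, nrm_eq, ← Matrix.toEuclideanCLM_toLp (𝕜 := ℝ), WithLp.toLp_ofLp] at this

theorem norm_transpose (M : Matrix (Fin n) (Fin n) ℝ) : ‖M.transpose‖ = ‖M‖ := by
  rw [← Matrix.conjTranspose_eq_transpose_of_trivial, Matrix.l2_opNorm_conjTranspose]

theorem norm_one_le : ‖(1 : Matrix (Fin n) (Fin n) ℝ)‖ ≤ 1 :=
  norm_le _ zero_le_one fun u => by simp

theorem norm_diagonal_le {v : Fin n → ℝ} {r : ℝ} (hr : 0 ≤ r) (h : ∀ i, |v i| ≤ r) :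
    ‖(Matrix.diagonal v : Matrix (Fin n) (Fin n) ℝ)‖ ≤ r := by
  rw [Matrix.l2_opNorm_diagonal, pi_norm_le_iff_of_nonneg hr]
  exact h

theorem abs_entry_le (M : Matrix (Fin n) (Fin n) ℝ) (i j : Fin n) : |M i j| ≤ ‖M‖ := by
  have h := nrm_mulVec M (Pi.single j 1)
  have e : nrm (Pi.single j (1 : ℝ) : Fin n → ℝ) = 1 := by
    rw [nrm, sum_eq_single j (fun k _ hk => by simp [hk]) (by simp)]; simp
  rw [e, mul_one, Matrix.mulVec_single_one] at h
  refine le_trans ?_ h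
  rw [nrm, ← sqrt_sq_eq_abs]
  exact sqrt_le_sqrt (single_le_sum (f := fun k => M k j ^ 2) (fun k _ => sq_nonneg _) (mem_univ i))

/-- The Frobenius norm. -/
noncomputable def frob (M : Matrix (Fin n) (Fin n) ℝ) : ℝ := √(∑ i, ∑ j, M i j ^ 2)

theorem frob_nonneg (M : Matrix (Fin n) (Fin n) ℝ) : 0 ≤ frob M := sqrt_nonneg _

theorem frob_eq (M : Matrix (Fin n) (Fin n) ℝ) :
    frob M = ‖(WithLp.toLp 2 fun p : Fin n × Fin n => M p.1 p.2 :
      EuclideanSpace ℝ (Fin n × Fin n))‖ := by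
  rw [frob, EuclideanSpace.norm_eq, Fintype.sum_prod_type]
  simp [sq_abs]

theorem frob_add (M N : Matrix (Fin n) (Fin n) ℝ) : frob (M + N) ≤ frob M + frob N := by
  simp only [frob_eq]
  exact (le_of_eq (by rw [← WithLp.toLp_add]; rfl)).trans (norm_add_le _ _)

theorem frob_neg (M : Matrix (Fin n) (Fin n) ℝ) : frob (-M) = frob M := by simp [frob]

theorem frob_transpose (M : Matrix (Fin n) (Fin n) ℝ) : frob M.transpose = frob M := by
  rw [frob, frob, sum_comm]; rfl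

theorem frob_mul_left (A B : Matrix (Fin n) (Fin n) ℝ) : frob (A * B) ≤ ‖A‖ * frob B := by
  rw [frob, frob, ← sqrt_sq (norm_nonneg A), ← sqrt_mul (sq_nonneg _)]
  refine sqrt_le_sqrt ?_
  rw [sum_comm, sum_comm (f := fun i j => B i j ^ 2), mul_sum]
  refine sum_le_sum fun j _ => ?_
  have h := pow_le_pow_left₀ (nrm_nonneg _) (nrm_mulVec A fun i => B i j) 2
  rwa [mul_pow, nrm_sq, nrm_sq] at h

theorem frob_mul_right (A B : Matrix (Fin n) (Fin n) ℝ) : frob (A * B) ≤ frob A * ‖B‖ := by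
  have h := frob_mul_left B.transpose A.transpose
  rwa [← Matrix.transpose_mul, frob_transpose, frob_transpose, norm_transpose, mul_comm] at h

theorem frob_le_norm (M : Matrix (Fin n) (Fin n) ℝ) : frob M ^ 2 ≤ ‖M‖ ^ 2 * n := by
  have h := frob_mul_left M 1
  rw [mul_one] at h
  refine (pow_le_pow_left₀ (frob_nonneg _) h 2).trans_eq ?_
  rw [mul_pow]
  congr 1
  rw [frob, sq_sqrt (by positivity)]
  simp [Matrix.one_apply]

theorem diag_le_frob (M : Matrix (Fin n) (Fin n) ℝ) : nrm (fun i => M i i) ≤ frob M :=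
  sqrt_le_sqrt (sum_le_sum fun i _ =>
    single_le_sum (f := fun j => M i j ^ 2) (fun j _ => sq_nonneg _) (mem_univ i))

/-- The matrix `R - s K`. -/
noncomputable def xm (n : ℕ) (β s R : ℝ) (d : Dis n) : Matrix (Fin n) (Fin n) ℝ :=
  R • (1 : Matrix (Fin n) (Fin n) ℝ) - s • kmat n β d

/-- `P = (1 + X V)⁻¹`. -/
noncomputable def pm (n : ℕ) (β s R : ℝ) (d : Dis n) (v : Fin n → ℝ) :
    Matrix (Fin n) (Fin n) ℝ := (1 + xm n β s R d * Matrix.diagonal v)⁻¹

/-- `G = V P`. -/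
noncomputable def gm (n : ℕ) (β s R : ℝ) (d : Dis n) (v : Fin n → ℝ) :
    Matrix (Fin n) (Fin n) ℝ := Matrix.diagonal v * pm n β s R d v

/-- The diagonal of `P A Pᵀ`. -/
noncomputable def zv (n : ℕ) (β s R : ℝ) (d : Dis n) (v : Fin n → ℝ) : Fin n → ℝ := fun i =>
  (pm n β s R d v * aop n β d * (pm n β s R d v).transpose) i i

/-- A margin `η` for variances in `[0,1]`. -/
def Marg (n : ℕ) (β s R η : ℝ) (d : Dis n) (v : Fin n → ℝ) : Prop :=
  ∀ u : Fin n → ℝ, η * ∑ i, (v i * u i) ^ 2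
    ≤ ∑ i, v i * u i ^ 2 + Ent.qform (xm n β s R d) fun i => v i * u i

/-- The constant bounding `P`. -/
noncomputable def pB (Λ η : ℝ) : ℝ := 1 + (Λ + 2) / η

theorem kmat_transpose (β : ℝ) (d : Dis n) : (kmat n β d).transpose = kmat n β d :=
  Matrix.ext fun i j => kmat_symm β d j i

theorem xm_transpose (β s R : ℝ) (d : Dis n) : (xm n β s R d).transpose = xm n β s R d := by
  simp [xm, Matrix.transpose_sub, Matrix.transpose_smul, kmat_transpose]

theorem aop_transpose (β : ℝ) (d : Dis n) : (aop n β d).transpose = aop n β d := by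
  simp [aop, Matrix.transpose_add, Matrix.transpose_smul, kmat_transpose]

theorem dot_mulVec_eq (M : Matrix (Fin n) (Fin n) ℝ) (w : Fin n → ℝ) :
    w ⬝ᵥ (M *ᵥ w) = Ent.qform M w := by
  simp only [dotProduct, Matrix.mulVec, Ent.qform, mul_sum, mul_assoc]

theorem norm_kmat_le {β Λ : ℝ} (hΛ : 0 < Λ) {d : Dis n}
    (h : ∀ v, |Ent.qform (kmat n β d) v| ≤ Λ * ∑ i, v i ^ 2) : ‖kmat n β d‖ ≤ Λ := by
  refine norm_le _ hΛ.le fun u => ?_
  set K := kmat n β d
  set w := Λ⁻¹ • (K *ᵥ u) with hw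
  have e : Ent.qform K (u + w) - Ent.qform K (u - w) = 4 * ((K *ᵥ u) ⬝ᵥ w) := by
    have hs : u ⬝ᵥ (K *ᵥ w) = (K *ᵥ u) ⬝ᵥ w := by
      rw [Matrix.dotProduct_mulVec, ← Matrix.mulVec_transpose, kmat_transpose]
    simp only [← dot_mulVec_eq, Matrix.mulVec_add, Matrix.mulVec_sub, dotProduct_add, add_dotProduct,
      dotProduct_sub, sub_dotProduct, hs, dotProduct_comm w (K *ᵥ u)]
    ring
  have hsum : ∑ i, (u + w) i ^ 2 + ∑ i, (u - w) i ^ 2 = 2 * nrm u ^ 2 + 2 * nrm w ^ 2 := by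
    rw [nrm_sq, nrm_sq, mul_sum, mul_sum, ← sum_add_distrib, ← sum_add_distrib]
    exact sum_congr rfl fun i _ => by simp only [Pi.add_apply, Pi.sub_apply]; ring
  have hd : (K *ᵥ u) ⬝ᵥ w = Λ⁻¹ * nrm (K *ᵥ u) ^ 2 := by
    rw [hw, dotProduct_smul, smul_eq_mul, nrm_sq]; simp [dotProduct, pow_two]
  have hn : nrm w ^ 2 = Λ⁻¹ ^ 2 * nrm (K *ᵥ u) ^ 2 := by
    rw [nrm_sq, nrm_sq, mul_sum]; simp [hw, mul_pow]
  have h4 : 4 * (Λ⁻¹ * nrm (K *ᵥ u) ^ 2)
      ≤ Λ * (2 * nrm u ^ 2 + 2 * (Λ⁻¹ ^ 2 * nrm (K *ᵥ u) ^ 2)) := by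
    rw [← hd, ← e, ← hn, ← hsum, mul_add]
    linarith [(abs_le.1 (h (u + w))).2, (abs_le.1 (h (u - w))).1]
  have e2 : Λ * Λ⁻¹ ^ 2 = Λ⁻¹ := by field_simp
  have h5 : Λ⁻¹ * nrm (K *ᵥ u) ^ 2 ≤ Λ * nrm u ^ 2 := by
    linear_combination h4 / 2 + (nrm (K *ᵥ u) ^ 2) * e2
  rw [inv_mul_le_iff₀ hΛ] at h5
  exact (pow_le_pow_iff_left₀ (nrm_nonneg _) (mul_nonneg hΛ.le (nrm_nonneg _)) two_ne_zero).1
    (h5.trans_eq (by ring))

theorem norm_xm_le {β s R Λ : ℝ} {d : Dis n} (hK : ‖kmat n β d‖ ≤ Λ) (hs : 0 ≤ s) (hs1 : s ≤ 1)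
    (hR : |R| ≤ 2) : ‖xm n β s R d‖ ≤ Λ + 2 := by
  refine (norm_sub_le _ _).trans ?_
  rw [norm_smul, norm_smul, Real.norm_eq_abs, Real.norm_eq_abs, abs_of_nonneg hs]
  have h1 := mul_le_mul hR (norm_one_le (n := n)) (norm_nonneg _) zero_le_two
  have h2 := mul_le_mul hs1 hK (norm_nonneg _) zero_le_one
  linarith

theorem norm_aop_le {β Λ : ℝ} (hβ : 0 ≤ β) {d : Dis n} (hK : ‖kmat n β d‖ ≤ Λ) :
    ‖aop n β d‖ ≤ Λ + shift β := by
  have hsh : (0 : ℝ) ≤ shift β := by rw [shift]; linarith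
  refine (norm_add_le _ _).trans (add_le_add hK ?_)
  rw [norm_smul, Real.norm_eq_abs, abs_of_nonneg hsh]
  exact mul_le_of_le_one_right hsh norm_one_le

/-- Regular points: bounded coupling, admissible parameters, margin. -/
structure Reg (n : ℕ) (β s R η Λ : ℝ) (d : Dis n) (v : Fin n → ℝ) : Prop where
  hβ : 0 ≤ β
  hη : 0 < η
  hΛ : 0 ≤ Λ
  hs : 0 ≤ s
  hs1 : s ≤ 1
  hR : |R| ≤ 2
  hK : ‖kmat n β d‖ ≤ Λ
  hv : ∀ i, 0 ≤ v i ∧ v i ≤ 1
  hm : Marg n β s R η d v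

variable {β s R η Λ : ℝ} {d : Dis n} {v : Fin n → ℝ}

theorem Reg.pB_pos (h : Reg n β s R η Λ d v) : 1 ≤ pB Λ η :=
  le_add_of_nonneg_right (div_nonneg (by linarith [h.hΛ]) h.hη.le)

theorem Reg.below (h : Reg n β s R η Λ d v) (u : Fin n → ℝ) :
    nrm u ≤ pB Λ η * nrm ((1 + xm n β s R d * Matrix.diagonal v) *ᵥ u) := by
  set X := xm n β s R d
  set w : Fin n → ℝ := fun i => v i * u i with hw
  set y := (1 + X * Matrix.diagonal v) *ᵥ u
  have hy : y = u + X *ᵥ w := by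
    simp only [y, Matrix.add_mulVec, Matrix.one_mulVec, ← Matrix.mulVec_mulVec, hw]
    congr 2
    funext i
    simp [Matrix.mulVec_diagonal]
  have h1 : η * nrm w ^ 2 ≤ nrm w * nrm y := by
    refine le_trans ?_ (dot_le w y)
    rw [nrm_sq, hy, dotProduct_add, dot_mulVec_eq]
    refine (h.hm u).trans_eq ?_
    congr 1
    exact sum_congr rfl fun i _ => by simp only [hw]; ring
  have h2 : nrm w ≤ nrm y / η := by
    rcases (nrm_nonneg w).eq_or_lt with h0 | h0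
    · rw [← h0]; exact div_nonneg (nrm_nonneg _) h.hη.le
    · rw [le_div_iff₀ h.hη]
      exact le_of_mul_le_mul_left (by linarith [show η * nrm w ^ 2 = nrm w * (nrm w * η) by ring]) h0
  have h3 : nrm u ≤ nrm y + nrm (X *ᵥ w) := by
    have := nrm_add y (-(X *ᵥ w))
    rwa [nrm_neg, hy, add_neg_cancel_right, ← hy] at this
  have h4 := (nrm_mulVec X w).trans (mul_le_mul (norm_xm_le h.hK h.hs h.hs1 h.hR) h2 (nrm_nonneg _)
    (by linarith [h.hΛ]))
  refine (h3.trans (add_le_add le_rfl h4)).trans_eq ?_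
  rw [pB]; ring

theorem Reg.isUnit (h : Reg n β s R η Λ d v) :
    IsUnit (1 + xm n β s R d * Matrix.diagonal v).det := by
  rw [← Matrix.isUnit_iff_isUnit_det, ← Matrix.mulVec_injective_iff_isUnit]
  intro a b hab
  have h0 := h.below (a - b)
  rw [Matrix.mulVec_sub, sub_eq_zero.2 hab, show nrm (0 : Fin n → ℝ) = 0 by simp [nrm], mul_zero] at h0
  funext i
  have h1 := le_trans (single_le_sum (f := fun j => (a - b) j ^ 2) (fun j _ => sq_nonneg _)
    (mem_univ i)) (nrm_sq (a - b)).ge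
  rw [le_antisymm h0 (nrm_nonneg _)] at h1
  nlinarith [show (a - b) i = a i - b i from rfl]

theorem Reg.mul_pm (h : Reg n β s R η Λ d v) :
    (1 + xm n β s R d * Matrix.diagonal v) * pm n β s R d v = 1 :=
  Matrix.mul_nonsing_inv _ h.isUnit

theorem Reg.pm_mul (h : Reg n β s R η Λ d v) :
    pm n β s R d v * (1 + xm n β s R d * Matrix.diagonal v) = 1 :=
  Matrix.nonsing_inv_mul _ h.isUnit

theorem Reg.norm_pm (h : Reg n β s R η Λ d v) : ‖pm n β s R d v‖ ≤ pB Λ η := by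
  refine norm_le _ (zero_le_one.trans h.pB_pos) fun u => ?_
  have := h.below (pm n β s R d v *ᵥ u)
  rwa [Matrix.mulVec_mulVec, h.mul_pm, Matrix.one_mulVec] at this

theorem Reg.norm_v (h : Reg n β s R η Λ d v) :
    ‖(Matrix.diagonal v : Matrix (Fin n) (Fin n) ℝ)‖ ≤ 1 :=
  norm_diagonal_le zero_le_one fun i => abs_le.2 ⟨by linarith [(h.hv i).1], (h.hv i).2⟩

theorem Reg.norm_gm (h : Reg n β s R η Λ d v) : ‖gm n β s R d v‖ ≤ pB Λ η :=
  (norm_mul_le _ _).trans ((mul_le_mul h.norm_v h.norm_pm (norm_nonneg _) zero_le_one).trans_eq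
    (one_mul _))

theorem Reg.pm_eq (h : Reg n β s R η Λ d v) :
    pm n β s R d v = 1 - xm n β s R d * gm n β s R d v := by
  have := h.mul_pm
  rw [add_mul, one_mul, mul_assoc] at this
  exact eq_sub_of_add_eq this

theorem Reg.gm_symm (h : Reg n β s R η Λ d v) :
    (gm n β s R d v).transpose = gm n β s R d v := by
  set X := xm n β s R d
  set V := (Matrix.diagonal v : Matrix (Fin n) (Fin n) ℝ)
  set P := pm n β s R d v
  have hF : (1 + X * V).transpose * V = V * (1 + X * V) := by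
    simp [X, V, Matrix.transpose_add, Matrix.transpose_mul, xm_transpose, add_mul, mul_add, mul_assoc]
  have h1 : P.transpose * (1 + X * V).transpose = 1 := by
    rw [← Matrix.transpose_mul, h.mul_pm, Matrix.transpose_one]
  show (V * P).transpose = V * P
  rw [Matrix.transpose_mul, Matrix.diagonal_transpose]
  calc P.transpose * V = P.transpose * V * ((1 + X * V) * P) := by rw [h.mul_pm, mul_one]
    _ = P.transpose * ((1 + X * V).transpose * V) * P := by rw [hF]; simp only [mul_assoc]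
    _ = V * P := by rw [← mul_assoc P.transpose, h1, one_mul]

/-- Lowering the variances keeps the margin. -/
theorem marg_mono {v' : Fin n → ℝ} (h0 : ∀ i, 0 ≤ v' i) (hle : ∀ i, v' i ≤ v i)
    (h : Marg n β s R η d v) : Marg n β s R η d v' := by
  intro u
  set z : Fin n → ℝ := fun i => v' i * u i / v i
  have e : ∀ i, v i * z i = v' i * u i := fun i => by
    rcases eq_or_ne (v i) 0 with h1 | h1
    · simp [z, h1, le_antisymm (h1 ▸ hle i) (h0 i)]
    · simp only [z]; field_simp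
  have hz : ∀ i, v i * z i ^ 2 ≤ v' i * u i ^ 2 := fun i => by
    rcases eq_or_ne (v i) 0 with h1 | h1
    · simp [z, h1, le_antisymm (h1 ▸ hle i) (h0 i)]
    · have hpos : 0 < v i := lt_of_le_of_ne ((h0 i).trans (hle i)) (Ne.symm h1)
      simp only [z, div_pow, mul_div_assoc']
      rw [div_le_iff₀ (by positivity)]
      nlinarith [mul_le_mul_of_nonneg_left (hle i) (show 0 ≤ v' i * v i * u i ^ 2 by
        have := h0 i; positivity)]
  have hh := h z
  simp only [e] at hh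
  exact hh.trans (add_le_add (sum_le_sum fun i _ => hz i) le_rfl)

theorem Reg.lower (h : Reg n β s R η Λ d v) {v' : Fin n → ℝ} (h0 : ∀ i, 0 ≤ v' i)
    (hle : ∀ i, v' i ≤ v i) : Reg n β s R η Λ d v' :=
  ⟨h.hβ, h.hη, h.hΛ, h.hs, h.hs1, h.hR, h.hK, fun i => ⟨h0 i, (hle i).trans (h.hv i).2⟩,
    marg_mono h0 hle h.hm⟩

end Vale.Agent.P150.Fast.LL
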