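import Vale.Agent.P150.Fast.GoeStmt
import Vale.Agent.P150.Model
import Vale.Agent.P150.Conc

/-!
The partition function is exponentially close to its mean below the transition, for P150.
-/

open MeasureTheory ProbabilityTheory Real Finset Filter

namespace Vale.Agent.P150.Fast

theorem log_sum_eq (n : ℕ) (β : ℝ) (g : Pair n → ℝ) :
    log (∑ x, exp (energy n β g x)) = lse (hv n (β / √n)) g := by
  simp only [lse, energy_eq]

theorem scale_sq (n : ℕ) (β : ℝ) : (β / √n) ^ 2 = β ^ 2 / n := by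
  rw [div_pow, sq_sqrt (Nat.cast_nonneg n)]

theorem norm_hv (n : ℕ) (c : ℝ) (x : Conf n) :
    ∑ p, hv n c x p ^ 2 = c ^ 2 * (((n : ℝ) ^ 2 - n) / 2) := by
  have h := cov_hv c x x
  rw [ov_self] at h
  simpa only [← pow_two] using h

theorem mean_Z (n : ℕ) (c : ℝ) :
    Integrable (fun g => ∑ x, exp (lin (hv n c x) g)) (gp (Pair n)) ∧
    ∫ g, ∑ x, exp (lin (hv n c x) g) ∂gp (Pair n)
      = exp (n * log 2 + c ^ 2 * (((n : ℝ) ^ 2 - n) / 4)) := by
  have hi := fun x : Conf n => mgf_lin (hv n c x)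
  refine ⟨integrable_finsetSum _ fun x _ => (hi x).1, ?_⟩
  rw [integral_finsetSum _ fun x _ => (hi x).1]
  simp only [(hi _).2, norm_hv, sum_const, nsmul_eq_mul, card_univ, Fintype.card_fun, Fintype.card_bool,
    Fintype.card_fin, Nat.cast_pow, Nat.cast_ofNat]
  rw [exp_add, exp_nat_mul, exp_log two_pos]
  ring_nf

theorem mean_exp_annLogZ (n : ℕ) (β : ℝ) (hn : 1 ≤ n) :
    n * log 2 + (β / √n) ^ 2 * (((n : ℝ) ^ 2 - n) / 4) = annLogZ n β := by
  rw [scale_sq n β, annLogZ]
  have : (n : ℝ) ≠ 0 := by exact_mod_cast (show n ≠ 0 by omega)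
  field_simp

theorem zUpper : ZUpper := by
  intro n β ε
  rcases Nat.eq_zero_or_pos n with h | h
  · subst h
    have : IsProbabilityMeasure (disorder 0) := gp_prob _
    simp [measureReal_le_one]
  set c := β / √(n : ℝ)
  obtain ⟨hi, he⟩ := mean_Z n c
  set Z := fun g : Pair n → ℝ => ∑ x, exp (lin (hv n c x) g) with hZ
  have hpos : ∀ g, 0 < Z g := fun g => lse_den_pos _ g
  have hmk := mul_meas_ge_le_integral_of_nonneg (μ := gp (Pair n))
    (ae_of_all _ fun g => (hpos g).le) hi (exp (annLogZ n β + ε * n))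
  rw [he, mean_exp_annLogZ n β h] at hmk
  refine le_trans (le_of_eq_of_le rfl ?_) ((le_div_iff₀' (exp_pos _)).2 hmk |>.trans_eq ?_)
  · refine measureReal_mono (fun g hg => ?_) (measure_ne_top (gp (Pair n)) _)
    simp only [Set.mem_ofPred_eq, log_sum_eq] at hg ⊢
    have h2 := exp_le_exp.2 hg
    rwa [lse, exp_log (hpos g)] at h2
  · rw [← exp_sub]
    ring_nf

theorem gauss_sq_mgf {a : ℝ} (ha : a < 1 / 2) :
    Integrable (fun x : ℝ => exp (a * x ^ 2)) (gaussianReal 0 1) := by
  rw [gaussianReal_of_var_ne_zero 0 one_ne_zero]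
  rw [integrable_withDensity_iff (measurable_gaussianPDF 0 1) (ae_of_all _ fun x => gaussianPDF_lt_top)]
  have h := (integrable_exp_neg_mul_sq (b := 1 / 2 - a) (by linarith)).const_mul (√(2 * π))⁻¹
  refine h.congr (ae_of_all _ fun x => ?_)
  simp only [toReal_gaussianPDF, gaussianPDFReal, NNReal.coe_one, mul_one, sub_zero]
  rw [mul_comm (exp (a * x ^ 2)), mul_assoc, ← exp_add]
  ring_nf

theorem overlap_sum {β : ℝ} (hβ : 0 ≤ β) (hβ1 : β < 1) (n : ℕ) (hn : 1 ≤ n) (x : Conf n) :
    ∑ y, exp (β ^ 2 * ov x y ^ 2 / (2 * n))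
      ≤ 2 ^ n * ∫ g, exp (β ^ 2 / 2 * g ^ 2) ∂gaussianReal 0 1 := by
  have hnn : (0 : ℝ) < n := by exact_mod_cast hn
  have hmgf : ∀ s : ℝ, exp (s ^ 2 / 2) = ∫ g, exp (s * g) ∂gaussianReal 0 1 := fun s => by
    have := congrFun (mgf_id_gaussianReal (μ := 0) (v := 1)) s
    simpa [mgf] using this.symm
  have e : ∀ y, exp (β ^ 2 * ov x y ^ 2 / (2 * n))
      = ∫ g, exp (β / √n * ov x y * g) ∂gaussianReal 0 1 := fun y => by
    rw [← hmgf, mul_pow, scale_sq n β]
    congr 1
    field_simp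
  simp only [e]
  rw [← integral_finsetSum _ fun y _ => integrable_exp_mul_gaussianReal _, ← integral_const_mul]
  refine integral_mono (integrable_finsetSum _ fun y _ => integrable_exp_mul_gaussianReal _)
    ((gauss_sq_mgf (by nlinarith)).const_mul _) fun g => ?_
  have h : ∀ y, exp (β / √n * ov x y * g)
      = ∏ i, exp (β / √n * g * (spin (x i) * spin (y i))) := fun y => by
    rw [← exp_sum, ov, mul_sum, sum_mul]
    exact congrArg exp (sum_congr rfl fun i _ => by ring)
  simp only [h]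
  rw [← Fintype.prod_sum fun i b => exp (β / √n * g * (spin (x i) * spin b))]
  have hb : ∀ i, ∑ b, exp (β / √n * g * (spin (x i) * spin b))
      ≤ 2 * exp ((β / √n * g) ^ 2 / 2) := fun i => by
    have : ∑ b, exp (β / √n * g * (spin (x i) * spin b)) = 2 * cosh (β / √n * g) := by
      rw [Fintype.sum_bool, cosh_eq]
      rcases Bool.eq_false_or_eq_true (x i) with h | h <;> simp [spin, h] <;> ring
    rw [this]
    exact mul_le_mul_of_nonneg_left (cosh_le_exp_half_sq _) zero_le_two
  refine (Finset.prod_le_prod (fun i _ => sum_nonneg fun b _ => (exp_pos _).le) fun i _ => hb i).trans_eq ?_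
  rw [prod_const, card_univ, Fintype.card_fin, mul_pow, ← exp_nat_mul, mul_pow, scale_sq n β]
  congr 2
  field_simp

theorem second_moment {β : ℝ} (hβ : 0 ≤ β) (hβ1 : β < 1) (n : ℕ) (hn : 1 ≤ n) :
    Integrable (fun g => (∑ x, exp (lin (hv n (β / √n) x) g)) ^ 2) (gp (Pair n)) ∧
    ∫ g, (∑ x, exp (lin (hv n (β / √n) x) g)) ^ 2 ∂gp (Pair n)
      ≤ (∫ g, exp (β ^ 2 / 2 * g ^ 2) ∂gaussianReal 0 1) * exp (annLogZ n β) ^ 2 := by
  set c := β / √(n : ℝ)
  have hnn : (0 : ℝ) < n := by exact_mod_cast hn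
  have e : ∀ g, (∑ x, exp (lin (hv n c x) g)) ^ 2 = ∑ x, ∑ y, exp (lin (hv n c x + hv n c y) g) :=
    fun g => by
    rw [pow_two, sum_mul_sum]
    refine sum_congr rfl fun x _ => sum_congr rfl fun y _ => ?_
    rw [← exp_add]
    simp [lin, mul_add, sum_add_distrib]
  have hi := fun x y : Conf n => mgf_lin (hv n c x + hv n c y)
  simp only [e]
  refine ⟨integrable_finsetSum _ fun x _ => integrable_finsetSum _ fun y _ => (hi x y).1, ?_⟩
  rw [integral_finsetSum _ fun x _ => integrable_finsetSum _ fun y _ => (hi x y).1]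
  simp only [integral_finsetSum _ fun y _ => (hi _ y).1, (hi _ _).2]
  set G := ∫ g, exp (β ^ 2 / 2 * g ^ 2) ∂gaussianReal 0 1
  set q := c ^ 2 * (((n : ℝ) ^ 2 - n) / 2)
  have hxy : ∀ x y, exp ((∑ p, (hv n c x + hv n c y) p ^ 2) / 2)
      ≤ exp q * exp (β ^ 2 * ov x y ^ 2 / (2 * n)) := fun x y => by
    have h2 : ∑ p, (hv n c x + hv n c y) p ^ 2
        = ∑ p, hv n c x p ^ 2 + ∑ p, hv n c y p ^ 2 + 2 * ∑ p, hv n c x p * hv n c y p := by
      rw [mul_sum, ← sum_add_distrib, ← sum_add_distrib]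
      exact sum_congr rfl fun p _ => by simp only [Pi.add_apply]; ring
    have e : ∀ o : ℝ, c ^ 2 * ((o ^ 2 - n) / 2) = β ^ 2 * o ^ 2 / (2 * n) - β ^ 2 / 2 := fun o => by
      rw [scale_sq n β]; field_simp
    simp only [q]
    rw [h2, norm_hv, norm_hv, cov_hv, ← exp_add, exp_le_exp, e, e]
    have := sq_nonneg β
    linarith
  refine (sum_le_sum fun x _ => (sum_le_sum fun y _ => hxy x y).trans
    (le_of_eq_of_le (mul_sum _ _ _).symm
      (mul_le_mul_of_nonneg_left (overlap_sum hβ hβ1 n hn x) (exp_pos _).le))).trans_eq ?_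
  rw [sum_const, nsmul_eq_mul, card_univ, Fintype.card_fun, Fintype.card_bool, Fintype.card_fin,
    ← mean_exp_annLogZ n β hn, exp_add, exp_nat_mul, exp_log two_pos]
  have h4 : exp q = exp (c ^ 2 * (((n : ℝ) ^ 2 - n) / 4)) ^ 2 := by
    rw [← exp_nat_mul]
    congr 1
    simp only [q]; push_cast; ring
  rw [h4]
  push_cast
  ring

theorem zLower : ZLower := by
  intro β hβ hβ1 ε δ hε hδ
  set C := ∫ g, exp (β ^ 2 / 2 * g ^ 2) ∂gaussianReal 0 1 with hC
  have hC0 : 0 < C := by
    have h : ∫ _ : ℝ, (1 : ℝ) ∂gaussianReal 0 1 ≤ C :=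
      integral_mono (integrable_const _) (gauss_sq_mgf (by nlinarith)) fun g =>
        one_le_exp (by positivity)
    simp at h
    linarith
  set p := min (1 / (8 * C)) δ with hp
  have hp0 : 0 < p := by positivity
  obtain ⟨N, hN⟩ := exists_nat_ge (max ((3 * (1 + β ^ 2) / (ε * p)) ^ 2) (3 * log 2 / ε))
  filter_upwards [eventually_ge_atTop (N + 1)] with n hn
  have hn1 : 1 ≤ n := by omega
  have hnn : (0 : ℝ) < n := by exact_mod_cast hn1
  have hNn : (N : ℝ) ≤ n := by exact_mod_cast (show N ≤ n by omega)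
  have hA : (3 * (1 + β ^ 2) / (ε * p)) ^ 2 ≤ n := ((le_max_left _ _).trans hN).trans hNn
  have hB : 3 * log 2 / ε ≤ n := ((le_max_right _ _).trans hN).trans hNn
  set c := β / √(n : ℝ)
  obtain ⟨hi, hmean⟩ := mean_Z n c
  rw [mean_exp_annLogZ n β hn1] at hmean
  obtain ⟨hi2, hsec⟩ := second_moment hβ hβ1 n hn1
  rw [← hC] at hsec
  set Z := fun g : Pair n → ℝ => ∑ x, exp (lin (hv n c x) g) with hZ
  set m := exp (annLogZ n β) with hm
  have hm0 : 0 < m := exp_pos _
  set A : Set (Pair n → ℝ) := {g | m / 2 ≤ Z g} with hAdef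
  have hAm : MeasurableSet A := measurableSet_le measurable_const
    (Continuous.measurable (by fun_prop))
  have hPZ : 1 / (4 * C) ≤ (gp (Pair n)).real A := by
    set l := 1 / (2 * C * m) with hl
    have hl0 : 0 < l := by positivity
    have hI : Integrable (fun g => m / 2 + (l * Z g ^ 2 / 2 + A.indicator (fun _ => 1 / (2 * l)) g))
        (gp (Pair n)) :=
      (integrable_const _).add (((hi2.const_mul l).div_const 2).add
        ((integrable_const _).indicator hAm))
    have hpt : ∀ g, Z g ≤ m / 2 + (l * Z g ^ 2 / 2 + A.indicator (fun _ => 1 / (2 * l)) g) :=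
      fun g => by
      have h0 : 0 ≤ Z g := (lse_den_pos _ g).le
      by_cases hg : g ∈ A
      · rw [Set.indicator_of_mem hg]
        have e : l * Z g ^ 2 / 2 + 1 / (2 * l) - Z g = (l * Z g - 1) ^ 2 / (2 * l) := by
          field_simp; ring
        have : 0 ≤ (l * Z g - 1) ^ 2 / (2 * l) := by positivity
        linarith
      · rw [Set.indicator_of_notMem hg]
        simp only [hAdef, Set.mem_ofPred_eq, not_le] at hg
        linarith [mul_nonneg hl0.le (sq_nonneg (Z g))]
    have h := integral_mono hi hI hpt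
    have hI2 : Integrable (A.indicator fun _ => 1 / (2 * l)) (gp (Pair n)) :=
      (integrable_const _).indicator hAm
    rw [hmean, integral_add (integrable_const _)
      (((hi2.const_mul l).div_const 2).fun_add hI2),
      integral_add ((hi2.const_mul l).div_const 2) hI2, integral_indicator hAm, setIntegral_const] at h
    simp only [integral_div, integral_const_mul, integral_const, probReal_univ, smul_eq_mul] at h
    have h3 : l * ∫ g, Z g ^ 2 ∂gp (Pair n) ≤ m / 2 := by
      refine (mul_le_mul_of_nonneg_left hsec hl0.le).trans_eq ?_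
      simp only [hl]; field_simp
    have e : 1 / (2 * l) = C * m := by simp only [hl]; field_simp
    rw [e] at h
    rw [div_le_iff₀ (by positivity)]
    refine le_of_mul_le_mul_right (a := m) ?_ hm0
    linarith
  have hb : ∀ x q, |hv n c x q| ≤ |c| := fun x q => by
    simp [hv, abs_mul, abs_spin]
  obtain ⟨hD, hdev⟩ := lse_dev (hv n c) (fun _ => |c|) (fun _ => abs_nonneg c) hb
    (sqrt_pos.2 hnn)
  set D := fun g => |lse (hv n c) g - EL (hv n c)| with hDdef
  have hdev2 : ∫ g, D g ∂gp (Pair n) ≤ (1 + β ^ 2) * √n := by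
    refine hdev.trans ?_
    have hcard : (Fintype.card (Pair n) : ℝ) ≤ (n : ℝ) ^ 2 := by
      have h : Fintype.card (Pair n) ≤ Fintype.card (Fin n × Fin n) := Fintype.card_subtype_le _
      simp only [Fintype.card_prod, Fintype.card_fin] at h
      rw [pow_two]
      exact_mod_cast h
    rw [sum_const, card_univ, nsmul_eq_mul, sq_abs, scale_sq n β]
    have e : (n : ℝ) ^ 2 * (β ^ 2 / n) / (4 * √n) = β ^ 2 / 4 * √n := by
      rw [show (n : ℝ) ^ 2 * (β ^ 2 / n) = n * β ^ 2 by field_simp,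
        show (n : ℝ) * β ^ 2 / (4 * √n) = β ^ 2 / 4 * (n / √n) by ring, div_sqrt]
    have := div_le_div_of_nonneg_right (mul_le_mul_of_nonneg_right hcard
      (show 0 ≤ β ^ 2 / (n : ℝ) by positivity)) (show 0 ≤ 4 * √(n : ℝ) by positivity)
    rw [e] at this
    linarith [mul_nonneg (sq_nonneg β) (sqrt_nonneg (n : ℝ))]
  set B : Set (Pair n → ℝ) := {g | ε * n / 3 ≤ D g} with hBdef
  have hBp : (gp (Pair n)).real B ≤ p := by
    have h := mul_meas_ge_le_integral_of_nonneg (μ := gp (Pair n))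
      (ae_of_all _ fun g => abs_nonneg _) hD (ε * n / 3)
    refine le_of_mul_le_mul_left (a := ε * n / 3) ((h.trans hdev2).trans ?_) (by positivity)
    have hs := (le_sqrt (by positivity) hnn.le).2 hA
    rw [div_le_iff₀ (by positivity)] at hs
    have h2 := mul_le_mul_of_nonneg_right hs (sqrt_nonneg (n : ℝ))
    rw [show √(n : ℝ) * (ε * p) * √n = √n * √n * (ε * p) by ring, mul_self_sqrt hnn.le] at h2
    linarith
  have hlog : log 2 ≤ ε * n / 3 := by rw [div_le_iff₀ hε] at hB; linarith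
  obtain ⟨g₀, hg₀A, hg₀B⟩ : ∃ g, g ∈ A ∧ g ∉ B := by
    by_contra! hall
    have := (hPZ.trans (measureReal_mono hall (measure_ne_top _ _))).trans (hBp.trans (min_le_left _ _))
    rw [div_le_div_iff₀ (by positivity) (by positivity)] at this
    linarith
  have hEL : annLogZ n β - log 2 - ε * n / 3 < EL (hv n c) := by
    simp only [hBdef, Set.mem_ofPred_eq, not_le, hDdef] at hg₀B
    have h1 : log (m / 2) ≤ lse (hv n c) g₀ := log_le_log (by positivity) hg₀A
    rw [log_div hm0.ne' two_ne_zero, hm, log_exp] at h1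
    linarith [(abs_lt.1 hg₀B).2]
  refine (measureReal_mono (fun g hg => ?_) (measure_ne_top (gp (Pair n)) _)).trans
    (hBp.trans (min_le_right _ _))
  simp only [Set.mem_ofPred_eq, log_sum_eq] at hg
  simp only [hBdef, Set.mem_ofPred_eq, hDdef]
  exact le_trans (by linarith) (neg_le_abs _)

end Vale.Agent.P150.Fast
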