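import Vale.Agent.P150.Fast.GoeStmt
import Vale.Agent.P150.Edge.Spectral

/-!
Algebra of the Gaussian orthogonal ensemble with the normalisation of `kmat`, for P150.
-/

open MeasureTheory Real Finset Filter
open scoped Matrix

namespace Vale.Agent.P150.Fast

variable {n : ℕ}

/-- The unscaled matrix: standard Gaussian off the diagonal, variance two on it. -/
noncomputable def goe (n : ℕ) (d : Dis n) : Matrix (Fin n) (Fin n) ℝ := fun i j =>
  if h : i < j then d (Sum.inl ⟨(i, j), h⟩)
    else if h' : j < i then d (Sum.inl ⟨(j, i), h'⟩) else √2 * d (Sum.inr i)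

theorem kmat_apply (β : ℝ) (d : Dis n) (i j : Fin n) :
    kmat n β d i j = β / √n * goe n d i j := rfl

theorem kmat_eq (β : ℝ) (d : Dis n) : kmat n β d = (β / √n) • goe n d := rfl

theorem goe_pair (d : Dis n) (p : Pair n) : goe n d p.1.1 p.1.2 = d (Sum.inl p) := by
  simp only [goe, dif_pos p.2]

theorem goe_diag (d : Dis n) (i : Fin n) : goe n d i i = √2 * d (Sum.inr i) := by simp [goe]

theorem goe_symm (d : Dis n) (i j : Fin n) : goe n d i j = goe n d j i := by
  rcases lt_trichotomy i j with h | h | h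
  · simp [goe, h, h.not_gt]
  · subst h; rfl
  · simp [goe, h, h.not_gt]

theorem kmat_symm (β : ℝ) (d : Dis n) (i j : Fin n) : kmat n β d i j = kmat n β d j i := by
  rw [kmat_apply, kmat_apply, goe_symm]

theorem kmat_isSymm (β : ℝ) (d : Dis n) : (kmat n β d).IsSymm :=
  Matrix.IsSymm.ext fun i j => kmat_symm β d j i

theorem qform_kmat_eq (β : ℝ) (d : Dis n) (v : Fin n → ℝ) :
    Ent.qform (kmat n β d) v = β / √n * Ent.qform (goe n d) v := by
  simp only [Ent.qform, kmat_apply, mul_sum]
  exact sum_congr rfl fun i _ => sum_congr rfl fun j _ => by ring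

/-- Coefficients of the quadratic form. -/
noncomputable def coef (a : Fin n → ℝ) : Pair n ⊕ Fin n → ℝ :=
  Sum.elim (fun p => 2 * (a p.1.1 * a p.1.2)) fun i => √2 * a i ^ 2

theorem qform_goe (d : Dis n) (v : Fin n → ℝ) : Ent.qform (goe n d) v = lin (coef v) d := by
  simp only [Ent.qform]
  rw [Edge.sum_sum_eq, lin, Fintype.sum_sum_type]
  congr 1
  · refine sum_congr rfl fun p _ => ?_
    rw [goe_symm d p.1.2 p.1.1, goe_pair]
    simp only [coef, Sum.elim_inl]; ring
  · refine sum_congr rfl fun i _ => ?_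
    rw [goe_diag]
    simp only [coef, Sum.elim_inr]; ring

theorem coef_inner (a c : Fin n → ℝ) :
    ∑ j, coef a j * coef c j = 2 * (∑ i, a i * c i) ^ 2 := by
  have h := Edge.sum_sum_eq n fun i j => (a i * c i) * (a j * c j)
  rw [← sum_mul_sum, ← pow_two] at h
  rw [h, Fintype.sum_sum_type, mul_add, mul_sum, mul_sum]
  congr 1
  · exact sum_congr rfl fun p _ => by simp only [coef, Sum.elim_inl]; ring
  · refine sum_congr rfl fun i _ => ?_
    simp only [coef, Sum.elim_inr]
    linear_combination (a i ^ 2 * c i ^ 2) * mul_self_sqrt (zero_le_two (α := ℝ))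

theorem coef_norm (a : Fin n → ℝ) : ∑ j, coef a j ^ 2 = 2 * (∑ i, a i ^ 2) ^ 2 := by
  have h := coef_inner a a
  simpa only [← pow_two] using h

theorem coef_incr {a c : Fin n → ℝ} (ha : ∑ i, a i ^ 2 = 1) (hc : ∑ i, c i ^ 2 = 1) :
    ∑ j, (coef a j - coef c j) ^ 2 ≤ ∑ i, (2 * a i - 2 * c i) ^ 2 := by
  have e : ∑ j, (coef a j - coef c j) ^ 2
      = ∑ j, coef a j ^ 2 + ∑ j, coef c j ^ 2 - 2 * ∑ j, coef a j * coef c j := by
    rw [mul_sum, ← sum_add_distrib, ← sum_sub_distrib]
    exact sum_congr rfl fun j _ => by ring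
  have e' : ∑ i, (2 * a i - 2 * c i) ^ 2 = 8 - 8 * ∑ i, a i * c i := by
    have : ∀ i, (2 * a i - 2 * c i) ^ 2 = 4 * a i ^ 2 + 4 * c i ^ 2 - 8 * (a i * c i) :=
      fun i => by ring
    simp only [this, sum_add_distrib, sum_sub_distrib, ← mul_sum, ha, hc]
    ring
  rw [e, e', coef_norm, coef_norm, coef_inner, ha, hc]
  nlinarith [sq_nonneg (1 - ∑ i, a i * c i)]

instance disX_isProb (n : ℕ) : IsProbabilityMeasure (disX n) := by unfold disX; infer_instance

theorem mp_offd (n : ℕ) : MeasurePreserving (offd (n := n)) (disX n) (disorder n) :=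
  mp_fst (ι := Pair n) (κ := Fin n)

/-- The diagonal only shifts the energy by a constant. -/
theorem qform_kmat_vec (β : ℝ) (d : Dis n) (x : Conf n) :
    Ent.qform (kmat n β d) (vec x)
      = 2 * energy n β (offd d) x + β / √n * √2 * ∑ i, d (Sum.inr i) := by
  rw [qform_kmat_eq, qform_goe, lin, Fintype.sum_sum_type, mul_add, energy, mul_left_comm 2,
    mul_assoc (β / √n) √2]
  congr 2
  · rw [mul_sum]
    exact sum_congr rfl fun p _ => by simp only [coef, Sum.elim_inl, offd, vec]; ring
  · rw [mul_sum]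
    refine sum_congr rfl fun i _ => ?_
    simp only [coef, Sum.elim_inr, vec, pow_two, spin_sq, mul_one]
    ring

theorem qform_smul (K : Matrix (Fin n) (Fin n) ℝ) (r : ℝ) (v : Fin n → ℝ) :
    Ent.qform K (fun i => r * v i) = r ^ 2 * Ent.qform K v := by
  simp only [Ent.qform, mul_sum]
  exact sum_congr rfl fun i _ => sum_congr rfl fun j _ => by ring

end Vale.Agent.P150.Fast
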