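import Vale.Agent.P150.Fast.ChainStmt

/-!
The observables of a path and the per-site model of P150: the side field, the noise vectors of the
channel, the columns (states and noises, in order of appearance), and the causal Gaussian model of
one site. The side field is independent of the disorder given the configuration.
-/

open MeasureTheory Real Finset
open scoped Matrix

namespace Vale.Agent.P150.Fast

variable {n r : ℕ}

/-- The density of the noise: the normal law with covariance `A⁻¹`. -/
noncomputable def noiseDens (A : Matrix (Fin n) (Fin n) ℝ) (e : Fin n → ℝ) : ℝ :=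
  √A.det * exp (-(e ⬝ᵥ (A *ᵥ e)) / 2) / √((2 * π) ^ n)

/-- The side field of strength `u` seen from a state: an isotropic Gaussian channel. -/
noncomputable def sideField (u : ℝ) (x : Conf n) (g : Fin n → ℝ) : Fin n → ℝ := u • vec x + √u • g

/-- The prior after observing the field. -/
noncomputable def priorAt (A : Matrix (Fin n) (Fin n) ℝ) (s : ℝ) (ν : Conf n → ℝ) (h : Fin n → ℝ)
    (x : Conf n) : ℝ :=
  ν x * exp (lin h (vec x) - s / 2 * (vec x ⬝ᵥ (A *ᵥ vec x)))
    / ∑ z, ν z * exp (lin h (vec z) - s / 2 * (vec z ⬝ᵥ (A *ᵥ vec z)))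

/-- The steps of a path at scale `s` with field `h` and pins `S`. -/
def stepsOf (A : Matrix (Fin n) (Fin n) ℝ) (s : ℝ) (h : Fin n → ℝ) (S : Finset (Fin n)) :
    Fin r → Step n := fun _ => ⟨(1 - s) • A, h, S⟩

/-- A path: the start, the noise of the side field, then fields and states. -/
abbrev Traj (n r : ℕ) : Type := Conf n × (Fin n → ℝ) × (Fin r → (Fin n → ℝ) × Conf n)

/-- The state after `b` steps. -/
def stateAt (P : Traj n r) : Fin (r + 1) → Conf n := Fin.cons P.1 fun t => (P.2.2 t).2

/-- The noises: the one of the side field, then one for each step. -/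
noncomputable def noiseAt (A : Matrix (Fin n) (Fin n) ℝ) (P : Traj n r) :
    Fin (r + 1) → Fin n → ℝ :=
  Fin.cons P.2.1 fun t => A⁻¹ *ᵥ (P.2.2 t).1 - vec (stateAt P t.castSucc)

/-- Expectation along the path of a prior seen through a side field of strength `u`, with pins `S`. -/
noncomputable def trajE (A : Matrix (Fin n) (Fin n) ℝ) (u : ℝ) (ν : Conf n → ℝ) (S : Finset (Fin n))
    (F : Traj n r → ℝ) : ℝ :=
  ∑ x, ν x * ∫ g, pathE (pR (priorAt A 0 ν (sideField u x g)))
    (stepsOf A 0 (sideField u x g) S) x (fun ω => F (x, g, ω)) ∂gp (Fin n)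

/-- The total single-site entropy of a path. -/
noncomputable def trajD (A : Matrix (Fin n) (Fin n) ℝ) (u : ℝ) (ν : Conf n → ℝ) (S : Finset (Fin n))
    (r : ℕ) : ℝ :=
  r * ∑ x, ν x * ∫ g, freeD (priorAt A 0 ν (sideField u x g)) ⟨A, sideField u x g, S⟩ ∂gp (Fin n)

/-- The number of columns of a path. -/
def ncol (r : ℕ) : ℕ := 2 * r + 2

/-- The data of one site: spins, noises, innovations. -/
abbrev Site (r : ℕ) : Type := (Fin (r + 1) → Bool) × (Fin (r + 1) → ℝ) × (Fin (ncol r) → ℝ)

/-- The position of the state after `b` steps among the columns. -/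
def xcol (b : Fin (r + 1)) : Fin (ncol r) := ⟨2 * b.1 + 1, by have := b.2; unfold ncol; omega⟩

/-- The position of the noise `b` among the columns. -/
def ecol (b : Fin (r + 1)) : Fin (ncol r) := ⟨2 * b.1, by have := b.2; unfold ncol; omega⟩

/-- The value of a column at a site, from its spins and noises. -/
def colOf (x : Fin (r + 1) → ℝ) (e : Fin (r + 1) → ℝ) (k : Fin (ncol r)) : ℝ :=
  if k.1 % 2 = 0 then e ⟨k.1 / 2, by have := k.2; unfold ncol at this; omega⟩
  else x ⟨k.1 / 2, by have := k.2; unfold ncol at this; omega⟩

/-- The coefficients of the model: `R` gives orthonormal combinations of the columns, `G` the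
known part of the images of these combinations, `al` the columns in terms of the combinations. -/
structure Coef (M : ℕ) where
  /-- Combinations of columns. -/
  R : Fin M → Fin M → ℝ
  /-- Known part of the images. -/
  G : Fin M → Fin M → ℝ
  /-- The columns in the combinations. -/
  al : Fin M → Fin M → ℝ

/-- The image of column `k` at a site. -/
noncomputable def zSite (θ : Coef (ncol r)) (d : Site r) (k : Fin (ncol r)) : ℝ :=
  ∑ l, θ.al k l * (d.2.2 l
    + ∑ c, θ.G l c * ∑ j, θ.R c j * colOf (fun b => spin (d.1 b)) d.2.1 j)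

/-- The coupling field of column `k` at a site, with the shift `κ`. -/
noncomputable def aSite (κ : ℝ) (θ : Coef (ncol r)) (d : Site r) (k : Fin (ncol r)) : ℝ :=
  κ * colOf (fun b => spin (d.1 b)) d.2.1 k + zSite θ d k

/-- The side field of the model at a site. -/
noncomputable def hSite (u : ℝ) (d : Site r) : ℝ := u * spin (d.1 0) + √u * d.2.1 0

/-- The total field at step `t` of the model at a site. -/
noncomputable def ySite (κ u : ℝ) (θ : Coef (ncol r)) (d : Site r) (t : Fin r) : ℝ :=
  aSite κ θ d (xcol t.castSucc) + aSite κ θ d (ecol t.succ) + hSite u d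

/-- The probability of the spins of a site given the rest. -/
noncomputable def flipW (κ u : ℝ) (θ : Coef (ncol r)) (free : Bool) (d : Site r) : ℝ :=
  1 / 2 * ∏ t : Fin r, if free then sig (d.1 t.succ) (ySite κ u θ d t)
    else if d.1 t.succ = d.1 t.castSucc then 1 else 0

/-- The noises of the model from standard ones: variance one for the side field, `W` after it. -/
noncomputable def modNoise (W : ℝ) (e : Fin (r + 1) → ℝ) : Fin (r + 1) → ℝ :=
  Fin.cons (e 0) fun t => √W * e t.succ

/-- Expectation in the model: noises of variance `W`, innovations of variance `β²`. -/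
noncomputable def modE (β κ W u : ℝ) (θ : Coef (ncol r)) (free : Bool) (f : Site r → ℝ) : ℝ :=
  ∑ x : Fin (r + 1) → Bool, ∫ e, ∫ q,
    (let d : Site r := (x, modNoise W e, fun l => β * q l)
     flipW κ u θ free d * f d) ∂gp (Fin (ncol r)) ∂gp (Fin (r + 1))

end Vale.Agent.P150.Fast
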