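import Mathlib
import Vale.Agent.P150.Ent.Coupling
import Vale.Agent.P150.Gauss

/-!
Shared definitions and joint statements for the proof of fast mixing at every `β < 1` (P150):
the coupling matrix with a Gaussian diagonal (the Gibbs measure does not see the diagonal), the
Hubbard-Stratonovich alternation, and the two halves of the argument.
-/

open MeasureTheory Real Finset Filter
open scoped Matrix

namespace Vale.Agent.P150.Fast

/-- Disorder with a diagonal. -/
abbrev Dis (n : ℕ) : Type := Pair n ⊕ Fin n → ℝ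

/-- The law of the disorder with a diagonal. -/
noncomputable def disX (n : ℕ) : Measure (Dis n) := gp (Pair n ⊕ Fin n)

/-- The off-diagonal part. -/
def offd {n : ℕ} (d : Dis n) : Pair n → ℝ := fun p => d (Sum.inl p)

/-- The coupling matrix: `β/√n` times a matrix of the Gaussian orthogonal ensemble. -/
noncomputable def kmat (n : ℕ) (β : ℝ) (d : Dis n) : Matrix (Fin n) (Fin n) ℝ := fun i j =>
  β / √n * if h : i < j then d (Sum.inl ⟨(i, j), h⟩)
    else if h' : j < i then d (Sum.inl ⟨(j, i), h'⟩) else √2 * d (Sum.inr i)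

/-- The shift of the coupling matrix. -/
def shift (β : ℝ) : ℝ := 2 * β + 1

/-- The covariance of the field channel. -/
noncomputable def aop (n : ℕ) (β : ℝ) (d : Dis n) : Matrix (Fin n) (Fin n) ℝ :=
  kmat n β d + shift β • (1 : Matrix (Fin n) (Fin n) ℝ)

/-- A spin configuration as a vector. -/
def vec {n : ℕ} (x : Conf n) : Fin n → ℝ := fun i => spin (x i)

/-- The heat-bath weight of a spin in a field. -/
noncomputable def sig (b : Bool) (y : ℝ) : ℝ := exp (spin b * y) / (exp y + exp (-y))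

/-- The product measure in a field. -/
noncomputable def prodSig {n : ℕ} (y : Fin n → ℝ) (x : Conf n) : ℝ := ∏ i, sig (x i) (y i)

/-- The density of the field given a configuration: the normal law `N(A x, A)`. -/
noncomputable def chan {n : ℕ} (A : Matrix (Fin n) (Fin n) ℝ) (x : Conf n) (y : Fin n → ℝ) : ℝ :=
  exp (-(((y - A *ᵥ vec x) ⬝ᵥ (A⁻¹ *ᵥ (y - A *ᵥ vec x))) / 2)) / √((2 * π) ^ n * A.det)

/-- The law of the configuration given the field, for the prior `ν`. -/
noncomputable def post {n : ℕ} (A : Matrix (Fin n) (Fin n) ℝ) (ν : Conf n → ℝ) (y : Fin n → ℝ)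
    (x : Conf n) : ℝ := ν x * chan A x y / ∑ z, ν z * chan A z y

/-- The alternation of the prior `ν`. -/
noncomputable def pKer {n : ℕ} (A : Matrix (Fin n) (Fin n) ℝ) (ν : Conf n → ℝ) (x x' : Conf n) : ℝ :=
  ∫ y, chan A x y * post A ν y x'

/-- The alternation of the Gibbs measure, with an additional field. -/
noncomputable def qKer {n : ℕ} (A : Matrix (Fin n) (Fin n) ℝ) (h : Fin n → ℝ) (x x' : Conf n) : ℝ :=
  ∫ y, chan A x y * prodSig (y + h) x'

/-- First half: a law with small total single-site entropy has small entropy. -/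
def PhaseOne (β : ℝ) : Prop :=
  ∀ ε : ℝ, 0 < ε → ∃ η : ℝ, 0 < η ∧ ∀ δ : ℝ, 0 < δ → ∀ᶠ n : ℕ in atTop,
    (disorder n).real {g | ¬ ∀ u : Conf n → ℝ, (∀ x, 0 < u x) → ∑ x, mu n β g x * u x = 1 →
      Ent.entTot (mu n β g) u ≤ η * n → Ent.ent (mu n β g) u ≤ ε * n} ≤ δ

/-- Second half: tensorisation of entropy from a warm start. -/
def WarmStmt (β : ℝ) : Prop :=
  ∃ C c : ℝ, 0 < C ∧ 0 < c ∧ ∀ δ : ℝ, 0 < δ → ∀ᶠ n : ℕ in atTop,
    (disorder n).real {g | ¬ ∀ u : Conf n → ℝ, (∀ x, 0 < u x) → ∑ x, mu n β g x * u x = 1 →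
      (∀ x, u x ≤ exp (c * n)) →
        Ent.ent (mu n β g) u ≤ C * Ent.entTot (mu n β g) u + exp (-(c * n))} ≤ δ

/-- The conclusion: a gap of order one and mixing in logarithmic time. -/
def FastStmt (β : ℝ) : Prop :=
  ∃ A : ℝ, 0 < A ∧ ∀ ε : ℝ, 0 < ε → ∀ᶠ n : ℕ in atTop,
    ENNReal.ofReal (1 - ε) ≤ disorder n
      {g | 1 / A ≤ gap n β g ∧ gap n β g ≤ 1 ∧ ∀ t, A * log n ≤ t → MixedBy n β g t}

/-- The one-variable inequality behind uniqueness of the zero-field solution, in dual form. -/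
def ScalarIneq : Prop :=
  ∀ q : ℝ, 0 < q → q ≤ 1 → ∃ (L : ℝ) (Φ : ℝ → ℝ),
    Integrable Φ (ProbabilityTheory.gaussianReal 0 1) ∧
    (∀ g m : ℝ, |m| < 1 → 2 * √q * g * m - m * artanh m - L * m ^ 2 ≤ Φ g) ∧
    ∫ g, Φ g ∂ProbabilityTheory.gaussianReal 0 1 + L * q ≤ q * (1 - q)

end Vale.Agent.P150.Fast
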