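import Vale.Agent.P150.Fast.GoeStmt
import Vale.Agent.P150.Scalar
import Vale.Agent.P249.Lower.Gauss

/-!
Gaussian concentration with an exponential tail, from the moment bound of `P249.Lower`, for P150.
-/

open MeasureTheory ProbabilityTheory Real Finset Filter
open scoped NNReal Nat

namespace Vale.Agent.P150.Fast

open P249.Lower (E γ mom)

theorem mom_even : ∀ k : ℕ, mom ((2 * k : ℕ) : ℝ) = (2 * k)! / (2 ^ k * k !)
  | 0 => by simp [mom]
  | k + 1 => by
    have e : ∀ j : ℕ, mom ((2 * j : ℕ) : ℝ) = ∫ x, x ^ (2 * j) ∂gaussianReal 0 1 := fun j => by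
      simp only [mom, rpow_natCast]
      congr 1; funext x
      exact (even_two_mul j).pow_abs x
    rw [e, show 2 * (k + 1) = 2 * k + 2 by ring, moment_step, ← e, mom_even k,
      show (2 * k + 2)! = (2 * k + 2) * ((2 * k + 1) * (2 * k)!) from rfl, Nat.factorial_succ k]
    push_cast
    field_simp
    ring

/-- The exponential moment of a Lipschitz function on Euclidean space. -/
theorem exp_lip (k : ℕ) (V : E k → ℝ) (hV : LipschitzWith 1 V) (t : ℝ) :
    Integrable (fun x => exp (t * (V x - ∫ y, V y ∂γ k))) (γ k) ∧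
    ∫ x, exp (t * (V x - ∫ y, V y ∂γ k)) ∂γ k ≤ exp (π ^ 2 * t ^ 2 / 8) := by
  set μ := γ k
  set P := μ.prod μ with hP
  set D : E k × E k → ℝ := fun z => V z.1 - V z.2 with hD
  have hVc := hV.continuous
  have hb : ∀ z : E k × E k, |D z| ≤ 2 * ‖z‖ := fun z => by
    have h := hV.dist_le_mul z.1 z.2
    rw [NNReal.coe_one, one_mul, Real.dist_eq, dist_eq_norm] at h
    linarith [norm_sub_le z.1 z.2, norm_fst_le z, norm_snd_le z]
  have hDj : ∀ j : ℕ, Integrable (fun z => |D z| ^ j) P := fun j => by
    rcases j.eq_zero_or_pos with h | h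
    · simp [h]
    refine P249.Lower.integrable_of_bound P (A := 0) (B := 2 ^ j) (p := j) (by exact_mod_cast h)
      (Continuous.aestronglyMeasurable (by fun_prop)) fun z => ?_
    rw [abs_of_nonneg (pow_nonneg (abs_nonneg _) _), zero_add, rpow_natCast, ← mul_pow]
    exact pow_le_pow_left₀ (abs_nonneg _) (hb z) j
  set F : ℕ → E k × E k → ℝ := fun j z => (t * D z) ^ (2 * j) / (2 * j)! with hF
  have eF : ∀ j z, F j z = t ^ (2 * j) / (2 * j)! * |D z| ^ (2 * j) := fun j z => by
    simp only [hF, (even_two_mul j).pow_abs, mul_pow]; ring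
  have hFi : ∀ j, Integrable (F j) P := fun j => by
    simp only [funext (eF j)]; exact (hDj _).const_mul _
  have hc : ∀ j, 0 ≤ t ^ (2 * j) / (2 * j)! := fun j =>
    div_nonneg ((even_two_mul j).pow_nonneg t) (Nat.cast_nonneg _)
  have hF0 : ∀ j z, 0 ≤ F j z := fun j z => by
    rw [eF]; exact mul_nonneg (hc j) (by positivity)
  have hbd : ∀ j, ∫ z, F j z ∂P ≤ (π ^ 2 * t ^ 2 / 8) ^ j / j ! := fun j => by
    simp only [funext (eF j), integral_const_mul]
    rcases j.eq_zero_or_pos with h | h
    · simp [h]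
    refine (mul_le_mul_of_nonneg_left ((le_of_eq ?_).trans (P249.Lower.gaussian_lip k
      (p := ((2 * j : ℕ) : ℝ)) (by exact_mod_cast (show 1 ≤ 2 * j by omega)) V hV)) (hc j)).trans_eq ?_
    · simp only [rpow_natCast, hD, hP]
      rfl
    · rw [mom_even, rpow_natCast, pow_mul, pow_mul, div_pow π 2 2, div_pow (π ^ 2 * t ^ 2) 8,
        show (8 : ℝ) = 2 ^ 2 * 2 by norm_num, mul_pow (2 ^ 2 : ℝ) 2, div_pow (π ^ 2), mul_pow]
      field_simp
  have hsum : Summable fun j => (π ^ 2 * t ^ 2 / 8) ^ j / j ! := Real.summable_pow_div_factorial _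
  have hnorm : ∀ j, ∫ z, ‖F j z‖ ∂P = ∫ z, F j z ∂P := fun j => by
    simp only [Real.norm_eq_abs, abs_of_nonneg (hF0 j _)]
  have hs : HasSum (fun j => ∫ z, F j z ∂P) (∫ z, ∑' j, F j z ∂P) :=
    hasSum_integral_of_summable_integral_norm hFi (by
      simp only [hnorm]
      exact Summable.of_nonneg_of_le (fun j => integral_nonneg (hF0 j)) hbd hsum)
  have ecosh : ∀ z, ∑' j, F j z = cosh (t * D z) := fun z => (Real.hasSum_cosh _).tsum_eq
  simp only [ecosh] at hs
  have hcosh : ∫ z, cosh (t * D z) ∂P ≤ exp (π ^ 2 * t ^ 2 / 8) := by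
    rw [Real.exp_eq_exp_ℝ, NormedSpace.exp_eq_tsum_div, ← hs.tsum_eq]
    exact hs.summable.tsum_le_tsum hbd hsum
  -- the exponential itself
  have hDm : Continuous fun z => exp (t * D z) := by fun_prop
  have hexp : Integrable (fun z => exp (t * D z)) P := by
    have hic : Integrable (fun z => exp (|t| * (2 * ‖z‖))) P := by
      obtain ⟨a, ha, hint⟩ := IsGaussian.exists_integrable_exp_sq P
      refine (hint.const_mul (exp ((|t| * 2) ^ 2 / (4 * a)))).mono'
        (Continuous.aestronglyMeasurable (by fun_prop)) (ae_of_all _ fun z => ?_)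
      rw [Real.norm_eq_abs, abs_exp, ← exp_add, exp_le_exp]
      have e : (|t| * 2) ^ 2 / (4 * a) + a * ‖z‖ ^ 2 - |t| * (2 * ‖z‖)
          = (2 * a * ‖z‖ - |t| * 2) ^ 2 / (4 * a) := by field_simp; ring
      have : 0 ≤ (2 * a * ‖z‖ - |t| * 2) ^ 2 / (4 * a) := by positivity
      linarith
    refine hic.mono' hDm.aestronglyMeasurable (ae_of_all _ fun z => ?_)
    rw [Real.norm_eq_abs, abs_exp, exp_le_exp]
    refine (le_abs_self _).trans ?_
    rw [abs_mul]
    exact mul_le_mul_of_nonneg_left (hb z) (abs_nonneg _)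
  have hswap : MeasurePreserving (Prod.swap : E k × E k → E k × E k) P P :=
    ⟨measurable_swap, Measure.prod_swap⟩
  have hexp' : Integrable (fun z => exp (-(t * D z))) P := by
    refine (hswap.integrable_comp_of_integrable hexp).congr (ae_of_all _ fun z => ?_)
    simp only [Function.comp_apply, hD, Prod.fst_swap, Prod.snd_swap]; ring_nf
  have esym : ∫ z, exp (-(t * D z)) ∂P = ∫ z, exp (t * D z) ∂P := by
    conv_rhs => rw [← hswap.map_eq]
    rw [integral_map hswap.measurable.aemeasurable hDm.aestronglyMeasurable]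
    congr 1; funext z
    simp only [hD, Prod.fst_swap, Prod.snd_swap]; ring_nf
  have hle : ∫ z, exp (t * D z) ∂P ≤ exp (π ^ 2 * t ^ 2 / 8) := by
    refine le_trans (le_of_eq ?_) hcosh
    simp only [cosh_eq]
    rw [integral_div, integral_add hexp hexp', esym]
    ring
  -- Jensen in the second variable
  set m := ∫ y, V y ∂μ with hm
  have hVi : Integrable V μ := by
    refine P249.Lower.integrable_of_bound μ (A := |V 0|) (B := 1) (p := 1) one_pos
      hVc.aestronglyMeasurable fun x => ?_
    have h := hV.dist_le_mul x 0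
    rw [NNReal.coe_one, one_mul, Real.dist_eq, dist_eq_norm, sub_zero] at h
    rw [rpow_one, one_mul]
    linarith [abs_sub_abs_le_abs_sub (V x) (V 0)]
  have hj : ∀ᵐ x ∂μ, exp (t * (V x - m)) ≤ ∫ y, exp (t * D (x, y)) ∂μ := by
    filter_upwards [hexp.prod_right_ae] with x hx
    have hi2 : Integrable (fun y => exp (t * (V x - m)) * (t * (m - V y) + 1)) μ :=
      ((((integrable_const m).sub hVi).const_mul t).add (integrable_const 1)).const_mul _
    refine le_trans (le_of_eq ?_) (integral_mono hi2 hx fun y => ?_)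
    · have h1 : Integrable (fun y => t * (m - V y)) μ := ((integrable_const m).sub hVi).const_mul t
      rw [integral_const_mul, integral_add h1 (integrable_const _), integral_const_mul,
        integral_sub (integrable_const m) hVi]
      simp [hm]
    · simp only [hD]
      refine (mul_le_mul_of_nonneg_left (add_one_le_exp _) (exp_pos _).le).trans_eq ?_
      rw [← exp_add]; ring_nf
  have hint : Integrable (fun x => exp (t * (V x - m))) μ := by
    refine hexp.integral_prod_left.mono' (Continuous.aestronglyMeasurable (by fun_prop)) ?_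
    filter_upwards [hj] with x hx
    rwa [Real.norm_eq_abs, abs_exp]
  exact ⟨hint, (integral_mono_ae hint hexp.integral_prod_left hj).trans
    ((integral_prod _ hexp).symm.trans_le hle)⟩

/-- Exponential moments of Lipschitz functions of independent standard Gaussians. -/
theorem gaussMgf : GaussMgf := by
  intro ι _ U L hL hU lam
  set k := Fintype.card ι
  set e := Fintype.equivFin ι
  set T : E k → ι → ℝ := fun x i => x.ofLp (e i) with hT
  have hTm : Measurable T := measurable_pi_lambda _ fun i =>
    (measurable_pi_apply (e i)).comp (PiLp.continuous_ofLp 2 _).measurable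
  have mp : MeasurePreserving T (γ k) (gp ι) := by
    refine ⟨hTm, ?_⟩
    rw [γ, ← map_pi_eq_stdGaussian, Measure.map_map hTm (by fun_prop)]
    have h := (measurePreserving_piCongrLeft (fun _ : ι => gaussianReal 0 1) e.symm).map_eq
    rw [gp, ← h]
    congr 1
    funext y i
    have hi := MeasurableEquiv.piCongrLeft_apply_apply (β := fun _ : ι => ℝ) e.symm y (e i)
    simp only [Equiv.symm_apply_apply] at hi
    simp [T, hi]
  set V : E k → ℝ := fun x => L⁻¹ * U (T x) with hV
  have hVl : LipschitzWith 1 V := by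
    refine LipschitzWith.of_dist_le_mul fun x y => ?_
    have hs : ∑ i, (T x i - T y i) ^ 2 = ∑ j, (x.ofLp j - y.ofLp j) ^ 2 :=
      Equiv.sum_comp e fun j => (x.ofLp j - y.ofLp j) ^ 2
    rw [NNReal.coe_one, one_mul, Real.dist_eq, EuclideanSpace.dist_eq]
    simp only [Real.dist_eq, sq_abs]
    rw [hV, ← mul_sub, abs_mul, abs_of_pos (inv_pos.2 hL), ← hs, inv_mul_le_iff₀ hL]
    exact hU _ _
  have hUc : Continuous U := by
    have hc := hVl.continuous
    set S : (ι → ℝ) → E k := fun g => WithLp.toLp 2 fun j => g (e.symm j) with hS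
    have hSc : Continuous S := by
      refine (PiLp.continuous_toLp 2 _).comp ?_
      exact continuous_pi fun j => continuous_apply _
    have : U = fun g => L * V (S g) := by
      funext g
      have : T (S g) = g := by funext i; simp [hT, hS]
      simp only [hV, this, ← mul_assoc, mul_inv_cancel₀ hL.ne', one_mul]
    rw [this]
    exact continuous_const.mul (hc.comp hSc)
  set m := ∫ x, V x ∂γ k with hm
  have hmean : ∫ h, U h ∂gp ι = L * m := by
    rw [hm, hV, integral_const_mul, ← mul_assoc, mul_inv_cancel₀ hL.ne', one_mul, ← mp.map_eq,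
      integral_map hTm.aemeasurable hUc.aestronglyMeasurable]
  have hi := (exp_lip k V hVl (lam * L)).1
  have hle := (exp_lip k V hVl (lam * L)).2
  rw [← hm] at hi hle
  have e : ∀ x, exp (lam * (U (T x) - ∫ h, U h ∂gp ι)) = exp (lam * L * (V x - m)) := fun x => by
    simp only [hmean, hV]; field_simp
  have hfm : AEStronglyMeasurable (fun g => exp (lam * (U g - ∫ h, U h ∂gp ι))) (gp ι) :=
    (Continuous.aestronglyMeasurable (by fun_prop))
  refine ⟨?_, ?_⟩
  · rw [← mp.map_eq] at hfm ⊢
    rw [integrable_map_measure hfm hTm.aemeasurable]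
    refine hi.congr (ae_of_all _ fun x => ?_)
    simp only [Function.comp_apply, mp.map_eq, e]
  · conv_lhs => rw [← mp.map_eq]
    rw [integral_map hTm.aemeasurable (by rwa [mp.map_eq])]
    simp only [mp.map_eq, e]
    exact hle.trans_eq (by ring_nf)

/-- Concentration of Lipschitz functions of independent standard Gaussians. -/
theorem gaussTail : GaussTail := by
  intro ι _ U L hL hU s hs
  set m := ∫ h, U h ∂gp ι
  set t : ℝ := 4 * s / (π ^ 2 * L ^ 2) with ht
  have ht0 : 0 ≤ t := by positivity
  obtain ⟨hi, hle⟩ := gaussMgf ι U L hL hU t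
  refine le_trans (measureReal_mono (fun g hg => ?_) (measure_ne_top _ _))
    (le_trans (le_div_iff₀' (exp_pos (t * s)) |>.2 (mul_meas_ge_le_integral_of_nonneg
      (ae_of_all _ fun g => (exp_pos _).le) hi (exp (t * s)))) ?_)
  · simp only [Set.mem_setOf_eq] at hg ⊢
    exact exp_le_exp.2 (mul_le_mul_of_nonneg_left (by linarith) ht0)
  · refine (div_le_div_of_nonneg_right hle (exp_pos _).le).trans_eq ?_
    rw [← exp_sub]
    congr 1
    simp only [ht]
    field_simp
    ring

end Vale.Agent.P150.Fast
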