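import Vale.Agent.P150.Fast.Goe
import Vale.Agent.P150.Fast.GaussTail

/-!
The norm event and the flatness event for the coupling matrix, with exponential rates, for P150.
-/

open MeasureTheory Real Finset Filter
open scoped Matrix

namespace Vale.Agent.P150.Fast

variable {n : ℕ}

/-- A function vanishing off `U`. -/
def OnSet (U : Finset (Fin n)) (v : Fin n → ℝ) : Prop := ∀ i, i ∉ U → v i = 0

/-- The unit sphere of the coordinates in `U`. -/
def sphereOn (U : Finset (Fin n)) : Set (Fin n → ℝ) := {v | ∑ i, v i ^ 2 = 1 ∧ OnSet U v}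

theorem isCompact_sphereOn (U : Finset (Fin n)) : IsCompact (sphereOn U) := by
  refine Metric.isCompact_of_isClosed_isBounded ?_ ?_
  · have h1 : IsClosed {v : Fin n → ℝ | ∑ i, v i ^ 2 = 1} :=
      isClosed_eq (by fun_prop) continuous_const
    have h2 : IsClosed {v : Fin n → ℝ | OnSet U v} := by
      simp only [OnSet, Set.ofPred_forall]
      exact isClosed_iInter fun i => isClosed_iInter fun _ =>
        isClosed_eq (continuous_apply i) continuous_const
    exact h1.inter h2
  · refine (Metric.isBounded_closedBall (x := (0 : Fin n → ℝ)) (r := 1)).subset fun v hv => ?_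
    rw [mem_closedBall_zero_iff, pi_norm_le_iff_of_nonneg zero_le_one]
    intro i
    rw [Real.norm_eq_abs, ← sq_le_one_iff_abs_le_one]
    exact (single_le_sum (f := fun j => v j ^ 2) (fun j _ => sq_nonneg _) (mem_univ i)).trans_eq hv.1

theorem mean_top (U : Finset (Fin n)) {S : Type*} [Fintype S] [Nonempty S] (a : S → Fin n → ℝ)
    (ha : ∀ s, a s ∈ sphereOn U) (σ : ℝ) (hσ : σ ^ 2 = 1) :
    ∫ g, Edge.maxLin (fun s j => σ * coef (a s) j) g ∂disX n ≤ 2 * √U.card := by
  refine (Edge.mean_max_le (fun s j => σ * coef (a s) j) (fun s (i : U) => 2 * a s i)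
    fun s t => ?_).trans ?_
  · simp only [← mul_sub, mul_pow, hσ, one_mul]
    refine (coef_incr (ha s).1 (ha t).1).trans_eq ?_
    rw [sum_coe_sort U fun i => 2 ^ 2 * (a s i - a t i) ^ 2]
    rw [← sum_subset (subset_univ U) fun i _ hi => by simp [(ha s).2 i hi, (ha t).2 i hi]]
    exact sum_congr rfl fun i _ => by ring
  have hm := Edge.mean_norm_le (ι := U)
  have hpt : ∀ g : U → ℝ, Edge.maxLin (fun s (i : U) => 2 * a s i) g ≤ 2 * √(∑ i, g i ^ 2) := fun g => by
    refine Finset.sup'_le _ _ fun s _ => ?_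
    have hcs := Real.sum_mul_le_sqrt_mul_sqrt Finset.univ g (fun i : U => 2 * a s i)
    have e : ∑ i : U, (2 * a s i) ^ 2 = 2 ^ 2 := by
      rw [sum_coe_sort U fun i => (2 * a s i) ^ 2]
      rw [sum_subset (subset_univ U) fun i _ hi => by simp [(ha s).2 i hi]]
      simp only [mul_pow, ← mul_sum, (ha s).1, mul_one]
    rw [e, sqrt_sq zero_le_two] at hcs
    simp only [P150.lin]
    linarith
  have h2 := hm.2
  simp only [Fintype.card_coe] at h2
  refine (integral_mono (Edge.integrable_maxLin _) (hm.1.const_mul 2) hpt).trans ?_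
  rw [integral_const_mul]
  exact mul_le_mul_of_nonneg_left h2 zero_le_two

theorem qform_sub_le (K : Matrix (Fin n) (Fin n) ℝ) (U : Finset (Fin n)) {S ρ : ℝ} (hS : 0 ≤ S) (hρ : 0 < ρ)
    (hq : ∀ w, OnSet U w → |Ent.qform K w| ≤ S * ∑ i, w i ^ 2) {v a : Fin n → ℝ}
    (hv : v ∈ sphereOn U) (ha : a ∈ sphereOn U) (hd : ∑ i, (v i - a i) ^ 2 ≤ ρ ^ 2) :
    |Ent.qform K v - Ent.qform K a| ≤ 3 * ρ * S := by
  set p : Fin n → ℝ := fun i => (v i - a i) + ρ * (v i + a i) with hp
  set q : Fin n → ℝ := fun i => (v i - a i) - ρ * (v i + a i) with hq'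
  have hpU : OnSet U p := fun i hi => by simp [hp, hv.2 i hi, ha.2 i hi]
  have hqU : OnSet U q := fun i hi => by simp [hq', hv.2 i hi, ha.2 i hi]
  have e : 2 * ρ * (Ent.qform K v - Ent.qform K a) = (Ent.qform K p - Ent.qform K q) / 2 := by
    simp only [Ent.qform, ← sum_sub_distrib, sum_div, mul_sum]
    simp only [hp, hq']
    have : ∀ i j, 2 * ρ * (v i * K i j * v j - a i * K i j * a j)
        = (((v i - a i) + ρ * (v i + a i)) * K i j * ((v j - a j) + ρ * (v j + a j))
          - ((v i - a i) - ρ * (v i + a i)) * K i j * ((v j - a j) - ρ * (v j + a j))) / 2 :=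
      fun i j => by ring
    exact sum_congr rfl fun i _ => sum_congr rfl fun j _ => this i j
  have hsum : ∑ i, p i ^ 2 + ∑ i, q i ^ 2 ≤ 10 * ρ ^ 2 := by
    have e1 : ∀ i, p i ^ 2 + q i ^ 2 ≤ 2 * (v i - a i) ^ 2 + ρ ^ 2 * (4 * v i ^ 2 + 4 * a i ^ 2) :=
      fun i => by
        simp only [hp, hq']
        linarith [mul_nonneg (sq_nonneg ρ) (sq_nonneg (v i - a i))]
    rw [← sum_add_distrib]
    refine (sum_le_sum fun i _ => e1 i).trans ?_
    simp only [sum_add_distrib, ← mul_sum, hv.1, ha.1]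
    linarith
  have h : |Ent.qform K p - Ent.qform K q| ≤ S * (10 * ρ ^ 2) := by
    refine (abs_sub _ _).trans ?_
    have := mul_le_mul_of_nonneg_left hsum hS
    linarith [hq p hpU, hq q hqU]
  rw [abs_le] at h ⊢
  constructor <;> nlinarith [h.1, h.2, e]

/-- The quadratic form on the coordinates in `U`. -/
theorem sup_tail (U : Finset (Fin n)) {ρ s R : ℝ} (hρ : 0 < ρ) (hρ1 : 3 * ρ < 1) (hs : 0 ≤ s)
    (hR : 2 * √U.card + s ≤ (1 - 3 * ρ) * R) :
    (disX n).real {d | ¬ ∀ v, OnSet U v → |Ent.qform (goe n d) v| ≤ R * ∑ i, v i ^ 2}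
      ≤ 2 * exp (-(s ^ 2 / π ^ 2)) := by
  classical
  rcases (sphereOn U).eq_empty_or_nonempty with h | hne
  · refine le_of_eq_of_le ?_ (by positivity)
    rw [measureReal_eq_zero_iff]
    refine measure_mono_null (fun d hd => ?_) measure_empty
    refine absurd (fun v hv => ?_) hd
    rcases eq_or_ne (∑ i, v i ^ 2) 0 with h0 | h0
    · have hz : ∀ i, v i = 0 := fun i => by
        simpa using (sum_eq_zero_iff_of_nonneg fun i _ => sq_nonneg (v i)).1 h0 i (mem_univ i)
      simp [Ent.qform, hz]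
    · exfalso
      have hp : 0 < ∑ i, v i ^ 2 := lt_of_le_of_ne (sum_nonneg fun i _ => sq_nonneg _) (Ne.symm h0)
      refine (Set.eq_empty_iff_forall_notMem.1 h) (fun i => (√(∑ i, v i ^ 2))⁻¹ * v i) ⟨?_, fun i hi => by
        simp [hv i hi]⟩
      simp only [mul_pow, ← mul_sum, inv_pow, sq_sqrt hp.le]
      exact inv_mul_cancel₀ h0
  set δ : ℝ := ρ / (n + 1) with hδ
  obtain ⟨T, hTS, hTf, hTc⟩ := Metric.finite_approx_of_totallyBounded
    (isCompact_sphereOn U).totallyBounded δ (by positivity)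
  have := hTf.fintype
  have : Nonempty T := by
    obtain ⟨v, hv⟩ := hne
    have h := hTc hv
    simp only [Set.mem_iUnion] at h
    obtain ⟨y, hy, -⟩ := h
    exact ⟨⟨y, hy⟩⟩
  set M : ℝ → Dis n → ℝ := fun σ => Edge.maxLin fun (t : T) j => σ * coef t.1 j with hM
  have htail : ∀ σ : ℝ, σ ^ 2 = 1 →
      (disX n).real {d | 2 * √U.card + s ≤ M σ d} ≤ exp (-(s ^ 2 / π ^ 2)) := fun σ hσ => by
    have hlip := Edge.maxLin_lip (fun (t : T) j => σ * coef t.1 j) (sqrt_nonneg 2) fun t => by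
      simp only [mul_pow, hσ, one_mul, coef_norm, (hTS t.2).1]
      rw [sq_sqrt zero_le_two]; norm_num
    have h := gaussTail _ (M σ) √2 (by positivity) hlip s hs
    have hm := mean_top U (fun t : T => t.1) (fun t => hTS t.2) σ hσ
    refine le_trans (measureReal_mono (fun d hd => ?_) (measure_ne_top _ _)) (h.trans_eq ?_)
    · simp only [Set.mem_ofPred_eq] at hd ⊢
      exact le_trans (add_le_add hm le_rfl) hd
    · rw [sq_sqrt zero_le_two]; congr 1; field_simp
  have hb : ∀ σ : ℝ, ∀ (d : Dis n) (a : Fin n → ℝ) (ha : a ∈ T),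
      σ * Ent.qform (goe n d) a ≤ M σ d := fun σ d a ha => by
    refine le_trans (le_of_eq ?_)
      (le_sup' (fun t : T => lin (fun j => σ * coef t.1 j) d) (mem_univ ⟨a, ha⟩))
    rw [qform_goe, lin, lin, mul_sum]
    exact sum_congr rfl fun j _ => by ring
  refine (measureReal_mono (s₂ := {d | 2 * √U.card + s ≤ M 1 d} ∪ {d | 2 * √U.card + s ≤ M (-1) d})
    (fun d hd => ?_) (measure_ne_top _ _)).trans ((measureReal_union_le _ _).trans ?_)
  swap
  · linarith [htail 1 (by norm_num), htail (-1) (by norm_num)]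
  by_contra hc
  simp only [Set.mem_union, Set.mem_ofPred_eq, not_or, not_le] at hc
  apply hd
  obtain ⟨x, hx, hmax⟩ := (isCompact_sphereOn U).exists_isMaxOn hne
    (f := fun v => |Ent.qform (goe n d) v|) (by unfold Ent.qform; fun_prop)
  set S := |Ent.qform (goe n d) x|
  have hscale : ∀ w, OnSet U w → |Ent.qform (goe n d) w| ≤ S * ∑ i, w i ^ 2 := fun w hw => by
    rcases (sum_nonneg fun i _ => sq_nonneg (w i) : 0 ≤ ∑ i, w i ^ 2).eq_or_lt with h | h
    · have hz : ∀ i, w i = 0 := fun i => by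
        simpa using (sum_eq_zero_iff_of_nonneg fun i _ => sq_nonneg (w i)).1 h.symm i (mem_univ i)
      simp [Ent.qform, hz]
    · set r := √(∑ i, w i ^ 2)
      have hr0 : 0 < r := sqrt_pos.2 h
      have hr2 : r ^ 2 = ∑ i, w i ^ 2 := sq_sqrt h.le
      have hw' : (fun i => r⁻¹ * w i) ∈ sphereOn U := ⟨by
        simp only [mul_pow, ← mul_sum, ← hr2, inv_pow]
        exact inv_mul_cancel₀ (pow_ne_zero 2 hr0.ne'), fun i hi => by simp [hw i hi]⟩
      have h := hmax hw'
      change |Ent.qform (goe n d) fun i => r⁻¹ * w i| ≤ S at h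
      simp only [qform_smul, abs_mul, inv_pow, abs_inv, abs_pow, abs_of_pos hr0] at h
      rw [inv_mul_le_iff₀ (by positivity), hr2] at h
      linarith
  obtain ⟨a, ha, hxa⟩ : ∃ a ∈ T, x ∈ Metric.ball a δ := by
    have h := hTc hx
    simpa only [Set.mem_iUnion, exists_prop] using h
  have hd2 : ∑ i, (x i - a i) ^ 2 ≤ ρ ^ 2 := by
    have hi : ∀ i, (x i - a i) ^ 2 ≤ δ ^ 2 := fun i => by
      rw [← sq_abs, ← Real.dist_eq]
      exact pow_le_pow_left₀ dist_nonneg
        ((dist_le_pi_dist x a i).trans (Metric.mem_ball.1 hxa).le) 2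
    refine (sum_le_card_nsmul _ _ _ fun i _ => hi i).trans ?_
    have hn1 : (n : ℝ) ≤ (n + 1) ^ 2 := by linarith [sq_nonneg (n : ℝ), (n.cast_nonneg : (0 : ℝ) ≤ n)]
    rw [card_univ, Fintype.card_fin, nsmul_eq_mul, hδ, div_pow, mul_div_assoc', div_le_iff₀ (by positivity)]
    nlinarith [sq_nonneg ρ]
  have hbnd : |Ent.qform (goe n d) a| ≤ (1 - 3 * ρ) * R := by
    have h1 := hb 1 d a ha
    have h2 := hb (-1) d a ha
    exact abs_le.2 ⟨by linarith, by linarith⟩
  have hdiff := qform_sub_le (goe n d) U (abs_nonneg _) hρ hscale hx (hTS ha) hd2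
  have hS : S ≤ R := by
    have h := abs_sub_abs_le_abs_sub (Ent.qform (goe n d) x) (Ent.qform (goe n d) a)
    refine le_of_mul_le_mul_left (a := 1 - 3 * ρ) ?_ (by linarith)
    linarith
  intro v hv
  exact (hscale v hv).trans (mul_le_mul_of_nonneg_right hS (sum_nonneg fun i _ => sq_nonneg _))

theorem eventually_le_exp {a c : ℝ} (hc : 0 < c) :
    ∀ᶠ n : ℕ in atTop, a * exp (-(2 * c * n)) ≤ exp (-(c * n)) := by
  obtain ⟨N, hN⟩ := exists_nat_ge (a / c)
  filter_upwards [eventually_ge_atTop N] with n hn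
  have h : a ≤ c * n := by
    rw [mul_comm]
    exact (div_le_iff₀ hc).1 (hN.trans (Nat.cast_le.2 hn))
  refine (mul_le_mul_of_nonneg_right ((h.trans (by linarith)).trans (add_one_le_exp (c * n)))
    (exp_pos _).le).trans_eq ?_
  rw [← exp_add]; ring_nf

theorem normEvent : NormEvent := by
  intro β η hβ hη
  set κ := min 1 (η / (β + 1)) with hκ
  have hκ0 : 0 < κ := by positivity
  refine ⟨(κ / 2) ^ 2 / (2 * π ^ 2), by positivity, ?_⟩
  filter_upwards [eventually_le_exp (a := 2) (c := (κ / 2) ^ 2 / (2 * π ^ 2)) (by positivity),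
    eventually_ge_atTop 1] with n hn hn1
  have hs : 0 < √(n : ℝ) := sqrt_pos.2 (by exact_mod_cast hn1)
  have h := sup_tail (univ : Finset (Fin n)) (ρ := κ / 18) (s := κ / 2 * √n) (R := (2 + κ) * √n)
    (by positivity) (by linarith [min_le_left 1 (η / (β + 1))]) (by positivity) (by
      rw [card_univ, Fintype.card_fin]
      linarith [mul_nonneg (mul_nonneg hκ0.le hs.le) (sub_nonneg.2 (min_le_left 1 (η / (β + 1))))])
  refine le_trans (measureReal_mono (fun d hd => ?_) (measure_ne_top _ _)) (h.trans ?_)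
  · simp only [Set.mem_ofPred_eq] at hd ⊢
    refine fun hall => hd fun v => ?_
    have hv := hall v fun i hi => absurd (mem_univ i) hi
    rw [qform_kmat_eq, abs_mul, abs_of_nonneg (div_nonneg hβ hs.le)]
    refine (mul_le_mul_of_nonneg_left hv (div_nonneg hβ hs.le)).trans ?_
    rw [← mul_assoc]
    refine mul_le_mul_of_nonneg_right ?_ (sum_nonneg fun i _ => sq_nonneg _)
    rw [div_mul_eq_mul_div, mul_left_comm, ← mul_assoc, mul_div_assoc, div_self hs.ne', mul_one]
    have h4 : κ * (β + 1) ≤ η :=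
      (mul_le_mul_of_nonneg_right (min_le_right _ _) (by linarith)).trans_eq
        (div_mul_cancel₀ η (by linarith))
    linarith
  · refine le_of_eq_of_le ?_ hn
    congr 2
    rw [mul_pow, sq_sqrt (Nat.cast_nonneg n)]
    field_simp

theorem choose_le {r : ℝ} (hr : 0 < r) (n k : ℕ) :
    (n.choose k : ℝ) ≤ exp (r * n) / r ^ k := by
  rw [le_div_iff₀ (by positivity)]
  rcases lt_or_ge n k with h | h
  · rw [Nat.choose_eq_zero_of_lt h, Nat.cast_zero, zero_mul]; positivity
  refine le_trans ?_ ((pow_le_pow_left₀ (by positivity) (add_one_le_exp r) n).trans_eq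
    (by rw [← exp_nat_mul, mul_comm]))
  rw [add_pow]
  refine le_trans (le_of_eq ?_) (single_le_sum (f := fun m => r ^ m * 1 ^ (n - m) * (n.choose m : ℝ))
    (fun m _ => by positivity) (mem_range.2 (Nat.lt_succ_of_le h)))
  simp [mul_comm]

theorem flatEvent : FlatEvent := by
  intro β θ hβ hθ
  set a := θ / (8 * (β + 1)) with ha
  have ha0 : 0 < a := by positivity
  set r := min (a ^ 2 / (4 * π ^ 2)) 1 with hr
  have hr0 : 0 < r := by positivity
  set ε := min 1 (min (a ^ 2 / 4) (a ^ 2 / (4 * π ^ 2 * (1 - log r)))) with hε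
  have hlog : 0 < 1 - log r := by linarith [log_nonpos hr0.le (min_le_right _ _)]
  have hε0 : 0 < ε := by positivity
  refine ⟨ε, a ^ 2 / (4 * π ^ 2), hε0, by positivity, ?_⟩
  filter_upwards [eventually_le_exp (a := 2) (c := a ^ 2 / (4 * π ^ 2)) (by positivity),
    eventually_ge_atTop 1] with n hn hn1
  have hs : 0 < √(n : ℝ) := sqrt_pos.2 (by exact_mod_cast hn1)
  have hnn : (0 : ℝ) ≤ n := Nat.cast_nonneg n
  set k := ⌊ε * n⌋₊ with hk
  have hkε : (k : ℝ) ≤ ε * n := Nat.floor_le (by positivity)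
  have hkn : k ≤ n := by
    have : (k : ℝ) ≤ n := hkε.trans (mul_le_of_le_one_left hnn (min_le_left _ _))
    exact_mod_cast this
  have hsq : √(k : ℝ) ≤ a / 2 * √n := by
    rw [show a / 2 * √(n : ℝ) = √((a / 2) ^ 2 * n) by
      rw [sqrt_mul (sq_nonneg _), sqrt_sq (by positivity)]]
    refine sqrt_le_sqrt (hkε.trans (mul_le_mul_of_nonneg_right ?_ hnn))
    calc ε ≤ a ^ 2 / 4 := (min_le_right _ _).trans (min_le_left _ _)
      _ = (a / 2) ^ 2 := by ring
  set bad : Finset (Fin n) → Set (Dis n) := fun U =>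
    {d | ¬ ∀ v, OnSet U v → |Ent.qform (goe n d) v| ≤ θ / (β + 1) * √n * ∑ i, v i ^ 2} with hbad
  have hU : ∀ U ∈ powersetCard k (univ : Finset (Fin n)),
      (disX n).real (bad U) ≤ 2 * exp (-((a * √n) ^ 2 / π ^ 2)) := fun U hU => by
    refine sup_tail U (ρ := 1 / 6) (by norm_num) (by norm_num) (by positivity) ?_
    rw [(mem_powersetCard.1 hU).2]
    have : θ / (β + 1) = 8 * a := by rw [ha]; field_simp
    rw [this]
    linarith [mul_pos ha0 hs]
  refine le_trans (measureReal_mono (s₂ := ⋃ U ∈ powersetCard k (univ : Finset (Fin n)), bad U)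
    (fun d hd => ?_) (measure_ne_top _ _)) ((measureReal_biUnion_finset_le _ _).trans
      ((sum_le_card_nsmul _ _ _ hU).trans ?_))
  · by_contra hc
    simp only [Set.mem_iUnion, not_exists, hbad, Set.mem_ofPred_eq, not_not] at hc
    refine hd fun v hv => ?_
    obtain ⟨U, hsub, -, hcard⟩ := Finset.exists_subsuperset_card_eq
      (s := {i | v i ≠ 0}) (t := univ) (subset_univ _) (n := k) (Nat.le_floor hv)
      (by rwa [card_univ, Fintype.card_fin])
    have h := hc U (mem_powersetCard.2 ⟨subset_univ _, hcard⟩) v fun i hi => by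
      by_contra h0
      exact hi (hsub (by simpa using h0))
    rw [qform_kmat_eq, abs_mul, abs_of_nonneg (div_nonneg hβ hs.le)]
    refine (mul_le_mul_of_nonneg_left h (div_nonneg hβ hs.le)).trans ?_
    rw [← mul_assoc]
    refine mul_le_mul_of_nonneg_right ?_ (sum_nonneg fun i _ => sq_nonneg _)
    rw [show β / √n * (θ / (β + 1) * √n) = β / (β + 1) * θ by field_simp]
    exact mul_le_of_le_one_left hθ.le ((div_le_one (by linarith)).2 (by linarith))
  · rw [card_powersetCard, card_univ, Fintype.card_fin, nsmul_eq_mul]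
    refine le_trans ?_ hn
    have hc := mul_le_mul_of_nonneg_right (choose_le hr0 n k)
      (show (0 : ℝ) ≤ 2 * exp (-((a * √n) ^ 2 / π ^ 2)) by positivity)
    refine hc.trans ?_
    rw [mul_left_comm]
    refine mul_le_mul_of_nonneg_left ?_ zero_le_two
    rw [← rpow_natCast, rpow_def_of_pos hr0, ← exp_sub, ← exp_add, exp_le_exp, mul_pow,
      sq_sqrt hnn]
    have h1 : r * n ≤ a ^ 2 / (4 * π ^ 2) * n := mul_le_mul_of_nonneg_right (min_le_left _ _) hnn
    have h2 : -(log r * k) ≤ a ^ 2 / (4 * π ^ 2) * n := by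
      have hε2 : ε * (1 - log r) ≤ a ^ 2 / (4 * π ^ 2) := by
        have h : ε ≤ a ^ 2 / (4 * π ^ 2 * (1 - log r)) := (min_le_right _ _).trans (min_le_right _ _)
        rw [← div_div] at h
        exact (le_div_iff₀ hlog).1 h
      linarith [mul_le_mul_of_nonneg_right hkε hlog.le, mul_le_mul_of_nonneg_right hε2 hnn,
        (k.cast_nonneg : (0 : ℝ) ≤ k)]
    have e : a ^ 2 * n / π ^ 2 = 4 * (a ^ 2 / (4 * π ^ 2) * n) := by field_simp
    rw [e]
    linarith

end Vale.Agent.P150.Fast
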