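import Vale.Agent.P150.Fast.ProdM

/-!
Tensorisation of entropy for a product weight on the free sites, given the pinned ones.
Used for P150.
-/

open Real Finset

namespace Vale.Agent.P150.Fast

variable {n : ℕ} {S : Finset (Fin n)}

/-- The mean of `f` on the fibre of `x`. -/
noncomputable def favg (S : Finset (Fin n)) (W f : Conf n → ℝ) (x : Conf n) : ℝ :=
  (∑ z ∈ fib S x, W z * f z) / ∑ z ∈ fib S x, W z

theorem fib_sum_pos {W : Conf n → ℝ} (hW : ∀ x, 0 < W x) (S : Finset (Fin n)) (x : Conf n) :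
    0 < ∑ z ∈ fib S x, W z :=
  sum_pos (fun z _ => hW z) ⟨x, self_mem_fib S x⟩

theorem favg_pos {W f : Conf n → ℝ} (hW : ∀ x, 0 < W x) (hf : ∀ x, 0 < f x) (S : Finset (Fin n))
    (x : Conf n) : 0 < favg S W f x :=
  div_pos (fib_sum_pos (fun z => mul_pos (hW z) (hf z)) S x) (fib_sum_pos hW S x)

theorem favg_const {W f : Conf n → ℝ} {x z : Conf n} (hz : z ∈ fib S x) :
    favg S W f z = favg S W f x := by
  rw [favg, favg, fib_eq hz]

theorem favg_mul {W f : Conf n → ℝ} (hW : ∀ x, 0 < W x) (x : Conf n) :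
    ∑ z ∈ fib S x, W z * f z = favg S W f x * ∑ z ∈ fib S x, W z :=
  (div_mul_cancel₀ _ (fib_sum_pos hW S x).ne').symm

theorem mem_fib_flip {x z : Conf n} {i : Fin n} (hi : i ∉ S) :
    flipAt z i ∈ fib S x ↔ z ∈ fib S x := by
  simp only [mem_fib]
  refine forall₂_congr fun j hj => ?_
  rw [flipAt, Function.update_of_ne (fun h => hi (by rwa [h] at hj))]

/-- The fibre of `insert i S` and its flip make up the fibre of `S`. -/
theorem fib_insert_sum {i : Fin n} (hi : i ∉ S) (x : Conf n) (H : Conf n → ℝ) :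
    ∑ z ∈ fib S x, H z = ∑ z ∈ fib (insert i S) x, (H z + H (flipAt z i)) := by
  rw [sum_add_distrib, ← sum_filter_add_sum_filter_not (fib S x) (fun z => z i = x i)]
  congr 1
  · refine sum_congr ?_ fun _ _ => rfl
    ext z
    simp only [mem_filter, mem_fib, mem_insert, forall_eq_or_imp, and_comm]
  · refine (sum_nbij' (fun z => flipAt z i) (fun z => flipAt z i) ?_ ?_ ?_ ?_ ?_).symm
    · intro z hz
      simp only [mem_fib, mem_insert, forall_eq_or_imp] at hz
      simp only [mem_filter, (mem_fib_flip hi), mem_fib]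
      refine ⟨hz.2, ?_⟩
      rw [flipAt, Function.update_self, hz.1]
      cases x i <;> simp
    · intro z hz
      simp only [mem_filter, mem_fib] at hz
      simp only [mem_fib, mem_insert, forall_eq_or_imp]
      refine ⟨?_, fun j hj => ?_⟩
      · rw [flipAt, Function.update_self]
        revert hz
        cases z i <;> cases x i <;> simp
      · rw [flipAt, Function.update_of_ne (fun h => hi (by rwa [h] at hj))]
        exact hz.1 j hj
    · exact fun z _ => Ent.flip_flip z i
    · exact fun z _ => Ent.flip_flip z i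
    · exact fun z _ => rfl

theorem exp_lin_flip (b : Fin n → ℝ) (z : Conf n) (i : Fin n) :
    exp (Ent.lin b (flipAt z i)) = exp (-(2 * b i * spin (z i))) * exp (Ent.lin b z) := by
  rw [← exp_add]
  congr 1
  simp only [Ent.lin]
  rw [← add_sum_erase _ _ (mem_univ i), ← add_sum_erase _ (fun j => b j * spin (z j)) (mem_univ i),
    flipAt, Function.update_self]
  rw [sum_congr rfl fun j hj => by rw [Function.update_of_ne (ne_of_mem_erase hj)]]
  cases z i <;> simp [spin] <;> ring

/-- The means on a larger fibre as means of the pair means on a smaller one. -/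
theorem favg_insert {i : Fin n} (hi : i ∉ S) {c : ℝ} (hc : 0 < c) (b : Fin n → ℝ) (f : Conf n → ℝ)
    (x : Conf n) :
    favg S (fun z => c * exp (Ent.lin b z)) f x
      = favg (insert i S) (fun z => c * exp (Ent.lin b z))
          (Ent.pairAvg (fun z => c * exp (Ent.lin b z)) f i) x := by
  set W : Conf n → ℝ := fun z => c * exp (Ent.lin b z) with hW
  set κ := exp (-(2 * b i * spin (x i))) with hκ
  have hWp : ∀ z, 0 < W z := fun z => mul_pos hc (exp_pos _)
  have hfl : ∀ z ∈ fib (insert i S) x, W (flipAt z i) = κ * W z := fun z hz => by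
    simp only [hW, hκ, exp_lin_flip, mem_fib.1 hz i (mem_insert_self i S)]
    ring
  have hk : 0 < 1 + κ := by positivity
  rw [favg, favg, fib_insert_sum hi x fun z => W z * f z, fib_insert_sum hi x W]
  have e1 : ∑ z ∈ fib (insert i S) x, (W z + W (flipAt z i))
      = (1 + κ) * ∑ z ∈ fib (insert i S) x, W z := by
    rw [mul_sum]; exact sum_congr rfl fun z hz => by rw [hfl z hz]; ring
  have e2 : ∑ z ∈ fib (insert i S) x, (W z * f z + W (flipAt z i) * f (flipAt z i))
      = (1 + κ) * ∑ z ∈ fib (insert i S) x, W z * Ent.pairAvg W f i z := by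
    rw [mul_sum]
    refine sum_congr rfl fun z hz => ?_
    rw [Ent.pairAvg, hfl z hz, show W z + κ * W z = (1 + κ) * W z by ring]
    have := (hWp z).ne'
    field_simp
  rw [e1, e2, mul_div_mul_left _ _ hk.ne']

/-- **Tensorisation** on the free sites. -/
theorem fib_tens {c : ℝ} (hc : 0 < c) (b : Fin n → ℝ) {f : Conf n → ℝ} (hf : ∀ x, 0 < f x)
    (S : Finset (Fin n)) :
    ∑ x, c * exp (Ent.lin b x) * Ent.phi (f x) (favg S (fun z => c * exp (Ent.lin b z)) f x)
      ≤ ∑ i ∈ Sᶜ, Ent.entSite (fun z => c * exp (Ent.lin b z)) f i := by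
  set W : Conf n → ℝ := fun z => c * exp (Ent.lin b z) with hW
  have hWp : ∀ z, 0 < W z := fun z => mul_pos hc (exp_pos _)
  suffices h : ∀ F : Finset (Fin n), ∑ x, W x * Ent.phi (f x) (favg Fᶜ W f x) ≤ ∑ i ∈ F, Ent.entSite W f i by
    have := h Sᶜ
    rwa [compl_compl] at this
  intro F
  induction F using Finset.induction with
  | empty =>
    rw [sum_empty]
    refine le_of_eq (sum_eq_zero fun x _ => ?_)
    rw [favg, compl_empty, fib_univ, sum_singleton, sum_singleton, mul_div_cancel_left₀ _ (hWp x).ne']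
    simp [Ent.phi]
  | insert i F hi ih =>
    set T := (insert i F)ᶜ with hT
    have hiT : i ∉ T := by simp [hT]
    have hTF : insert i T = Fᶜ := by
      ext j
      by_cases hj : j = i
      · subst hj; simp [hi]
      · simp [hT, hj]
    have step : ∀ x, ∑ z ∈ fib Fᶜ x, W z * Ent.phi (f z) (favg T W f x)
        ≤ ∑ z ∈ fib Fᶜ x, W z * Ent.phi (f z) (favg Fᶜ W f z)
          + ∑ z ∈ fib Fᶜ x, W z * Ent.phi (f z) (Ent.pairAvg W f i z) := fun x => by
      rw [Ent.sum_phi_shift _ W f _ _ (favg_mul hWp x)]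
      refine add_le_add (le_of_eq (sum_congr rfl fun z hz => by rw [favg_const hz])) ?_
      refine Ent.phi_sum_le _ ⟨x, self_mem_fib _ x⟩ W f _ (fun z _ => hWp z) (fun z _ => hf z)
        (fun z _ => Ent.pairAvg_pos hWp hf i z) (favg_mul hWp x) ?_
      rw [hW, favg_insert hiT hc b f x, hTF, ← hW]
      exact favg_mul hWp x
    calc ∑ x, W x * Ent.phi (f x) (favg T W f x)
        = ∑ x, W x / (∑ w ∈ fib Fᶜ x, W w)
            * ∑ z ∈ fib Fᶜ x, W z * Ent.phi (f z) (favg T W f x) := by
          rw [← fib_split (S := Fᶜ) hWp fun z => W z * Ent.phi (f z) (favg T W f z)]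
          refine sum_congr rfl fun x _ => ?_
          congr 1
          refine sum_congr rfl fun z hz => ?_
          rw [favg_const (S := T) (mem_fib.2 fun j hj => mem_fib.1 hz j (hTF ▸ mem_insert_of_mem hj))]
      _ ≤ ∑ x, W x / (∑ w ∈ fib Fᶜ x, W w)
            * (∑ z ∈ fib Fᶜ x, W z * Ent.phi (f z) (favg Fᶜ W f z)
              + ∑ z ∈ fib Fᶜ x, W z * Ent.phi (f z) (Ent.pairAvg W f i z)) :=
          sum_le_sum fun x _ => mul_le_mul_of_nonneg_left (step x)
            (div_pos (hWp x) (fib_sum_pos hWp _ x)).le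
      _ = ∑ x, W x * Ent.phi (f x) (favg Fᶜ W f x) + Ent.entSite W f i := by
          simp only [mul_add, sum_add_distrib]
          rw [fib_split hWp, fib_split hWp]
          rfl
      _ ≤ ∑ j ∈ insert i F, Ent.entSite W f j := by rw [sum_insert hi]; linarith

end Vale.Agent.P150.Fast
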