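import Vale.Agent.P150.Fast.Chan
import Vale.Agent.P150.Fast.FibTens

/-!
The cost of one step of the alternation is at most the single-site entropies: proof of
`StepKLStmt`. Used for P150.
-/

open MeasureTheory Real Finset
open scoped Matrix

namespace Vale.Agent.P150.Fast

variable {n : ℕ} {ν : Conf n → ℝ} {s : Step n}

theorem hasDerivAt_tanh' (y : ℝ) : HasDerivAt tanh (1 - tanh y ^ 2) y := by
  have h := (hasDerivAt_sinh y).div (hasDerivAt_cosh y) (cosh_pos y).ne'
  rw [show tanh = fun z => sinh z / cosh z from funext tanh_eq_sinh_div_cosh]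
  refine h.congr_deriv ?_
  have := (cosh_pos y).ne'
  field_simp

theorem log_cosh_shift_le (y a : ℝ) :
    log (cosh (a + y)) - log (cosh y) ≤ a * tanh y + a ^ 2 / 2 := by
  set g : ℝ → ℝ := fun t => t ^ 2 / 2 + t * tanh y - log (cosh (t + y)) + log (cosh y) with hg
  have d1 : ∀ t, HasDerivAt g (t + tanh y - tanh (t + y)) t := fun t => by
    refine (((((hasDerivAt_pow 2 t).div_const 2).add ((hasDerivAt_id' t).mul_const (tanh y))).sub
      ((((hasDerivAt_id' t).add_const y).cosh).log (cosh_pos _).ne'))).add_const _ |>.congr_deriv ?_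
    rw [tanh_eq_sinh_div_cosh (t + y)]
    push_cast
    ring
  have d2 : ∀ t, HasDerivAt (fun u => u + tanh y - tanh (u + y)) (tanh (t + y) ^ 2) t := fun t => by
    refine (((hasDerivAt_id' t).add_const (tanh y)).sub
      ((hasDerivAt_tanh' (t + y)).comp t ((hasDerivAt_id' t).add_const y))).congr_deriv ?_
    ring
  have hmono : Monotone (fun u => u + tanh y - tanh (u + y)) :=
    monotone_of_hasDerivAt_nonneg d2 fun t => sq_nonneg _
  have h0 : g 0 = 0 := by simp [hg]
  suffices h : 0 ≤ g a by simp only [hg] at h; linarith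
  rcases le_total 0 a with ha | ha
  · rw [← h0]
    exact monotoneOn_of_hasDerivWithinAt_nonneg (convex_Ici 0)
      (fun t _ => (d1 t).continuousAt.continuousWithinAt) (fun t _ => (d1 t).hasDerivWithinAt)
      (fun t ht => by simpa using hmono (interior_subset ht : t ∈ Set.Ici (0 : ℝ)))
      Set.self_mem_Ici ha ha
  · rw [← h0]
    exact antitoneOn_of_hasDerivWithinAt_nonpos (convex_Iic 0)
      (fun t _ => (d1 t).continuousAt.continuousWithinAt) (fun t _ => (d1 t).hasDerivWithinAt)
      (fun t ht => by simpa using hmono (interior_subset ht : t ∈ Set.Iic (0 : ℝ)))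
      ha Set.self_mem_Iic ha

theorem two_point (d u : ℝ) :
    (1 + tanh u) / 2 * exp d + (1 - tanh u) / 2 * exp (-d) = cosh (d + u) / cosh u := by
  have := (cosh_pos u).ne'
  rw [cosh_add, tanh_eq_sinh_div_cosh, cosh_eq d, sinh_eq d]
  field_simp
  ring

/-- The finite Gibbs variational inequality. -/
theorem gibbs_fin {ι : Type*} [Fintype ι] (R Q a : ι → ℝ) (hR : ∀ z, 0 ≤ R z) (hQ : ∀ z, 0 ≤ Q z)
    (hRQ : ∀ z, 0 < R z → 0 < Q z) (h1 : ∑ z, R z = 1) :
    ∑ z, R z * a z ≤ ∑ z, R z * log (R z / Q z) + log (∑ z, Q z * exp (a z)) := by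
  set Z := ∑ z, Q z * exp (a z) with hZ
  have hZp : 0 < Z := by
    obtain ⟨z, -, hz⟩ : ∃ z ∈ univ, R z ≠ 0 := exists_ne_zero_of_sum_ne_zero (h1 ▸ one_ne_zero)
    exact (mul_pos (hRQ z ((hR z).lt_of_ne (Ne.symm hz))) (exp_pos _)).trans_le
      (single_le_sum (f := fun z => Q z * exp (a z))
        (fun w _ => mul_nonneg (hQ w) (exp_pos _).le) (mem_univ z))
  have hpt : ∀ z, R z * a z ≤ R z * log (R z / Q z) + R z * log Z + (Q z * exp (a z) / Z - R z) := by
    intro z
    rcases (hR z).eq_or_lt with h | h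
    · rw [← h]; simp only [zero_mul, zero_add, sub_zero]
      exact div_nonneg (mul_nonneg (hQ z) (exp_pos _).le) hZp.le
    · have hq := hRQ z h
      have hl := log_le_sub_one_of_pos (x := Q z * exp (a z) / (Z * R z)) (by positivity)
      rw [log_div (by positivity) (by positivity), log_mul hq.ne' (exp_pos _).ne', log_exp,
        log_mul hZp.ne' h.ne'] at hl
      have hl' := mul_le_mul_of_nonneg_left hl h.le
      rw [log_div h.ne' hq.ne']
      have e : R z * (Q z * exp (a z) / (Z * R z) - 1) = Q z * exp (a z) / Z - R z := by field_simp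
      linarith [hl', e]
  refine (sum_le_sum fun z _ => hpt z).trans_eq ?_
  rw [sum_add_distrib, sum_add_distrib, sum_sub_distrib, ← sum_div, ← sum_mul, ← hZ, h1, one_mul,
    div_self hZp.ne', sub_self, add_zero]

theorem postS_sum {A : Matrix (Fin n) (Fin n) ℝ} (hA : A.PosDef) (hν : ∀ x, 0 < ν x)
    (S : Finset (Fin n)) (x : Conf n) (y : Fin n → ℝ) : ∑ z, postS A ν S x y z = 1 := by
  have hp : ∀ z, 0 < ν z * chan A z y := fun z => mul_pos (hν z) (chanV_pos hA _ _)
  simp only [postS, sum_ite_mem, univ_inter, ← sum_div]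
  exact div_self (sum_pos (fun z _ => hp z) ⟨x, self_mem_fib S x⟩).ne'

theorem postS_nonneg {A : Matrix (Fin n) (Fin n) ℝ} (hA : A.PosDef) (hν : ∀ x, 0 < ν x)
    (S : Finset (Fin n)) (x : Conf n) (y : Fin n → ℝ) (z : Conf n) : 0 ≤ postS A ν S x y z := by
  have hp : ∀ z, 0 < ν z * chan A z y := fun z => mul_pos (hν z) (chanV_pos hA _ _)
  unfold postS
  split
  · exact div_nonneg (hp z).le (sum_nonneg fun w _ => (hp w).le)
  · exact le_rfl

theorem postS_supp {A : Matrix (Fin n) (Fin n) ℝ} {S : Finset (Fin n)} {x z : Conf n}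
    {y : Fin n → ℝ} (h : postS A ν S x y z ≠ 0) : z ∈ fib S x := by
  by_contra hz
  exact h (if_neg hz)

theorem measurable_postS (A : Matrix (Fin n) (Fin n) ℝ) (S : Finset (Fin n)) (x z : Conf n) :
    Measurable fun y => postS A ν S x y z := by
  have h : ∀ w, Measurable fun y => chan A w y := fun w => (continuous_chanV A _).measurable
  unfold postS
  split <;> fun_prop

theorem measurable_prodS (h : Fin n → ℝ) (S : Finset (Fin n)) (x z : Conf n) :
    Measurable fun y : Fin n → ℝ => prodS S x (y + h) z := by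
  unfold prodS sig
  split
  · simp only [Pi.add_apply]; fun_prop
  · exact measurable_const

/-- The cost at a state and a field is the entropy of a product weight. -/
theorem sum_klAt (hν : ∀ x, 0 < ν x) (hA : s.A.PosDef) (y : Fin n → ℝ) :
    ∑ x, ν x * chan s.A x y * klAt ν s x y
      = ∑ x, Ent.coupW s.A s.h x * chan s.A x y * Ent.phi (ν x / Ent.coupW s.A s.h x)
          (favg s.S (fun z => Ent.coupW s.A s.h z * chan s.A z y)
            (fun z => ν z / Ent.coupW s.A s.h z) x) := by
  set W : Conf n → ℝ := fun z => Ent.coupW s.A s.h z * chan s.A z y with hW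
  set f : Conf n → ℝ := fun z => ν z / Ent.coupW s.A s.h z with hf
  have hc : ∀ z, 0 < Ent.coupW s.A s.h z := fun z => exp_pos _
  have hWp : ∀ z, 0 < W z := fun z => mul_pos (hc z) (chanV_pos hA _ _)
  have hfp : ∀ z, 0 < f z := fun z => div_pos (hν z) (hc z)
  have hWf : ∀ z, W z * f z = ν z * chan s.A z y := fun z => by
    simp only [hW, hf]; field_simp [(hc z).ne']
  have hWfp : ∀ z, 0 < W z * f z := fun z => mul_pos (hWp z) (hfp z)
  have hkl : ∀ x, klAt ν s x y = 1 / (∑ z ∈ fib s.S x, W z * f z)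
      * ∑ z ∈ fib s.S x, W z * f z * log (f z / favg s.S W f z) := fun x => by
    rw [klAt, mul_sum, ← sum_subset (subset_univ (fib s.S x)) fun z _ hz => by
      rw [pR, postS, if_neg hz, zero_mul]]
    refine sum_congr rfl fun z hz => ?_
    have hq : prodS s.S x (y + s.h) z = W z / ∑ w ∈ fib s.S x, W w := by
      simp only [hW, coupW_chan hA, ← mul_sum]
      rw [mul_div_mul_left _ _ (chanV_pos hA 0 y).ne', prodS_tilt hz]
    rw [pR, qR, postS, if_pos hz, hq]
    simp only [← hWf]
    rw [favg_const hz, favg]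
    have h1 := (fib_sum_pos hWp s.S x).ne'
    have h2 := (fib_sum_pos hWfp s.S x).ne'
    rw [show W z * f z / (∑ w ∈ fib s.S x, W w * f w) / (W z / ∑ w ∈ fib s.S x, W w)
      = f z / ((∑ w ∈ fib s.S x, W w * f w) / ∑ w ∈ fib s.S x, W w) by
        field_simp [(hWp z).ne']]
    ring
  calc ∑ x, ν x * chan s.A x y * klAt ν s x y
      = ∑ x, W x * f x / (∑ z ∈ fib s.S x, W z * f z)
          * ∑ z ∈ fib s.S x, W z * f z * log (f z / favg s.S W f z) :=
        sum_congr rfl fun x _ => by rw [hkl, ← hWf]; ring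
    _ = ∑ x, W x * f x * log (f x / favg s.S W f x) := fib_split hWfp _
    _ = _ := by
        have hz : ∑ x, W x * favg s.S W f x = ∑ x, W x * f x := by
          rw [← fib_split (S := s.S) hWp fun z => W z * f z]
          refine sum_congr rfl fun x _ => ?_
          rw [favg]
          ring
        have e : ∀ x, W x * Ent.phi (f x) (favg s.S W f x)
            = W x * f x * log (f x / favg s.S W f x) + (W x * favg s.S W f x - W x * f x) := fun x => by
          rw [log_div (hfp x).ne' (favg_pos hWp hfp _ x).ne', Ent.phi]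
          ring
        rw [sum_congr rfl fun x _ => e x, sum_add_distrib, sum_sub_distrib, hz, sub_self, add_zero]

/-- The bound at one field, before integration. -/
theorem sum_klAt_le (hν : ∀ x, 0 < ν x) (hA : s.A.PosDef) (y : Fin n → ℝ) :
    0 ≤ ∑ x, ν x * chan s.A x y * klAt ν s x y ∧
    ∑ x, ν x * chan s.A x y * klAt ν s x y
      ≤ ∑ i ∈ s.Sᶜ, ∑ x, chan s.A x y * (Ent.coupW s.A s.h x
          * Ent.phi (ν x / Ent.coupW s.A s.h x)
            (Ent.pairAvg (Ent.coupW s.A s.h) (fun z => ν z / Ent.coupW s.A s.h z) i x)) := by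
  rw [sum_klAt hν hA]
  set f : Conf n → ℝ := fun z => ν z / Ent.coupW s.A s.h z with hf
  have hc : ∀ z, 0 < Ent.coupW s.A s.h z := fun z => exp_pos _
  have hfp : ∀ z, 0 < f z := fun z => div_pos (hν z) (hc z)
  have hWp : ∀ z, 0 < Ent.coupW s.A s.h z * chan s.A z y := fun z => mul_pos (hc z) (chanV_pos hA _ _)
  refine ⟨sum_nonneg fun x _ => mul_nonneg (hWp x).le
    (Ent.phi_nonneg (hfp x) (favg_pos hWp hfp _ x)), ?_⟩
  have e : (fun z => Ent.coupW s.A s.h z * chan s.A z y)
      = fun z => chanV s.A 0 y * exp (Ent.lin (y + s.h) z) := funext fun z => coupW_chan hA _ _ _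
  have h := fib_tens (chanV_pos hA 0 y) (y + s.h) hfp s.S
  rw [← e] at h
  simp only [← coupW_chan hA] at h
  refine h.trans (sum_le_sum fun i _ => ?_)
  refine (Ent.entSite_le hWp hfp i (Ent.pairAvg_pos hc hfp i) (Ent.pairAvg_flip _ f i)).trans_eq ?_
  exact sum_congr rfl fun x _ => by ring

theorem klAt_nonneg (hν : ∀ x, 0 < ν x) (hA : s.A.PosDef) (x : Conf n) (y : Fin n → ℝ) :
    0 ≤ klAt ν s x y := by
  have h := gibbs_fin (pR ν s x y) (qR s x y) (fun _ => 0) (postS_nonneg hA hν _ x y)
    (prodS_nonneg _ x _) (fun z hz => prodS_pos (postS_supp hz.ne') _) (postS_sum hA hν _ x y)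
  simp only [mul_zero, sum_const_zero, exp_zero, mul_one] at h
  have hq : ∑ z, qR s x y z = 1 := sum_prodS _ _ _
  rw [hq, log_one, add_zero] at h
  exact h

/-- Squared errors of the means, by the relative entropy. -/
theorem sq_le_klAt (hν : ∀ x, 0 < ν x) (hA : s.A.PosDef) (x : Conf n) (y : Fin n → ℝ) :
    ∑ i ∈ s.Sᶜ, (∑ z, pR ν s x y z * spin (z i) - tanh (y i + s.h i)) ^ 2 ≤ 2 * klAt ν s x y := by
  set Δ : Fin n → ℝ := fun i =>
    if i ∈ s.S then 0 else ∑ z, pR ν s x y z * spin (z i) - tanh (y i + s.h i) with hΔ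
  have hout : ∀ i ∈ s.Sᶜ, Δ i = ∑ z, pR ν s x y z * spin (z i) - tanh (y i + s.h i) :=
    fun i hi => if_neg (mem_compl.1 hi)
  have h := gibbs_fin (pR ν s x y) (qR s x y) (fun z => Ent.lin Δ z) (postS_nonneg hA hν _ x y)
    (prodS_nonneg _ x _) (fun z hz => prodS_pos (postS_supp hz.ne') _) (postS_sum hA hν _ x y)
  set m := meanS s.S x (y + s.h) with hm
  have hz : ∑ z, qR s x y z * exp (Ent.lin Δ z) ≤ exp (∑ i, (Δ i * m i + Δ i ^ 2 / 2)) := by
    simp only [qR, prodS_eq, ← hm, Ent.lin, exp_sum]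
    rw [sum_prodM_mul m fun i b => exp (Δ i * spin b)]
    have hnn : ∀ i, 0 ≤ (1 + m i) / 2 * exp (Δ i * spin true)
        + (1 - m i) / 2 * exp (Δ i * spin false) := fun i => by
      have h := abs_le.1 (abs_meanS s.S x (y + s.h) i)
      rw [← hm] at h
      exact add_nonneg (mul_nonneg (by linarith [h.1]) (exp_pos _).le)
        (mul_nonneg (by linarith [h.2]) (exp_pos _).le)
    refine prod_le_prod (fun i _ => hnn i) fun i _ => ?_
    by_cases hi : i ∈ s.S
    · simp only [hΔ, if_pos hi]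
      norm_num
      exact le_of_eq (by ring)
    · have hb := log_cosh_shift_le (y i + s.h i) (Δ i)
      have e : (1 + m i) / 2 * exp (Δ i * spin true) + (1 - m i) / 2 * exp (Δ i * spin false)
          = cosh (Δ i + (y i + s.h i)) / cosh (y i + s.h i) := by
        simp only [hm, meanS, if_neg hi, Pi.add_apply, spin, if_true, Bool.false_eq_true, if_false,
          mul_one, mul_neg]
        exact two_point (Δ i) _
      rw [e, ← exp_log (div_pos (cosh_pos _) (cosh_pos _)), exp_le_exp,
        log_div (cosh_pos _).ne' (cosh_pos _).ne']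
      simpa [hm, meanS, hi] using hb
  have hl : log (∑ z, qR s x y z * exp (Ent.lin Δ z)) ≤ ∑ i, (Δ i * m i + Δ i ^ 2 / 2) := by
    refine (log_le_log ?_ hz).trans_eq (log_exp _)
    exact (mul_pos (prodS_pos (self_mem_fib _ x) _) (exp_pos _)).trans_le
      (single_le_sum (f := fun z => qR s x y z * exp (Ent.lin Δ z))
        (fun w _ => mul_nonneg (prodS_nonneg _ x _ w) (exp_pos _).le) (mem_univ x))
  have hlhs : ∑ z, pR ν s x y z * Ent.lin Δ z = ∑ i, Δ i * ∑ z, pR ν s x y z * spin (z i) := by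
    simp only [Ent.lin, mul_sum]
    rw [sum_comm]
    exact sum_congr rfl fun i _ => sum_congr rfl fun z _ => by ring
  have key : ∑ i, Δ i ^ 2 / 2 = ∑ i, Δ i * ∑ z, pR ν s x y z * spin (z i)
      - ∑ i, (Δ i * m i + Δ i ^ 2 / 2) := by
    rw [← sum_sub_distrib]
    refine sum_congr rfl fun i _ => ?_
    by_cases hi : i ∈ s.S
    · simp [hΔ, hi]
    · rw [hout i (mem_compl.2 hi), hm, meanS, if_neg hi, Pi.add_apply]
      ring
  have hs : ∑ i, Δ i ^ 2 = ∑ i ∈ s.Sᶜ, Δ i ^ 2 :=
    (sum_subset (subset_univ _) fun i _ hi => by simp [hΔ, not_not.1 (mt mem_compl.2 hi)]).symm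
  rw [sum_congr rfl fun i hi => by rw [← hout i hi], ← hs]
  rw [← sum_div, ← hlhs] at key
  simp only [klAt]
  linarith

/-- **The cost of one step.** -/
theorem stepKL : StepKLStmt := by
  intro n ν s hν _ hA
  set f : Conf n → ℝ := fun z => ν z / Ent.coupW s.A s.h z with hf
  set c : Fin n → Conf n → ℝ := fun i x => Ent.coupW s.A s.h x * Ent.phi (f x)
    (Ent.pairAvg (Ent.coupW s.A s.h) f i x) with hc
  have hpm := measurable_postS (ν := ν) s.A s.S
  have hqm := measurable_prodS s.h s.S
  have hch : ∀ x, Measurable fun y => chan s.A x y := fun x => (continuous_chanV s.A _).measurable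
  have mkl : Measurable fun y => ∑ x, ν x * chan s.A x y * klAt ν s x y := by
    unfold klAt pR qR
    fun_prop
  have hI : ∀ i x, Integrable fun y => chan s.A x y * c i x := fun i x =>
    (chanV_integrable hA (s.A *ᵥ vec x)).mul_const _
  have hB : Integrable fun y => ∑ i ∈ s.Sᶜ, ∑ x, chan s.A x y * c i x :=
    integrable_finsetSum _ fun i _ => integrable_finsetSum _ fun x _ => hI i x
  have hbd := fun y => sum_klAt_le (s := s) hν hA y
  have i1 : Integrable fun y => ∑ x, ν x * chan s.A x y * klAt ν s x y :=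
    hB.mono' mkl.aestronglyMeasurable (ae_of_all _ fun y => by
      rw [Real.norm_eq_abs, abs_of_nonneg (hbd y).1]; exact (hbd y).2)
  have b1 : ∫ y, ∑ x, ν x * chan s.A x y * klAt ν s x y ≤ freeD ν s := by
    refine (integral_mono i1 hB fun y => (hbd y).2).trans_eq ?_
    rw [integral_finsetSum _ fun i _ => integrable_finsetSum _ fun x _ => hI i x, freeD]
    refine sum_congr rfl fun i _ => ?_
    rw [integral_finsetSum _ fun x _ => hI i x, Ent.entSite]
    refine sum_congr rfl fun x _ => ?_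
    rw [integral_mul_const, chan_eq, chanV_mass hA, one_mul, hc]
  have hsq : ∀ y, ∑ x, ν x * chan s.A x y
      * ∑ i ∈ s.Sᶜ, (∑ z, pR ν s x y z * spin (z i) - tanh (y i + s.h i)) ^ 2
      ≤ 2 * ∑ x, ν x * chan s.A x y * klAt ν s x y := fun y => by
    rw [mul_sum]
    refine sum_le_sum fun x _ => ?_
    refine (mul_le_mul_of_nonneg_left (sq_le_klAt hν hA x y)
      (mul_pos (hν x) (chanV_pos hA _ _)).le).trans_eq ?_
    rw [chan_eq]
    ring
  have msq : Measurable fun y => ∑ x, ν x * chan s.A x y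
      * ∑ i ∈ s.Sᶜ, (∑ z, pR ν s x y z * spin (z i) - tanh (y i + s.h i)) ^ 2 := by
    have ht : Measurable tanh :=
      (continuous_iff_continuousAt.2 fun u => (hasDerivAt_tanh' u).continuousAt).measurable
    unfold pR
    fun_prop
  have i2 := (i1.const_mul 2).mono' msq.aestronglyMeasurable (ae_of_all _ fun y => by
    rw [Real.norm_eq_abs, abs_of_nonneg]
    · exact hsq y
    · exact sum_nonneg fun x _ => mul_nonneg (mul_pos (hν x) (chanV_pos hA _ _)).le
        (sum_nonneg fun i _ => sq_nonneg _))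
  refine ⟨i1, b1, i2, (integral_mono i2 (i1.const_mul 2) hsq).trans ?_⟩
  rw [integral_const_mul]
  linarith

end Vale.Agent.P150.Fast
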