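import Mathlib
import Vale.Agent.P150.Fast.Defs
import Vale.Agent.P150.Ent.Decay

/-!
Entropy along the heat-bath semigroup under the two hypotheses of the assembly (P150):
entropy becomes small linearly in bounded time, and decays exponentially up to an additive error.
-/

open Real Finset

namespace Vale.Agent.P150.Fast

open Ent

variable {n : ℕ} {β : ℝ} {g : Pair n → ℝ}

theorem genOp_const : genOp n β g (fun _ => (1 : ℝ)) = 0 := by
  funext x; simp [genOp_apply, generator]

theorem sum_mu_gen (f : Conf n → ℝ) : ∑ x, mu n β g x * genOp n β g f x = 0 := by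
  have h := gen_symm (β := β) (g := g) (fun _ => 1) f
  simpa [ip, genOp_const] using h

theorem semigroup_upper {t : ℝ} (ht : 0 ≤ t) {f : Conf n → ℝ} {M : ℝ} (hf : ∀ x, f x ≤ M)
    (x : Conf n) : semigroup n β g t f x ≤ M := by
  have h := semigroup_lower (β := β) (g := g) ht (f := -f) (δ := -M)
    (fun y => neg_le_neg (hf y)) x
  simp only [map_neg, Pi.neg_apply] at h
  linarith

/-- The entropy decreases at a rate at least the total single-site entropy. -/
theorem ent_deriv {f : Conf n → ℝ} {δ : ℝ} (hδ : 0 < δ) (hf : ∀ x, δ ≤ f x)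
    {s : ℝ} (hs : 0 ≤ s) :
    ∃ D, HasDerivAt (fun r => ∑ x, mu n β g x *
        (semigroup n β g r f x * log (semigroup n β g r f x))) D s ∧
      entTot (mu n β g) (semigroup n β g s f) ≤ -D := by
  set P : ℝ → Conf n → ℝ := fun r => semigroup n β g r f with hP
  have hp : ∀ x, 0 < P s x := fun x => hδ.trans_le (semigroup_lower hs hf x)
  refine ⟨∑ x, mu n β g x * ((log (P s x) + 1) * genOp n β g (P s) x), ?_, ?_⟩
  · refine HasDerivAt.fun_sum fun x _ => ?_
    have h1 := (hasDerivAt_mul_log (hp x).ne').comp s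
      (hasDerivAt_pi.1 (semigroup_deriv' f s) x)
    exact h1.const_mul _
  · have e : ∑ x, mu n β g x * ((log (P s x) + 1) * genOp n β g (P s) x)
        = ∑ x, mu n β g x * log (P s x) * genOp n β g (P s) x
          + ∑ x, mu n β g x * genOp n β g (P s) x := by
      rw [← sum_add_distrib]
      exact sum_congr rfl fun x _ => by ring
    rw [e, sum_mu_gen, add_zero]
    simp only [genOp_apply, generator, mul_sum]
    rw [sum_comm, ← sum_neg_distrib]
    refine sum_le_sum fun i _ => ?_
    rw [site_form (fun x => log (P s x)) (P s) i]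
    exact entSite_le_form hp i

theorem semigroup_mass {f : Conf n → ℝ} (hm : ∑ x, mu n β g x * f x = 1) (t : ℝ) :
    ∑ x, mu n β g x * semigroup n β g t f x = 1 := by rw [semigroup_mean, hm]

theorem ent_antitone {f : Conf n → ℝ} {δ : ℝ} (hδ : 0 < δ) (hf : ∀ x, δ ≤ f x)
    (hm : ∑ x, mu n β g x * f x = 1) {s t : ℝ} (hs : 0 ≤ s) (hst : s ≤ t) :
    ent (mu n β g) (semigroup n β g t f) ≤ ent (mu n β g) (semigroup n β g s f) := by
  rw [ent_mu (semigroup_mass hm t), ent_mu (semigroup_mass hm s)]
  refine antitoneOn_of_hasDerivWithinAt_nonpos (convex_Ici (0 : ℝ))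
    (f := fun r => ∑ x, mu n β g x *
      (semigroup n β g r f x * log (semigroup n β g r f x)))
    (f' := fun r => deriv (fun r => ∑ x, mu n β g x *
      (semigroup n β g r f x * log (semigroup n β g r f x))) r)
    (fun r hr => ?_) (fun r hr => ?_) (fun r hr => ?_) hs (le_trans hs hst) hst
  · obtain ⟨D, hD, -⟩ := ent_deriv (β := β) (g := g) hδ hf (s := r) hr
    exact hD.continuousAt.continuousWithinAt
  · obtain ⟨D, hD, -⟩ := ent_deriv (β := β) (g := g) hδ hf (s := r) (interior_subset hr)
    rw [hD.deriv]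
    exact hD.hasDerivWithinAt
  · have hr0 : 0 ≤ r := interior_subset hr
    obtain ⟨D, hD, hle⟩ := ent_deriv (β := β) (g := g) hδ hf (s := r) hr0
    rw [hD.deriv]
    have : 0 ≤ entTot (mu n β g) (semigroup n β g r f) := sum_nonneg fun i _ =>
      entSite_nonneg (mu_pos g) (fun x => hδ.trans_le (semigroup_lower hr0 hf x)) i
    linarith

/-- If small total single-site entropy forces small entropy, entropy is small after time `H / a`. -/
theorem ent_hit {a b H : ℝ} (ha : 0 < a) (hb : 0 ≤ b)
    (hP : ∀ u : Conf n → ℝ, (∀ x, 0 < u x) → ∑ x, mu n β g x * u x = 1 →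
      entTot (mu n β g) u ≤ a → ent (mu n β g) u ≤ b)
    {f : Conf n → ℝ} {δ : ℝ} (hδ : 0 < δ) (hf : ∀ x, δ ≤ f x)
    (hm : ∑ x, mu n β g x * f x = 1) (hH : ent (mu n β g) f ≤ H) {t : ℝ} (ht : H / a ≤ t)
    (ht0 : 0 ≤ t) :
    ent (mu n β g) (semigroup n β g t f) ≤ b := by
  by_contra hcon
  rw [not_le] at hcon
  set Φ : ℝ → ℝ := fun r => ∑ x, mu n β g x *
      (semigroup n β g r f x * log (semigroup n β g r f x)) with hΦ
  have hbig : ∀ r, 0 ≤ r → r ≤ t → a < entTot (mu n β g) (semigroup n β g r f) := by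
    intro r hr hrt
    by_contra hc
    have := hP _ (fun x => hδ.trans_le (semigroup_lower hr hf x)) (semigroup_mass hm r)
      (not_lt.1 hc)
    linarith [ent_antitone hδ hf hm hr hrt]
  have hanti : Φ t + t * a ≤ Φ 0 + 0 * a :=
    antitoneOn_of_hasDerivWithinAt_nonpos (convex_Icc (0 : ℝ) t) (f := fun r => Φ r + r * a)
      (f' := fun r => deriv Φ r + a)
      (fun r hr => by
        obtain ⟨D, hD, -⟩ := ent_deriv (β := β) (g := g) hδ hf (s := r) hr.1
        exact (hD.continuousAt.add (continuousAt_id.mul continuousAt_const)).continuousWithinAt)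
      (fun r hr => by
        obtain ⟨D, hD, -⟩ := ent_deriv (β := β) (g := g) hδ hf (s := r) (interior_subset hr).1
        rw [hD.deriv]
        exact ((hD.add (by simpa using (hasDerivAt_id' r).mul_const a)).hasDerivWithinAt))
      (fun r hr => by
        have hr' := interior_subset hr
        obtain ⟨D, hD, hle⟩ := ent_deriv (β := β) (g := g) hδ hf (s := r) hr'.1
        rw [hD.deriv]
        linarith [hbig r hr'.1 hr'.2])
      (Set.left_mem_Icc.2 ht0) (Set.right_mem_Icc.2 ht0) ht0
  have h0 : Φ 0 = ent (mu n β g) f := by simp [hΦ, semigroup_zero, ent_mu hm]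
  have hte : Φ t = ent (mu n β g) (semigroup n β g t f) := (ent_mu (semigroup_mass hm t)).symm
  rw [div_le_iff₀ ha] at ht
  linarith

/-- Exponential decay up to an additive error. -/
theorem ent_decay_add {C e : ℝ} (hC : 0 < C) {f : Conf n → ℝ} {δ : ℝ} (hδ : 0 < δ)
    (hf : ∀ x, δ ≤ f x) (hm : ∑ x, mu n β g x * f x = 1)
    (hH : ∀ s, 0 ≤ s → ent (mu n β g) (semigroup n β g s f)
      ≤ C * entTot (mu n β g) (semigroup n β g s f) + e)
    (he : 0 ≤ e) {t : ℝ} (ht : 0 ≤ t) :
    ent (mu n β g) (semigroup n β g t f) ≤ exp (-(t / C)) * ent (mu n β g) f + e := by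
  set Φ : ℝ → ℝ := fun r => ∑ x, mu n β g x *
      (semigroup n β g r f x * log (semigroup n β g r f x)) with hΦ
  have hd : ∀ r, 0 ≤ r → HasDerivAt (fun r => exp (r / C) * (Φ r - e))
      (exp (r / C) * (1 / C) * (Φ r - e) + exp (r / C) * deriv Φ r) r := fun r hr => by
    obtain ⟨D, hD, -⟩ := ent_deriv (β := β) (g := g) hδ hf (s := r) hr
    rw [hD.deriv]
    exact (((hasDerivAt_id' r).div_const C).exp).mul (hD.sub_const e)
  have hanti : exp (t / C) * (Φ t - e) ≤ exp (0 / C) * (Φ 0 - e) :=
    antitoneOn_of_hasDerivWithinAt_nonpos (convex_Ici (0 : ℝ))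
      (f := fun r => exp (r / C) * (Φ r - e))
      (fun r hr => (hd r hr).continuousAt.continuousWithinAt)
      (fun r hr => (hd r (interior_subset hr)).hasDerivWithinAt)
      (fun r hr => by
        have hr0 : 0 ≤ r := interior_subset hr
        obtain ⟨D, hD, hle⟩ := ent_deriv (β := β) (g := g) hδ hf (s := r) hr0
        rw [hD.deriv]
        have h1 := hH r hr0
        rw [ent_mu (semigroup_mass hm r)] at h1
        have h2 : 1 / C * (Φ r - e) + D ≤ 0 := by
          rw [one_div_mul_eq_div, ← le_neg_iff_add_nonpos_right, div_le_iff₀ hC]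
          have := mul_le_mul_of_nonneg_left hle hC.le
          change _ ≤ _
          simp only [hΦ]
          nlinarith
        have e1 : exp (r / C) * (1 / C) * (Φ r - e) + exp (r / C) * D
            = exp (r / C) * (1 / C * (Φ r - e) + D) := by ring
        rw [e1]
        exact mul_nonpos_iff.2 (Or.inl ⟨(exp_pos _).le, h2⟩))
      Set.self_mem_Ici (Set.mem_Ici.2 ht) ht
  have h0 : Φ 0 = ent (mu n β g) f := by simp [hΦ, semigroup_zero, ent_mu hm]
  rw [zero_div, exp_zero, one_mul, h0] at hanti
  rw [ent_mu (semigroup_mass hm t), exp_neg, ← sub_le_iff_le_add, ← div_eq_inv_mul,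
    le_div_iff₀ (exp_pos _), mul_comm]
  linarith

/-- Mass above a level is controlled by entropy. -/
theorem mass_above {u : Conf n → ℝ} (hu : ∀ x, 0 < u x) (hm : ∑ x, mu n β g x * u x = 1)
    {M : ℝ} (hM : 1 < log M) (hM0 : 0 < M) :
    ∑ x, mu n β g x * (u x - min (u x) M) ≤ ent (mu n β g) u / (log M - 1) := by
  rw [le_div_iff₀ (by linarith), sum_mul]
  have ha : avg (mu n β g) u = 1 := by rw [avg, hm, mass_mu, div_one]
  rw [ent, ha]
  refine sum_le_sum fun x _ => ?_
  rw [mul_assoc]
  refine mul_le_mul_of_nonneg_left ?_ (mu_pos g x).le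
  rcases le_total (u x) M with h | h
  · rw [min_eq_left h, sub_self, zero_mul]
    exact phi_nonneg (hu x) one_pos
  · rw [min_eq_right h]
    have hl := log_le_log hM0 h
    have h1 := mul_le_mul_of_nonneg_left hl (hu x).le
    simp only [phi, log_one, mul_zero, sub_zero]
    nlinarith

/-- The lazy point start at `x`. -/
noncomputable def lazy (n : ℕ) (β : ℝ) (g : Pair n → ℝ) (x : Conf n) : Conf n → ℝ :=
  (1 / 2 : ℝ) • Pi.single x (mu n β g x)⁻¹ + (1 / 2 : ℝ) • fun _ => (1 : ℝ)

theorem lazy_ge (x y : Conf n) : (1 / 2 : ℝ) ≤ lazy n β g x y := by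
  simp only [lazy, Pi.add_apply, Pi.smul_apply, smul_eq_mul]
  by_cases h : y = x <;> simp [h, (mu_pos (β := β) g x).le]

theorem lazy_sum (x : Conf n) (h : Conf n → ℝ) :
    ∑ y, mu n β g y * lazy n β g x y * h y = h x / 2 + (∑ y, mu n β g y * h y) / 2 := by
  have e : ∀ y, mu n β g y * lazy n β g x y * h y
      = (if y = x then h x / 2 else 0) + mu n β g y * h y / 2 := fun y => by
    simp only [lazy, Pi.add_apply, Pi.smul_apply, smul_eq_mul]
    by_cases hy : y = x
    · subst hy
      simp only [Pi.single_eq_same, if_true]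
      field_simp [(mu_pos (β := β) g y).ne']
    · simp only [Pi.single_eq_of_ne hy, if_neg hy]; ring
  simp only [e, sum_add_distrib, sum_ite_eq', mem_univ, if_true, sum_div]

theorem lazy_mass (x : Conf n) : ∑ y, mu n β g y * lazy n β g x y = 1 := by
  have h := lazy_sum (β := β) (g := g) x fun _ => 1
  simp only [mul_one, mu_sum] at h
  rw [h]; norm_num

theorem lazy_ent {L : ℝ} (hL : 0 ≤ L) (hmin : ∀ x, exp (-L) ≤ mu n β g x) (x : Conf n) :
    ent (mu n β g) (lazy n β g x) ≤ L := by
  rw [ent_mu (lazy_mass x)]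
  have hb : ∀ y, mu n β g y * (lazy n β g x y * log (lazy n β g x y))
      ≤ mu n β g y * lazy n β g x y * L := fun y => by
    have hp : 0 < lazy n β g x y := lt_of_lt_of_le (by norm_num) (lazy_ge x y)
    rw [← mul_assoc]
    refine mul_le_mul_of_nonneg_left ?_ (mul_pos (mu_pos g y) hp).le
    rw [log_le_iff_le_exp hp]
    simp only [lazy, Pi.add_apply, Pi.smul_apply, smul_eq_mul]
    have h1 := one_le_exp hL
    have h2 : (mu n β g x)⁻¹ ≤ exp L := by
      rw [inv_le_comm₀ (mu_pos g x) (exp_pos L), ← exp_neg]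
      exact hmin x
    by_cases h : y = x
    · simp only [h, Pi.single_eq_same]; linarith
    · simp only [Pi.single_eq_of_ne h]; linarith
  refine (sum_le_sum fun y _ => hb y).trans (le_of_eq ?_)
  rw [← sum_mul, lazy_mass, one_mul]

/-- The kernel in terms of the evolved lazy start. -/
theorem kernel_lazy (t : ℝ) (x y : Conf n) :
    kernel n β g t x y - mu n β g y
      = 2 * (mu n β g y * (semigroup n β g t (lazy n β g x) y - 1)) := by
  set d : Conf n → ℝ := Pi.single x (mu n β g x)⁻¹ with hd
  have hy := semigroup_symm (β := β) (g := g) d (Pi.single y (1 : ℝ)) t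
  simp only [ip, hd] at hy
  simp only [Pi.single_apply, mul_ite, ite_mul, mul_zero, zero_mul, mul_one,
    sum_ite_eq', mem_univ, if_true, mul_inv_cancel₀ (mu_pos (β := β) g x).ne', one_mul] at hy
  rw [lazy, map_add, map_smul, map_smul, semigroup_one, kernel,
    show semigroup n β g t (Pi.single y 1) x = mu n β g y * semigroup n β g t d y from hy, ← hd]
  simp only [Pi.add_apply, Pi.smul_apply, smul_eq_mul]
  ring

end Vale.Agent.P150.Fast
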