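import Mathlib
import Vale.Agent.P150.Fast.AssemblyDecay

/-!
Mixing in time `O(log n)` at one realisation of the disorder, given the two halves (P150).
-/

open Real Finset MeasureTheory Filter

namespace Vale.Agent.P150.Fast

open Ent

variable {n : ℕ} {β : ℝ} {g : Pair n → ℝ}

/-- The hypotheses at one realisation of the disorder. -/
structure Hyp (n : ℕ) (β : ℝ) (g : Pair n → ℝ) (η C c L : ℝ) : Prop where
  phase : ∀ u : Conf n → ℝ, (∀ x, 0 < u x) → ∑ x, mu n β g x * u x = 1 →
    entTot (mu n β g) u ≤ η * n → ent (mu n β g) u ≤ c / 80 * n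
  warm : ∀ u : Conf n → ℝ, (∀ x, 0 < u x) → ∑ x, mu n β g x * u x = 1 →
    (∀ x, u x ≤ exp (c * n)) → ent (mu n β g) u ≤ C * entTot (mu n β g) u + exp (-(c * n))
  minMass : ∀ x, exp (-(L * n)) ≤ mu n β g x

theorem lazy_small {η C c L : ℝ} (H : Hyp n β g η C c L) (hη : 0 < η) (hc : 0 < c) (hL : 0 ≤ L)
    (hn : 1 ≤ n) (x : Conf n) :
    ent (mu n β g) (semigroup n β g (L / η) (lazy n β g x)) ≤ c / 80 * n := by
  have hn0 : (0 : ℝ) < n := by exact_mod_cast hn
  refine ent_hit (mul_pos hη hn0) (by positivity) H.phase (by norm_num) (lazy_ge x) (lazy_mass x)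
    (lazy_ent (by positivity) H.minMass x) (le_of_eq ?_) (by positivity)
  field_simp

theorem mixed_of_hyp {η C c L : ℝ} (H : Hyp n β g η C c L) (hη : 0 < η) (hC : 0 < C) (hc : 0 < c)
    (hL : 0 ≤ L) (hn : 1 ≤ n) (hcn : 12 ≤ c * n) {t : ℝ}
    (ht : L / η + C * log (256 * (c * n + 1)) ≤ t) : MixedBy n β g t := by
  intro x
  have hn0 : (0 : ℝ) < n := by exact_mod_cast hn
  have hlog : 0 ≤ log (256 * (c * n + 1)) := log_nonneg (by linarith)
  set T := L / η with hT
  have hT0 : 0 ≤ T := by positivity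
  set s := t - T with hs
  have hs1 : C * log (256 * (c * n + 1)) ≤ s := by linarith
  have hs0 : 0 ≤ s := le_trans (mul_nonneg hC.le hlog) hs1
  set u := semigroup n β g T (lazy n β g x) with hu
  have hu2 : ∀ y, (1 / 2 : ℝ) ≤ u y := semigroup_lower hT0 (lazy_ge x)
  have hup : ∀ y, 0 < u y := fun y => lt_of_lt_of_le (by norm_num) (hu2 y)
  have hum : ∑ y, mu n β g y * u y = 1 := semigroup_mass (lazy_mass x) T
  have hue : ent (mu n β g) u ≤ c / 80 * n := lazy_small H hη hc hL hn x
  set M := exp (c * n) / 4 with hM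
  have hM0 : 0 < M := by positivity
  have hl4 : log 4 ≤ 3 := (log_le_sub_one_of_pos (by norm_num : (0 : ℝ) < 4)).trans (by norm_num)
  have hlM : c * n / 2 ≤ log M - 1 := by
    rw [hM, log_div (exp_pos _).ne' (by norm_num), log_exp]; linarith
  have hM12 : (1 / 2 : ℝ) ≤ M := by
    rw [hM, le_div_iff₀ (by norm_num)]
    linarith [add_one_le_exp (c * n)]
  set v0 : Conf n → ℝ := fun y => min (u y) M with hv0
  set p := ∑ y, mu n β g y * (u y - v0 y) with hp
  have hp0 : 0 ≤ p := sum_nonneg fun y _ =>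
    mul_nonneg (mu_pos g y).le (sub_nonneg.2 (min_le_left _ _))
  have hp1 : p ≤ 1 / 40 := by
    refine (mass_above hup hum (by linarith) hM0).trans ?_
    rw [div_le_iff₀ (by linarith)]
    linarith
  set m := ∑ y, mu n β g y * v0 y with hm
  have hmp : m = 1 - p := by
    rw [hp, ← hum, hm, ← sum_sub_distrib]
    exact sum_congr rfl fun y _ => by ring
  have hm0 : 0 < m := by linarith
  set v : Conf n → ℝ := m⁻¹ • v0 with hv
  have hv2 : ∀ y, (1 / 2 : ℝ) ≤ v y := fun y => by
    simp only [hv, Pi.smul_apply, smul_eq_mul]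
    rw [inv_mul_eq_div, le_div_iff₀ hm0]
    have : (1 / 2 : ℝ) ≤ v0 y := le_min (hu2 y) hM12
    linarith
  have hvp : ∀ y, 0 < v y := fun y => lt_of_lt_of_le (by norm_num) (hv2 y)
  have hvm : ∑ y, mu n β g y * v y = 1 := by
    rw [sum_congr rfl fun y _ => show mu n β g y * v y = m⁻¹ * (mu n β g y * v0 y) by
      simp only [hv, Pi.smul_apply, smul_eq_mul]; ring, ← mul_sum, ← hm]
    exact inv_mul_cancel₀ hm0.ne'
  have hvu : ∀ y, v y ≤ exp (c * n) := fun y => by
    simp only [hv, Pi.smul_apply, smul_eq_mul]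
    rw [inv_mul_eq_div, div_le_iff₀ hm0]
    have h1 : v0 y ≤ M := min_le_right _ _
    have h2 : exp (c * n) * (1 / 2) ≤ exp (c * n) * m :=
      mul_le_mul_of_nonneg_left (by linarith) (exp_pos _).le
    rw [hM] at h1
    linarith [exp_pos (c * n)]
  set P := semigroup n β g s v with hP
  have hPp : ∀ y, 0 < P y := fun y => lt_of_lt_of_le (by norm_num) (semigroup_lower hs0 hv2 y)
  have hPe : ent (mu n β g) P ≤ 1 / 128 := by
    refine (ent_decay_add hC (by norm_num) hv2 hvm (fun r hr => H.warm _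
      (fun y => lt_of_lt_of_le (by norm_num) (semigroup_lower hr hv2 y)) (semigroup_mass hvm r)
      (semigroup_upper hr hvu)) (exp_pos _).le hs0).trans ?_
    have hev : ent (mu n β g) v ≤ c * n := by
      rw [ent_mu hvm]
      refine (sum_le_sum (g := fun y => mu n β g y * v y * (c * n)) fun y _ => ?_).trans_eq ?_
      · rw [← mul_assoc]
        exact mul_le_mul_of_nonneg_left ((log_le_iff_le_exp (hvp y)).2 (hvu y))
          (mul_pos (mu_pos g y) (hvp y)).le
      · rw [← sum_mul, hvm, one_mul]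
    have h1 : exp (-(s / C)) ≤ 1 / (256 * (c * n + 1)) := by
      rw [exp_neg, one_div]
      refine inv_anti₀ (by positivity) ?_
      rw [← exp_log (show 0 < 256 * (c * n + 1) by positivity)]
      exact exp_le_exp.2 (by rw [le_div_iff₀ hC]; linarith)
    have h2 : exp (-(c * n)) ≤ 1 / 256 := by
      refine (exp_le_exp.2 (show -(c * n) ≤ -12 by linarith)).trans ?_
      rw [exp_neg, one_div]
      refine inv_anti₀ (by norm_num) ?_
      have := Real.pow_div_factorial_le_exp (x := (12 : ℝ)) (by norm_num) 3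
      norm_num at this ⊢
      linarith
    have h3 : exp (-(s / C)) * ent (mu n β g) v ≤ 1 / 256 := by
      refine (mul_le_mul h1 hev (ent_nonneg (mu_pos g) hvp) (by positivity)).trans ?_
      rw [div_mul_eq_mul_div, one_mul, div_le_div_iff₀ (by positivity) (by norm_num)]
      linarith
    linarith
  have hPd : ∑ y, mu n β g y * |P y - 1| ≤ 1 / 5 := by
    have h := abs_sub_one_sq_le hPp (semigroup_mass hvm s)
    nlinarith [sum_nonneg fun y (_ : y ∈ univ) =>
      mul_nonneg (mu_pos (β := β) g y).le (abs_nonneg (P y - 1))]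
  have hsplit : semigroup n β g t (lazy n β g x) = m • P + semigroup n β g s (u - v0) := by
    have : t = s + T := by rw [hs]; ring
    rw [this, semigroup_add, ← hu, hP, ← map_smul, ← map_add, hv, smul_smul,
      mul_inv_cancel₀ hm0.ne', one_smul, add_sub_cancel]
  have hR0 : ∀ y, 0 ≤ semigroup n β g s (u - v0) y :=
    semigroup_nonneg hs0 fun y => sub_nonneg.2 (min_le_left _ _)
  have hRm : ∑ y, mu n β g y * semigroup n β g s (u - v0) y = p := by
    rw [semigroup_mean, hp]; rfl
  have hpt : ∀ y, mu n β g y * |semigroup n β g t (lazy n β g x) y - 1|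
      ≤ m * (mu n β g y * |P y - 1|) + (mu n β g y * p
        + mu n β g y * semigroup n β g s (u - v0) y) := fun y => by
    rw [hsplit, Pi.add_apply, Pi.smul_apply, smul_eq_mul, mul_left_comm m, ← mul_add, ← mul_add]
    refine mul_le_mul_of_nonneg_left ?_ (mu_pos g y).le
    have e : m * P y + semigroup n β g s (u - v0) y - 1
        = m * (P y - 1) + (semigroup n β g s (u - v0) y - p) := by rw [hmp]; ring
    rw [e]
    refine (abs_add_le _ _).trans (add_le_add (by rw [abs_mul, abs_of_pos hm0]) ?_)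
    exact (abs_sub _ _).trans_eq (by rw [abs_of_nonneg (hR0 y), abs_of_nonneg hp0, add_comm])
  have hsum : ∑ y, mu n β g y * |semigroup n β g t (lazy n β g x) y - 1| ≤ 1 / 4 := by
    refine (sum_le_sum fun y _ => hpt y).trans ?_
    rw [sum_add_distrib, sum_add_distrib, ← mul_sum, ← sum_mul, mu_sum, one_mul, hRm]
    have := mul_le_of_le_one_left (sum_nonneg fun y (_ : y ∈ univ) =>
      mul_nonneg (mu_pos (β := β) g y).le (abs_nonneg (P y - 1))) (show m ≤ 1 by linarith)
    linarith
  simp only [kernel_lazy, abs_mul, abs_two, abs_of_pos (mu_pos g _), ← mul_sum]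
  linarith

end Vale.Agent.P150.Fast
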