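import Mathlib
import Vale.Agent.P150.Fast.AssemblyMix
import Vale.Agent.P150.Crit.Glue

/-!
A spectral gap of order one at one realisation of the disorder, given the two halves: an
eigenfunction with a small eigenvalue would be bounded by a small exponential (P150).
-/

open Real Finset MeasureTheory Filter

namespace Vale.Agent.P150.Fast

open Ent

variable {n : ℕ} {β : ℝ} {g : Pair n → ℝ}

/-- An eigenfunction at the bottom of the spectrum. -/
theorem exists_eigen (hn : 1 ≤ n) : ∃ (h : Conf n → ℝ) (l : ℝ), 0 ≤ l ∧ l ≤ gap n β g ∧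
    ∑ x, mu n β g x * h x = 0 ∧ ∑ x, mu n β g x * h x ^ 2 = 1 ∧
    dirichlet n β g h = l ∧ genOp n β g h = -(l • h) := by
  set K : Set (Conf n → ℝ) :=
    {h | ∑ x, mu n β g x * h x = 0 ∧ ∑ x, mu n β g x * h x ^ 2 = 1} with hK
  have hc : IsCompact K := by
    refine Metric.isCompact_of_isClosed_isBounded
      ((isClosed_eq (by fun_prop) continuous_const).inter (isClosed_eq (by fun_prop) continuous_const))
      (isBounded_iff_forall_norm_le.2 ⟨∑ x, (1 + (mu n β g x)⁻¹), ?_⟩)
    rintro h ⟨-, h2⟩
    rw [pi_norm_le_iff_of_nonneg (sum_nonneg fun x _ => by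
      have := mu_pos (β := β) g x; positivity)]
    intro x
    refine le_trans ?_ (single_le_sum (f := fun y => 1 + (mu n β g y)⁻¹) (fun y _ => by
      have := mu_pos (β := β) g y; positivity) (mem_univ x))
    have h3 : h x ^ 2 ≤ (mu n β g x)⁻¹ := by
      rw [← one_div, le_div_iff₀' (mu_pos g x), ← h2]
      exact single_le_sum (f := fun y => mu n β g y * h y ^ 2)
        (fun y _ => mul_nonneg (mu_pos g y).le (sq_nonneg _)) (mem_univ x)
    rw [Real.norm_eq_abs]
    linarith [sq_abs (h x), sq_nonneg (|h x| - 1 / 2), inv_pos.2 (mu_pos (β := β) g x)]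
  have hne : K.Nonempty := by
    refine ⟨fun x => spin (x ⟨0, hn⟩), mean_zero g _ fun x => by simp [negConf, spin_not], ?_⟩
    simp [pow_two, spin_sq, mu_sum]
  have hcont : Continuous fun h : Conf n → ℝ => dirichlet n β g h := by
    unfold dirichlet generator; fun_prop
  obtain ⟨h, ⟨h1, h2⟩, hmin⟩ := hc.exists_isMinOn hne hcont.continuousOn
  set l := dirichlet n β g h with hl
  have hl0 : 0 ≤ l := dirichlet_nonneg g h
  have hQ : ∀ v : Conf n → ℝ, ∑ x, mu n β g x * v x = 0 →
      l * ip n β g v v ≤ dirichlet n β g v := fun v hv => by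
    rcases (ip_self_nonneg (β := β) (g := g) v).eq_or_lt with h0 | h0
    · rw [← h0, mul_zero]; exact dirichlet_nonneg g v
    · set a := (√(ip n β g v v))⁻¹ with ha
      have ha2 : a ^ 2 * ip n β g v v = 1 := by
        rw [ha, inv_pow, sq_sqrt h0.le, inv_mul_cancel₀ h0.ne']
      have hsq : dirichlet n β g (a • v) = a ^ 2 * dirichlet n β g v := by
        rw [dirichlet_eq_ip, dirichlet_eq_ip, map_smul]
        simp only [ip, Pi.smul_apply, smul_eq_mul, mul_neg, mul_sum]
        congr 1
        exact sum_congr rfl fun x _ => by ring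
      have hmem : a • v ∈ K := by
        constructor
        · rw [sum_congr rfl fun x _ => show mu n β g x * (a • v) x = a * (mu n β g x * v x) by
            simp only [Pi.smul_apply, smul_eq_mul]; ring, ← mul_sum, hv, mul_zero]
        · rw [← ha2, ip, mul_sum]
          exact sum_congr rfl fun x _ => by simp only [Pi.smul_apply, smul_eq_mul]; ring
      have h3 := mul_le_mul_of_nonneg_right (hmin hmem : l ≤ _) h0.le
      simp only [hsq] at h3
      calc l * ip n β g v v ≤ a ^ 2 * dirichlet n β g v * ip n β g v v := h3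
        _ = dirichlet n β g v * (a ^ 2 * ip n β g v v) := by ring
        _ = dirichlet n β g v := by rw [ha2, mul_one]
  refine ⟨h, l, hl0, ?_, h1, h2, rfl, ?_⟩
  · have hv := (Crit.spin_test (β := β) (g := g) (⟨0, hn⟩ : Fin n)).1
    refine le_csInf ⟨_, _, hv ▸ one_pos, rfl⟩ ?_
    rintro r ⟨f, hf, rfl⟩
    rw [le_div_iff₀ hf]
    set a := ∑ x, mu n β g x * f x with ha
    set v : Conf n → ℝ := f - a • fun _ => (1 : ℝ) with hv'
    have hv0 : ∑ x, mu n β g x * v x = 0 := by
      simp [hv', mul_sub, sum_sub_distrib, ← sum_mul, mu_sum, ← ha]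
    have hd : dirichlet n β g v = dirichlet n β g f := by
      have e : genOp n β g v = genOp n β g f := by rw [hv', map_sub, map_smul, genOp_const]; simp
      rw [dirichlet_eq_ip, dirichlet_eq_ip, e]
      simp only [ip, hv', Pi.sub_apply, Pi.smul_apply, smul_eq_mul, mul_one, mul_sub, sub_mul,
        sum_sub_distrib]
      rw [sum_congr rfl fun x _ => show mu n β g x * a * genOp n β g f x
        = a * (mu n β g x * genOp n β g f x) by ring, ← mul_sum, sum_mu_gen]
      ring
    have hi : ip n β g v v = gibbsVar n β g f := by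
      have e : ∀ x, mu n β g x * v x * v x
          = mu n β g x * f x ^ 2 - 2 * a * (mu n β g x * f x) + a ^ 2 * mu n β g x := fun x => by
        simp only [hv', Pi.sub_apply, Pi.smul_apply, smul_eq_mul, mul_one]; ring
      simp only [ip, e, sum_add_distrib, sum_sub_distrib, ← mul_sum, mu_sum, gibbsVar, ← ha]
      ring
    rw [← hi, ← hd]
    exact hQ v hv0
  · set v : Conf n → ℝ := genOp n β g h + l • h with hv
    have hv0 : ∑ x, mu n β g x * v x = 0 := by
      simp only [hv, Pi.add_apply, Pi.smul_apply, smul_eq_mul, mul_add, sum_add_distrib, sum_mu_gen]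
      rw [sum_congr rfl fun x _ => show mu n β g x * (l * h x) = l * (mu n β g x * h x) by ring,
        ← mul_sum, h1]
      ring
    have hexp : ∀ e : ℝ, 0 ≤ -(2 * e) * ip n β g v v
        + e ^ 2 * (dirichlet n β g v - l * ip n β g v v) := fun e => by
      have hz : ∑ x, mu n β g x * (h + e • v) x = 0 := by
        simp only [Pi.add_apply, Pi.smul_apply, smul_eq_mul, mul_add, sum_add_distrib, h1]
        rw [sum_congr rfl fun x _ => show mu n β g x * (e * v x) = e * (mu n β g x * v x) by ring,
          ← mul_sum, hv0]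
        ring
      have h4 := hQ _ hz
      have i1 : ip n β g h h = 1 := by
        rw [← h2, ip]; exact sum_congr rfl fun x _ => by ring
      have hip : ∀ a b a' b' : Conf n → ℝ, ip n β g (a + e • b) (a' + e • b') = ip n β g a a'
          + e * (ip n β g a b' + ip n β g b a') + e ^ 2 * ip n β g b b' := fun a b a' b' => by
        simp only [ip, Pi.add_apply, Pi.smul_apply, smul_eq_mul, mul_sum, ← sum_add_distrib]
        exact sum_congr rfl fun x _ => by ring
      have hvv : ip n β g v v = ip n β g v (genOp n β g h) + l * ip n β g v h := by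
        conv_lhs => arg 5; rw [hv]
        simp only [ip, Pi.add_apply, Pi.smul_apply, smul_eq_mul, mul_sum, ← sum_add_distrib]
        exact sum_congr rfl fun x _ => by ring
      have hhv : ip n β g h (genOp n β g v) = ip n β g v (genOp n β g h) := by
        rw [gen_symm, ip_comm]
      rw [dirichlet_eq_ip, map_add, map_smul, hip, hip, i1, hhv, ip_comm h v] at h4
      rw [dirichlet_eq_ip]
      have hlh : ip n β g h (genOp n β g h) = -l := by rw [hl, dirichlet_eq_ip]; ring
      rw [hlh] at h4
      linear_combination h4 + 2 * e * hvv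
    have hz : ip n β g v v = 0 := by
      refine le_antisymm (le_of_not_gt fun hpos => ?_) (ip_self_nonneg v)
      set D := dirichlet n β g v - l * ip n β g v v
      have h5 := hexp (ip n β g v v / (|D| + 1))
      have hd : 0 < |D| + 1 := by positivity
      set e := ip n β g v v / (|D| + 1) with he
      have he0 : 0 < e := div_pos hpos hd
      have h6 : e * (|D| + 1) = ip n β g v v := div_mul_cancel₀ _ hd.ne'
      nlinarith [mul_le_mul_of_nonneg_left (le_abs_self D) (sq_nonneg e),
        mul_pos he0 hpos]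
    funext x
    have := (sum_eq_zero_iff_of_nonneg fun y _ => (by
      rw [mul_assoc]; exact mul_nonneg (mu_pos g y).le (mul_self_nonneg _))).1 hz x (mem_univ x)
    rw [mul_assoc, mul_eq_zero, mul_self_eq_zero] at this
    rcases this with h7 | h7
    · exact absurd h7 (mu_pos g x).ne'
    · simp only [hv, Pi.add_apply, Pi.smul_apply, smul_eq_mul] at h7
      simp only [Pi.neg_apply, Pi.smul_apply, smul_eq_mul]
      linarith

theorem semigroup_eigen {h : Conf n → ℝ} {l : ℝ} (he : genOp n β g h = -(l • h)) (t : ℝ) :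
    semigroup n β g t h = exp (-(l * t)) • h := by
  have hd : ∀ s, HasDerivAt (fun r => exp (l * r) • semigroup n β g r h) 0 s := fun s => by
    refine ((((hasDerivAt_id' s).const_mul l).exp).smul (semigroup_deriv h s)).congr_deriv ?_
    rw [he, map_neg, map_smul]
    module
  have := is_const_of_deriv_eq_zero (fun s => (hd s).differentiableAt) (fun s => (hd s).deriv) t 0
  simp only [semigroup_zero, mul_zero, exp_zero, one_smul, ContinuousLinearMap.one_apply] at this
  calc semigroup n β g t h = (exp (-(l * t)) * exp (l * t)) • semigroup n β g t h := by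
        rw [← exp_add, neg_add_cancel, exp_zero, one_smul]
    _ = exp (-(l * t)) • h := by rw [mul_smul, this]

/-- An eigenfunction with a small eigenvalue is not exponentially concentrated. -/
theorem eigen_sup {η C c L : ℝ} (H : Hyp n β g η C c L) (hη : 0 < η) (hc : 0 < c) (hL : 0 ≤ L)
    (hn : 1 ≤ n) {h : Conf n → ℝ} {l : ℝ} (hl0 : 0 ≤ l) (hlT : l < 1 / (L / η + 1))
    (h1 : ∑ x, mu n β g x * h x = 0) (h2 : ∑ x, mu n β g x * h x ^ 2 = 1)
    (he : genOp n β g h = -(l • h)) :
    ∃ M : ℝ, 0 < M ∧ (∀ y, |h y| ≤ M) ∧ M ^ 2 ≤ 3456 * exp (1 + 24 * (c / 80 * n)) := by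
  set T := L / η with hT
  have hT0 : 0 ≤ T := by positivity
  obtain ⟨x, hx⟩ := Finite.exists_max fun y => |h y|
  set M := |h x| with hM
  have hM0 : 0 < M := by
    by_contra hc'
    have : ∀ y, h y = 0 := fun y => abs_eq_zero.1
      (le_antisymm ((hx y).trans (not_lt.1 hc')) (abs_nonneg _))
    simp [this] at h2
  set u := semigroup n β g T (lazy n β g x) with hu
  have hup : ∀ y, 0 < u y := fun y =>
    lt_of_lt_of_le (by norm_num) (semigroup_lower hT0 (lazy_ge x) y)
  have hum : ∑ y, mu n β g y * u y = 1 := semigroup_mass (lazy_mass x) T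
  have hue : ent (mu n β g) u ≤ c / 80 * n := lazy_small H hη hc hL hn x
  have huh : exp (-(l * T)) * h x / 2 = ∑ y, mu n β g y * u y * h y := by
    have hs := semigroup_symm (β := β) (g := g) (lazy n β g x) h T
    rw [semigroup_eigen he] at hs
    simp only [ip, Pi.smul_apply, smul_eq_mul, ← hu] at hs
    rw [← hs, lazy_sum x (fun y => exp (-(l * T)) * h y)]
    rw [sum_congr rfl fun y _ => show mu n β g y * (exp (-(l * T)) * h y)
      = exp (-(l * T)) * (mu n β g y * h y) by ring, ← mul_sum, h1]
    ring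
  have hlow : M / 6 ≤ ∑ y, mu n β g y * u y * |h y| := by
    have h3 : |exp (-(l * T)) * h x / 2| ≤ ∑ y, mu n β g y * u y * |h y| := by
      rw [huh]
      refine (abs_sum_le_sum_abs _ _).trans (le_of_eq (sum_congr rfl fun y _ => ?_))
      rw [abs_mul, abs_of_pos (mul_pos (mu_pos g y) (hup y))]
    refine le_trans ?_ h3
    rw [abs_div, abs_mul, abs_of_pos (exp_pos _), abs_two, ← hM]
    have h4 : l * T ≤ 1 := by
      have := (lt_div_iff₀ (by positivity : 0 < T + 1)).1 hlT
      linarith
    have h5 : (1 / 3 : ℝ) ≤ exp (-(l * T)) := by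
      rw [exp_neg, one_div]
      refine inv_anti₀ (exp_pos _) ((exp_le_exp.2 h4).trans ?_)
      linarith [exp_one_lt_d9]
    nlinarith
  set K := exp (1 + 24 * (c / 80 * n)) with hK
  set B : ℝ := ∑ y, mu n β g y * (if M / 12 ≤ |h y| then 1 else 0) with hB
  have hKM : 1 / 24 ≤ K * B := by
    have hlogK : log K - 1 = 24 * (c / 80 * n) := by rw [hK, log_exp]; ring
    have hab := mass_above (β := β) (g := g) hup hum (M := K)
      (by
        have : (0 : ℝ) < 24 * (c / 80 * n) := by
          have : (0 : ℝ) < n := by exact_mod_cast hn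
          positivity
        linarith) (exp_pos _)
    have hab' : ∑ y, mu n β g y * (u y - min (u y) K) ≤ 1 / 24 := by
      refine hab.trans ?_
      rw [hlogK, div_le_iff₀ (by positivity)]
      linarith
    have key : ∀ y, mu n β g y * u y * |h y| ≤ M / 12 * (mu n β g y * u y)
        + M * (K * (mu n β g y * (if M / 12 ≤ |h y| then 1 else 0))
          + mu n β g y * (u y - min (u y) K)) := fun y => by
      have hp : 0 ≤ mu n β g y * u y := (mul_pos (mu_pos g y) (hup y)).le
      have hq : 0 ≤ mu n β g y * (u y - min (u y) K) :=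
        mul_nonneg (mu_pos g y).le (sub_nonneg.2 (min_le_left _ _))
      split_ifs with hy
      · have h6 : mu n β g y * min (u y) K ≤ mu n β g y * K :=
          mul_le_mul_of_nonneg_left (min_le_right _ _) (mu_pos g y).le
        have h7 := mul_le_mul_of_nonneg_left (hx y) hp
        linarith [mul_le_mul_of_nonneg_left h6 hM0.le, mul_nonneg hM0.le hp]
      · have h7 := mul_le_mul_of_nonneg_left (le_of_lt (not_le.1 hy)) hp
        linarith [mul_nonneg hM0.le hq]
    have hs := hlow.trans (sum_le_sum fun y _ => key y)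
    simp only [sum_add_distrib, ← mul_sum, hum, ← hB] at hs
    nlinarith [mul_le_mul_of_nonneg_left hab' hM0.le]
  have hvar : M ^ 2 / 144 * B ≤ 1 := by
    rw [← h2, hB, mul_sum]
    refine sum_le_sum fun y _ => ?_
    have := mu_pos (β := β) g y
    split_ifs with hy
    · have hy2 : (M / 12) ^ 2 ≤ h y ^ 2 := by
        rw [← sq_abs (h y)]; exact pow_le_pow_left₀ (by positivity) hy 2
      nlinarith
    · simp only [mul_zero]; positivity
  have hMbig : M ^ 2 ≤ 3456 * K := by
    have hB0 : 0 ≤ B := sum_nonneg fun y _ => by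
      have := mu_pos (β := β) g y; split_ifs <;> positivity
    nlinarith [exp_pos (1 + 24 * (c / 80 * n)), mul_le_mul_of_nonneg_left hKM (sq_nonneg M)]
  exact ⟨M, hM0, hx, hMbig⟩

/-- The linearised inequality at a bounded eigenfunction. -/
theorem eigen_test {η C c L : ℝ} (H : Hyp n β g η C c L) (hC : 0 < C) (hcn : 40 ≤ c * n)
    {h : Conf n → ℝ} {l M : ℝ} (hM0 : 0 < M) (hx : ∀ y, |h y| ≤ M)
    (h1 : ∑ x, mu n β g x * h x = 0) (h2 : ∑ x, mu n β g x * h x ^ 2 = 1)
    (hD : dirichlet n β g h = l) :
    1 / 20 ≤ C * l / 2 + M ^ 2 * exp (-(c * n)) := by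
  set f : Conf n → ℝ := (fun _ => (1 : ℝ)) + (1 / (2 * M)) • h with hf
  have hfb : ∀ y, 1 / 2 ≤ f y ∧ f y ≤ 3 / 2 := fun y => by
    have h8 : |1 / (2 * M) * h y| ≤ 1 / 2 := by
      rw [abs_mul, abs_of_pos (by positivity : 0 < 1 / (2 * M)), div_mul_eq_mul_div, one_mul,
        div_le_iff₀ (by positivity)]
      linarith [hx y]
    simp only [hf, Pi.add_apply, Pi.smul_apply, smul_eq_mul]
    exact ⟨by linarith [neg_le_of_abs_le h8], by linarith [le_of_abs_le h8]⟩
  have hfp : ∀ y, 0 < f y := fun y => by linarith [(hfb y).1]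
  have hfm : ∑ y, mu n β g y * f y = 1 := by
    simp only [hf, Pi.add_apply, Pi.smul_apply, smul_eq_mul, mul_add, mul_one, sum_add_distrib,
      mu_sum]
    rw [sum_congr rfl fun y _ => show mu n β g y * (1 / (2 * M) * h y)
      = 1 / (2 * M) * (mu n β g y * h y) by ring, ← mul_sum, h1]
    ring
  have hw := H.warm f hfp hfm fun y => (hfb y).2.trans (by linarith [add_one_le_exp (c * n)])
  have hentlo : 1 / (20 * M ^ 2) ≤ ent (mu n β g) f := by
    have ha : avg (mu n β g) f = 1 := by rw [avg, hfm, mass_mu, div_one]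
    rw [ent, ha]
    have hpt : ∀ y, mu n β g y * ((f y - 1) ^ 2 / 5) ≤ mu n β g y * phi (f y) 1 := fun y => by
      refine mul_le_mul_of_nonneg_left ?_ (mu_pos g y).le
      set r := √(f y) with hr
      have hr0 : 0 < r := sqrt_pos.2 (hfp y)
      have hr2 : r ^ 2 = f y := sq_sqrt (hfp y).le
      have hl := mul_le_mul_of_nonneg_left (one_sub_inv_le_log_of_pos hr0)
        (show 0 ≤ 2 * r ^ 2 by positivity)
      have e : 2 * r ^ 2 * (1 - r⁻¹) = 2 * r ^ 2 - 2 * r := by field_simp
      have el : log (f y) = 2 * log r := by rw [← hr2, log_pow]; norm_num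
      have hr5 : (r + 1) ^ 2 ≤ 5 := by linarith [(hfb y).2, sq_nonneg (r - 5 / 4)]
      have h9 := mul_le_mul_of_nonneg_left hr5 (sq_nonneg (r - 1))
      simp only [phi, log_one, mul_zero, sub_zero]
      rw [el, ← hr2]
      linarith
    refine le_trans (le_of_eq ?_) (sum_le_sum fun y _ => hpt y)
    have e : ∀ y, mu n β g y * ((f y - 1) ^ 2 / 5)
        = 1 / (20 * M ^ 2) * (mu n β g y * h y ^ 2) := fun y => by
      simp only [hf, Pi.add_apply, Pi.smul_apply, smul_eq_mul]
      field_simp
      ring
    simp only [e, ← mul_sum, h2, mul_one]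
  have htot : entTot (mu n β g) f ≤ l / (2 * M ^ 2) := by
    have hsite : ∀ i, entSite (mu n β g) f i
        ≤ 2 * ((∑ y, mu n β g y * rate n β g y i * (f (flipAt y i) - f y) ^ 2) / 2) := fun i => by
      have hpa : ∀ y, 1 / 2 ≤ pairAvg (mu n β g) f i y := fun y => by
        rw [pairAvg, le_div_iff₀ (add_pos (mu_pos g _) (mu_pos g _))]
        nlinarith [(hfb y).1, (hfb (flipAt y i)).1, mu_pos (β := β) g y,
          mu_pos (β := β) g (flipAt y i)]
      have hpair : ∀ y, mu n β g y * phi (f y) (pairAvg (mu n β g) f i y)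
          ≤ 2 * (mu n β g y * (rate n β g y i ^ 2 * (f (flipAt y i) - f y) ^ 2)) := fun y => by
        rw [mul_left_comm 2]
        refine mul_le_mul_of_nonneg_left ((phi_le_sq_div (hfp y)
          (lt_of_lt_of_le (by norm_num) (hpa y))).trans ?_) (mu_pos g y).le
        have e : f y - pairAvg (mu n β g) f i y = -(rate n β g y i * (f (flipAt y i) - f y)) := by
          rw [pairAvg, rate]
          field_simp [(add_pos (mu_pos (β := β) g y) (mu_pos (β := β) g (flipAt y i))).ne']
          ring
        rw [e, neg_sq, mul_pow, div_le_iff₀ (lt_of_lt_of_le (by norm_num) (hpa y))]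
        nlinarith [mul_nonneg (sq_nonneg (rate n β g y i)) (sq_nonneg (f (flipAt y i) - f y)), hpa y]
      have hsq : ∑ y, mu n β g y * (rate n β g y i ^ 2 * (f (flipAt y i) - f y) ^ 2)
          = (∑ y, mu n β g y * rate n β g y i * (f (flipAt y i) - f y) ^ 2) / 2 := by
        have hflip := sum_flip i fun y =>
          mu n β g y * (rate n β g y i ^ 2 * (f (flipAt y i) - f y) ^ 2)
        have e : ∀ y, mu n β g (flipAt y i) * (rate n β g (flipAt y i) i ^ 2
            * (f (flipAt (flipAt y i) i) - f (flipAt y i)) ^ 2)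
            + mu n β g y * (rate n β g y i ^ 2 * (f (flipAt y i) - f y) ^ 2)
            = mu n β g y * rate n β g y i * (f (flipAt y i) - f y) ^ 2 := fun y => by
          simp only [rate, Ent.flip_flip]
          field_simp [(add_pos (mu_pos (β := β) g y) (mu_pos (β := β) g (flipAt y i))).ne',
            (add_pos (mu_pos (β := β) g (flipAt y i)) (mu_pos (β := β) g y)).ne']
          ring
        rw [← sum_congr rfl fun y _ => e y, sum_add_distrib, hflip]
        ring
      rw [← hsq, entSite, mul_sum]
      exact sum_le_sum fun y _ => hpair y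
    have e : dirichlet n β g f = (1 / (2 * M)) ^ 2 * l := by
      rw [dirichlet_eq, ← hD, dirichlet_eq, mul_sum]
      refine sum_congr rfl fun i _ => ?_
      rw [← mul_div_assoc, mul_sum]
      congr 1
      refine sum_congr rfl fun y _ => ?_
      simp only [hf, Pi.add_apply, Pi.smul_apply, smul_eq_mul]
      ring
    refine (sum_le_sum fun i _ => hsite i).trans (le_of_eq ?_)
    rw [← mul_sum, ← dirichlet_eq, e]
    field_simp

  have hfin : 1 / (20 * M ^ 2) ≤ C * (l / (2 * M ^ 2)) + exp (-(c * n)) :=
    hentlo.trans (hw.trans (add_le_add (mul_le_mul_of_nonneg_left htot hC.le) le_rfl))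
  have hfin' : 1 / 20 ≤ C * l / 2 + M ^ 2 * exp (-(c * n)) := by
    have hm2 : 0 < M ^ 2 := by positivity
    have := mul_le_mul_of_nonneg_left hfin hm2.le
    field_simp at this ⊢
    linarith
  exact hfin'

theorem gap_ge_of_hyp {η C c L : ℝ} (H : Hyp n β g η C c L) (hη : 0 < η) (hC : 0 < C)
    (hc : 0 < c) (hL : 0 ≤ L) (hn : 1 ≤ n) (hcn : 40 ≤ c * n) :
    min (1 / (L / η + 1)) (1 / (24 * C)) ≤ gap n β g := by
  obtain ⟨h, l, hl0, hlg, h1, h2, hD, he⟩ := exists_eigen (β := β) (g := g) hn
  refine le_trans ?_ hlg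
  by_contra hcon
  rw [not_le, lt_min_iff] at hcon
  obtain ⟨hlT, hlC⟩ := hcon
  obtain ⟨M, hM0, hx, hMbig⟩ := eigen_sup H hη hc hL hn hl0 hlT h1 h2 he
  have hfin' := eigen_test H hC hcn hM0 hx h1 h2 hD
  have hlC' : C * l < 1 / 24 := by
    rw [lt_div_iff₀ (by positivity)] at hlC
    linarith
  have hsmall : M ^ 2 * exp (-(c * n)) ≤ 1 / 40 := by
    refine (mul_le_mul_of_nonneg_right hMbig (exp_pos _).le).trans ?_
    rw [mul_assoc, ← exp_add]
    refine (mul_le_mul_of_nonneg_left (exp_le_exp.2 (show 1 + 24 * (c / 80 * n) + -(c * n) ≤ -27 by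
      linarith)) (by norm_num)).trans ?_
    rw [exp_neg, ← div_eq_mul_inv, div_le_iff₀ (exp_pos _)]
    have := Real.pow_div_factorial_le_exp (x := (27 : ℝ)) (by norm_num) 8
    norm_num [Nat.factorial] at this ⊢
    linarith
  linarith

end Vale.Agent.P150.Fast
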