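import Mathlib
import Vale.Agent.P150.Fast.AssemblyGap

/-!
Assembly for fast mixing at every `β < 1` (P150): the two halves `PhaseOne` and `WarmStmt` give a
spectral gap of order one and mixing in time `O(log n)`.
-/

open Real Finset MeasureTheory Filter

namespace Vale.Agent.P150.Fast

open Ent

variable {n : ℕ} {β : ℝ} {g : Pair n → ℝ}

/-- Every Gibbs weight is at least exponentially small, with high probability. -/
theorem mu_min_event (hβ : 0 ≤ β) {δ : ℝ} (hδ : 0 < δ) : ∀ᶠ n : ℕ in atTop,
    (disorder n).real {g | ¬ ∀ x, exp (-((1 + 3 * β) * n)) ≤ mu n β g x} ≤ δ := by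
  filter_upwards [Edge.edge one_pos hδ, eventually_ge_atTop 1] with n hedge hn
  have : IsProbabilityMeasure (disorder n) := by unfold disorder; infer_instance
  refine le_trans (measureReal_mono (fun g hg => ?_) (measure_ne_top _ _)) hedge
  simp only [Set.mem_setOf_eq] at hg ⊢
  intro hv
  refine hg fun x => ?_
  have hn0 : (0 : ℝ) < n := by exact_mod_cast hn
  have hsn : 0 < √(n : ℝ) := sqrt_pos.2 hn0
  have hE : ∀ y : Conf n, |energy n β g y| ≤ 3 / 2 * β * n := fun y => by
    rw [Crit.energy_skK, Crit.qform_skK, abs_div, abs_two, abs_mul,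
      abs_of_nonneg (by positivity : 0 ≤ β / √(n : ℝ))]
    have h := mul_le_mul_of_nonneg_left (hv fun i => spin (y i)) (by positivity : 0 ≤ β / √(n : ℝ))
    have e : β / √(n : ℝ) * ((2 + 1) * √(n : ℝ) * ∑ i, spin (y i) ^ 2) = 3 * β * n := by
      simp only [pow_two, spin_sq, sum_const, card_univ, Fintype.card_fin, nsmul_eq_mul, mul_one]
      field_simp
      ring
    rw [e] at h
    linarith
  rw [mu, le_div_iff₀ (sum_pos (fun y _ => exp_pos _) univ_nonempty)]
  calc exp (-((1 + 3 * β) * n)) * ∑ y, exp (energy n β g y)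
      ≤ exp (-((1 + 3 * β) * n)) * ((2 : ℝ) ^ n * exp (3 / 2 * β * n)) := by
        refine mul_le_mul_of_nonneg_left ((sum_le_card_nsmul _ _ (exp (3 / 2 * β * n)) fun y _ =>
          exp_le_exp.2 (le_of_abs_le (hE y))).trans (le_of_eq ?_)) (exp_pos _).le
        simp
    _ ≤ exp (-((1 + 3 * β) * n)) * (exp n * exp (3 / 2 * β * n)) := by
        refine mul_le_mul_of_nonneg_left (mul_le_mul_of_nonneg_right ?_ (exp_pos _).le) (exp_pos _).le
        rw [← exp_one_pow]
        exact pow_le_pow_left₀ (by norm_num) (by linarith [add_one_le_exp (1 : ℝ)]) n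
    _ = exp (-(3 / 2 * β * n)) := by rw [← exp_add, ← exp_add]; ring_nf
    _ ≤ exp (energy n β g x) := exp_le_exp.2 (neg_le_of_abs_le (hE x))

/-- The two halves give fast mixing. -/
theorem assembly (hβ : 0 ≤ β) (h1 : PhaseOne β) (h2 : WarmStmt β) : FastStmt β := by
  obtain ⟨C, c, hC, hc, h2⟩ := h2
  obtain ⟨η, hη, h1⟩ := h1 (c / 80) (by positivity)
  set L := 1 + 3 * β with hL
  have hL0 : 0 ≤ L := by positivity
  set T := L / η with hT
  set A := max (max (T + 1) (24 * C)) (T + C * (log (256 * (c + 1)) + 1)) with hA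
  have hA0 : 0 < A := lt_max_of_lt_left (lt_max_of_lt_right (by positivity))
  refine ⟨A, hA0, fun ε hε => ?_⟩
  obtain ⟨N, hN⟩ := exists_nat_ge (max (40 / c) 3)
  filter_upwards [h1 (ε / 3) (by positivity), h2 (ε / 3) (by positivity),
    mu_min_event hβ (show 0 < ε / 3 by positivity), eventually_ge_atTop N] with n e1 e2 e3 hnN
  have hnN' : (N : ℝ) ≤ n := by exact_mod_cast hnN
  have hn3 : (3 : ℝ) ≤ n := ((le_max_right _ _).trans hN).trans hnN'
  have hn : 1 ≤ n := by exact_mod_cast (show (1 : ℝ) ≤ n by linarith)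
  have hcn : 40 ≤ c * n := by
    have := ((le_max_left _ _).trans hN).trans hnN'
    rw [div_le_iff₀ hc] at this
    linarith
  have hprob : IsProbabilityMeasure (disorder n) := by unfold disorder; infer_instance
  set G := {g | 1 / A ≤ gap n β g ∧ gap n β g ≤ 1 ∧ ∀ t, A * log n ≤ t → MixedBy n β g t} with hG
  set B1 : Set (Pair n → ℝ) := {g | ¬ ∀ u : Conf n → ℝ, (∀ x, 0 < u x) →
    ∑ x, mu n β g x * u x = 1 → entTot (mu n β g) u ≤ η * n → ent (mu n β g) u ≤ c / 80 * n}
  set B2 : Set (Pair n → ℝ) := {g | ¬ ∀ u : Conf n → ℝ, (∀ x, 0 < u x) →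
    ∑ x, mu n β g x * u x = 1 → (∀ x, u x ≤ exp (c * n)) →
      ent (mu n β g) u ≤ C * entTot (mu n β g) u + exp (-(c * n))}
  set B3 : Set (Pair n → ℝ) := {g | ¬ ∀ x, exp (-(L * n)) ≤ mu n β g x}
  have hsub : Set.univ ⊆ G ∪ (B1 ∪ B2 ∪ B3) := by
    intro g _
    by_cases hb : g ∈ B1 ∪ B2 ∪ B3
    · exact Or.inr hb
    · simp only [Set.mem_union, not_or, B1, B2, B3, Set.mem_setOf_eq, not_not] at hb
      have H : Hyp n β g η C c L := ⟨hb.1.1, hb.1.2, hb.2⟩
      refine Or.inl ⟨?_, Crit.gap_le_one hn, fun t ht => ?_⟩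
      · refine le_trans ?_ (gap_ge_of_hyp H hη hC hc hL0 hn hcn)
        exact le_min (one_div_le_one_div_of_le (by positivity) ((le_max_left _ _).trans (le_max_left _ _)))
          (one_div_le_one_div_of_le (by positivity) ((le_max_right _ _).trans (le_max_left _ _)))
      · refine mixed_of_hyp H hη hC hc hL0 hn (by linarith) (le_trans ?_ ht)
        have hlog1 : 1 ≤ log n := by
          rw [le_log_iff_exp_le (by linarith)]
          linarith [exp_one_lt_d9]
        have hl0 : 0 ≤ log (256 * (c + 1)) := log_nonneg (by linarith)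
        have hl : log (256 * (c * n + 1)) ≤ log (256 * (c + 1)) + log n := by
          rw [← log_mul (by positivity) (by linarith)]
          exact log_le_log (by positivity) (by nlinarith)
        calc T + C * log (256 * (c * n + 1))
            ≤ T * log n + C * ((log (256 * (c + 1)) + 1) * log n) := by
              refine add_le_add (le_mul_of_one_le_right (by positivity) hlog1)
                (mul_le_mul_of_nonneg_left ?_ hC.le)
              nlinarith [mul_le_mul_of_nonneg_left hlog1 hl0]
          _ = (T + C * (log (256 * (c + 1)) + 1)) * log n := by ring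
          _ ≤ A * log n := mul_le_mul_of_nonneg_right (le_max_right _ _) (by linarith)
  have htot : 1 - ε ≤ (disorder n).real G := by
    have h := (measureReal_mono hsub (measure_ne_top (disorder n) _)).trans
      ((measureReal_union_le _ _).trans (add_le_add le_rfl ((measureReal_union_le _ _).trans
        (add_le_add (measureReal_union_le _ _) le_rfl))))
    rw [probReal_univ] at h
    linarith
  rw [← ofReal_measureReal (μ := disorder n) (s := G)]
  exact ENNReal.ofReal_le_ofReal htot

end Vale.Agent.P150.Fast
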