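import Vale.Agent.P150.Fast.StepKL

/-!
The alternation as a positive reversible kernel, also for priors conditioned on the pinned spins:
proof of `KerStmt`, and the Dirichlet form as a mean conditional variance. Used for P150.
-/

open MeasureTheory Real Finset
open scoped Matrix

namespace Vale.Agent.P150.Fast

variable {n : ℕ} {ν : Conf n → ℝ} {s : Step n}

theorem postS_le_one {A : Matrix (Fin n) (Fin n) ℝ} (hA : A.PosDef) (hν : ∀ x, 0 < ν x)
    (S : Finset (Fin n)) (x : Conf n) (y : Fin n → ℝ) (z : Conf n) : |postS A ν S x y z| ≤ 1 := by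
  rw [abs_of_nonneg (postS_nonneg hA hν S x y z), ← postS_sum hA hν S x y]
  exact single_le_sum (fun w _ => postS_nonneg hA hν S x y w) (mem_univ z)

theorem prodS_le_one (S : Finset (Fin n)) (x : Conf n) (y : Fin n → ℝ) (z : Conf n) :
    |prodS S x y z| ≤ 1 := by
  rw [abs_of_nonneg (prodS_nonneg S x y z), ← sum_prodS S x y]
  exact single_le_sum (fun w _ => prodS_nonneg S x y w) (mem_univ z)

theorem pR_integrable (hν : ∀ x, 0 < ν x) (hA : s.A.PosDef) (x z : Conf n) :
    Integrable fun y => chan s.A x y * pR ν s x y z :=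
  chanV_bdd hA _ (measurable_postS s.A s.S x z) fun y => postS_le_one hA hν s.S x y z

theorem qR_integrable (hA : s.A.PosDef) (x z : Conf n) :
    Integrable fun y => chan s.A x y * qR s x y z :=
  chanV_bdd hA _ (measurable_prodS s.h s.S x z) fun y => prodS_le_one s.S x _ z

theorem stepOp_eq_sum {R : Step n → Kern n} {x : Conf n}
    (hI : ∀ z, Integrable fun y => chan s.A x y * R s x y z) (f : Conf n → ℝ) :
    stepOp R s f x = ∑ z, kerOf R s x z * f z := by
  simp only [stepOp, kerOf, mul_sum, ← mul_assoc]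
  rw [integral_finsetSum _ fun z _ => (hI z).mul_const _]
  exact sum_congr rfl fun z _ => integral_mul_const _ _

theorem kerOf_row {R : Step n → Kern n} {x : Conf n} (hA : s.A.PosDef)
    (hI : ∀ z, Integrable fun y => chan s.A x y * R s x y z) (h1 : ∀ y, ∑ z, R s x y z = 1) :
    ∑ z, kerOf R s x z = 1 := by
  have h := stepOp_eq_sum hI fun _ => (1 : ℝ)
  simp only [mul_one] at h
  rw [← h, stepOp]
  simp only [mul_one, h1]
  exact chanV_mass hA _

/-- The conditional expectation given the field and the pinned spins. -/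
noncomputable def condE (ν : Conf n → ℝ) (s : Step n) (f : Conf n → ℝ) (y : Fin n → ℝ) (x : Conf n) : ℝ :=
  ∑ z, pR ν s x y z * f z

theorem condE_const (f : Conf n → ℝ) (y : Fin n → ℝ) {x z : Conf n} (hz : z ∈ fib s.S x) :
    condE ν s f y z = condE ν s f y x := by
  simp only [condE, pR, postS, fib_eq hz]

theorem condE_self (hν : ∀ x, 0 < ν x) (hA : s.A.PosDef) {φ : Conf n → ℝ}
    (hφ : ∀ x, ∀ z ∈ fib s.S x, φ z = φ x) (f : Conf n → ℝ) (y : Fin n → ℝ) :
    ∑ x, φ x * ν x * chan s.A x y * (f x * condE ν s f y x)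
      = ∑ x, φ x * ν x * chan s.A x y * condE ν s f y x ^ 2 := by
  set a : Conf n → ℝ := fun z => ν z * chan s.A z y with ha
  have hap : ∀ z, 0 < a z := fun z => mul_pos (hν z) (chanV_pos hA _ _)
  rw [← fib_split (S := s.S) hap fun z => φ z * ν z * chan s.A z y * (f z * condE ν s f y z)]
  refine sum_congr rfl fun x _ => ?_
  have e : condE ν s f y x = (∑ z ∈ fib s.S x, a z * f z) / ∑ z ∈ fib s.S x, a z := by
    rw [condE, sum_div, ← sum_subset (subset_univ (fib s.S x)) fun z _ hz => by
      rw [pR, postS, if_neg hz, zero_mul]]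
    exact sum_congr rfl fun z hz => by rw [pR, postS, if_pos hz, ha]; ring
  have e2 : ∑ z ∈ fib s.S x, φ z * ν z * chan s.A z y * (f z * condE ν s f y z)
      = φ x * condE ν s f y x * ∑ z ∈ fib s.S x, a z * f z := by
    rw [mul_sum]
    exact sum_congr rfl fun z hz => by rw [hφ x z hz, condE_const f y hz, ha]; ring
  rw [e2, e]
  have := (fib_sum_pos hap s.S x).ne'
  simp only [ha] at this ⊢
  field_simp

theorem condE_integrable (hν : ∀ x, 0 < ν x) (hA : s.A.PosDef) (c : ℝ) (f : Conf n → ℝ) (x : Conf n) :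
    Integrable fun y => c * chan s.A x y * (f x * condE ν s f y x) := by
  simp only [condE, mul_sum]
  refine integrable_finsetSum _ fun z _ => ?_
  exact (((pR_integrable hν hA x z).const_mul c).mul_const (f x * f z)).congr
    (ae_of_all _ fun y => by simp only; ring)

theorem ip_stepOp (hν : ∀ x, 0 < ν x) (hA : s.A.PosDef) {φ : Conf n → ℝ}
    (hφ : ∀ x, ∀ z ∈ fib s.S x, φ z = φ x) (f : Conf n → ℝ) :
    ∑ x, φ x * ν x * f x * ∑ z, kerOf (pR ν) s x z * f z
      = ∫ y, ∑ x, φ x * ν x * chan s.A x y * condE ν s f y x ^ 2 := by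
  simp only [← condE_self hν hA hφ]
  rw [integral_finsetSum _ fun x _ => condE_integrable hν hA _ f x]
  refine sum_congr rfl fun x _ => ?_
  rw [← stepOp_eq_sum (pR_integrable hν hA x) f, stepOp, ← integral_const_mul]
  refine integral_congr_ae (ae_of_all _ fun y => ?_)
  simp only [condE]
  ring

/-- A positive reversible kernel, for every prior conditioned on pinned spins. -/
theorem ker_isPsd (hν : ∀ x, 0 < ν x) (hA : s.A.PosDef) {φ : Conf n → ℝ} (hφ0 : ∀ x, 0 ≤ φ x)
    (hφ : ∀ x, ∀ z ∈ fib s.S x, φ z = φ x) :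
    IsPsdKer (fun x => φ x * ν x) (kerOf (pR ν) s) where
  wnn x := mul_nonneg (hφ0 x) (hν x).le
  nn x z := integral_nonneg fun y => mul_nonneg (chanV_pos hA _ _).le (postS_nonneg hA hν _ x y z)
  row x := kerOf_row hA (pR_integrable hν hA x) fun y => postS_sum hA hν _ x y
  symm x z := by
    simp only [kerOf, ← integral_const_mul]
    refine integral_congr_ae (ae_of_all _ fun y => ?_)
    simp only [pR, postS]
    by_cases hz : z ∈ fib s.S x
    · rw [if_pos hz, if_pos (mem_fib_comm.1 hz), fib_eq hz, hφ x z hz]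
      ring
    · rw [if_neg hz, if_neg (mt mem_fib_comm.2 hz)]
      ring
  psd f := by
    rw [ip_stepOp hν hA hφ]
    exact integral_nonneg fun y => sum_nonneg fun x _ => mul_nonneg
      (mul_nonneg (mul_nonneg (hφ0 x) (hν x).le) (chanV_pos hA _ _).le) (sq_nonneg _)

/-- The Dirichlet form is the mean conditional variance given the field. -/
theorem form_eq_condVar (hν : ∀ x, 0 < ν x) (hA : s.A.PosDef) {φ : Conf n → ℝ}
    (hφ : ∀ x, ∀ z ∈ fib s.S x, φ z = φ x) (f : Conf n → ℝ) :
    ∑ x, φ x * ν x * f x * f x - ∑ x, φ x * ν x * f x * ∑ z, kerOf (pR ν) s x z * f z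
      = ∫ y, ∑ x, φ x * ν x * chan s.A x y * (f x - condE ν s f y x) ^ 2 := by
  rw [ip_stepOp hν hA hφ]
  simp only [← condE_self hν hA hφ]
  have i1 : ∀ x, Integrable fun y => φ x * ν x * f x * f x * chan s.A x y :=
    fun x => (chanV_integrable hA _).const_mul _
  have i2 := fun x => condE_integrable hν hA (φ x * ν x) f x
  have e : ∀ y, ∑ x, φ x * ν x * chan s.A x y * (f x - condE ν s f y x) ^ 2
      = ∑ x, φ x * ν x * f x * f x * chan s.A x y
        - ∑ x, φ x * ν x * chan s.A x y * (f x * condE ν s f y x) := fun y => by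
    have h : ∀ x, φ x * ν x * chan s.A x y * (f x - condE ν s f y x) ^ 2
        = φ x * ν x * f x * f x * chan s.A x y
          - 2 * (φ x * ν x * chan s.A x y * (f x * condE ν s f y x))
          + φ x * ν x * chan s.A x y * condE ν s f y x ^ 2 := fun x => by ring
    rw [sum_congr rfl fun x _ => h x, sum_add_distrib, sum_sub_distrib, ← mul_sum,
      condE_self hν hA hφ]
    ring
  simp only [e]
  rw [integral_sub (integrable_finsetSum _ fun x _ => i1 x) (integrable_finsetSum _ fun x _ => i2 x),
    integral_finsetSum _ fun x _ => i1 x]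
  congr 1
  exact sum_congr rfl fun x _ => by rw [integral_const_mul, chan_eq, chanV_mass hA, mul_one]

theorem kerThm : KerStmt := by
  intro n ν s hν hA
  refine ⟨by simpa using ker_isPsd (φ := fun _ => 1) hν hA (fun _ => zero_le_one) (fun _ _ _ => rfl),
    fun x => kerOf_row hA (qR_integrable hA x) fun y => sum_prodS _ _ _,
    fun f x => stepOp_eq_sum (pR_integrable hν hA x) f,
    fun f x => stepOp_eq_sum (qR_integrable hA x) f, fun hS => ⟨?_, ?_⟩⟩
  · funext x z
    simp [kerOf, pKer, pR, postS, post, hS, fib_empty]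
  · funext x z
    simp [kerOf, qKer, qR, prodS, prodSig, hS, fib_empty]

end Vale.Agent.P150.Fast
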