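import Mathlib

/-!
The algebra behind the local margin of the TAP Hessian at a point of replica-symmetric type
(P150): a weighted Bessel bound, the completion of the square that removes the special
direction, and the resulting pointwise bound for the Sudakov-Fernique comparison.
-/

open Finset Real

namespace Vale.Agent.P150.Fast

/-- A weighted Bessel inequality: if the weighted Gram matrix of `z` has row sums at most `M`,
then `∑ α_j ⟨u, z_j⟩² ≤ M ∑ u_i² / v_i`. -/
theorem weighted_bessel {ι σ : Type*} [Fintype ι] [Fintype σ] (v : σ → ℝ) (hv : ∀ i, 0 < v i)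
    (z : ι → σ → ℝ) (α : ι → ℝ) (hα : ∀ j, 0 ≤ α j) {M : ℝ} (hM : 0 ≤ M)
    (hrow : ∀ j, ∑ l, α l * |∑ i, v i * z j i * z l i| ≤ M)
    (hcol : ∀ l, ∑ j, α j * |∑ i, v i * z j i * z l i| ≤ M) (u : σ → ℝ) :
    ∑ j, α j * (∑ i, u i * z j i) ^ 2 ≤ M * ∑ i, u i ^ 2 / v i := by
  set p : ι → ℝ := fun j => ∑ i, u i * z j i with hp
  set S : ℝ := ∑ j, α j * p j ^ 2 with hS
  set y : σ → ℝ := fun i => ∑ j, α j * p j * z j i with hy
  have hS0 : 0 ≤ S := sum_nonneg fun j _ => mul_nonneg (hα j) (sq_nonneg _)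
  have e1 : S = ∑ i, u i / √(v i) * (√(v i) * y i) := by
    have e : ∀ i, u i / √(v i) * (√(v i) * y i) = ∑ j, α j * p j * (u i * z j i) := fun i => by
      rw [← mul_assoc, div_mul_cancel₀ _ (sqrt_pos.2 (hv i)).ne', hy, mul_sum]
      exact sum_congr rfl fun j _ => by ring
    simp only [e]
    rw [sum_comm, hS]
    exact sum_congr rfl fun j _ => by rw [← mul_sum, hp]; ring
  have e2 : ∑ i, (√(v i) * y i) ^ 2
      = ∑ j, ∑ l, α j * p j * (α l * p l) * ∑ i, v i * z j i * z l i := by
    have e : ∀ i, (√(v i) * y i) ^ 2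
        = ∑ j, ∑ l, α j * p j * (α l * p l) * (v i * z j i * z l i) := fun i => by
      rw [mul_pow, sq_sqrt (hv i).le, hy, sq, sum_mul_sum, mul_sum]
      refine sum_congr rfl fun j _ => ?_
      rw [mul_sum]
      exact sum_congr rfl fun l _ => by ring
    simp only [e]
    rw [sum_comm]
    refine sum_congr rfl fun j _ => ?_
    rw [sum_comm]
    exact sum_congr rfl fun l _ => (mul_sum _ _ _).symm
  have h2 : ∑ i, (√(v i) * y i) ^ 2 ≤ M * S := by
    rw [e2]
    calc ∑ j, ∑ l, α j * p j * (α l * p l) * ∑ i, v i * z j i * z l i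
        ≤ ∑ j, ∑ l, (α j * p j ^ 2 + 0) / 2 * (α l * |∑ i, v i * z j i * z l i|)
            + ∑ j, ∑ l, (α l * p l ^ 2) / 2 * (α j * |∑ i, v i * z j i * z l i|) := by
          rw [← sum_add_distrib]
          refine sum_le_sum fun j _ => ?_
          rw [← sum_add_distrib]
          refine sum_le_sum fun l _ => ?_
          set G := ∑ i, v i * z j i * z l i
          have h0 : 0 ≤ α j * α l := mul_nonneg (hα j) (hα l)
          have hpp : p j * p l * G ≤ (p j ^ 2 + p l ^ 2) / 2 * |G| := by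
            refine (le_abs_self _).trans ?_
            rw [abs_mul, abs_mul]
            refine mul_le_mul_of_nonneg_right ?_ (abs_nonneg _)
            linarith [sq_nonneg (|p j| - |p l|), sq_abs (p j), sq_abs (p l)]
          linarith [mul_le_mul_of_nonneg_left hpp h0]
      _ ≤ M * S := by
          have t1 : ∑ j, ∑ l, (α j * p j ^ 2 + 0) / 2 * (α l * |∑ i, v i * z j i * z l i|)
              ≤ M * S / 2 := by
            simp only [← mul_sum, add_zero]
            rw [hS, mul_sum, sum_div]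
            refine sum_le_sum fun j _ => ?_
            have := mul_le_mul_of_nonneg_left (hrow j)
              (show 0 ≤ α j * p j ^ 2 / 2 by have := hα j; positivity)
            linarith
          have t2 : ∑ j, ∑ l, (α l * p l ^ 2) / 2 * (α j * |∑ i, v i * z j i * z l i|)
              ≤ M * S / 2 := by
            rw [sum_comm]
            simp only [← mul_sum]
            rw [hS, mul_sum, sum_div]
            refine sum_le_sum fun l _ => ?_
            have := mul_le_mul_of_nonneg_left (hcol l)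
              (show 0 ≤ α l * p l ^ 2 / 2 by have := hα l; positivity)
            linarith
          linarith
  have h1 : S ^ 2 ≤ (∑ i, u i ^ 2 / v i) * (M * S) := by
    have hcs := sum_mul_sq_le_sq_mul_sq univ (fun i => u i / √(v i)) (fun i => √(v i) * y i)
    rw [← e1] at hcs
    have e : ∑ i, (u i / √(v i)) ^ 2 = ∑ i, u i ^ 2 / v i :=
      sum_congr rfl fun i _ => by rw [div_pow, sq_sqrt (hv i).le]
    rw [e] at hcs
    exact hcs.trans (mul_le_mul_of_nonneg_left h2
      (sum_nonneg fun i _ => div_nonneg (sq_nonneg _) (hv i).le))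
  have hE : 0 ≤ ∑ i, u i ^ 2 / v i := sum_nonneg fun i _ => div_nonneg (sq_nonneg _) (hv i).le
  rcases hS0.eq_or_lt with h | h
  · rw [← h]
    exact mul_nonneg hM hE
  · refine le_of_mul_le_mul_right ?_ h
    linarith [h1]

/-- Completion of the square on the special directions. With `k = (1-q)/q` one has
`(2-k) a² + 2ab ≤ (2a+b)²/(2+k)`. -/
theorem special_square {a b k : ℝ} (hk : 0 ≤ k) :
    (2 - k) * a ^ 2 + 2 * a * b ≤ (2 * a + b) ^ 2 / (2 + k) := by
  rw [le_div_iff₀ (by linarith)]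
  linarith [sq_nonneg ((2 + k) * a - (2 * a + b))]

variable {n : ℕ}

/-- The vector whose weight removes the special direction. -/
noncomputable def spec (t q : ℝ) (m r : Fin n → ℝ) (i : Fin n) : ℝ := 2 * m i + r i / (t * q)

/-- The projection off `m`. -/
noncomputable def projOff (m u : Fin n → ℝ) (i : Fin n) : ℝ :=
  u i - (∑ j, u j * m j) / (∑ j, m j ^ 2) * m i

theorem projOff_inner (m u g : Fin n → ℝ) :
    ∑ i, g i * projOff m u i = ∑ i, u i * projOff m g i := by
  simp only [projOff, mul_sub, sum_sub_distrib]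
  congr 1
  · exact sum_congr rfl fun i _ => mul_comm _ _
  · simp only [fun i => show g i * ((∑ j, u j * m j) / (∑ j, m j ^ 2) * m i)
      = (∑ j, u j * m j) / (∑ j, m j ^ 2) * (g i * m i) by ring, fun i =>
      show u i * ((∑ j, g j * m j) / (∑ j, m j ^ 2) * m i)
      = (∑ j, g j * m j) / (∑ j, m j ^ 2) * (u i * m i) by ring, ← mul_sum]
    ring

theorem projOff_norm {m : Fin n → ℝ} (hm : ∑ j, m j ^ 2 ≠ 0) (u : Fin n → ℝ) :
    ∑ i, projOff m u i ^ 2 = ∑ i, u i ^ 2 - (∑ j, u j * m j) ^ 2 / ∑ j, m j ^ 2 := by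
  set a := ∑ j, u j * m j
  set N := ∑ j, m j ^ 2 with hN
  have e : ∀ i, projOff m u i ^ 2 = u i ^ 2 - 2 * (a / N) * (u i * m i) + (a / N) ^ 2 * m i ^ 2 :=
    fun i => by simp only [projOff]; ring
  simp only [e, sum_add_distrib, sum_sub_distrib, ← mul_sum]
  field_simp
  ring

/-- The quadratic form that conditioning on the image of `m` and the two rank-one terms of the
TAP Hessian subtract: with `w` the image of `m` under the scaled coupling. -/
noncomputable def rankForm (t : ℝ) (m w u : Fin n → ℝ) : ℝ :=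
  2 * (∑ i, u i * w i) * (∑ i, u i * m i) / (∑ i, m i ^ 2)
    - (∑ i, m i * w i) * (∑ i, u i * m i) ^ 2 / (∑ i, m i ^ 2) ^ 2
    + t / n * (∑ i, u i) ^ 2 + 2 * t / n * (∑ i, u i * m i) ^ 2

/-- The pointwise bound used on the Gaussian side of the Sudakov-Fernique comparison at a point
whose residual field is `r`. -/
theorem margin_pointwise (hn : 0 < n) {t q lam κ M : ℝ} (ht : 0 < t) (hq : 0 < q) (hq1 : q ≤ 1)
    (hlam : 1 - q ≤ lam) (hlam0 : 0 < lam) {m v r g : Fin n → ℝ} (hv : ∀ i, 0 < v i)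
    (hm : ∑ i, m i ^ 2 = q * n) (hκ : |∑ i, m i * r i - t * (1 - q) * q * n| ≤ κ * q * n)
    (hM : 0 ≤ M)
    (h1 : t / (2 + (1 - q) / q) / n * |∑ i, v i * spec t q m r i ^ 2|
      + t / n * |∑ i, v i * spec t q m r i| + 1 / (lam * n) * |∑ i, v i * spec t q m r i * projOff m g i| ≤ M)
    (h2 : t / (2 + (1 - q) / q) / n * |∑ i, v i * spec t q m r i|
      + t / n * |∑ i, v i| + 1 / (lam * n) * |∑ i, v i * projOff m g i| ≤ M)
    (h3 : t / (2 + (1 - q) / q) / n * |∑ i, v i * spec t q m r i * projOff m g i|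
      + t / n * |∑ i, v i * projOff m g i| + 1 / (lam * n) * |∑ i, v i * projOff m g i ^ 2| ≤ M)
    (u : Fin n → ℝ) :
    rankForm t m (fun i => r i + t * (1 - q) * m i) u + t * lam * ∑ i, projOff m u i ^ 2
        + (∑ i, g i * projOff m u i) ^ 2 / (lam * n)
      ≤ M * (∑ i, u i ^ 2 / v i) + (t * lam + κ) * ∑ i, u i ^ 2 := by
  have hn' : (0 : ℝ) < n := by exact_mod_cast hn
  set k := (1 - q) / q with hk
  have hk0 : 0 ≤ k := div_nonneg (by linarith) hq.le
  set z : Fin 3 → Fin n → ℝ := ![spec t q m r, fun _ => 1, projOff m g] with hz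
  set α : Fin 3 → ℝ := ![t / (2 + k) / n, t / n, 1 / (lam * n)] with hα
  have hα0 : ∀ j, 0 ≤ α j := fun j => by
    fin_cases j <;> simp [hα] <;> positivity
  have sym : ∀ j l, ∑ i, v i * z j i * z l i = ∑ i, v i * z l i * z j i := fun j l =>
    sum_congr rfl fun i _ => by ring
  have hrow : ∀ j, ∑ l, α l * |∑ i, v i * z j i * z l i| ≤ M := fun j => by
    have e2 : ∀ f : Fin n → ℝ, ∑ i, v i * f i * f i = ∑ i, v i * f i ^ 2 := fun f =>
      sum_congr rfl fun i _ => by ring
    fin_cases j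
    · simpa [Fin.sum_univ_three, hα, hz, e2] using h1
    · simpa [Fin.sum_univ_three, hα, hz, e2] using h2
    · have s1 : ∑ i, v i * projOff m g i * spec t q m r i = ∑ i, v i * spec t q m r i * projOff m g i :=
        sum_congr rfl fun i _ => by ring
      simpa [Fin.sum_univ_three, hα, hz, e2, s1] using h3
  have hb := weighted_bessel v hv z α hα0 hM hrow
    (fun l => by simp only [fun j => sym j l]; exact hrow l) u
  simp only [Fin.sum_univ_three, hα, hz, Matrix.cons_val_zero, Matrix.cons_val_one,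
    Matrix.cons_val_two, Matrix.tail_cons, Matrix.head_cons, mul_one] at hb
  set a := ∑ i, u i * m i with ha
  set b := ∑ i, u i * r i with hb'
  set X := ∑ i, m i * r i with hX
  set U := ∑ i, u i ^ 2 with hU
  have es : ∑ i, u i * spec t q m r i = 2 * a + b / (t * q) := by
    simp only [spec, mul_add, sum_add_distrib, ha, hb', mul_sum, sum_div]
    congr 1 <;> exact sum_congr rfl fun i _ => by ring
  rw [es, ← projOff_inner] at hb
  have hw : ∑ i, u i * (r i + t * (1 - q) * m i) = b + t * (1 - q) * a := by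
    simp only [mul_add, sum_add_distrib, hb', ha, mul_sum]
    congr 1; exact sum_congr rfl fun i _ => by ring
  have hmw : ∑ i, m i * (r i + t * (1 - q) * m i) = X + t * (1 - q) * (q * n) := by
    rw [← hm, mul_sum]
    simp only [mul_add, sum_add_distrib, hX]
    congr 1; exact sum_congr rfl fun i _ => by ring
  rw [projOff_norm (by rw [hm]; positivity), rankForm, hw, hmw, ← ha, hm, ← hU]
  have hcs : a ^ 2 ≤ q * n * U := by
    have := sum_mul_sq_le_sq_mul_sq univ u m
    rw [← ha, hm, ← hU] at this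
    linarith
  have hκ0 : 0 ≤ κ := by
    have h := (abs_nonneg _).trans hκ
    exact nonneg_of_mul_nonneg_left (by linarith [show κ * q * n = κ * (q * n) by ring]) (mul_pos hq hn')
  have hXb : -(X - t * (1 - q) * q * n) * a ^ 2 / (q * n) ^ 2 ≤ κ * U := by
    rw [div_le_iff₀ (by positivity)]
    have h := mul_le_mul_of_nonneg_right ((neg_le_abs _).trans hκ) (sq_nonneg a)
    linarith [mul_le_mul_of_nonneg_left hcs (show 0 ≤ κ * q * n by positivity)]
  have hsp : (t / n) * ((2 - k) * a ^ 2 + 2 * a * (b / (t * q)))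
      ≤ t / (2 + k) / n * (2 * a + b / (t * q)) ^ 2 := by
    have h := mul_le_mul_of_nonneg_left (special_square (a := a) (b := b / (t * q)) hk0)
      (show 0 ≤ t / n by positivity)
    refine h.trans (le_of_eq ?_)
    ring
  have hl : 0 ≤ t * (lam - (1 - q)) * (a ^ 2 / (q * n)) :=
    mul_nonneg (mul_nonneg ht.le (by linarith)) (by positivity)
  have e : 2 * (b + t * (1 - q) * a) * a / (q * n)
      - (X + t * (1 - q) * (q * n)) * a ^ 2 / (q * n) ^ 2 + 2 * t / n * a ^ 2
      + t * lam * (U - a ^ 2 / (q * n))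
      = t / n * ((2 - k) * a ^ 2 + 2 * a * (b / (t * q)))
        + -(X - t * (1 - q) * q * n) * a ^ 2 / (q * n) ^ 2
        - t * (lam - (1 - q)) * (a ^ 2 / (q * n)) + t * lam * U := by
    rw [hk]; field_simp; ring
  have e3 : ∀ x : ℝ, 1 / (lam * n) * x = x / (lam * n) := fun x => by ring
  rw [e3] at hb
  linarith

/-- The margin: the Gaussian side is dominated by the diagonal, with room `η`. -/
theorem margin_room (hn : 0 < n) {t q lam κ M η : ℝ} (ht : 0 < t) (hq : 0 < q) (hq1 : q ≤ 1)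
    (hlam : 1 - q ≤ lam) (hlam0 : 0 < lam) {m v r g : Fin n → ℝ} (hv : ∀ i, 0 < v i)
    (hv1 : ∀ i, v i ≤ 1)
    (hm : ∑ i, m i ^ 2 = q * n) (hκ : |∑ i, m i * r i - t * (1 - q) * q * n| ≤ κ * q * n)
    (hM : 0 ≤ M) (hM1 : M ≤ 1) (hroom : M + t * (lam - (1 - q)) + κ + η ≤ 1)
    (h1 : t / (2 + (1 - q) / q) / n * |∑ i, v i * spec t q m r i ^ 2|
      + t / n * |∑ i, v i * spec t q m r i| + 1 / (lam * n) * |∑ i, v i * spec t q m r i * projOff m g i| ≤ M)
    (h2 : t / (2 + (1 - q) / q) / n * |∑ i, v i * spec t q m r i|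
      + t / n * |∑ i, v i| + 1 / (lam * n) * |∑ i, v i * projOff m g i| ≤ M)
    (h3 : t / (2 + (1 - q) / q) / n * |∑ i, v i * spec t q m r i * projOff m g i|
      + t / n * |∑ i, v i * projOff m g i| + 1 / (lam * n) * |∑ i, v i * projOff m g i ^ 2| ≤ M)
    (u : Fin n → ℝ) :
    t * lam * ∑ i, projOff m u i ^ 2 + (∑ i, g i * projOff m u i) ^ 2 / (lam * n)
      ≤ ∑ i, u i ^ 2 * (1 / v i + t * (1 - q) - η)
        - rankForm t m (fun i => r i + t * (1 - q) * m i) u := by
  have h := margin_pointwise hn ht hq hq1 hlam hlam0 hv hm hκ hM h1 h2 h3 u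
  have e : ∑ i, u i ^ 2 * (1 / v i + t * (1 - q) - η)
      = ∑ i, u i ^ 2 / v i + (t * (1 - q) - η) * ∑ i, u i ^ 2 := by
    rw [mul_sum, ← sum_add_distrib]
    exact sum_congr rfl fun i _ => by ring
  have hd : ∑ i, u i ^ 2 ≤ ∑ i, u i ^ 2 / v i := sum_le_sum fun i _ => by
    rw [le_div_iff₀ (hv i)]
    exact mul_le_of_le_one_right (sq_nonneg _) (hv1 i)
  have h4 := mul_le_mul_of_nonneg_left hd (show 0 ≤ 1 - M by linarith)
  have h5 : 0 ≤ ∑ i, u i ^ 2 := sum_nonneg fun i _ => sq_nonneg _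
  have h6 := mul_le_mul_of_nonneg_right hroom h5
  rw [e]
  linarith

end Vale.Agent.P150.Fast
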