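import Vale.Agent.P150.Fast.Goe
import Vale.Agent.P150.Fast.MarginAlg

/-!
Conditioning of the Gaussian coupling on the image of a vector (P150): the image of `m` is
independent of the coupling compressed off `m`, and small balls for the image have the Gaussian
bound.
-/

open MeasureTheory ProbabilityTheory Real Finset Matrix

namespace Vale.Agent.P150.Fast

/-- Standard Gaussian vectors are invariant under linear isometries. -/
theorem gp_rot {ι : Type} [Fintype ι] (R : (ι → ℝ) →ₗ[ℝ] (ι → ℝ))
    (hR : ∀ g, ∑ i, R g i ^ 2 = ∑ i, g i ^ 2) : MeasurePreserving R (gp ι) (gp ι) := by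
  set e := (WithLp.linearEquiv 2 ℝ (ι → ℝ)) with he
  set F : EuclideanSpace ℝ ι →ₗ[ℝ] EuclideanSpace ℝ ι :=
    e.symm.toLinearMap.comp (R.comp e.toLinearMap) with hF
  have hnorm : ∀ x, ‖F x‖ = ‖x‖ := fun x => by
    rw [← sq_eq_sq₀ (norm_nonneg _) (norm_nonneg _), EuclideanSpace.real_norm_sq_eq,
      EuclideanSpace.real_norm_sq_eq]
    simpa [hF, he] using hR x.ofLp
  set L : EuclideanSpace ℝ ι →ₗᵢ[ℝ] EuclideanSpace ℝ ι := ⟨F, hnorm⟩
  set E := L.toLinearIsometryEquiv rfl
  have hmeas : Measurable R := (LinearMap.continuous_of_finiteDimensional R).measurable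
  refine ⟨hmeas, ?_⟩
  have h := stdGaussian_map E
  have hfun : (R : (ι → ℝ) → ι → ℝ) = (fun x : EuclideanSpace ℝ ι => x.ofLp) ∘ E ∘ WithLp.toLp 2 := by
    funext g
    simp [E, L, hF, he]
  rw [← map_pi_eq_stdGaussian, Measure.map_map E.continuous.measurable (by fun_prop)] at h
  rw [gp, hfun, ← Measure.map_map (PiLp.continuous_ofLp 2 _).measurable
    (E.continuous.measurable.comp (by fun_prop)), h,
    Measure.map_map (PiLp.continuous_ofLp 2 _).measurable (by fun_prop)]
  exact Measure.map_id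

/-- The law of a linear form of standard Gaussians. -/
theorem lin_law {ι : Type} [Fintype ι] (c : ι → ℝ) (x : ℝ) :
    ∫ g, Complex.exp ((x * lin c g : ℝ) * Complex.I) ∂gp ι
      = Complex.exp (-((x ^ 2 * ∑ i, c i ^ 2 : ℝ) / 2 : ℂ)) := by
  have e : ∀ g : ι → ℝ, Complex.exp ((x * lin c g : ℝ) * Complex.I)
      = ∏ i, Complex.exp (((x * c i : ℝ) * g i : ℂ) * Complex.I) := fun g => by
    rw [← Complex.exp_sum]
    congr 1
    push_cast [lin, mul_sum, sum_mul]
    exact sum_congr rfl fun i _ => by ring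
  simp only [e, gp]
  rw [integral_fintype_prod_eq_prod
    (f := fun i (y : ℝ) => Complex.exp (((x * c i : ℝ) * y : ℂ) * Complex.I))]
  have h1 : ∀ i, ∫ y : ℝ, Complex.exp (((x * c i : ℝ) * y : ℂ) * Complex.I) ∂gaussianReal 0 1
      = Complex.exp (-(((x * c i) ^ 2 : ℝ) / 2 : ℂ)) := fun i => by
    have h := charFun_gaussianReal (μ := 0) (v := 1) (x * c i)
    rw [charFun_apply_real] at h
    rw [h]
    congr 1
    push_cast
    ring
  simp only [h1, ← Complex.exp_sum]
  congr 1
  push_cast [mul_sum, sum_div, mul_pow]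
  rw [← sum_neg_distrib]

/-- Two linear images of standard Gaussians with the same covariance have the same law. -/
theorem lin_image_eq {ι κ σ : Type} [Fintype ι] [Fintype κ] [Fintype σ]
    (A : (ι → ℝ) → σ → ℝ) (B : (κ → ℝ) → σ → ℝ) (a : σ → ι → ℝ) (b : σ → κ → ℝ)
    (hA : ∀ g s, A g s = lin (a s) g) (hB : ∀ g s, B g s = lin (b s) g)
    (hcov : ∀ ξ : σ → ℝ, ∑ i, (∑ s, ξ s * a s i) ^ 2 = ∑ j, (∑ s, ξ s * b s j) ^ 2) :
    (gp ι).map A = (gp κ).map B := by
  have mA : Measurable A := measurable_pi_lambda _ fun s => by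
    simp only [hA]; exact (continuous_lin _).measurable
  have mB : Measurable B := measurable_pi_lambda _ fun s => by
    simp only [hB]; exact (continuous_lin _).measurable
  have mT : Measurable (WithLp.toLp 2 : (σ → ℝ) → EuclideanSpace ℝ σ) := by fun_prop
  have key : ((gp ι).map A).map (WithLp.toLp 2 : (σ → ℝ) → EuclideanSpace ℝ σ)
      = ((gp κ).map B).map (WithLp.toLp 2) := by
    have : IsProbabilityMeasure ((gp ι).map A) := Measure.isProbabilityMeasure_map mA.aemeasurable
    have : IsProbabilityMeasure ((gp κ).map B) := Measure.isProbabilityMeasure_map mB.aemeasurable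
    refine Measure.ext_of_charFun (E := EuclideanSpace ℝ σ) (funext fun ξ => ?_)
    rw [charFun_apply, charFun_apply, integral_map mT.aemeasurable (by fun_prop),
      integral_map mA.aemeasurable (by fun_prop), integral_map mT.aemeasurable (by fun_prop),
      integral_map mB.aemeasurable (by fun_prop)]
    have ea : ∀ g, inner ℝ (WithLp.toLp 2 (A g)) ξ = 1 * lin (fun i => ∑ s, ξ.ofLp s * a s i) g :=
      fun g => by
      simp only [PiLp.inner_apply, RCLike.inner_apply, conj_trivial, hA, lin, mul_sum, one_mul]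
      rw [sum_comm]
      exact sum_congr rfl fun i _ => sum_congr rfl fun s _ => by ring
    have eb : ∀ g, inner ℝ (WithLp.toLp 2 (B g)) ξ = 1 * lin (fun i => ∑ s, ξ.ofLp s * b s i) g :=
      fun g => by
      simp only [PiLp.inner_apply, RCLike.inner_apply, conj_trivial, hB, lin, mul_sum, one_mul]
      rw [sum_comm]
      exact sum_congr rfl fun i _ => sum_congr rfl fun s _ => by ring
    simp only [ea, eb, lin_law, hcov]
  have h := congrArg (Measure.map (fun x : EuclideanSpace ℝ σ => x.ofLp)) key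
  rw [Measure.map_map (PiLp.continuous_ofLp 2 _).measurable mT,
    Measure.map_map (PiLp.continuous_ofLp 2 _).measurable mT] at h
  simpa [Function.comp_def] using h

variable {n : ℕ}

/-- The coordinates of a symmetric matrix. -/
noncomputable def toDis (X : Matrix (Fin n) (Fin n) ℝ) : Dis n :=
  Sum.elim (fun p => X p.1.1 p.1.2) fun i => X i i / √2

theorem goe_toDis {X : Matrix (Fin n) (Fin n) ℝ} (hX : X.IsSymm) : goe n (toDis X) = X := by
  ext i j
  rcases lt_trichotomy i j with h | h | h
  · simp [goe, toDis, h]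
  · subst h
    simp [goe, toDis, mul_div_cancel₀]
  · simp [goe, toDis, h, h.not_gt, hX.apply i j]

theorem sq_eq_trace (d : Dis n) : ∑ k, d k ^ 2 = (goe n d * goe n d).trace / 2 := by
  have h := Edge.sum_sum_eq n fun i j => goe n d i j ^ 2
  have e : (goe n d * goe n d).trace = ∑ i, ∑ j, goe n d i j ^ 2 := by
    simp only [Matrix.trace, Matrix.diag, Matrix.mul_apply]
    exact sum_congr rfl fun i _ => sum_congr rfl fun j _ => by rw [goe_symm d j i]; ring
  rw [e, h, Fintype.sum_sum_type, add_div, sum_div, sum_div]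
  congr 1
  · refine sum_congr rfl fun p _ => ?_
    rw [goe_symm d p.1.2, goe_pair]; ring
  · refine sum_congr rfl fun i _ => ?_
    rw [goe_diag, mul_pow, sq_sqrt zero_le_two]; ring

theorem cond_goe_add (d d' : Dis n) : goe n (d + d') = goe n d + goe n d' := by
  ext i j
  simp only [goe, Matrix.add_apply, Pi.add_apply]
  split_ifs <;> ring

theorem cond_goe_smul (c : ℝ) (d : Dis n) : goe n (c • d) = c • goe n d := by
  ext i j
  simp only [goe, Matrix.smul_apply, Pi.smul_apply, smul_eq_mul]
  split_ifs <;> ring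

theorem toDis_add (X Y : Matrix (Fin n) (Fin n) ℝ) : toDis (X + Y) = toDis X + toDis Y := by
  funext k
  cases k <;> simp [toDis, add_div]

theorem toDis_smul (c : ℝ) (X : Matrix (Fin n) (Fin n) ℝ) : toDis (c • X) = c • toDis X := by
  funext k
  cases k <;> simp [toDis, mul_div_assoc]

theorem continuous_goe (i j : Fin n) : Continuous fun d : Dis n => goe n d i j := by
  simp only [goe]
  split_ifs <;> fun_prop

/-- The projection off `m` as a matrix. -/
noncomputable def offMat (m : Fin n → ℝ) : Matrix (Fin n) (Fin n) ℝ :=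
  1 - (∑ j, m j ^ 2)⁻¹ • vecMulVec m m

theorem offMat_isSymm (m : Fin n → ℝ) : (offMat m).IsSymm := by
  refine Matrix.IsSymm.ext fun i j => ?_
  simp [offMat, vecMulVec_apply, Matrix.one_apply, eq_comm, mul_comm (m i) (m j)]

theorem offMat_mulVec (m u : Fin n → ℝ) : offMat m *ᵥ u = projOff m u := by
  funext i
  rw [offMat, sub_mulVec, one_mulVec, smul_mulVec, vecMulVec_mulVec]
  simp only [Pi.sub_apply, Pi.smul_apply, smul_eq_mul, projOff, MulOpposite.smul_eq_mul_unop,
    MulOpposite.unop_op, dotProduct]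
  have : ∑ j, u j * m j = ∑ j, m j * u j := sum_congr rfl fun j _ => mul_comm _ _
  rw [this]
  ring

theorem projOff_self {m : Fin n → ℝ} (hm : ∑ j, m j ^ 2 ≠ 0) : projOff m m = 0 := by
  funext i
  simp only [projOff, ← pow_two, Pi.zero_apply, div_self hm, one_mul, sub_self]

theorem offMat_idem {m : Fin n → ℝ} (hm : ∑ j, m j ^ 2 ≠ 0) : offMat m * offMat m = offMat m := by
  refine Matrix.toLin'.injective (LinearMap.ext fun u => ?_)
  simp only [Matrix.toLin'_apply, ← Matrix.mulVec_mulVec, offMat_mulVec]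
  funext i
  have h : ∑ j, projOff m u j * m j = 0 := by
    simp only [projOff, sub_mul, sum_sub_distrib, mul_assoc, ← mul_sum, ← pow_two]
    rw [div_mul_cancel₀ _ hm, sub_self]
  simp only [projOff] at h ⊢
  rw [h]
  ring

/-- The coupling compressed off `m`. -/
noncomputable def pinch (m : Fin n → ℝ) (d : Dis n) : Dis n :=
  toDis (offMat m * goe n d * offMat m)

theorem compress_isSymm (m : Fin n → ℝ) (d : Dis n) :
    (offMat m * goe n d * offMat m).IsSymm := by
  unfold Matrix.IsSymm
  rw [transpose_mul, transpose_mul, (offMat_isSymm m).eq,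
    (Matrix.IsSymm.ext fun i j => goe_symm d j i : (goe n d).IsSymm).eq, Matrix.mul_assoc]

theorem cond_qform_eq_dot (K : Matrix (Fin n) (Fin n) ℝ) (u : Fin n → ℝ) :
    Ent.qform K u = u ⬝ᵥ (K *ᵥ u) := by
  simp only [Ent.qform, dotProduct, Matrix.mulVec, mul_sum]
  exact sum_congr rfl fun i _ => sum_congr rfl fun j _ => by ring

theorem qform_pinch (β : ℝ) (m : Fin n → ℝ) (d : Dis n) (u : Fin n → ℝ) :
    Ent.qform (kmat n β (pinch m d)) u = Ent.qform (kmat n β d) (projOff m u) := by
  rw [qform_kmat_eq, qform_kmat_eq, pinch, goe_toDis (compress_isSymm m d), cond_qform_eq_dot,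
    cond_qform_eq_dot]
  congr 1
  rw [← Matrix.mulVec_mulVec, ← Matrix.mulVec_mulVec, Matrix.dotProduct_mulVec,
    ← Matrix.mulVec_transpose, (offMat_isSymm m).eq, offMat_mulVec]

theorem mix_isometry {m : Fin n → ℝ} (hm : ∑ j, m j ^ 2 ≠ 0) (G G' : Matrix (Fin n) (Fin n) ℝ) :
    let Q := offMat m * G * offMat m; let Q' := offMat m * G' * offMat m
    ((G - Q + Q') * (G - Q + Q')).trace + ((G' - Q' + Q) * (G' - Q' + Q)).trace
      = (G * G).trace + (G' * G').trace := by
  intro Q Q'
  set P := offMat m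
  have hP : P * P = P := offMat_idem hm
  have key : ∀ A B : Matrix (Fin n) (Fin n) ℝ,
      ((P * A * P) * (P * B * P)).trace = (A * (P * B * P)).trace := fun A B => by
    calc ((P * A * P) * (P * B * P)).trace = (P * (A * (P * B * P))).trace := by
          simp only [Matrix.mul_assoc]
          rw [← Matrix.mul_assoc P P, hP]
      _ = ((A * (P * B * P)) * P).trace := Matrix.trace_mul_comm _ _
      _ = (A * (P * B * P)).trace := by
          simp only [Matrix.mul_assoc, hP]
  have k1 := key G G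
  have k2 := key G' G'
  have k3 := key G G'
  have k4 := key G' G
  have c1 := Matrix.trace_mul_comm G Q
  have c2 := Matrix.trace_mul_comm G' Q'
  have c3 := Matrix.trace_mul_comm G Q'
  have c4 := Matrix.trace_mul_comm G' Q
  have c5 := Matrix.trace_mul_comm Q Q'
  simp only [Matrix.add_mul, Matrix.mul_add, Matrix.sub_mul, Matrix.mul_sub, Matrix.trace_add,
    Matrix.trace_sub]
  change (Q * Q).trace = (G * Q).trace at k1
  change (Q' * Q').trace = (G' * Q').trace at k2
  change (Q * Q').trace = (G * Q').trace at k3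
  change (Q' * Q).trace = (G' * Q).trace at k4
  linarith

/-- The image of `m` is independent of the coupling compressed off `m`. -/
theorem cond_indep {β : ℝ} {m : Fin n → ℝ} (hm : ∑ j, m j ^ 2 ≠ 0) {W : Set (Fin n → ℝ)}
    (hW : MeasurableSet W) {A : Set (Dis n)} (hA : MeasurableSet A) :
    (disX n).real {d | kmat n β d *ᵥ m ∈ W ∧ pinch m d ∈ A}
      = (disX n).real {d | kmat n β d *ᵥ m ∈ W} * (disX n).real {d | pinch m d ∈ A} := by
  set ι := Pair n ⊕ Fin n
  set P := offMat m
  let fst : (ι ⊕ ι → ℝ) → Dis n := fun g k => g (Sum.inl k)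
  let snd : (ι ⊕ ι → ℝ) → Dis n := fun g k => g (Sum.inr k)
  let X : (ι ⊕ ι → ℝ) → Matrix (Fin n) (Fin n) ℝ := fun g =>
    goe n (fst g) - P * goe n (fst g) * P + P * goe n (snd g) * P
  let Y : (ι ⊕ ι → ℝ) → Matrix (Fin n) (Fin n) ℝ := fun g =>
    goe n (snd g) - P * goe n (snd g) * P + P * goe n (fst g) * P
  let R : (ι ⊕ ι → ℝ) →ₗ[ℝ] (ι ⊕ ι → ℝ) :=
    { toFun := fun g => Sum.elim (toDis (X g)) (toDis (Y g))
      map_add' := fun g g' => by
        have ha : fst (g + g') = fst g + fst g' := rfl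
        have hb : snd (g + g') = snd g + snd g' := rfl
        have eX : X (g + g') = X g + X g' := by
          simp only [X, ha, hb, cond_goe_add, Matrix.mul_add, Matrix.add_mul]; abel
        have eY : Y (g + g') = Y g + Y g' := by
          simp only [Y, ha, hb, cond_goe_add, Matrix.mul_add, Matrix.add_mul]; abel
        funext k
        cases k <;> simp [eX, eY, toDis_add]
      map_smul' := fun c g => by
        have ha : fst (c • g) = c • fst g := rfl
        have hb : snd (c • g) = c • snd g := rfl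
        have eX : X (c • g) = c • X g := by
          simp only [X, ha, hb, cond_goe_smul, Matrix.mul_smul, Matrix.smul_mul, smul_sub, smul_add]
        have eY : Y (c • g) = c • Y g := by
          simp only [Y, ha, hb, cond_goe_smul, Matrix.mul_smul, Matrix.smul_mul, smul_sub, smul_add]
        funext k
        cases k <;> simp [eX, eY, toDis_smul] }
  have hsym : ∀ d, (goe n d).IsSymm := fun d => Matrix.IsSymm.ext fun i j => goe_symm d j i
  have hXs : ∀ g, (X g).IsSymm := fun g =>
    ((hsym _).sub (compress_isSymm m _)).add (compress_isSymm m _)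
  have hYs : ∀ g, (Y g).IsSymm := fun g =>
    ((hsym _).sub (compress_isSymm m _)).add (compress_isSymm m _)
  have hiso : ∀ g, ∑ i, R g i ^ 2 = ∑ i, g i ^ 2 := fun g => by
    have e1 : ∑ i, R g i ^ 2 = ∑ k, toDis (X g) k ^ 2 + ∑ k, toDis (Y g) k ^ 2 := by
      rw [Fintype.sum_sum_type]; rfl
    have e2 : ∑ i, g i ^ 2 = ∑ k, fst g k ^ 2 + ∑ k, snd g k ^ 2 := by rw [Fintype.sum_sum_type]
    rw [e1, e2, sq_eq_trace, sq_eq_trace, sq_eq_trace, sq_eq_trace, goe_toDis (hXs g),
      goe_toDis (hYs g), ← add_div, ← add_div]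
    congr 1
    exact mix_isometry hm _ _
  have mR := gp_rot R hiso
  have hmk : ∀ d, kmat n β d *ᵥ m = (β / √n) • (goe n d *ᵥ m) := fun d => by
    rw [kmat_eq, smul_mulVec]
  have hPm : P *ᵥ m = 0 := by rw [offMat_mulVec, projOff_self hm]
  have hK : ∀ g, kmat n β (fst (R g)) *ᵥ m = kmat n β (fst g) *ᵥ m := fun g => by
    have : fst (R g) = toDis (X g) := rfl
    rw [hmk, hmk, this, goe_toDis (hXs g)]
    congr 1
    simp only [X, add_mulVec, sub_mulVec, ← mulVec_mulVec, hPm, mulVec_zero, sub_zero, add_zero]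
  have hpin : ∀ g, pinch m (fst (R g)) = pinch m (snd g) := fun g => by
    have : fst (R g) = toDis (X g) := rfl
    rw [pinch, pinch, this, goe_toDis (hXs g)]
    congr 1
    have hP : P * P = P := offMat_idem hm
    have hP2 : ∀ M : Matrix (Fin n) (Fin n) ℝ, P * (P * M * P) * P = P * M * P := fun M => by
      simp only [Matrix.mul_assoc, hP]
      rw [← Matrix.mul_assoc P P, hP]
    change P * X g * P = P * goe n (snd g) * P
    simp only [X, Matrix.mul_add, Matrix.mul_sub, Matrix.add_mul, Matrix.sub_mul, hP2]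
    simp
  have m1 : MeasurePreserving fst (gp (ι ⊕ ι)) (gp ι) := mp_fst
  have mK : Measurable fun d : Dis n => kmat n β d *ᵥ m := by
    refine Continuous.measurable (continuous_pi fun i => ?_)
    simp only [mulVec, dotProduct, kmat_apply]
    refine continuous_finsetSum _ fun j _ => ?_
    exact ((continuous_goe i j).const_mul _).mul_const _
  have mP : Measurable (pinch m : Dis n → Dis n) := by
    refine Continuous.measurable (continuous_pi fun k => ?_)
    have hM : ∀ i j, Continuous fun d : Dis n => (offMat m * goe n d * offMat m) i j := fun i j => by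
      simp only [Matrix.mul_apply]
      exact continuous_finsetSum _ fun l _ => (continuous_finsetSum _ fun l' _ =>
        (continuous_goe l' l).const_mul _).mul_const _
    cases k with
    | inl p => exact hM _ _
    | inr i => exact (hM i i).div_const _
  have hB : MeasurableSet {d : Dis n | kmat n β d *ᵥ m ∈ W} := mK hW
  have hC : MeasurableSet {d : Dis n | pinch m d ∈ A} := mP hA
  set B := {d : Dis n | kmat n β d *ᵥ m ∈ W}
  set C := {d : Dis n | pinch m d ∈ A}
  have hBC : {d : Dis n | kmat n β d *ᵥ m ∈ W ∧ pinch m d ∈ A} = B ∩ C := rfl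
  rw [hBC]
  have e1 : (disX n).real (B ∩ C) = (gp (ι ⊕ ι)).real (R ⁻¹' (fst ⁻¹' (B ∩ C))) := by
    rw [measureReal_def, measureReal_def,
      mR.measure_preimage (m1.measurable (hB.inter hC)).nullMeasurableSet,
      m1.measure_preimage (hB.inter hC).nullMeasurableSet]
    rfl
  have e2 : R ⁻¹' (fst ⁻¹' (B ∩ C))
      = (fun g : ι ⊕ ι → ℝ => ((fun k => g (Sum.inl k)), fun k => g (Sum.inr k))) ⁻¹' (B ×ˢ C) := by
    ext g
    simp only [Set.mem_preimage, Set.mem_inter_iff, Set.mem_prod, B, C, Set.mem_ofPred_eq, hK, hpin]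
    rfl
  have mp : MeasurePreserving (fun g : ι ⊕ ι → ℝ => ((fun k => g (Sum.inl k)), fun k => g (Sum.inr k)))
      (gp (ι ⊕ ι)) ((disX n).prod (disX n)) :=
    measurePreserving_sumPiEquivProdPi (fun _ : ι ⊕ ι => gaussianReal 0 1)
  rw [e1, e2, measureReal_def, mp.measure_preimage (hB.prod hC).nullMeasurableSet,
    Measure.prod_prod, ENNReal.toReal_mul]
  rfl

/-- The Gaussian integral of a narrow bump around `a`. -/
theorem bump_integral {σ : ℝ} (hσ : 0 < σ) (a : ℝ) :
    ∫ z, exp (-((z - a) ^ 2 / (2 * σ ^ 2))) ∂gaussianReal 0 1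
      = σ / √(1 + σ ^ 2) * exp (-(a ^ 2 / (2 * (1 + σ ^ 2)))) := by
  set b := (1 + σ ^ 2) / (2 * σ ^ 2) with hb
  set c := a / (1 + σ ^ 2) with hc
  have hσ2 : (0 : ℝ) < 1 + σ ^ 2 := by positivity
  rw [integral_gaussianReal_eq_integral_smul one_ne_zero]
  have e : ∀ z : ℝ, gaussianPDFReal 0 1 z • exp (-((z - a) ^ 2 / (2 * σ ^ 2)))
      = (√(2 * π))⁻¹ * exp (-(a ^ 2 / (2 * (1 + σ ^ 2)))) * exp (-b * (z - c) ^ 2) := fun z => by
    simp only [gaussianPDFReal, NNReal.coe_one, mul_one, sub_zero, smul_eq_mul]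
    rw [mul_assoc, mul_assoc, ← exp_add, ← exp_add]
    congr 2
    rw [hb, hc]
    field_simp
    ring
  simp only [e, integral_const_mul]
  rw [integral_sub_right_eq_self (fun z => exp (-b * z ^ 2)) c, integral_gaussian]
  have e2 : √(π / b) = √(2 * π) * (σ / √(1 + σ ^ 2)) := by
    have e3 : π / b = 2 * π * (σ ^ 2 / (1 + σ ^ 2)) := by rw [hb]; field_simp
    rw [e3, sqrt_mul (by positivity), sqrt_div (sq_nonneg σ), sqrt_sq hσ.le]
  rw [e2]
  have : √(2 * π) ≠ 0 := (sqrt_pos.2 (by positivity)).ne'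
  field_simp

/-- Small balls of standard Gaussian vectors. -/
theorem ball_bound {σ : ℝ} (hσ : 0 < σ) (z0 : Fin n → ℝ) :
    (gp (Fin n)).real {z | ∑ i, (z i - z0 i) ^ 2 ≤ σ ^ 2 * n}
      ≤ exp (n / 2) * σ ^ n * exp (-((∑ i, z0 i ^ 2) / (2 * (1 + σ ^ 2)))) := by
  set f : (Fin n → ℝ) → ℝ := fun z => exp (n / 2) * ∏ i, exp (-((z i - z0 i) ^ 2 / (2 * σ ^ 2)))
  have hfi : Integrable f (gp (Fin n)) := by
    refine Integrable.const_mul ?_ _
    exact Integrable.fintype_prod (f := fun i (x : ℝ) => exp (-((x - z0 i) ^ 2 / (2 * σ ^ 2))))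
      fun i => (integrable_const (1 : ℝ)).mono' (by fun_prop) (ae_of_all _ fun x => by
        rw [norm_of_nonneg (exp_pos _).le]
        exact exp_le_one_iff.2 (neg_nonpos.2 (by positivity)))
  have hS : MeasurableSet {z : Fin n → ℝ | ∑ i, (z i - z0 i) ^ 2 ≤ σ ^ 2 * n} :=
    (isClosed_le (by fun_prop) continuous_const).measurableSet
  have h1 : (gp (Fin n)).real {z | ∑ i, (z i - z0 i) ^ 2 ≤ σ ^ 2 * n} ≤ ∫ z, f z ∂gp (Fin n) := by
    rw [← integral_indicator_one hS]
    refine integral_mono ((integrable_const _).indicator hS) hfi fun z => ?_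
    by_cases hz : ∑ i, (z i - z0 i) ^ 2 ≤ σ ^ 2 * n
    · simp only [Set.indicator, Set.mem_ofPred_eq, if_pos hz, Pi.one_apply, f]
      rw [← exp_sum, ← exp_add, sum_neg_distrib, ← sum_div]
      refine one_le_exp ?_
      have : (∑ i, (z i - z0 i) ^ 2) / (2 * σ ^ 2) ≤ n / 2 := by
        rw [div_le_div_iff₀ (by positivity) two_pos]
        linarith
      linarith
    · simp only [Set.indicator, Set.mem_ofPred_eq, if_neg hz, f]
      positivity
  refine h1.trans ?_
  simp only [f, integral_const_mul, gp]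
  rw [integral_fintype_prod_eq_prod (f := fun i (x : ℝ) => exp (-((x - z0 i) ^ 2 / (2 * σ ^ 2))))]
  simp only [bump_integral hσ, prod_mul_distrib, prod_const, card_univ, Fintype.card_fin, ← exp_sum,
    sum_neg_distrib, ← sum_div, mul_assoc]
  refine mul_le_mul_of_nonneg_left (mul_le_mul_of_nonneg_right ?_ (exp_pos _).le) (exp_pos _).le
  refine pow_le_pow_left₀ (by positivity) ?_ n
  exact div_le_self hσ.le (one_le_sqrt.2 (by nlinarith))

theorem kmat_mulVec_lin (β : ℝ) (m : Fin n → ℝ) (d : Dis n) (ξ : Fin n → ℝ) :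
    ∑ s, ξ s * (kmat n β d *ᵥ m) s = lin (fun k => β / √n * ((coef (fun i => ξ i + m i) k
      - coef ξ k - coef m k) / 2)) d := by
  have hq : ∀ u, Ent.qform (goe n d) u = lin (coef u) d := fun u => qform_goe d u
  have e : Ent.qform (goe n d) (fun i => ξ i + m i) - Ent.qform (goe n d) ξ - Ent.qform (goe n d) m
      = 2 * ∑ s, ξ s * (goe n d *ᵥ m) s := by
    simp only [Ent.qform, Matrix.mulVec, dotProduct, mul_sum, ← sum_sub_distrib]
    have : ∀ i j, (ξ i + m i) * goe n d i j * (ξ j + m j) - ξ i * goe n d i j * ξ j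
        - m i * goe n d i j * m j = ξ i * goe n d i j * m j + m i * goe n d i j * ξ j :=
      fun i j => by ring
    simp only [this, sum_add_distrib]
    have h2 : ∑ i, ∑ j, m i * goe n d i j * ξ j = ∑ i, ∑ j, ξ i * goe n d i j * m j := by
      rw [sum_comm]
      exact sum_congr rfl fun i _ => sum_congr rfl fun j _ => by rw [goe_symm]; ring
    rw [h2, ← sum_add_distrib]
    exact sum_congr rfl fun i _ => by
      rw [← sum_add_distrib]; exact sum_congr rfl fun j _ => by ring
  rw [kmat_eq, smul_mulVec]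
  simp only [Pi.smul_apply, smul_eq_mul]
  have e2 : ∑ s, ξ s * (β / √n * (goe n d *ᵥ m) s) = β / √n * ∑ s, ξ s * (goe n d *ᵥ m) s := by
    rw [mul_sum]; exact sum_congr rfl fun s _ => by ring
  rw [e2, show ∑ s, ξ s * (goe n d *ᵥ m) s
    = (Ent.qform (goe n d) (fun i => ξ i + m i) - Ent.qform (goe n d) ξ - Ent.qform (goe n d) m) / 2
    by rw [e]; ring, hq, hq, hq]
  simp only [lin, ← sum_sub_distrib, sum_div, mul_sum]
  exact sum_congr rfl fun k _ => by ring

/-- The image of `m` has the law of a stretched standard Gaussian vector. -/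
theorem image_law (hn : 0 < n) (β : ℝ) {m : Fin n → ℝ} (hm : ∑ j, m j ^ 2 ≠ 0) :
    (disX n).map (fun d => kmat n β d *ᵥ m) = (gp (Fin n)).map (fun z s => β / √n *
      (√(∑ j, m j ^ 2) * z s + (√2 - 1) * ((∑ j, m j * z j) / √(∑ j, m j ^ 2)) * m s)) := by
  classical
  set N := ∑ j, m j ^ 2 with hN
  have hN0 : 0 < N := lt_of_le_of_ne (sum_nonneg fun j _ => sq_nonneg _) (Ne.symm hm)
  set δ : Fin n → Fin n → ℝ := fun s i => if i = s then 1 else 0
  refine lin_image_eq (fun d => kmat n β d *ᵥ m) _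
    (fun s k => β / √n * ((coef (fun i => δ s i + m i) k - coef (δ s) k - coef m k) / 2))
    (fun s j => β / √n * (√N * δ s j + (√2 - 1) * (m j / √N) * m s)) ?_ ?_ fun ξ => ?_
  · intro d s
    rw [← kmat_mulVec_lin]
    simp [δ]
  · intro z s
    simp only [lin, mul_add, sum_add_distrib, sum_div, mul_sum, sum_mul]
    congr 1
    · simp [δ]; ring
    · exact sum_congr rfl fun j _ => by ring
  · have eA : ∀ k, ∑ s, ξ s * (β / √n * ((coef (fun i => δ s i + m i) k - coef (δ s) k - coef m k) / 2))
        = β / √n * ((coef (fun i => ξ i + m i) k - coef ξ k - coef m k) / 2) := fun k => by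
      cases k with
      | inl p =>
        have hd : ∀ s, (coef (fun i => δ s i + m i) (Sum.inl p) - coef (δ s) (Sum.inl p)
            - coef m (Sum.inl p)) / 2 = δ s p.1.1 * m p.1.2 + m p.1.1 * δ s p.1.2 := fun s => by
          simp only [coef, Sum.elim_inl]; ring
        simp only [hd]
        simp [δ, mul_add, sum_add_distrib, coef]
        ring
      | inr i =>
        have hd : ∀ s, (coef (fun i => δ s i + m i) (Sum.inr i) - coef (δ s) (Sum.inr i)
            - coef m (Sum.inr i)) / 2 = √2 * (δ s i * m i) := fun s => by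
          simp only [coef, Sum.elim_inr]; ring
        simp only [hd]
        simp [δ, coef]
        ring
    have eB : ∀ j, ∑ s, ξ s * (β / √n * (√N * δ s j + (√2 - 1) * (m j / √N) * m s))
        = β / √n * (√N * ξ j + (√2 - 1) * (m j / √N) * ∑ s, ξ s * m s) := fun j => by
      simp only [mul_add, sum_add_distrib, mul_sum]
      congr 1
      · simp [δ]; ring
      · exact sum_congr rfl fun s _ => by ring
    simp only [eA, eB, mul_pow, ← mul_sum]
    congr 1
    set a := ∑ i, ξ i * m i
    have hc : ∀ k, ((coef (fun i => ξ i + m i) k - coef ξ k - coef m k) / 2) ^ 2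
        = (coef (fun i => ξ i + m i) k * coef (fun i => ξ i + m i) k + coef ξ k * coef ξ k
          + coef m k * coef m k - 2 * (coef (fun i => ξ i + m i) k * coef ξ k)
          - 2 * (coef (fun i => ξ i + m i) k * coef m k) + 2 * (coef ξ k * coef m k)) / 4 :=
      fun k => by ring
    simp only [hc, ← sum_div, sum_add_distrib, sum_sub_distrib, ← mul_sum, coef_inner]
    have s1 : ∑ i, (ξ i + m i) * (ξ i + m i) = ∑ i, ξ i ^ 2 + 2 * a + N := by
      simp only [a, hN, mul_sum, ← sum_add_distrib]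
      exact sum_congr rfl fun i _ => by ring
    have s2 : ∑ i, (ξ i + m i) * ξ i = ∑ i, ξ i ^ 2 + a := by
      simp only [a, ← sum_add_distrib]
      exact sum_congr rfl fun i _ => by ring
    have s3 : ∑ i, (ξ i + m i) * m i = a + N := by
      simp only [a, hN, ← sum_add_distrib]
      exact sum_congr rfl fun i _ => by ring
    rw [s1, s2, s3]
    simp only [← pow_two]
    rw [← hN]
    have e3 : ∀ j, (√N * ξ j + (√2 - 1) * (m j / √N) * a) ^ 2 = N * ξ j ^ 2
        + 2 * (√2 - 1) * a * (ξ j * m j) + (√2 - 1) ^ 2 * a ^ 2 / N * m j ^ 2 := fun j => by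
      have := sq_sqrt hN0.le
      have h0 : √N ≠ 0 := (sqrt_pos.2 hN0).ne'
      field_simp
      rw [this]
      ring
    simp only [e3, sum_add_distrib, ← mul_sum, ← hN]
    change _ = N * ∑ i, ξ i ^ 2 + 2 * (√2 - 1) * a * a + (√2 - 1) ^ 2 * a ^ 2 / N * N
    have h2 : (√2) ^ 2 = (2 : ℝ) := sq_sqrt zero_le_two
    field_simp
    linear_combination (-4 * a ^ 2) * h2

end Vale.Agent.P150.Fast
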