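import Vale.Agent.P150.Fast.ChainStmt

/-!
Curvature of the reference alternation: exported statements of the module M2 (second half), P150.
-/

open MeasureTheory Real Finset
open scoped Matrix

namespace Vale.Agent.P150.Fast

/-- Half the difference of `f` in the spin `j`. -/
noncomputable def dgrad {n : ℕ} (f : Conf n → ℝ) (j : Fin n) (x : Conf n) : ℝ :=
  (f (Function.update x j true) - f (Function.update x j false)) / 2

/-- The squared gradient. -/
noncomputable def grad2 {n : ℕ} (f : Conf n → ℝ) (x : Conf n) : ℝ := ∑ j, dgrad f j x ^ 2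

/-- The curvature constant of a step. -/
noncomputable def curvC (L : ℝ) : ℝ := 4 * exp (4 * L) * (1 + L ^ 2)

/-- The sub-Gaussian constant of a step. -/
noncomputable def mgfC (L : ℝ) : ℝ := 4 + 3 * L

/-- The reference mean of a test of the field and the new state. -/
noncomputable def testOp {n : ℕ} (s : Step n) (G : (Fin n → ℝ) → Conf n → ℝ) (x : Conf n) : ℝ :=
  ∫ y, chan s.A x y * ∑ z, qR s x y z * G y z

/-- A test with gradient at most `a` in the spins and `b` in the field. -/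
def IsTest {n : ℕ} (G : (Fin n → ℝ) → Conf n → ℝ) (a b : ℝ) : Prop :=
  (∀ y, ∀ z, grad2 (G y) z ≤ a) ∧ ∃ dG : (Fin n → ℝ) → Conf n → Fin n → ℝ,
    (∀ z i, Continuous fun y => dG y z i) ∧ (∀ y z, ∑ i, dG y z i ^ 2 ≤ b) ∧
    ∀ y z (v : Fin n → ℝ), HasDerivAt (fun t : ℝ => G (y + t • v) z) (∑ i, dG y z i * v i) 0

/-- The Frobenius norm. -/
noncomputable def frob {n : ℕ} (M : Matrix (Fin n) (Fin n) ℝ) : ℝ := √(∑ i, ∑ j, M i j ^ 2)

/-- One step: curvature and sub-Gaussian bound. -/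
def CurvStepStmt : Prop :=
  ∀ (n : ℕ) (s : Step n) (L : ℝ), 0 ≤ L → s.Good L →
    (∀ f x, grad2 (stepOp qR s f) x ≤ curvC L * stepOp qR s (grad2 f) x) ∧
    ∀ G a b, IsTest G a b →
      (∀ x, grad2 (testOp s G) x ≤ curvC L * (a + b)) ∧
      ∀ x (l : ℝ), (Integrable fun y => chan s.A x y * ∑ z, qR s x y z * exp (l * G y z)) ∧
        ∫ y, chan s.A x y * ∑ z, qR s x y z * exp (l * G y z)
          ≤ exp (l * testOp s G x + mgfC L * (a + b) * l ^ 2)

/-- Several steps: gradient, exponential moment and tail from every start. -/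
def CurvTailStmt : Prop :=
  ∀ (n r : ℕ) (σ : Fin r → Step n) (L : ℝ), 0 ≤ L → (∀ t, (σ t).Good L) →
    ∀ (f : Conf n → ℝ) (a : ℝ), (∀ x, grad2 f x ≤ a) →
      (∀ x, grad2 (chainOp qR σ f) x ≤ curvC L ^ r * a) ∧
      (∀ x (l : ℝ), pathE qR σ x (fun ω => exp (l * f (endAt x ω)))
        ≤ exp (l * chainOp qR σ f x + mgfC L * curvC L ^ r * a * l ^ 2)) ∧
      (∀ x (u : ℝ), 0 < a → 0 < u →
        pathE qR σ x ({ω | u ≤ |f (endAt x ω) - chainOp qR σ f x|}.indicator 1)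
          ≤ 2 * exp (-(u ^ 2 / (4 * mgfC L * curvC L ^ r * a))))

/-- A test of the last field: the same bound from every start. -/
def CurvTestStmt : Prop :=
  ∀ (n r : ℕ) (σ : Fin (r + 1) → Step n) (L : ℝ), 0 ≤ L → (∀ t, (σ t).Good L) →
    ∀ G a b, IsTest G a b → ∀ x (l : ℝ),
      pathE qR σ x (fun ω => exp (l * G (ω (Fin.last r)).1 (ω (Fin.last r)).2))
        ≤ exp (l * chainOp qR (Fin.init σ) (testOp (σ (Fin.last r)) G) x
          + mgfC L * curvC L ^ (r + 1) * (a + b) * l ^ 2)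

/-- The two chains are close in mean on smooth functions. -/
def CurvMeanStmt : Prop :=
  ∀ (n r : ℕ) (ν : Conf n → ℝ) (σ : Fin r → Step n) (L : ℝ), 0 ≤ L → (∀ t, (σ t).Good L) →
    (∀ x, 0 < ν x) → ∑ x, ν x = 1 → ∀ (f : Conf n → ℝ) (a : ℝ), (∀ x, grad2 f x ≤ a) →
      ∑ x, ν x * |chainOp (pR ν) σ f x - chainOp qR σ f x|
        ≤ 2 * √(mgfC L * curvC L ^ r * a * ∑ t, freeD ν (σ t))

/-- Reference means are Lipschitz in the start, in the coupling and in the field. -/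
def CurvLipStmt : Prop :=
  ∀ (n r : ℕ) (σ : Fin r → Step n) (L : ℝ), 0 ≤ L → (∀ t, (σ t).Good L) →
    ∀ (f : Conf n → ℝ) (a : ℝ), (∀ x, grad2 f x ≤ a) →
      (1 ≤ r → ∀ x x', |chainOp qR σ f x - chainOp qR σ f x'|
        ≤ √(curvC L ^ r * a * ∑ i, (spin (x i) - spin (x' i)) ^ 2)) ∧
      ∀ (σ' : Fin r → Step n) (lam δ : ℝ), 0 < lam → (∀ t, (σ' t).Good L) →
        (∀ t (v : Fin n → ℝ), lam * ∑ i, v i ^ 2 ≤ v ⬝ᵥ ((σ t).A *ᵥ v) ∧
          lam * ∑ i, v i ^ 2 ≤ v ⬝ᵥ ((σ' t).A *ᵥ v)) →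
        (∀ t, (σ t).S = (σ' t).S ∧ √n * frob ((σ t).A - (σ' t).A) * (1 + 1 / √lam)
          + √(∑ i, ((σ t).h i - (σ' t).h i) ^ 2) ≤ δ) →
        ∀ x, |chainOp qR σ f x - chainOp qR σ' f x| ≤ r * δ * √(curvC L ^ r * a)

end Vale.Agent.P150.Fast
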