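import Vale.Agent.P150.Fast.ChainKer

/-!
Expectations along paths and the Gibbs variational bound: proofs of `PathEndStmt`, `PathVarStmt`
and `PathTransferStmt`. Used for P150.
-/

open MeasureTheory Real Finset
open scoped Matrix

namespace Vale.Agent.P150.Fast

variable {n : ℕ} {R : Step n → Kern n}

/-- A step at which `R` is a measurable Markov rule. -/
structure OkStep (R : Step n → Kern n) (s : Step n) : Prop where
  pd : s.A.PosDef
  meas : ∀ x z, Measurable fun y => R s x y z
  nn : ∀ x y z, 0 ≤ R s x y z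
  sum : ∀ x y, ∑ z, R s x y z = 1

theorem ok_qR {s : Step n} (hA : s.A.PosDef) : OkStep qR s where
  pd := hA
  meas x z := measurable_prodS s.h s.S x z
  nn x y z := prodS_nonneg _ x _ z
  sum x y := sum_prodS _ x _

theorem ok_pR {ν : Conf n → ℝ} (hν : ∀ x, 0 < ν x) {s : Step n} (hA : s.A.PosDef) : OkStep (pR ν) s where
  pd := hA
  meas x z := measurable_postS s.A s.S x z
  nn x y z := postS_nonneg hA hν _ x y z
  sum x y := postS_sum hA hν _ x y

theorem avg_bound {ι : Type*} [Fintype ι] {p a : ι → ℝ} {M : ℝ} (hp : ∀ z, 0 ≤ p z)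
    (h1 : ∑ z, p z = 1) (ha : ∀ z, |a z| ≤ M) : |∑ z, p z * a z| ≤ M := by
  refine (abs_sum_le_sum_abs _ _).trans ((sum_le_sum (g := fun z => p z * M) fun z _ => ?_).trans_eq ?_)
  · rw [abs_mul, abs_of_nonneg (hp z)]
    exact mul_le_mul_of_nonneg_left (ha z) (hp z)
  · rw [← sum_mul, h1, one_mul]

theorem chanV_int_bound {A : Matrix (Fin n) (Fin n) ℝ} (hA : A.PosDef) (v : Fin n → ℝ)
    {G : (Fin n → ℝ) → ℝ} {M : ℝ} (hG : Measurable G) (hM : ∀ y, |G y| ≤ M) :
    |∫ y, chanV A v y * G y| ≤ M := by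
  refine (abs_integral_le_integral_abs).trans ?_
  refine (integral_mono (chanV_bdd hA v hG hM).abs ((chanV_integrable hA v).const_mul M) fun y => ?_).trans_eq ?_
  · simp only [abs_mul, abs_of_pos (chanV_pos hA v y), mul_comm M]
    exact mul_le_mul_of_nonneg_left (hM y) (chanV_pos hA v y).le
  · rw [integral_const_mul, chanV_mass hA, mul_one]

/-- Measurable dependence on a parameter, and the trivial bound. -/
theorem pathE_meas : ∀ {r : ℕ} (σ : Fin r → Step n), (∀ t, OkStep R (σ t)) →
    ∀ (P : Type) [MeasurableSpace P] (F : P → (Fin r → (Fin n → ℝ) × Conf n) → ℝ),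
      Measurable (Function.uncurry F) → ∀ M : ℝ, (∀ p ω, |F p ω| ≤ M) → ∀ x,
      Measurable (fun p => pathE R σ x (F p)) ∧ ∀ p, |pathE R σ x (F p)| ≤ M
  | 0, σ, _, P, _, F, hF, M, hM, x => by
    refine ⟨?_, fun p => hM p _⟩
    exact hF.comp (measurable_id.prodMk measurable_const)
  | r + 1, σ, hσ, P, _, F, hF, M, hM, x => by
    have hc : ∀ z : Conf n, Measurable fun q : (P × (Fin n → ℝ)) × (Fin r → (Fin n → ℝ) × Conf n) =>
        (q.1.1, (Fin.cons (q.1.2, z) q.2 : Fin (r + 1) → (Fin n → ℝ) × Conf n)) := fun z => by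
      refine (measurable_fst.comp measurable_fst).prodMk (measurable_pi_lambda _ fun i => ?_)
      refine Fin.cases ?_ (fun j => ?_) i
      · simp only [Fin.cons_zero]
        exact (measurable_snd.comp measurable_fst).prodMk measurable_const
      · simp only [Fin.cons_succ]
        exact (measurable_pi_apply j).comp measurable_snd
    have ih := fun z => pathE_meas (Fin.tail σ) (fun t => hσ t.succ) (P × (Fin n → ℝ))
      (fun q ω => F q.1 (Fin.cons (q.2, z) ω)) (hF.comp (hc z)) M (fun q ω => hM _ _) z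
    have hG : Measurable fun q : P × (Fin n → ℝ) =>
        ∑ z, R (σ 0) x q.2 z * pathE R (Fin.tail σ) z fun ω => F q.1 (Fin.cons (q.2, z) ω) :=
      Finset.measurable_sum _ fun z _ => ((((hσ 0).meas x z).comp measurable_snd).mul (ih z).1)
    have hGb : ∀ p y, |∑ z, R (σ 0) x y z * pathE R (Fin.tail σ) z fun ω => F p (Fin.cons (y, z) ω)| ≤ M :=
      fun p y => avg_bound ((hσ 0).nn x y) ((hσ 0).sum x y) fun z => (ih z).2 (p, y)
    refine ⟨?_, fun p => chanV_int_bound (hσ 0).pd _
      (hG.comp (measurable_const.prodMk measurable_id)) (hGb p)⟩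
    have hH : Measurable fun q : P × (Fin n → ℝ) => chan (σ 0).A x q.2
        * ∑ z, R (σ 0) x q.2 z * pathE R (Fin.tail σ) z fun ω => F q.1 (Fin.cons (q.2, z) ω) :=
      (((continuous_chanV _ _).measurable).comp measurable_snd).mul hG
    exact hH.stronglyMeasurable.integral_prod_right'.measurable

/-- The function under the integral of one step. -/
theorem pathE_inner {r : ℕ} (σ : Fin (r + 1) → Step n) (hσ : ∀ t, OkStep R (σ t))
    {F : (Fin (r + 1) → (Fin n → ℝ) × Conf n) → ℝ} (hF : Measurable F) {M : ℝ}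
    (hM : ∀ ω, |F ω| ≤ M) (z : Conf n) :
    Measurable (fun y => pathE R (Fin.tail σ) z fun ω => F (Fin.cons (y, z) ω)) ∧
    ∀ y, |pathE R (Fin.tail σ) z fun ω => F (Fin.cons (y, z) ω)| ≤ M := by
  refine pathE_meas (Fin.tail σ) (fun t => hσ t.succ) (Fin n → ℝ)
    (fun y ω => F (Fin.cons (y, z) ω)) (hF.comp ?_) M (fun y ω => hM _) z
  refine measurable_pi_lambda _ fun i => ?_
  refine Fin.cases ?_ (fun j => ?_) i
  · simp only [Fin.cons_zero]; exact measurable_fst.prodMk measurable_const
  · simp only [Fin.cons_succ]; exact (measurable_pi_apply j).comp measurable_snd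

theorem pathE_step_int {r : ℕ} (σ : Fin (r + 1) → Step n) (hσ : ∀ t, OkStep R (σ t))
    {F : (Fin (r + 1) → (Fin n → ℝ) × Conf n) → ℝ} (hF : Measurable F) {M : ℝ}
    (hM : ∀ ω, |F ω| ≤ M) (x : Conf n) :
    Integrable fun y => chan (σ 0).A x y
      * ∑ z, R (σ 0) x y z * pathE R (Fin.tail σ) z fun ω => F (Fin.cons (y, z) ω) :=
  chanV_bdd (hσ 0).pd _ (Finset.measurable_sum _ fun z _ => ((hσ 0).meas x z).mul
    (pathE_inner σ hσ hF hM z).1) fun y =>
    avg_bound ((hσ 0).nn x y) ((hσ 0).sum x y) fun z => (pathE_inner σ hσ hF hM z).2 y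

/-- Path expectations are affine. -/
theorem pathE_affine : ∀ {r : ℕ} (σ : Fin r → Step n), (∀ t, OkStep R (σ t)) →
    ∀ (F : (Fin r → (Fin n → ℝ) × Conf n) → ℝ), Measurable F → ∀ M : ℝ, (∀ ω, |F ω| ≤ M) →
      ∀ (a b : ℝ) x, pathE R σ x (fun ω => a * F ω + b) = a * pathE R σ x F + b
  | 0, _, _, _, _, _, _, _, _, _ => rfl
  | r + 1, σ, hσ, F, hF, M, hM, a, b, x => by
    have ih : ∀ y z, pathE R (Fin.tail σ) z (fun ω => a * F (Fin.cons (y, z) ω) + b)
        = a * pathE R (Fin.tail σ) z (fun ω => F (Fin.cons (y, z) ω)) + b := fun y z => by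
      refine pathE_affine (Fin.tail σ) (fun t => hσ t.succ) _ (hF.comp ?_) M (fun ω => hM _) a b z
      refine measurable_pi_lambda _ fun i => ?_
      refine Fin.cases ?_ (fun j => ?_) i
      · simp only [Fin.cons_zero]; exact measurable_const
      · simp only [Fin.cons_succ]; exact measurable_pi_apply j
    simp only [pathE, ih]
    have e : ∀ y, chan (σ 0).A x y * ∑ z, R (σ 0) x y z
          * (a * pathE R (Fin.tail σ) z (fun ω => F (Fin.cons (y, z) ω)) + b)
        = a * (chan (σ 0).A x y * ∑ z, R (σ 0) x y z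
            * pathE R (Fin.tail σ) z (fun ω => F (Fin.cons (y, z) ω))) + b * chan (σ 0).A x y := fun y => by
      simp only [mul_add, sum_add_distrib, ← sum_mul, (hσ 0).sum, one_mul, mul_sum]
      congr 1
      · exact sum_congr rfl fun z _ => by ring
      · ring
    simp only [e]
    have ic : Integrable fun y => b * chan (σ 0).A x y := (chanV_integrable (hσ 0).pd _).const_mul b
    rw [integral_add ((pathE_step_int σ hσ hF hM x).const_mul a) ic,
      integral_const_mul, integral_const_mul, chan_eq,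
      chanV_mass (hσ 0).pd, mul_one]

theorem pathEnd : PathEndStmt := by
  intro n r σ f x R
  induction r generalizing x with
  | zero => rfl
  | succ r ih =>
    simp only [pathE, chainOp, stepOp]
    refine integral_congr_ae (ae_of_all _ fun y => ?_)
    refine congrArg (chan (σ 0).A x y * ·) (sum_congr rfl fun z _ => congrArg (R (σ 0) x y z * ·) ?_)
    rw [← ih (Fin.tail σ) z]
    congr 1
    funext ω
    simp only [endAt, ← Fin.succ_last, Fin.cons_succ]
    congr 1
    generalize Fin.last r = j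
    induction j using Fin.cases <;> simp

/-- The accumulated cost from a state. -/
noncomputable def costTo (ν : Conf n → ℝ) : {r : ℕ} → (Fin r → Step n) → Conf n → ℝ
  | 0, _, _ => 0
  | _ + 1, σ, x => (∫ y, chan (σ 0).A x y * klAt ν (σ 0) x y)
      + stepOp (pR ν) (σ 0) (costTo ν (Fin.tail σ)) x

theorem klAt_int {ν : Conf n → ℝ} (hν : ∀ x, 0 < ν x) (h1 : ∑ x, ν x = 1) {s : Step n}
    (hA : s.A.PosDef) (x : Conf n) : Integrable fun y => chan s.A x y * klAt ν s x y := by
  have hm : Measurable fun y => chan s.A x y * klAt ν s x y := by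
    have hpm := measurable_postS (ν := ν) s.A s.S
    have hqm := measurable_prodS s.h s.S
    have hch : Measurable fun y => chan s.A x y := (continuous_chanV s.A _).measurable
    unfold klAt pR qR
    fun_prop
  refine ((stepKL n ν s hν h1 hA).1.const_mul (1 / ν x)).mono' hm.aestronglyMeasurable
    (ae_of_all _ fun y => ?_)
  have hp : ∀ z, 0 ≤ chan s.A z y * klAt ν s z y := fun z =>
    mul_nonneg (chanV_pos hA _ _).le (klAt_nonneg hν hA z y)
  rw [Real.norm_eq_abs, abs_of_nonneg (hp x), div_mul_eq_mul_div, one_mul, le_div_iff₀ (hν x),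
    mul_comm, ← mul_assoc]
  refine single_le_sum (f := fun z => ν z * chan s.A z y * klAt ν s z y) (fun z _ => ?_) (mem_univ x)
  rw [mul_assoc]
  exact mul_nonneg (hν z).le (hp z)

theorem costTo_le {ν : Conf n → ℝ} (hν : ∀ x, 0 < ν x) (h1 : ∑ x, ν x = 1) :
    ∀ {r : ℕ} (σ : Fin r → Step n), (∀ t, (σ t).A.PosDef) →
      ∑ x, ν x * costTo ν σ x ≤ ∑ t, freeD ν (σ t)
  | 0, _, _ => by simp [costTo]
  | r + 1, σ, hσ => by
    simp only [costTo, mul_add, sum_add_distrib]
    rw [Fin.sum_univ_succ]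
    refine add_le_add ?_ ?_
    · simp only [← integral_const_mul, ← mul_assoc]
      rw [← integral_finsetSum _ fun x _ => ((klAt_int hν h1 (hσ 0) x).const_mul (ν x)).congr
        (ae_of_all _ fun y => by simp only; ring)]
      exact (stepKL n ν (σ 0) hν h1 (hσ 0)).2.1
    · refine le_trans (le_of_eq ?_) (costTo_le hν h1 (Fin.tail σ) fun t => hσ t.succ)
      have hK := ker_isPsd (φ := fun _ => 1) hν (hσ 0) (fun _ => zero_le_one) (fun _ _ _ => rfl)
      simp only [stepOp_eq_sum (pR_integrable hν (hσ 0) _), mul_sum]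
      rw [sum_comm]
      refine sum_congr rfl fun z _ => ?_
      have h : ∀ x, ν x * (kerOf (pR ν) (σ 0) x z * costTo ν (Fin.tail σ) z)
          = ν z * kerOf (pR ν) (σ 0) z x * costTo ν (Fin.tail σ) z := fun x => by
        have hs := hK.symm x z
        simp only [one_mul] at hs
        rw [← mul_assoc, hs]
      rw [sum_congr rfl fun x _ => h x, ← sum_mul, ← mul_sum, hK.row z, mul_one]

theorem pathVar_at {ν : Conf n → ℝ} (hν : ∀ x, 0 < ν x) (h1 : ∑ x, ν x = 1) :
    ∀ {r : ℕ} (σ : Fin r → Step n), (∀ t, (σ t).A.PosDef) →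
    ∀ (F : (Fin r → (Fin n → ℝ) × Conf n) → ℝ), Measurable F → ∀ M : ℝ, (∀ ω, |F ω| ≤ M) → ∀ x,
      exp (-M) ≤ pathE qR σ x (fun ω => exp (F ω)) ∧
      pathE (pR ν) σ x F ≤ costTo ν σ x + log (pathE qR σ x fun ω => exp (F ω))
  | 0, _, _, F, _, M, hM, _ => by
    simp only [pathE, costTo, log_exp, zero_add, le_refl, and_true]
    exact exp_le_exp.2 (abs_le.1 (hM _)).1
  | r + 1, σ, hσ, F, hF, M, hM, x => by
    have hcons : ∀ (y : Fin n → ℝ) (z : Conf n), Measurable fun ω : Fin r → (Fin n → ℝ) × Conf n =>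
        (Fin.cons (y, z) ω : Fin (r + 1) → (Fin n → ℝ) × Conf n) := fun y z => by
      refine measurable_pi_lambda _ fun i => ?_
      refine Fin.cases ?_ (fun j => ?_) i
      · simp only [Fin.cons_zero]; exact measurable_const
      · simp only [Fin.cons_succ]; exact measurable_pi_apply j
    have ih := fun y z => pathVar_at hν h1 (Fin.tail σ) (fun t => hσ t.succ)
      (fun ω => F (Fin.cons (y, z) ω)) (hF.comp (hcons y z)) M (fun ω => hM _) z
    have okq : ∀ t, OkStep qR (σ t) := fun t => ok_qR (hσ t)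
    have okp : ∀ t, OkStep (pR ν) (σ t) := fun t => ok_pR hν (hσ t)
    have heM : ∀ ω, |exp (F ω)| ≤ exp M := fun ω => by
      rw [abs_of_pos (exp_pos _)]; exact exp_le_exp.2 (abs_le.1 (hM ω)).2
    set b : (Fin n → ℝ) → Conf n → ℝ := fun y z =>
      pathE qR (Fin.tail σ) z fun ω => exp (F (Fin.cons (y, z) ω)) with hb
    have hbm := fun z => pathE_inner σ okq hF.exp heM z
    set g : (Fin n → ℝ) → ℝ := fun y => ∑ z, qR (σ 0) x y z * b y z with hg
    have hgm : Measurable g := Finset.measurable_sum _ fun z _ => ((okq 0).meas x z).mul (hbm z).1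
    have hgb : ∀ y, |g y| ≤ exp M := fun y =>
      avg_bound ((okq 0).nn x y) ((okq 0).sum x y) fun z => (hbm z).2 y
    have hgl : ∀ y, exp (-M) ≤ g y := fun y => by
      refine le_trans (le_of_eq ?_) (sum_le_sum fun z _ =>
        mul_le_mul_of_nonneg_left (ih y z).1 ((okq 0).nn x y z))
      rw [← sum_mul, (okq 0).sum, one_mul]
    have igG : Integrable fun y => chan (σ 0).A x y * g y := chanV_bdd (hσ 0) _ hgm hgb
    set G := ∫ y, chan (σ 0).A x y * g y with hGdef
    have hG : exp (-M) ≤ G := by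
      have h := integral_mono ((chanV_integrable (hσ 0) ((σ 0).A *ᵥ vec x)).mul_const (exp (-M))) igG
        fun y => mul_le_mul_of_nonneg_left (hgl y) (chanV_pos (hσ 0) _ y).le
      rwa [integral_mul_const, chanV_mass (hσ 0), one_mul] at h
    have hG0 : 0 < G := (exp_pos _).trans_le hG
    refine ⟨hG, ?_⟩
    have hI := pathE_step_int σ okp hF hM x
    have hkl := klAt_int hν h1 (hσ 0) x
    have hcs : Integrable fun y => chan (σ 0).A x y
        * ∑ z, pR ν (σ 0) x y z * costTo ν (Fin.tail σ) z := by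
      simp only [mul_sum, ← mul_assoc]
      exact integrable_finsetSum _ fun z _ => (pR_integrable hν (hσ 0) x z).mul_const _
    have hrhs : Integrable fun y => chan (σ 0).A x y * klAt ν (σ 0) x y
        + chan (σ 0).A x y * ∑ z, pR ν (σ 0) x y z * costTo ν (Fin.tail σ) z
        + (chan (σ 0).A x y * (log G - 1) + chan (σ 0).A x y * g y / G) :=
      (hkl.add hcs).add (((chanV_integrable (hσ 0) _).mul_const _).add (igG.div_const G))
    show ∫ y, _ ≤ _ + log G
    refine (integral_mono hI hrhs fun y => ?_).trans_eq ?_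
    · have hstep : ∑ z, pR ν (σ 0) x y z * pathE (pR ν) (Fin.tail σ) z (fun ω => F (Fin.cons (y, z) ω))
          ≤ ∑ z, pR ν (σ 0) x y z * costTo ν (Fin.tail σ) z
            + ∑ z, pR ν (σ 0) x y z * log (b y z) := by
        rw [← sum_add_distrib]
        refine sum_le_sum fun z _ => ?_
        rw [← mul_add]
        exact mul_le_mul_of_nonneg_left (ih y z).2 ((okp 0).nn x y z)
      have hgib := gibbs_fin (pR ν (σ 0) x y) (qR (σ 0) x y) (fun z => log (b y z))
        ((okp 0).nn x y) ((okq 0).nn x y) (fun z hz => prodS_pos (postS_supp hz.ne') _) ((okp 0).sum x y)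
      have hbp : ∀ z, exp (log (b y z)) = b y z := fun z => exp_log ((exp_pos _).trans_le (ih y z).1)
      simp only [hbp] at hgib
      have hl := log_le_sub_one_of_pos (div_pos ((exp_pos _).trans_le (hgl y)) hG0)
      rw [log_div ((exp_pos _).trans_le (hgl y)).ne' hG0.ne'] at hl
      have key : ∑ z, pR ν (σ 0) x y z * pathE (pR ν) (Fin.tail σ) z (fun ω => F (Fin.cons (y, z) ω))
          ≤ klAt ν (σ 0) x y + ∑ z, pR ν (σ 0) x y z * costTo ν (Fin.tail σ) z
            + ((log G - 1) + g y / G) := by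
        simp only [klAt]
        linarith
      refine (mul_le_mul_of_nonneg_left key (chanV_pos (hσ 0) _ y).le).trans_eq ?_
      rw [chan_eq]
      ring
    · have hcon : Integrable fun y => chan (σ 0).A x y * (log G - 1) :=
        (chanV_integrable (hσ 0) _).mul_const _
      rw [integral_add (hkl.fun_add hcs) (hcon.fun_add (igG.div_const G)), integral_add hkl hcs,
        integral_add hcon (igG.div_const G), integral_mul_const, integral_div, ← hGdef,
        div_self hG0.ne', chan_eq, chanV_mass (hσ 0)]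
      simp only [costTo, stepOp, ← chan_eq]
      ring

theorem pathVar : PathVarStmt := by
  intro n r ν σ hν h1 hσ F hF ⟨M, hM⟩
  have h := fun x => pathVar_at hν h1 σ hσ (F x) (hF x) M (hM x) x
  have hb : ∀ x, 0 < pathE qR σ x fun ω => exp (F x ω) := fun x => (exp_pos _).trans_le (h x).1
  have hg := gibbs_fin ν ν (fun x => log (pathE qR σ x fun ω => exp (F x ω)))
    (fun x => (hν x).le) (fun x => (hν x).le) (fun x _ => hν x) h1
  simp only [fun x => exp_log (hb x), fun x => div_self (hν x).ne', log_one, mul_zero, sum_const_zero,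
    zero_add] at hg
  calc lawE (pR ν) ν σ F ≤ ∑ x, ν x * (costTo ν σ x + log (pathE qR σ x fun ω => exp (F x ω))) :=
        sum_le_sum fun x _ => mul_le_mul_of_nonneg_left (h x).2 (hν x).le
    _ ≤ _ := by
        simp only [mul_add, sum_add_distrib]
        exact add_le_add (costTo_le hν h1 σ hσ) hg

theorem pathTransfer : PathTransferStmt := by
  intro n r ν σ hν h1 hσ B hB q hq0 hq1 hQ
  set L := log (1 / q) with hL
  have hm : ∀ x, Measurable ((B x).indicator (1 : (Fin r → (Fin n → ℝ) × Conf n) → ℝ)) := fun x =>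
    measurable_const.indicator (hB x)
  have hbd : ∀ x ω, |(B x).indicator (1 : (Fin r → (Fin n → ℝ) × Conf n) → ℝ) ω| ≤ 1 := fun x ω => by
    by_cases h : ω ∈ B x <;> simp [h]
  have h := pathVar n r ν σ hν h1 hσ (fun x ω => L * (B x).indicator 1 ω + 0)
    (fun x => ((hm x).const_mul L).add_const 0) ⟨|L|, fun x ω => by
      rw [add_zero, abs_mul]; exact mul_le_of_le_one_right (abs_nonneg _) (hbd x ω)⟩
  have e : ∀ x ω, exp (L * (B x).indicator (1 : (Fin r → (Fin n → ℝ) × Conf n) → ℝ) ω + 0)
      = (1 / q - 1) * (B x).indicator 1 ω + 1 := fun x ω => by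
    by_cases h : ω ∈ B x
    · simp [h, hL, exp_log hq0, exp_neg]
    · simp [h]
  simp only [e] at h
  have hP : lawE (pR ν) ν σ (fun x ω => L * (B x).indicator 1 ω + 0)
      = L * lawE (pR ν) ν σ (fun x => (B x).indicator 1) := by
    simp only [lawE]
    rw [mul_sum]
    refine sum_congr rfl fun x _ => ?_
    rw [pathE_affine σ (fun t => ok_pR hν (hσ t)) _ (hm x) 1 (hbd x) L 0 x]
    ring
  have hQ' : lawE qR ν σ (fun x ω => (1 / q - 1) * (B x).indicator 1 ω + 1)
      = (1 / q - 1) * lawE qR ν σ (fun x => (B x).indicator 1) + 1 := by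
    simp only [lawE]
    rw [sum_congr rfl fun x _ => by
      rw [pathE_affine σ (fun t => ok_qR (hσ t)) _ (hm x) 1 (hbd x) (1 / q - 1) 1 x, mul_add, mul_one,
        mul_left_comm]]
    rw [sum_add_distrib, h1, mul_sum]
  rw [hP, hQ', mul_comm] at h
  refine h.trans (add_le_add le_rfl ?_)
  have hnn : 0 ≤ lawE qR ν σ fun x => (B x).indicator 1 := by
    refine sum_nonneg fun x _ => mul_nonneg (hν x).le ?_
    have := (pathE_meas σ (fun t => ok_qR (hσ t)) Unit
      (fun _ ω => 2 * (B x).indicator (1 : (Fin r → (Fin n → ℝ) × Conf n) → ℝ) ω - 1)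
      (((hm x).comp measurable_snd).const_mul 2 |>.sub_const 1) 1 (fun _ ω => by
        by_cases h : ω ∈ B x <;> simp [h] <;> norm_num) x).2 ()
    have h2 := pathE_affine σ (fun t => ok_qR (hσ t)) _ (hm x) 1 (hbd x) 2 (-1) x
    simp only [← sub_eq_add_neg] at h2
    rw [h2] at this
    linarith [(abs_le.1 this).1]
  have hq' : 0 ≤ 1 / q - 1 := by rw [sub_nonneg, le_div_iff₀ hq0]; linarith
  refine log_le_log (by nlinarith) ?_
  have h3 := mul_le_mul_of_nonneg_left hQ hq'
  have h4 : (1 / q - 1) * q = 1 - q := by field_simp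
  linarith

end Vale.Agent.P150.Fast
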