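import Vale.Agent.P150.Fast.Path

/-!
Exported statement of the module M3 for P150: along any path, the sites behave on average like
the causal Gaussian model with finitely many coefficient choices, uniformly in the strength of the
side field on bounded ranges.
-/

open MeasureTheory Real Finset Filter
open scoped Matrix

namespace Vale.Agent.P150.Fast

variable {n r : ℕ}

/-- Column `k` of a path. -/
noncomputable def colVec (A : Matrix (Fin n) (Fin n) ℝ) (P : Traj n r) (k : Fin (ncol r))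
    (i : Fin n) : ℝ :=
  colOf (fun b => spin (stateAt P b i)) (fun b => noiseAt A P b i) k

/-- The combination `l` of the columns. -/
noncomputable def combVec (A : Matrix (Fin n) (Fin n) ℝ) (θ : Coef (ncol r)) (P : Traj n r)
    (l : Fin (ncol r)) (i : Fin n) : ℝ := ∑ j, θ.R l j * colVec A P j i

/-- The choices made from the disorder, the path and auxiliary noise. -/
structure Readout (n r : ℕ) where
  /-- The coefficients. -/
  cell : Dis n → Traj n r → Coef (ncol r)
  /-- The innovations. -/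
  innov : Dis n → Traj n r → (Fin (ncol r) × Fin n → ℝ) → Fin n → Fin (ncol r) → ℝ

/-- The choices are measurable in the path, the innovations are causal and square integrable. -/
def ReadOK (β : ℝ) (ro : Readout n r) : Prop :=
  (∀ d θ, MeasurableSet {P : Traj n r | ro.cell d P = θ}) ∧
  (∀ d i l, Measurable fun p : Traj n r × (Fin (ncol r) × Fin n → ℝ) =>
    ro.innov d p.1 p.2 i l) ∧
  (∀ d P P' q i l, (∀ k, k ≤ l → colVec (aop n β d) P k = colVec (aop n β d) P' k) →
    ro.innov d P q i l = ro.innov d P' q i l) ∧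
  ∀ d P i l, Integrable (fun q : Fin (ncol r) × Fin n → ℝ => ro.innov d P q i l ^ 2)
    (gp (Fin (ncol r) × Fin n))

/-- The data of site `i`. -/
noncomputable def siteData (ro : Readout n r) (A : Matrix (Fin n) (Fin n) ℝ) (d : Dis n)
    (P : Traj n r) (q : Fin (ncol r) × Fin n → ℝ) (i : Fin n) : Site r :=
  (fun b => stateAt P b i, fun b => noiseAt A P b i, ro.innov d P q i)

/-- The average over sites of a test along a path, averaged over the auxiliary noise. -/
noncomputable def siteAvg (β : ℝ) (ro : Readout n r) (d : Dis n) (S : Finset (Fin n))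
    (f : Bool → Coef (ncol r) → Site r → ℝ) (P : Traj n r) : ℝ :=
  (n : ℝ)⁻¹ * ∫ q, ∑ i, f (decide (i ∉ S)) (ro.cell d P)
    (siteData ro (aop n β d) d P q i) ∂gp (Fin (ncol r) × Fin n)

/-- The mean square error of the reconstruction of the images of the columns. -/
noncomputable def reproErr (β : ℝ) (ro : Readout n r) (d : Dis n) (P : Traj n r) : ℝ :=
  (n : ℝ)⁻¹ * ∫ q, ∑ k, ∑ i, (zSite (ro.cell d P) (siteData ro (aop n β d) d P q i) k
    - (kmat n β d *ᵥ colVec (aop n β d) P k) i) ^ 2 ∂gp (Fin (ncol r) × Fin n)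

/-- The coefficients describe the geometry of the columns up to `ε`. -/
def Fits (β : ℝ) (ro : Readout n r) (d : Dis n) (ε : ℝ) (P : Traj n r) : Prop :=
  (∀ k l, |(ro.cell d P).al k l
      - (n : ℝ)⁻¹ * (colVec (aop n β d) P k ⬝ᵥ combVec (aop n β d) (ro.cell d P) P l)| ≤ ε) ∧
  (∀ l m, l ≠ m → |(n : ℝ)⁻¹ * (combVec (aop n β d) (ro.cell d P) P l
      ⬝ᵥ combVec (aop n β d) (ro.cell d P) P m)| ≤ ε) ∧
  (∀ l, (∀ j, (ro.cell d P).R l j = 0) ∨
      |(n : ℝ)⁻¹ * (combVec (aop n β d) (ro.cell d P) P l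
        ⬝ᵥ combVec (aop n β d) (ro.cell d P) P l) - 1| ≤ ε) ∧
  (∀ k, (n : ℝ)⁻¹ * ∑ i, (colVec (aop n β d) P k i
      - ∑ l, (ro.cell d P).al k l * combVec (aop n β d) (ro.cell d P) P l i) ^ 2 ≤ ε)

/-- Triangular coefficients of bounded size. -/
def NetOK (C : ℝ) (θ : Coef (ncol r)) : Prop :=
  (∀ l j, |θ.R l j| ≤ C ∧ |θ.G l j| ≤ C ∧ |θ.al l j| ≤ C) ∧
  (∀ l j : Fin (ncol r), l < j → θ.R l j = 0 ∧ θ.G l j = 0 ∧ θ.al l j = 0)

/-- The master inequality: for every test normalised in the model, the path average is at most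
twice `log 2` plus the entropy cost of the path, for all priors and all pins at once. -/
def DomStmt (β : ℝ) : Prop :=
  ∃ W : ℕ → ℝ, (∀ n, 0 < W n ∧ W n ≤ 2 ∧ 1 / (4 * β + 2) ≤ W n) ∧
  (∀ ε δ : ℝ, 0 < ε → 0 < δ → ∀ᶠ n : ℕ in atTop,
    (disX n).real {d | ε < (n : ℝ)⁻¹ * ∑ i, |(aop n β d)⁻¹ i i - W n|} ≤ δ) ∧
  ∀ (r : ℕ) (ε : ℝ), 0 < ε → ∃ (C : ℝ) (net : Finset (Coef (ncol r))), (∀ θ ∈ net, NetOK C θ) ∧
    ∀ Bd δ : ℝ, 0 < δ → ∀ᶠ n : ℕ in atTop, ∀ u : ℝ, 0 ≤ u →
      ∃ ro : Readout n r, (∀ d P, ro.cell d P ∈ net) ∧ ReadOK β ro ∧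
      ((disX n).real {d | ¬ ∀ (ν : Conf n → ℝ) (S : Finset (Fin n)), (∀ x, 0 < ν x) →
          ∑ x, ν x = 1 →
          trajE (aop n β d) u ν S (fun P => min 1 (reproErr β ro d P)) ≤ ε ∧
          trajE (aop n β d) u ν S ({P | ¬ Fits β ro d ε P}.indicator 1) ≤ ε} ≤ δ) ∧
      ∀ f : Bool → Coef (ncol r) → Site r → ℝ, (∀ b θ, Measurable (f b θ)) →
        (∀ b θ p, |f b θ p| ≤ Bd) →
        (∀ b, ∀ θ ∈ net, modE β (shift β) (W n) u θ b (fun p => exp (f b θ p)) ≤ 1) →
        (disX n).real {d | ¬ ∀ (ν : Conf n → ℝ) (S : Finset (Fin n)), (∀ x, 0 < ν x) →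
          ∑ x, ν x = 1 →
          trajE (aop n β d) u ν S (siteAvg β ro d S f)
            ≤ 2 * log 2 + trajD (aop n β d) u ν S r / n + ε} ≤ δ

end Vale.Agent.P150.Fast
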