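import Vale.Agent.P150.Fast.ChainStmt

/-!
Powers of a positive reversible kernel: proof of `PowerStmt`. Used for P150.
-/

open Real Finset

namespace Vale.Agent.P150.Fast

variable {ι : Type*} [Fintype ι] {w : ι → ℝ} {K : ι → ι → ℝ}

theorem powOp_succ (K : ι → ι → ℝ) (k : ℕ) (f : ι → ℝ) :
    powOp K (k + 1) f = powOp K 1 (powOp K k f) := Function.iterate_succ_apply' _ _ _

theorem powOp_add (K : ι → ι → ℝ) (k l : ℕ) (f : ι → ℝ) :
    powOp K (k + l) f = powOp K k (powOp K l f) := Function.iterate_add_apply _ _ _ _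

theorem ip_comm (w f g : ι → ℝ) : ip w f g = ip w g f :=
  sum_congr rfl fun x _ => by ring

theorem ip_self_nonneg (hK : IsPsdKer w K) (f : ι → ℝ) : 0 ≤ ip w f f :=
  sum_nonneg fun x _ => by rw [mul_assoc]; exact mul_nonneg (hK.wnn x) (mul_self_nonneg _)

theorem ip_sub_sub (w : ι → ℝ) (f g : ι → ℝ) :
    ip w (f - g) (f - g) = ip w f f - 2 * ip w f g + ip w g g := by
  simp only [ip, mul_sum, ← sum_sub_distrib, ← sum_add_distrib, Pi.sub_apply]
  exact sum_congr rfl fun x _ => by ring

theorem ip_symm (hK : IsPsdKer w K) (f g : ι → ℝ) : ip w f (powOp K 1 g) = ip w (powOp K 1 f) g := by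
  simp only [ip, powOp, Function.iterate_one, mul_sum, sum_mul]
  rw [sum_comm]
  refine sum_congr rfl fun x _ => sum_congr rfl fun z _ => ?_
  linear_combination f z * g x * hK.symm z x

theorem ip_pow_symm (hK : IsPsdKer w K) : ∀ (k : ℕ) (f g : ι → ℝ),
    ip w f (powOp K k g) = ip w (powOp K k f) g
  | 0, _, _ => rfl
  | k + 1, f, g => by
    rw [powOp_succ, ip_symm hK, ip_pow_symm hK k, ← powOp_add]

theorem pow1_contract (hK : IsPsdKer w K) (f : ι → ℝ) :
    ip w (powOp K 1 f) (powOp K 1 f) ≤ ip w f f := by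
  have h1 : ∀ x, (∑ z, K x z * f z) ^ 2 ≤ ∑ z, K x z * f z ^ 2 := fun x => by
    have h := sum_nonneg (s := univ) fun z _ =>
      mul_nonneg (hK.nn x z) (sq_nonneg (f z - ∑ u, K x u * f u))
    have e : ∀ z, K x z * (f z - ∑ u, K x u * f u) ^ 2 = K x z * f z ^ 2
        - 2 * (∑ u, K x u * f u) * (K x z * f z) + (∑ u, K x u * f u) ^ 2 * K x z := fun z => by ring
    rw [sum_congr rfl fun z _ => e z, sum_add_distrib, sum_sub_distrib, ← mul_sum, ← mul_sum,
      hK.row x] at h
    linarith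
  calc ip w (powOp K 1 f) (powOp K 1 f) = ∑ x, w x * (∑ z, K x z * f z) ^ 2 := by
        simp only [ip, powOp, Function.iterate_one]
        exact sum_congr rfl fun x _ => by ring
    _ ≤ ∑ x, w x * ∑ z, K x z * f z ^ 2 :=
        sum_le_sum fun x _ => mul_le_mul_of_nonneg_left (h1 x) (hK.wnn x)
    _ = ∑ x, ∑ z, w z * K z x * f z ^ 2 := by
        simp only [mul_sum, ← mul_assoc]
        exact sum_congr rfl fun x _ => sum_congr rfl fun z _ => by rw [hK.symm]
    _ = ip w f f := by
        rw [sum_comm]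
        exact sum_congr rfl fun z _ => by rw [← sum_mul, ← mul_sum, hK.row]; ring

theorem psd1 (hK : IsPsdKer w K) (f : ι → ℝ) : 0 ≤ ip w f (powOp K 1 f) := hK.psd f

theorem pow1_lin (K : ι → ι → ℝ) (f g : ι → ℝ) (t : ℝ) :
    powOp K 1 (f - t • g) = powOp K 1 f - t • powOp K 1 g := by
  funext x
  simp only [powOp, Function.iterate_one, Pi.sub_apply, Pi.smul_apply, smul_eq_mul, mul_sum,
    ← sum_sub_distrib]
  exact sum_congr rfl fun z _ => by ring

/-- Positive semidefinite and at most one: the square is at most the form. -/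
theorem sq_le_form (hK : IsPsdKer w K) (f : ι → ℝ) :
    ip w (powOp K 1 f) (powOp K 1 f) ≤ ip w f (powOp K 1 f) := by
  set g := powOp K 1 f with hg
  have hq : ∀ t : ℝ, 0 ≤ ip w f g - 2 * t * ip w g g + t ^ 2 * ip w g (powOp K 1 g) := fun t => by
    have h := psd1 hK (f - t • g)
    rw [pow1_lin] at h
    have e : ip w (f - t • g) (powOp K 1 f - t • powOp K 1 g) = ip w f g
        - t * ip w f (powOp K 1 g) - t * ip w g g + t ^ 2 * ip w g (powOp K 1 g) := by
      simp only [ip, mul_sum, ← sum_sub_distrib, ← sum_add_distrib, Pi.sub_apply, Pi.smul_apply,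
        smul_eq_mul, ← hg]
      exact sum_congr rfl fun x _ => by ring
    have hs : ip w f (powOp K 1 g) = ip w g g := by rw [ip_symm hK, ← hg]
    rw [e, hs] at h
    linarith
  have hle : ip w g (powOp K 1 g) ≤ ip w g g := by
    have h := ip_self_nonneg hK (g - powOp K 1 g)
    rw [ip_sub_sub] at h
    linarith [pow1_contract hK g]
  have := hq 1
  linarith

/-- The value `⟨f, P^k f⟩`. -/
noncomputable def pwCoef (w : ι → ℝ) (K : ι → ι → ℝ) (f : ι → ℝ) (k : ℕ) : ℝ := ip w f (powOp K k f)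

theorem ip_pow_pow (hK : IsPsdKer w K) (f : ι → ℝ) (k l : ℕ) :
    ip w (powOp K k f) (powOp K l f) = pwCoef w K f (k + l) := by
  rw [pwCoef, powOp_add, ← ip_pow_symm hK]

theorem coef_nonneg (hK : IsPsdKer w K) (f : ι → ℝ) (k : ℕ) : 0 ≤ pwCoef w K f k := by
  obtain ⟨j, rfl | rfl⟩ := Nat.even_or_odd' k
  · rw [two_mul, ← ip_pow_pow hK]; exact ip_self_nonneg hK _
  · rw [show 2 * j + 1 = j + (j + 1) by ring, ← ip_pow_pow hK, powOp_succ]; exact psd1 hK _

theorem coef_anti (hK : IsPsdKer w K) (f : ι → ℝ) (k : ℕ) : pwCoef w K f (k + 1) ≤ pwCoef w K f k := by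
  obtain ⟨j, rfl | rfl⟩ := Nat.even_or_odd' k
  · have h := ip_self_nonneg hK (powOp K j f - powOp K (j + 1) f)
    rw [ip_sub_sub, ip_pow_pow hK, ip_pow_pow hK, ip_pow_pow hK] at h
    have h2 := pow1_contract hK (powOp K j f)
    rw [← powOp_succ, ip_pow_pow hK, ip_pow_pow hK] at h2
    rw [show 2 * j + 1 = j + (j + 1) by ring, two_mul]
    linarith
  · have h := sq_le_form hK (powOp K j f)
    rw [← powOp_succ, ip_pow_pow hK, ip_pow_pow hK] at h
    rw [show 2 * j + 1 + 1 = j + 1 + (j + 1) by ring, show 2 * j + 1 = j + (j + 1) by ring]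
    exact h

theorem coef_convex (hK : IsPsdKer w K) (f : ι → ℝ) (k : ℕ) :
    pwCoef w K f (k + 1) - pwCoef w K f (k + 2) ≤ pwCoef w K f k - pwCoef w K f (k + 1) := by
  obtain ⟨j, rfl | rfl⟩ := Nat.even_or_odd' k
  · have h := ip_self_nonneg hK (powOp K j f - powOp K (j + 1) f)
    rw [ip_sub_sub, ip_pow_pow hK, ip_pow_pow hK, ip_pow_pow hK] at h
    rw [show 2 * j + 1 = j + (j + 1) by ring, show 2 * j + 2 = j + 1 + (j + 1) by ring, two_mul]
    linarith
  · have hg := psd1 hK (powOp K j f - (1 : ℝ) • powOp K (j + 1) f)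
    rw [pow1_lin, ← powOp_succ, ← powOp_succ, one_smul, one_smul] at hg
    have e : ip w (powOp K j f - powOp K (j + 1) f) (powOp K (j + 1) f - powOp K (j + 1 + 1) f)
        = ip w (powOp K j f) (powOp K (j + 1) f) - ip w (powOp K j f) (powOp K (j + 1 + 1) f)
          - ip w (powOp K (j + 1) f) (powOp K (j + 1) f)
          + ip w (powOp K (j + 1) f) (powOp K (j + 1 + 1) f) := by
      simp only [ip, ← sum_sub_distrib, ← sum_add_distrib, Pi.sub_apply]
      exact sum_congr rfl fun x _ => by ring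
    simp only [e, ip_pow_pow hK] at hg
    rw [show 2 * j + 1 + 2 = j + 1 + (j + 1 + 1) by ring, show 2 * j + 1 + 1 = j + 1 + (j + 1) by ring,
      show 2 * j + 1 = j + (j + 1) by ring]
    rw [show j + (j + 1 + 1) = j + 1 + (j + 1) by ring] at hg
    linarith

theorem powerThm : PowerStmt := by
  intro ι _ w K hK f
  have hanti : Antitone (pwCoef w K f) := antitone_nat_of_succ_le (coef_anti hK f)
  have hd : Antitone fun k => pwCoef w K f k - pwCoef w K f (k + 1) :=
    antitone_nat_of_succ_le fun k => coef_convex hK f k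
  refine ⟨coef_nonneg hK f, hanti, fun k l => ip_pow_pow hK f k l, hd, fun k => ?_, fun k => ?_,
    fun k l hkl => ?_⟩
  · show pwCoef w K f 0 - pwCoef w K f k ≤ k * (pwCoef w K f 0 - pwCoef w K f 1)
    induction k with
    | zero => simp
    | succ k ih =>
      have h := hd (Nat.zero_le k)
      simp only [zero_add] at h
      push_cast
      linarith
  · rw [ip_pow_pow hK, ip_pow_pow hK, ← two_mul, show k + (k + 1) = 2 * k + 1 by ring]
    show _ ≤ pwCoef w K f 0 - pwCoef w K f (2 * k + 1)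
    have h : ∀ m : ℕ, m ≤ 2 * k + 1 →
        m * (pwCoef w K f (2 * k) - pwCoef w K f (2 * k + 1)) ≤ pwCoef w K f 0 - pwCoef w K f m := by
      intro m hm
      induction m with
      | zero => simp
      | succ m ih =>
        have h := hd (show m ≤ 2 * k by omega)
        have := ih (by omega)
        simp only at h
        push_cast
        linarith
    simpa using h (2 * k + 1) le_rfl
  · rw [ip_sub_sub, ip_pow_pow hK, ip_pow_pow hK, ip_pow_pow hK, ← two_mul, ← two_mul]
    show _ ≤ pwCoef w K f (2 * k) - pwCoef w K f (2 * l)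
    linarith [hanti (show k + l ≤ 2 * l by omega)]

end Vale.Agent.P150.Fast
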