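import Vale.Agent.P150.Fast.ChainStmt

/-!
The Gaussian channel `N(A x, A)`: change of variables, mass, and algebra of shifted densities.
Used for P150.
-/

open MeasureTheory ProbabilityTheory Real Finset
open scoped Matrix

namespace Vale.Agent.P150.Fast

variable {n : ℕ} {A : Matrix (Fin n) (Fin n) ℝ}

/-- The density of `N(v, A)`. -/
noncomputable def chanV (A : Matrix (Fin n) (Fin n) ℝ) (v y : Fin n → ℝ) : ℝ :=
  exp (-(((y - v) ⬝ᵥ (A⁻¹ *ᵥ (y - v))) / 2)) / √((2 * π) ^ n * A.det)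

theorem chan_eq (A : Matrix (Fin n) (Fin n) ℝ) (x : Conf n) : chan A x = chanV A (A *ᵥ vec x) := rfl

theorem chanV_pos (hA : A.PosDef) (v y : Fin n → ℝ) : 0 < chanV A v y :=
  div_pos (exp_pos _) (sqrt_pos.2 (mul_pos (by positivity) hA.det_pos))

@[fun_prop]
theorem continuous_chanV (A : Matrix (Fin n) (Fin n) ℝ) (v : Fin n → ℝ) : Continuous (chanV A v) := by
  unfold chanV dotProduct Matrix.mulVec dotProduct
  simp only [Pi.sub_apply]
  fun_prop

theorem gp_density (n : ℕ) : gp (Fin n) =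
    volume.withDensity (fun x => ENNReal.ofReal (∏ i, gaussianPDFReal 0 1 (x i))) := by
  classical
  refine Measure.pi_eq fun s hs => ?_
  have hm : MeasurableSet (Set.univ.pi s) := MeasurableSet.univ_pi hs
  have hint : Integrable (fun x : Fin n → ℝ => ∏ i, gaussianPDFReal 0 1 (x i)) :=
    Integrable.fintype_prod (fun _ => integrable_gaussianPDFReal 0 1)
  rw [withDensity_apply _ hm, ← ofReal_integral_eq_lintegral_ofReal hint.integrableOn
    (ae_of_all _ fun x => Finset.prod_nonneg fun i _ => gaussianPDFReal_nonneg 0 1 _)]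
  simp only [gaussianReal_apply_eq_integral _ one_ne_zero]
  rw [← ENNReal.ofReal_prod_of_nonneg
    fun i _ => integral_nonneg fun x => gaussianPDFReal_nonneg 0 1 x]
  congr 1
  simp only [← integral_indicator (hs _), ← integral_indicator hm]
  rw [← integral_fintype_prod_volume_eq_prod]
  refine integral_congr_ae (ae_of_all _ fun x => ?_)
  by_cases hx : x ∈ Set.univ.pi s
  · rw [Set.indicator_of_mem hx]
    exact Finset.prod_congr rfl fun i _ => (Set.indicator_of_mem (hx i trivial) _).symm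
  · rw [Set.indicator_of_notMem hx]
    simp only [Set.mem_univ_pi, not_forall] at hx
    obtain ⟨i, hi⟩ := hx
    exact (Finset.prod_eq_zero (Finset.mem_univ i) (Set.indicator_of_notMem hi _)).symm

theorem prod_pdf (x : Fin n → ℝ) :
    ∏ i, gaussianPDFReal 0 1 (x i) = exp (-((x ⬝ᵥ x) / 2)) / √((2 * π) ^ n) := by
  have h : √((2 * π) ^ n) = √(2 * π) ^ n := by
    rw [← sqrt_sq (show (0 : ℝ) ≤ √(2 * π) ^ n by positivity), ← pow_mul, mul_comm n 2, pow_mul,
      sq_sqrt (by positivity)]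
  simp only [gaussianPDFReal, NNReal.coe_one, mul_one, sub_zero, prod_mul_distrib, prod_const, card_univ,
    Fintype.card_fin, ← exp_sum, h, inv_pow, dotProduct]
  rw [sum_div, ← sum_neg_distrib, inv_mul_eq_div]
  congr 2
  exact sum_congr rfl fun i _ => by ring

/-- A factor of a positive definite matrix. -/
theorem exists_root (hA : A.PosDef) : ∃ B : Matrix (Fin n) (Fin n) ℝ, B * B.transpose = A ∧ B.det ≠ 0 := by
  open scoped MatrixOrder in
  obtain ⟨B, hB⟩ := CStarAlgebra.nonneg_iff_eq_star_mul_self.1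
    (Matrix.nonneg_iff_posSemidef.2 hA.posSemidef)
  refine ⟨B.transpose, ?_, fun h => hA.det_pos.ne' ?_⟩
  · rw [hB, Matrix.transpose_transpose, Matrix.star_eq_conjTranspose,
      Matrix.conjTranspose_eq_transpose_of_trivial]
  · rw [Matrix.det_transpose] at h
    rw [hB, Matrix.det_mul, h, mul_zero]

theorem qinv_root {B : Matrix (Fin n) (Fin n) ℝ} (hB : B * B.transpose = A) (hd : B.det ≠ 0)
    (g : Fin n → ℝ) : (B *ᵥ g) ⬝ᵥ (A⁻¹ *ᵥ (B *ᵥ g)) = g ⬝ᵥ g := by
  have hu : IsUnit B.det := Ne.isUnit hd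
  have hut : IsUnit B.transpose.det := by rwa [Matrix.det_transpose]
  rw [← hB, Matrix.mul_inv_rev, Matrix.mulVec_mulVec, Matrix.mul_assoc, Matrix.nonsing_inv_mul _ hu,
    Matrix.mul_one]
  rw [dotProduct_comm, Matrix.dotProduct_mulVec, ← Matrix.mulVec_transpose, Matrix.mulVec_mulVec,
    Matrix.mul_nonsing_inv _ hut, Matrix.one_mulVec]

/-- Integrals against the channel as Gaussian integrals. -/
theorem chan_integral {B : Matrix (Fin n) (Fin n) ℝ} (hB : B * B.transpose = A) (hd : B.det ≠ 0)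
    (v : Fin n → ℝ) (G : (Fin n → ℝ) → ℝ) :
    ∫ y, chanV A v y * G y = ∫ g, G (v + B *ᵥ g) ∂gp (Fin n) ∧
      (Integrable (fun y => chanV A v y * G y) ↔ Integrable (fun g => G (v + B *ᵥ g)) (gp (Fin n))) := by
  have hemb : MeasurableEmbedding (Matrix.toLin' B) :=
    (Matrix.toLinearEquiv' B (Matrix.invertibleOfIsUnitDet B (Ne.isUnit hd))).toContinuousLinearEquiv
      |>.toHomeomorph.measurableEmbedding
  have hmap : Measure.map (Matrix.toLin' B) volume = ENNReal.ofReal |B.det⁻¹| • volume :=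
    Real.map_matrix_volume_pi_eq_smul_volume_pi hd
  have hdet : √((2 * π) ^ n * A.det) = √((2 * π) ^ n) * |B.det| := by
    rw [← hB, Matrix.det_mul, Matrix.det_transpose, sqrt_mul (by positivity), sqrt_mul_self_eq_abs]
  have key : ∀ g, chanV A v (v + B *ᵥ g) * G (v + B *ᵥ g)
      = |B.det⁻¹| * ((ENNReal.ofReal (∏ i, gaussianPDFReal 0 1 (g i))).toReal • G (v + B *ᵥ g)) := fun g => by
    rw [chanV, add_sub_cancel_left, qinv_root hB hd, hdet, ENNReal.toReal_ofReal
      (prod_nonneg fun i _ => gaussianPDFReal_nonneg 0 1 _), prod_pdf, smul_eq_mul, abs_inv]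
    ring
  have hfin : ∀ᵐ x : Fin n → ℝ, ENNReal.ofReal (∏ i, gaussianPDFReal 0 1 (x i)) < ⊤ :=
    ae_of_all _ fun x => ENNReal.ofReal_lt_top
  have hc : |B.det⁻¹| ≠ 0 := abs_ne_zero.2 (inv_ne_zero hd)
  have hc' : ENNReal.ofReal |B.det⁻¹| ≠ 0 := by simp [hd]
  constructor
  · rw [gp_density, integral_withDensity_eq_integral_toReal_smul (by fun_prop) hfin,
      ← integral_add_left_eq_self (fun y => chanV A v y * G y) v]
    have h := hemb.integral_map (μ := volume) fun y => chanV A v (v + y) * G (v + y)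
    rw [hmap, integral_smul_measure, ENNReal.toReal_ofReal (abs_nonneg _), smul_eq_mul] at h
    simp only [Matrix.toLin'_apply, key] at h
    rw [integral_const_mul] at h
    exact mul_left_cancel₀ hc h
  · rw [gp_density, integrable_withDensity_iff_integrable_smul' (by fun_prop) hfin,
      ← (measurePreserving_add_left volume v).integrable_comp_emb
        (MeasurableEquiv.addLeft v).measurableEmbedding]
    have h := hemb.integrable_map_iff (μ := volume) (g := fun y => chanV A v (v + y) * G (v + y))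
    rw [hmap, integrable_smul_measure hc' ENNReal.ofReal_ne_top] at h
    simp only [Function.comp_def, Matrix.toLin'_apply, key] at h
    rw [Function.comp_def, h, integrable_const_mul_iff (Ne.isUnit hc)]

theorem chanV_integrable (hA : A.PosDef) (v : Fin n → ℝ) : Integrable (chanV A v) := by
  obtain ⟨B, hB, hd⟩ := exists_root hA
  simpa using (chan_integral hB hd v fun _ => (1 : ℝ)).2.2 (integrable_const _)

theorem chanV_mass (hA : A.PosDef) (v : Fin n → ℝ) : ∫ y, chanV A v y = 1 := by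
  obtain ⟨B, hB, hd⟩ := exists_root hA
  simpa using (chan_integral hB hd v fun _ => (1 : ℝ)).1

/-- A bounded measurable function times the channel is integrable. -/
theorem chanV_bdd (hA : A.PosDef) (v : Fin n → ℝ) {G : (Fin n → ℝ) → ℝ} (hG : Measurable G) {M : ℝ}
    (hM : ∀ y, |G y| ≤ M) : Integrable fun y => chanV A v y * G y := by
  refine ((chanV_integrable hA v).const_mul M).mono'
    (((continuous_chanV A v).measurable.mul hG).aestronglyMeasurable) (ae_of_all _ fun y => ?_)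
  rw [Real.norm_eq_abs, abs_mul, abs_of_pos (chanV_pos hA v y), mul_comm M]
  exact mul_le_mul_of_nonneg_left (hM y) (chanV_pos hA v y).le

theorem posDef_symm (hA : A.PosDef) : A.transpose = A := by
  simpa [Matrix.IsHermitian, Matrix.conjTranspose_eq_transpose_of_trivial] using hA.isHermitian

theorem dot_inv_mul (hA : A.PosDef) (u w : Fin n → ℝ) : (A *ᵥ u) ⬝ᵥ (A⁻¹ *ᵥ w) = u ⬝ᵥ w := by
  conv_lhs => rw [← posDef_symm hA, Matrix.mulVec_transpose]
  rw [← Matrix.dotProduct_mulVec, Matrix.mulVec_mulVec, posDef_symm hA,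
    Matrix.mul_nonsing_inv _ (Ne.isUnit hA.det_pos.ne'), Matrix.one_mulVec]

theorem dot_inv_symm (hA : A.PosDef) (u w : Fin n → ℝ) : u ⬝ᵥ (A⁻¹ *ᵥ w) = w ⬝ᵥ (A⁻¹ *ᵥ u) := by
  rw [Matrix.dotProduct_mulVec, dotProduct_comm]
  congr 1
  rw [← Matrix.mulVec_transpose, Matrix.transpose_nonsing_inv, posDef_symm hA]

/-- The square of a shifted density against the density itself. -/
theorem chanV_sq (hA : A.PosDef) (v u y : Fin n → ℝ) :
    chanV A (v + A *ᵥ u) y ^ 2
      = exp (u ⬝ᵥ (A *ᵥ u)) * chanV A v y * chanV A (v + (2 : ℝ) • (A *ᵥ u)) y := by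
  have hc : √((2 * π) ^ n * A.det) ≠ 0 :=
    (sqrt_pos.2 (mul_pos (by positivity) hA.det_pos)).ne'
  have e : ∀ t : ℝ, (y - (v + t • (A *ᵥ u))) ⬝ᵥ (A⁻¹ *ᵥ (y - (v + t • (A *ᵥ u))))
      = (y - v) ⬝ᵥ (A⁻¹ *ᵥ (y - v)) - 2 * t * (u ⬝ᵥ (y - v)) + t ^ 2 * (u ⬝ᵥ (A *ᵥ u)) := fun t => by
    rw [show y - (v + t • (A *ᵥ u)) = (y - v) - t • (A *ᵥ u) by abel]
    generalize y - v = p
    rw [Matrix.mulVec_sub, Matrix.mulVec_smul]
    simp only [sub_dotProduct, dotProduct_sub, smul_dotProduct, dotProduct_smul, smul_eq_mul]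
    rw [dot_inv_symm hA p (A *ᵥ u), dot_inv_mul hA, dot_inv_mul hA]
    ring
  have e1 := e 1
  rw [one_smul] at e1
  have key : ∀ a b c d : ℝ, 2 * a = b + c + d → (exp a / √((2 * π) ^ n * A.det)) ^ 2
      = exp b * (exp c / √((2 * π) ^ n * A.det)) * (exp d / √((2 * π) ^ n * A.det)) := fun a b c d h => by
    field_simp
    rw [← exp_nat_mul, ← exp_add, ← exp_add]
    congr 1
  refine key _ _ _ _ ?_
  rw [e1, e 2]
  ring

theorem lin_eq_dot (u : Fin n → ℝ) (x : Conf n) : Ent.lin u x = u ⬝ᵥ vec x := rfl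

theorem qform_eq_dot (K : Matrix (Fin n) (Fin n) ℝ) (v : Fin n → ℝ) :
    Ent.qform K v = v ⬝ᵥ (K *ᵥ v) := by
  simp only [Ent.qform, dotProduct, Matrix.mulVec, mul_sum, mul_assoc]

/-- The Gibbs weight times the channel is a product weight. -/
theorem coupW_chan (hA : A.PosDef) (h : Fin n → ℝ) (x : Conf n) (y : Fin n → ℝ) :
    Ent.coupW A h x * chan A x y = chanV A 0 y * exp (Ent.lin (y + h) x) := by
  have e : (y - A *ᵥ vec x) ⬝ᵥ (A⁻¹ *ᵥ (y - A *ᵥ vec x))
      = (y - 0) ⬝ᵥ (A⁻¹ *ᵥ (y - 0)) - 2 * (y ⬝ᵥ vec x) + vec x ⬝ᵥ (A *ᵥ vec x) := by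
    rw [sub_zero, Matrix.mulVec_sub]
    simp only [sub_dotProduct, dotProduct_sub]
    rw [dot_inv_symm hA y (A *ᵥ vec x), dot_inv_mul hA, dot_inv_mul hA, dotProduct_comm (vec x) y]
    ring
  simp only [chan, chanV, Ent.coupW]
  rw [show (fun i => spin (x i)) = vec x from rfl, qform_eq_dot, e, lin_eq_dot,
    lin_eq_dot, add_dotProduct, mul_div_assoc', div_mul_eq_mul_div, ← exp_add, ← exp_add]
  ring_nf

end Vale.Agent.P150.Fast
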