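import Vale.Agent.P150.Fast.LLMean

/-!
The mean local law at a fixed point, for P150: on the regular event the squared distance of the
diagonal of `P A Pᵀ` from its value has mean `O(1)`.
-/

open MeasureTheory Real Finset Filter
open scoped Matrix Matrix.Norms.L2Operator

namespace Vale.Agent.P150.Fast.LL

variable {n : ℕ} {β s R η Λ : ℝ} {d : Dis n} {v : Fin n → ℝ}

/-- The common bound on the matrices in the quadratic forms. -/
noncomputable def mB (β η Λ : ℝ) : ℝ := (1 + (2 * Λ + shift β)) * pB (2 * Λ) η ^ 2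

theorem pB_mono (hη : 0 < η) (hΛ : 0 ≤ Λ) : pB Λ η ≤ pB (2 * Λ) η :=
  add_le_add le_rfl (div_le_div_of_nonneg_right (by linarith) hη.le)

/-- The bound of the mean squared errors. -/
noncomputable def eB (β η Λ : ℝ) : ℝ :=
  2 * β ^ 2 + 3 * (4 * β ^ 4 * mB β η Λ ^ 2 + 2 * (β ^ 2 * (2 * mB β η Λ ^ 2)) ^ 2)

theorem kdiag_mean (β : ℝ) (i : Fin n) :
    Integrable (fun d : Dis n => kmat n β d i i ^ 2) (disX n) ∧
    ∫ d, kmat n β d i i ^ 2 ∂disX n = 2 * β ^ 2 / n := by
  have e : ∀ d : Dis n, kmat n β d i i ^ 2 = 2 * β ^ 2 / n * d (Sum.inr i) ^ 2 := fun d => by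
    rw [kmat_apply, goe_diag, mul_pow, mul_pow, div_pow, sq_sqrt zero_le_two,
      sq_sqrt (Nat.cast_nonneg n)]
    ring
  simp only [e]
  obtain ⟨h1, h2⟩ := Edge.sq_coord (Sum.inr i : Pair n ⊕ Fin n)
  refine ⟨h1.const_mul _, ?_⟩
  rw [integral_const_mul]
  show _ * ∫ g, g (Sum.inr i) ^ 2 ∂gp (Pair n ⊕ Fin n) = _
  rw [h2, mul_one]

theorem trace_sq_diff (h : Reg n β s R η Λ d v) (i : Fin n) (A : Matrix (Fin n) (Fin n) ℝ)
    (hA : A.transpose = A) :
    |(gm n β s R d v * A * gm n β s R d v).trace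
      - (g0 n β s R d v i * A * g0 n β s R d v i).trace| ≤ pB Λ η ^ 2 * (2 * (pB Λ η * ‖A‖)) := by
  set G := gm n β s R d v
  set G0 := g0 n β s R d v i
  have e : (G * A * G).trace - (G0 * A * G0).trace = ((G - G0) * (A * G + A * G0)).trace := by
    have h1 : (G * A * G0).trace = (G0 * A * G).trace := by
      rw [← Matrix.trace_transpose (G * A * G0), Matrix.transpose_mul, Matrix.transpose_mul, hA,
        show G.transpose = G from h.gm_symm, show G0.transpose = G0 from (h.vzero i).gm_symm,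
        ← mul_assoc]
    simp only [sub_mul, mul_add, Matrix.trace_sub, Matrix.trace_add, ← mul_assoc, h1]
    ring
  rw [e]
  refine (trace_diff h i _).trans (mul_le_mul_of_nonneg_left ?_ (sq_nonneg _))
  refine (norm_add_le _ _).trans ?_
  have h1 : ‖A * G‖ ≤ ‖A‖ * pB Λ η :=
    (norm_mul_le _ _).trans (mul_le_mul_of_nonneg_left h.norm_gm (norm_nonneg _))
  have h2 : ‖A * G0‖ ≤ ‖A‖ * pB Λ η :=
    (norm_mul_le _ _).trans (mul_le_mul_of_nonneg_left (h.vzero i).norm_gm (norm_nonneg _))
  linarith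

/-- The three errors. -/
theorem errs_le (h : Par n β s R η Λ v) (i : Fin n) :
    (Integrable ((regSet n β s R η Λ v).indicator fun d => e1v n β s R d v i ^ 2) (disX n) ∧
      ∫ d, (regSet n β s R η Λ v).indicator (fun d => e1v n β s R d v i ^ 2) d ∂disX n
        ≤ 4 * β ^ 4 * mB β η Λ ^ 2 / n + 2 * (β ^ 2 * (2 * mB β η Λ ^ 2) / n) ^ 2) ∧
    (Integrable ((regSet n β s R η Λ v).indicator fun d => e2v n β s R d v i ^ 2) (disX n) ∧
      ∫ d, (regSet n β s R η Λ v).indicator (fun d => e2v n β s R d v i ^ 2) d ∂disX n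
        ≤ 4 * β ^ 4 * mB β η Λ ^ 2 / n + 2 * (β ^ 2 * (2 * mB β η Λ ^ 2) / n) ^ 2) ∧
    (Integrable ((regSet n β s R η Λ v).indicator fun d => e3v n β s R d v i ^ 2) (disX n) ∧
      ∫ d, (regSet n β s R η Λ v).indicator (fun d => e3v n β s R d v i ^ 2) d ∂disX n
        ≤ 4 * β ^ 4 * mB β η Λ ^ 2 / n + 2 * (β ^ 2 * (2 * mB β η Λ ^ 2) / n) ^ 2) := by
  have hsh : 1 ≤ shift β := by rw [shift]; linarith [h.hβ]
  set L := mB β η Λ
  set p := pB Λ η
  set p2 := pB (2 * Λ) η
  have hp1 : 1 ≤ p := le_add_of_nonneg_right (div_nonneg (by linarith [h.hΛ]) h.hη.le)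
  have hpp : p ≤ p2 := pB_mono h.hη h.hΛ
  have hp2 : 1 ≤ p2 := hp1.trans hpp
  set a := 2 * Λ + shift β
  have ha : 1 ≤ a := by simp only [a]; linarith [h.hΛ]
  have hL : L = (1 + a) * p2 ^ 2 := rfl
  have hpow : p2 ≤ p2 ^ 2 := by nlinarith
  have hL1 : p2 ≤ L := by rw [hL]; nlinarith
  have hL2 : p2 * p2 ≤ L := by rw [hL]; nlinarith
  have hL3 : p2 * a * p2 ≤ L := by rw [hL]; nlinarith
  have hL0 : 0 ≤ L := by linarith
  have hm0 : ∀ a b, Measurable fun d => g0 n β s R d v i a b := fun a b => measurable_gm β s R _ a b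
  have hmG : ∀ a b, Measurable fun d => gm n β s R d v a b := fun a b => measurable_gm β s R v a b
  have hmA := measurable_aop (n := n) β
  have hpq : ∀ A : Matrix (Fin n) (Fin n) ℝ, ∀ x, 0 ≤ x → x ≤ a → ‖A‖ ≤ x →
      p ^ 2 * (2 * (p * ‖A‖)) ≤ 2 * L ^ 2 := fun A x hx hxa hA => by
    calc p ^ 2 * (2 * (p * ‖A‖)) ≤ p2 ^ 2 * (2 * (p2 * a)) :=
          mul_le_mul (pow_le_pow_left₀ (by linarith) hpp 2) (mul_le_mul_of_nonneg_left
            (mul_le_mul hpp (hA.trans hxa) (norm_nonneg _) (by linarith)) zero_le_two)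
            (by positivity) (sq_nonneg _)
      _ = 2 * (p2 * p2) * (p2 * a) := by ring
      _ ≤ 2 * L * L := mul_le_mul (mul_le_mul_of_nonneg_left hL2 zero_le_two)
            ((le_mul_of_one_le_right (by positivity) hp2).trans hL3) (by positivity) (by positivity)
      _ = 2 * L ^ 2 := by ring
  refine ⟨?_, ?_, ?_⟩
  · refine err_le h i (M := fun d => g0 n β s R d v i) (G := fun d => gm n β s R d v)
      (N := fun d0 => g0 n β s R d0 v i) hL0 hm0 hmG (fun d hd => ⟨g0_rowZero hd i, ?_, ?_⟩)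
      fun d0 hd0 => ⟨hd0.gm_symm, g0_row i, hd0.norm_gm.trans hL1⟩
    · exact (hd.vzero i).norm_gm.trans (hpp.trans hL1)
    · have := trace_diff hd i 1
      rw [mul_one, Matrix.trace_sub] at this
      refine this.trans ?_
      calc p ^ 2 * ‖(1 : Matrix (Fin n) (Fin n) ℝ)‖ ≤ p2 ^ 2 * 1 :=
            mul_le_mul (pow_le_pow_left₀ (by linarith) hpp 2) norm_one_le (norm_nonneg _) (sq_nonneg _)
        _ ≤ 2 * L ^ 2 := by nlinarith
  · refine err_le h i (M := fun d => g0 n β s R d v i * g0 n β s R d v i)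
      (G := fun d => gm n β s R d v * gm n β s R d v)
      (N := fun d0 => g0 n β s R d0 v i * g0 n β s R d0 v i) hL0 (measurable_mul_entry hm0 hm0)
      (measurable_mul_entry hmG hmG) (fun d hd => ⟨by rw [← g0_rowZero hd i], ?_, ?_⟩)
      fun d0 hd0 => ⟨?_, fun j => ?_, ?_⟩
    · exact (norm_mul_le _ _).trans ((mul_le_mul ((hd.vzero i).norm_gm.trans hpp)
        ((hd.vzero i).norm_gm.trans hpp) (norm_nonneg _) (by linarith)).trans hL2)
    · have := trace_sq_diff hd i 1 Matrix.transpose_one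
      rw [mul_one, mul_one] at this
      exact this.trans (hpq 1 1 zero_le_one ha norm_one_le)
    · rw [Matrix.transpose_mul, g0, hd0.gm_symm]
    · rw [Matrix.mul_apply]; exact sum_eq_zero fun l _ => by rw [g0_row, zero_mul]
    · exact (norm_mul_le _ _).trans ((mul_le_mul hd0.norm_gm hd0.norm_gm (norm_nonneg _)
        (by linarith)).trans hL2)
  · refine err_le h i (M := fun d => g0 n β s R d v i * aop n β d * g0 n β s R d v i)
      (G := fun d => gm n β s R d v * aop n β d * gm n β s R d v)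
      (N := fun d0 => g0 n β s R d0 v i * aop n β d0 * g0 n β s R d0 v i) hL0
      (measurable_mul_entry (measurable_mul_entry hm0 hmA) hm0)
      (measurable_mul_entry (measurable_mul_entry hmG hmA) hmG)
      (fun d hd => ⟨by rw [g0_aop_g0 hd i, ← g0_rowZero hd i], ?_, ?_⟩)
      fun d0 hd0 => ⟨?_, fun j => ?_, ?_⟩
    · have hA : ‖aop n β d‖ ≤ a := by
        have := norm_aop_le h.hβ hd.hK; simp only [a]; linarith [h.hΛ]
      exact (norm_mul_le _ _).trans ((mul_le_mul ((norm_mul_le _ _).trans (mul_le_mul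
        ((hd.vzero i).norm_gm.trans hpp) hA (norm_nonneg _) (by linarith)))
        ((hd.vzero i).norm_gm.trans hpp) (norm_nonneg _) (by positivity)).trans hL3)
    · exact (trace_sq_diff hd i _ (aop_transpose β d)).trans (hpq _ (Λ + shift β)
        (by linarith [h.hΛ]) (by simp only [a]; linarith [h.hΛ]) (norm_aop_le h.hβ hd.hK))
    · rw [Matrix.transpose_mul, Matrix.transpose_mul, g0, hd0.gm_symm, aop_transpose, mul_assoc]
    · rw [mul_assoc, Matrix.mul_apply]; exact sum_eq_zero fun l _ => by rw [g0_row, zero_mul]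
    · exact (norm_mul_le _ _).trans ((mul_le_mul ((norm_mul_le _ _).trans (mul_le_mul
        hd0.norm_gm (norm_aop_le h.hβ hd0.hK) (norm_nonneg _) (by linarith)))
        hd0.norm_gm (norm_nonneg _) (mul_nonneg (by linarith) (by linarith [h.hΛ]))).trans hL3)

/-- The mean local law at a fixed point. -/
theorem mean_law {β η Λ : ℝ} (hβ1 : β < 1) {s : ℝ} {v : Fin n → ℝ}
    (h : Par n β s (s ^ 2 * β ^ 2 * av v) η Λ v) :
    let F := fun d => ∑ i, (zv n β s (s ^ 2 * β ^ 2 * av v) d v i
      - (shift β + 2 * s * β ^ 2 * av v) / (1 - s ^ 2 * β ^ 2 * av fun i => v i ^ 2)) ^ 2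
    Integrable ((regSet n β s (s ^ 2 * β ^ 2 * av v) η Λ v).indicator F) (disX n) ∧
      ∫ d, (regSet n β s (s ^ 2 * β ^ 2 * av v) η Λ v).indicator F d ∂disX n
        ≤ |sC β (sB β Λ η)| * eB β η Λ := by
  intro F
  set R := s ^ 2 * β ^ 2 * av v
  set S := regSet n β s R η Λ v with hS
  set C := |sC β (sB β Λ η)|
  have hk := fun i : Fin n => kdiag_mean (n := n) β i
  have he : ∀ i : Fin n, _ := fun i => errs_le h i
  simp only [← hS] at he
  set H : Fin n → Dis n → ℝ := fun i d => S.indicator (fun d => kmat n β d i i ^ 2) d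
    + S.indicator (fun d => e1v n β s R d v i ^ 2) d + S.indicator (fun d => e2v n β s R d v i ^ 2) d
    + S.indicator (fun d => e3v n β s R d v i ^ 2) d
  have hki : ∀ i, Integrable (S.indicator fun d => kmat n β d i i ^ 2) (disX n) := fun i =>
    (hk i).1.indicator (measurableSet_regSet n β s R η Λ v)
  have hHi : ∀ i, Integrable (H i) (disX n) := fun i =>
    (((hki i).add (he i).1.1).add (he i).2.1.1).add (he i).2.2.1
  have hH : ∀ i, ∫ d, H i d ∂disX n ≤ eB β η Λ / n := fun i => by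
    have hn : (1 : ℝ) ≤ n := by exact_mod_cast (show 1 ≤ n by have := i.pos; omega)
    simp only [H]
    rw [integral_add (((hki i).fun_add (he i).1.1).fun_add (he i).2.1.1) (he i).2.2.1,
      integral_add ((hki i).fun_add (he i).1.1) (he i).2.1.1, integral_add (hki i) (he i).1.1]
    have h0 : ∫ d, S.indicator (fun d => kmat n β d i i ^ 2) d ∂disX n ≤ 2 * β ^ 2 / n :=
      (integral_mono (hki i) (hk i).1 fun d => Set.indicator_le_self' (fun _ _ => sq_nonneg _) d).trans_eq
        (hk i).2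
    set X := β ^ 2 * (2 * mB β η Λ ^ 2)
    have hX : 2 * (X / n) ^ 2 ≤ 2 * X ^ 2 / n := by
      rw [div_pow, ← mul_div_assoc]
      exact div_le_div_of_nonneg_left (by positivity) (by linarith) (le_self_pow₀ hn two_ne_zero)
    have := (he i).1.2
    have := (he i).2.1.2
    have := (he i).2.2.2
    rw [eB, add_div, mul_div_assoc 3, add_div]
    linarith
  have hle : ∀ d, S.indicator F d ≤ C * ∑ i, H i d := fun d => by
    by_cases hd : d ∈ S
    · simp only [H, Set.indicator_of_mem hd]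
      refine ((det_law h.hv hβ1 (h.reg hd)).trans (mul_le_mul_of_nonneg_right (le_abs_self _) ?_)).trans_eq rfl
      unfold eTot eSq
      positivity
    · simp [H, Set.indicator_of_notMem hd]
  have hFm : Measurable F := by
    refine Finset.measurable_sum _ fun i _ => (Measurable.sub ?_ measurable_const).pow_const 2
    simp only [zv]
    exact measurable_mul_entry (measurable_mul_entry (measurable_pm β s R v) (measurable_aop β))
      (fun a b => by simpa only [Matrix.transpose_apply] using measurable_pm β s R v b a) i i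
  have hGi : Integrable (fun d => C * ∑ i, H i d) (disX n) :=
    (integrable_finsetSum _ fun i _ => hHi i).const_mul C
  have hi : Integrable (S.indicator F) (disX n) := hGi.mono'
    (hFm.indicator (measurableSet_regSet n β s R η Λ v)).aestronglyMeasurable (ae_of_all _ fun d => by
      rw [Real.norm_eq_abs, abs_of_nonneg (Set.indicator_nonneg
        (fun _ _ => sum_nonneg fun i _ => sq_nonneg _) _)]
      exact hle d)
  refine ⟨hi, (integral_mono hi hGi hle).trans ?_⟩
  rw [integral_const_mul, integral_finsetSum _ fun i _ => hHi i]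
  refine mul_le_mul_of_nonneg_left ((sum_le_sum fun i _ => hH i).trans ?_) (abs_nonneg _)
  rw [sum_const, card_univ, Fintype.card_fin, nsmul_eq_mul]
  have hE : 0 ≤ eB β η Λ := by unfold eB; positivity
  rcases Nat.eq_zero_or_pos n with h | h
  · subst h; simpa using hE
  · exact le_of_eq (mul_div_cancel₀ _ (by exact_mod_cast h.ne'))

end Vale.Agent.P150.Fast.LL
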