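import Vale.Agent.P150.Fast.Chan
import Vale.Agent.P150.Fast.CurvStmt
import Vale.Agent.P150.Conc

/-!
The positive square root of a covariance is Lipschitz in the Frobenius norm, and the mean length
of a Gaussian vector. Used for P150.
-/

open MeasureTheory ProbabilityTheory Real Finset
open scoped Matrix MatrixOrder

namespace Vale.Agent.P150.Fast

variable {n : ℕ} {A : Matrix (Fin n) (Fin n) ℝ}

/-- The positive square root. -/
theorem exists_sym_root (hA : A.PosDef) {lam : ℝ} (hlam : 0 < lam)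
    (hl : ∀ v : Fin n → ℝ, lam * ∑ i, v i ^ 2 ≤ v ⬝ᵥ (A *ᵥ v)) :
    ∃ B : Matrix (Fin n) (Fin n) ℝ, B.transpose = B ∧ B * B = A ∧ B.det ≠ 0 ∧
      ∀ v : Fin n → ℝ, √lam * ∑ i, v i ^ 2 ≤ v ⬝ᵥ (B *ᵥ v) := by
  set B := CFC.sqrt A with hB
  have hp : B.PosSemidef := Matrix.nonneg_iff_posSemidef.1 (CFC.sqrt_nonneg A)
  have hBB : B * B = A := CFC.sqrt_mul_sqrt_self A hA.posSemidef.nonneg
  have hsym : B.transpose = B := by
    simpa [Matrix.IsHermitian, Matrix.conjTranspose_eq_transpose_of_trivial] using hp.isHermitian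
  have hd : B.det ≠ 0 := fun h => hA.det_pos.ne' (by rw [← hBB, Matrix.det_mul, h, zero_mul])
  have hs : ∀ u w : Fin n → ℝ, u ⬝ᵥ (B *ᵥ w) = (B *ᵥ u) ⬝ᵥ w := fun u w => by
    rw [Matrix.dotProduct_mulVec, ← Matrix.mulVec_transpose, hsym]
  refine ⟨B, hsym, hBB, hd, fun v => ?_⟩
  set u := B⁻¹ *ᵥ v with hu
  have hBu : B *ᵥ u = v := by
    rw [hu, Matrix.mulVec_mulVec, Matrix.mul_nonsing_inv _ (Ne.isUnit hd), Matrix.one_mulVec]
  have hP : 0 ≤ v ⬝ᵥ (B *ᵥ v) := by simpa using hp.dotProduct_mulVec_nonneg v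
  have hQ : ∀ t : ℝ, 0 ≤ u ⬝ᵥ v - 2 * t * (v ⬝ᵥ v) + t ^ 2 * (v ⬝ᵥ (B *ᵥ v)) := fun t => by
    have h := hp.dotProduct_mulVec_nonneg (u - t • v)
    rw [star_trivial, Matrix.mulVec_sub, Matrix.mulVec_smul, hBu] at h
    simp only [sub_dotProduct, dotProduct_sub, smul_dotProduct, dotProduct_smul, smul_eq_mul] at h
    rw [hs u v, hBu] at h
    linarith
  have hu2 : lam * ∑ i, u i ^ 2 ≤ ∑ i, v i ^ 2 := by
    refine (hl u).trans_eq ?_
    rw [← hBB, ← Matrix.mulVec_mulVec, hBu, hs u v, hBu]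
    exact sum_congr rfl fun i _ => (sq (v i)).symm
  have hvv : v ⬝ᵥ v = ∑ i, v i ^ 2 := sum_congr rfl fun i _ => (sq (v i)).symm
  have huv : u ⬝ᵥ v ≤ (∑ i, v i ^ 2) / √lam := by
    rw [le_div_iff₀ (sqrt_pos.2 hlam)]
    have h1 : (u ⬝ᵥ v * √lam) ^ 2 ≤ (∑ i, v i ^ 2) ^ 2 := by
      rw [mul_pow, sq_sqrt hlam.le]
      have hcs : (u ⬝ᵥ v) ^ 2 ≤ (∑ i, u i ^ 2) * ∑ i, v i ^ 2 := sum_mul_sq_le_sq_mul_sq _ _ _
      have h2 := mul_le_mul_of_nonneg_right hu2 (sum_nonneg fun i _ => sq_nonneg (v i) : 0 ≤ ∑ i, v i ^ 2)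
      nlinarith [mul_le_mul_of_nonneg_left hcs hlam.le]
    calc u ⬝ᵥ v * √lam ≤ |u ⬝ᵥ v * √lam| := le_abs_self _
      _ ≤ |∑ i, v i ^ 2| := sq_le_sq.1 h1
      _ = _ := abs_of_nonneg (sum_nonneg fun i _ => sq_nonneg _)
  have h := hQ (1 / √lam)
  rw [hvv] at h
  have hk : (0 : ℝ) < √lam := sqrt_pos.2 hlam
  have h3 := mul_le_mul_of_nonneg_left (h.trans (by linarith :
    u ⬝ᵥ v - 2 * (1 / √lam) * ∑ i, v i ^ 2 + (1 / √lam) ^ 2 * (v ⬝ᵥ (B *ᵥ v))
      ≤ (∑ i, v i ^ 2) / √lam - 2 * (1 / √lam) * ∑ i, v i ^ 2 + (1 / √lam) ^ 2 * (v ⬝ᵥ (B *ᵥ v))))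
    (sq_nonneg √lam)
  have e : √lam ^ 2 * ((∑ i, v i ^ 2) / √lam - 2 * (1 / √lam) * ∑ i, v i ^ 2
      + (1 / √lam) ^ 2 * (v ⬝ᵥ (B *ᵥ v))) = v ⬝ᵥ (B *ᵥ v) - √lam * ∑ i, v i ^ 2 := by
    field_simp
    ring
  rw [mul_zero, e] at h3
  linarith

/-- Two positive square roots are as close as their squares. -/
theorem frob_root {A' B B' : Matrix (Fin n) (Fin n) ℝ} (hBB : B * B = A) (hBB' : B' * B' = A')
    (hs' : B'.transpose = B') {c : ℝ} (hc : 0 < c)
    (hb : ∀ v : Fin n → ℝ, c * ∑ i, v i ^ 2 ≤ v ⬝ᵥ (B *ᵥ v))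
    (hb' : ∀ v : Fin n → ℝ, c * ∑ i, v i ^ 2 ≤ v ⬝ᵥ (B' *ᵥ v)) :
    2 * c * frob (B - B') ≤ frob (A - A') := by
  set X := B - B' with hX
  set Y := A - A' with hY
  have hmul : B * X + X * B' = Y := by
    rw [hX, hY, ← hBB, ← hBB', mul_sub, sub_mul]; abel
  set P := ∑ i, ∑ j, X i j ^ 2 with hP
  set Q := ∑ i, ∑ j, Y i j ^ 2 with hQ
  have hP0 : 0 ≤ P := sum_nonneg fun i _ => sum_nonneg fun j _ => sq_nonneg _
  have h1 : c * P ≤ ∑ i, ∑ j, X i j * (B * X) i j := by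
    rw [hP, sum_comm, mul_sum, sum_comm (f := fun i j => X i j * (B * X) i j)]
    refine sum_le_sum fun j _ => (hb fun i => X i j).trans_eq ?_
    simp [dotProduct, Matrix.mulVec, Matrix.mul_apply]
  have h2 : c * P ≤ ∑ i, ∑ j, X i j * (X * B') i j := by
    rw [hP, mul_sum]
    refine sum_le_sum fun i _ => (hb' fun j => X i j).trans_eq ?_
    simp only [dotProduct, Matrix.mulVec, Matrix.mul_apply]
    refine sum_congr rfl fun j _ => ?_
    congr 1
    refine sum_congr rfl fun k _ => ?_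
    conv_lhs => rw [← hs', Matrix.transpose_apply]
    ring
  have h3 : ∑ i, ∑ j, X i j * (B * X) i j + ∑ i, ∑ j, X i j * (X * B') i j = ∑ i, ∑ j, X i j * Y i j := by
    rw [← hmul]
    simp only [Matrix.add_apply, mul_add, sum_add_distrib]
  have h4 : (∑ i, ∑ j, X i j * Y i j) ^ 2 ≤ P * Q := by
    simp only [hP, hQ, ← Fintype.sum_prod_type']
    exact sum_mul_sq_le_sq_mul_sq univ (fun p : Fin n × Fin n => X p.1 p.2) fun p => Y p.1 p.2
  show 2 * c * √P ≤ √Q
  have h5 : (2 * c * P) ^ 2 ≤ P * Q :=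
    (pow_le_pow_left₀ (by positivity) (by linarith) 2).trans h4
  rcases hP0.eq_or_lt with h | h
  · rw [← h, sqrt_zero, mul_zero]; exact sqrt_nonneg _
  · refine le_sqrt_of_sq_le ?_
    rw [mul_pow, sq_sqrt hP0]
    refine le_of_mul_le_mul_left ?_ h
    linarith

theorem gp_mul_coord (i j : Fin n) :
    Integrable (fun g : Fin n → ℝ => g i * g j) (gp (Fin n)) ∧
      ∫ g, g i * g j ∂gp (Fin n) = if i = j then 1 else 0 := by
  classical
  have hsq : ∀ k, Integrable (fun g : Fin n → ℝ => g k ^ 2) (gp (Fin n)) := fun k => by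
    have h : MeasurePreserving (fun g : Fin n → ℝ => g k) (gp (Fin n)) (gaussianReal 0 1) :=
      measurePreserving_eval _ k
    exact (h.integrable_comp (by fun_prop)).2 (integrable_pow_id 2)
  have hi : Integrable (fun g : Fin n → ℝ => g i * g j) (gp (Fin n)) :=
    ((hsq i).add (hsq j)).mono' (Continuous.aestronglyMeasurable (by fun_prop)) (ae_of_all _ fun g => by
      simp only [Real.norm_eq_abs, Pi.add_apply, abs_mul]
      nlinarith [two_mul_le_add_sq |g i| |g j|, sq_abs (g i), sq_abs (g j), abs_nonneg (g i), abs_nonneg (g j)])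
  refine ⟨hi, ?_⟩
  have h := ibp_gen (F := fun g : Fin n → ℝ => g j) (F' := fun _ => if i = j then (1 : ℝ) else 0) i
    (integrable_coord j) (integrable_const _) hi fun g => by
      split
      · next h => subst h; simpa using hasDerivAt_id' (g i)
      · next h => simpa [Function.update_of_ne (Ne.symm h)] using hasDerivAt_const (g i) (g j)
  rw [h, integral_const, probReal_univ, one_smul]

/-- The mean length of a Gaussian vector. -/
theorem mean_norm_le (M : Matrix (Fin n) (Fin n) ℝ) :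
    Integrable (fun g => √(∑ i, (M *ᵥ g) i ^ 2)) (gp (Fin n)) ∧
      ∫ g, √(∑ i, (M *ᵥ g) i ^ 2) ∂gp (Fin n) ≤ frob M := by
  set X : (Fin n → ℝ) → ℝ := fun g => ∑ i, (M *ᵥ g) i ^ 2 with hX
  have e : ∀ g, X g = ∑ i, ∑ j, ∑ k, M i j * M i k * (g j * g k) := fun g => by
    show ∑ i, (M *ᵥ g) i ^ 2 = _
    simp only [Matrix.mulVec, dotProduct, sq, sum_mul_sum]
    exact sum_congr rfl fun i _ => sum_congr rfl fun j _ => sum_congr rfl fun k _ => by ring
  have hi : ∀ i j k, Integrable (fun g => M i j * M i k * (g j * g k)) (gp (Fin n)) := fun i j k =>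
    (gp_mul_coord j k).1.const_mul _
  have iX : Integrable X (gp (Fin n)) := by
    rw [funext e]
    exact integrable_finsetSum _ fun i _ => integrable_finsetSum _ fun j _ =>
      integrable_finsetSum _ fun k _ => hi i j k
  have eX : ∫ g, X g ∂gp (Fin n) = frob M ^ 2 := by
    have hf : frob M ^ 2 = ∑ i, ∑ j, M i j ^ 2 :=
      sq_sqrt (sum_nonneg fun i _ => sum_nonneg fun j _ => sq_nonneg _)
    rw [hf]
    simp only [e]
    rw [integral_finsetSum _ fun i _ => integrable_finsetSum _ fun j _ =>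
      integrable_finsetSum _ fun k _ => hi i j k]
    refine sum_congr rfl fun i _ => ?_
    rw [integral_finsetSum _ fun j _ => integrable_finsetSum _ fun k _ => hi i j k]
    refine sum_congr rfl fun j _ => ?_
    rw [integral_finsetSum _ fun k _ => hi i j k]
    simp only [integral_const_mul, (gp_mul_coord j _).2, mul_ite, mul_one, mul_zero, sum_ite_eq,
      mem_univ, if_true, sq]
  have hbd : ∀ c : ℝ, 0 < c → ∀ g, √(X g) ≤ X g / (2 * c) + c / 2 := fun c hc g => by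
    have h0 : 0 ≤ X g := sum_nonneg fun i _ => sq_nonneg _
    have h := two_mul_le_add_sq √(X g) c
    rw [sq_sqrt h0] at h
    have e : X g / (2 * c) + c / 2 = (X g + c ^ 2) / (2 * c) := by field_simp
    rw [e, le_div_iff₀ (by positivity)]
    linarith
  have hm : Integrable (fun g => √(X g)) (gp (Fin n)) :=
    ((iX.div_const (2 * 1)).add (integrable_const (1 / 2))).mono'
      (iX.aestronglyMeasurable.aemeasurable.sqrt.aestronglyMeasurable) (ae_of_all _ fun g => by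
        rw [Real.norm_eq_abs, abs_of_nonneg (sqrt_nonneg _)]; exact hbd 1 one_pos g)
  refine ⟨hm, le_of_forall_pos_le_add fun ε hε => ?_⟩
  have hc : 0 < frob M + ε := add_pos_of_nonneg_of_pos (sqrt_nonneg _) hε
  refine (integral_mono hm ((iX.div_const _).fun_add (integrable_const _)) (hbd _ hc)).trans ?_
  rw [integral_add (iX.div_const _) (integrable_const _), integral_div, eX, integral_const, probReal_univ,
    one_smul]
  have : frob M ^ 2 / (2 * (frob M + ε)) ≤ (frob M + ε) / 2 := by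
    rw [div_le_iff₀ (by positivity)]
    nlinarith [sqrt_nonneg (∑ i, ∑ j, M i j ^ 2), show 0 ≤ frob M from sqrt_nonneg _]
  linarith

end Vale.Agent.P150.Fast
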