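import Vale.Agent.P150.Fast.Goe

/-!
Orthogonal invariance of the law of the coupling matrix, for P150.
-/

open MeasureTheory ProbabilityTheory Real Finset
open scoped Matrix

namespace Vale.Agent.P150.Fast

variable {n : ℕ}

/-- Coordinates of a symmetric matrix. -/
noncomputable def coords (M : Matrix (Fin n) (Fin n) ℝ) : Dis n :=
  Sum.elim (fun p => M p.1.1 p.1.2) fun i => M i i / √2

theorem goe_coords {M : Matrix (Fin n) (Fin n) ℝ} (hM : ∀ i j, M i j = M j i) :
    goe n (coords M) = M := by
  funext i j
  rcases lt_trichotomy i j with h | h | h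
  · simp [goe, coords, h]
  · subst h
    simp only [goe_diag, coords, Sum.elim_inr]
    field_simp
  · simp only [goe, dif_neg h.not_gt, dif_pos h, coords, Sum.elim_inl]
    exact (hM i j).symm

theorem goe_add (a b : Dis n) : goe n (a + b) = goe n a + goe n b := by
  funext i j
  simp only [goe, Matrix.add_apply, Pi.add_apply]
  split_ifs <;> ring

theorem goe_smul (r : ℝ) (a : Dis n) : goe n (r • a) = r • goe n a := by
  funext i j
  simp only [goe, Matrix.smul_apply, Pi.smul_apply, smul_eq_mul]
  split_ifs <;> ring

theorem coords_add (M N : Matrix (Fin n) (Fin n) ℝ) : coords (M + N) = coords M + coords N := by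
  funext j; rcases j with p | i <;> simp [coords, add_div]

theorem coords_smul (r : ℝ) (M : Matrix (Fin n) (Fin n) ℝ) : coords (r • M) = r • coords M := by
  funext j; rcases j with p | i <;> simp [coords, mul_div_assoc]

theorem goe_frob (d : Dis n) : ∑ i, ∑ j, goe n d i j ^ 2 = 2 * ∑ k, d k ^ 2 := by
  rw [Edge.sum_sum_eq, Fintype.sum_sum_type, mul_add, mul_sum, mul_sum]
  congr 1
  · exact sum_congr rfl fun p _ => by rw [goe_symm d p.1.2 p.1.1, goe_pair]; ring
  · exact sum_congr rfl fun i _ => by rw [goe_diag, mul_pow, sq_sqrt zero_le_two]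

/-- Conjugation by an orthogonal matrix, on the disorder. -/
noncomputable def conjDis (O : Matrix (Fin n) (Fin n) ℝ) (d : Dis n) : Dis n :=
  coords (O * goe n d * O.transpose)

theorem goe_conjDis (O : Matrix (Fin n) (Fin n) ℝ) (d : Dis n) :
    goe n (conjDis O d) = O * goe n d * O.transpose := by
  refine goe_coords fun i j => ?_
  have hs : (goe n d).transpose = goe n d := Matrix.ext fun i j => goe_symm d j i
  have h : (O * goe n d * O.transpose).transpose = O * goe n d * O.transpose := by
    simp only [Matrix.transpose_mul, Matrix.transpose_transpose, hs, Matrix.mul_assoc]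
  exact (congrFun (congrFun h j) i).symm.trans rfl |>.symm

theorem sum_sq_trace (M : Matrix (Fin n) (Fin n) ℝ) :
    ∑ i, ∑ j, M i j ^ 2 = Matrix.trace (M * M.transpose) := by
  simp [Matrix.trace, Matrix.diag, Matrix.mul_apply, pow_two]

theorem conjDis_norm (O : Matrix (Fin n) (Fin n) ℝ) (hO : O.transpose * O = 1) (d : Dis n) :
    ∑ k, conjDis O d k ^ 2 = ∑ k, d k ^ 2 := by
  have h1 := goe_frob (conjDis O d)
  have h2 := goe_frob d
  rw [goe_conjDis, sum_sq_trace] at h1
  rw [sum_sq_trace] at h2
  have e : Matrix.trace (O * goe n d * O.transpose * (O * goe n d * O.transpose).transpose)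
      = Matrix.trace (goe n d * (goe n d).transpose) := by
    rw [Matrix.transpose_mul, Matrix.transpose_mul, Matrix.transpose_transpose]
    rw [show O * goe n d * O.transpose * (O * ((goe n d).transpose * O.transpose))
        = O * goe n d * (O.transpose * O) * ((goe n d).transpose * O.transpose) by
      simp only [Matrix.mul_assoc], hO, Matrix.mul_one, ← Matrix.mul_assoc, Matrix.trace_mul_comm,
      ← Matrix.mul_assoc, ← Matrix.mul_assoc, hO, Matrix.one_mul]
  rw [e] at h1
  linarith

theorem conjInv : ConjInv := by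
  intro n O hO
  refine ⟨conjDis O, ?_, fun β d => ?_⟩
  · set f : EuclideanSpace ℝ (Pair n ⊕ Fin n) →ₗ[ℝ] EuclideanSpace ℝ (Pair n ⊕ Fin n) :=
      { toFun := fun x => WithLp.toLp 2 (conjDis O x.ofLp)
        map_add' := fun x y => by
          rw [WithLp.ofLp_add, conjDis, goe_add, Matrix.mul_add, Matrix.add_mul, coords_add,
            WithLp.toLp_add]
          rfl
        map_smul' := fun r x => by
          rw [WithLp.ofLp_smul, conjDis, goe_smul, Matrix.mul_smul, Matrix.smul_mul, coords_smul,
            WithLp.toLp_smul]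
          rfl } with hf
    set L : EuclideanSpace ℝ (Pair n ⊕ Fin n) ≃ₗᵢ[ℝ] EuclideanSpace ℝ (Pair n ⊕ Fin n) :=
      LinearIsometry.toLinearIsometryEquiv
        ⟨f, fun x => by
          rw [EuclideanSpace.norm_eq, EuclideanSpace.norm_eq]
          congr 1
          simpa [hf, sq_abs] using conjDis_norm O hO x.ofLp⟩ rfl
    have he : conjDis O = WithLp.ofLp ∘ L ∘ WithLp.toLp 2 := rfl
    have hto : Measurable (WithLp.toLp 2 : Dis n → EuclideanSpace ℝ (Pair n ⊕ Fin n)) :=
      (PiLp.continuous_toLp 2 _).measurable
    have hof : Measurable (WithLp.ofLp : EuclideanSpace ℝ (Pair n ⊕ Fin n) → Dis n) :=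
      (PiLp.continuous_ofLp 2 _).measurable
    refine ⟨he ▸ hof.comp (L.continuous.measurable.comp hto), ?_⟩
    rw [he, ← Measure.map_map hof (L.continuous.measurable.comp hto),
      ← Measure.map_map L.continuous.measurable hto, disX, gp, map_pi_eq_stdGaussian,
      stdGaussian_map, ← map_pi_eq_stdGaussian, Measure.map_map hof hto]
    exact Measure.map_id
  · rw [kmat_eq, kmat_eq, goe_conjDis, Matrix.mul_smul, Matrix.smul_mul]

end Vale.Agent.P150.Fast
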