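import Vale.Agent.P150.Fast.Cond
import Vale.Agent.P150.Scalar

/-!
Second moment of a Gaussian quadratic form, and resampling of the row of one site, for the local
law of P150.
-/

open MeasureTheory ProbabilityTheory Real Finset
open scoped Matrix

namespace Vale.Agent.P150.Fast.LL

variable {n : ℕ}

/-- Selecting coordinates along an injection preserves the standard Gaussian law. -/
theorem mp_inj {ι κ : Type*} [Fintype ι] [Fintype κ] {σ : ι → κ} (hσ : Function.Injective σ) :
    MeasurePreserving (fun (g : κ → ℝ) i => g (σ i)) (gp κ) (gp ι) := by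
  classical
  have hm : Measurable fun (g : κ → ℝ) i => g (σ i) :=
    measurable_pi_lambda _ fun i => measurable_pi_apply _
  refine ⟨hm, ?_⟩
  rw [gp, gp]
  refine (Measure.pi_eq fun s hs => ?_).symm
  rw [Measure.map_apply hm (MeasurableSet.univ_pi hs)]
  set t : κ → Set ℝ := fun k => ⋂ i, ⋂ (_ : σ i = k), s i with ht
  have e : (fun (g : κ → ℝ) i => g (σ i)) ⁻¹' Set.pi Set.univ s = Set.pi Set.univ t := by
    ext g
    simp only [Set.mem_preimage, Set.mem_univ_pi, ht, Set.mem_iInter]
    exact ⟨fun h k i hi => hi ▸ h i, fun h i => h _ i rfl⟩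
  have ei : ∀ i, t (σ i) = s i := fun i => by
    ext x
    simp only [ht, Set.mem_iInter]
    exact ⟨fun h => h i rfl, fun h j hj => by rwa [hσ hj]⟩
  rw [e, Measure.pi_pi]
  refine (Fintype.prod_of_injective σ hσ _ (fun k => gaussianReal 0 1 (t k)) (fun k hk => ?_)
    fun i => by rw [ei]).symm
  have : t k = Set.univ := by
    ext x
    simp only [ht, Set.mem_iInter, Set.mem_univ, iff_true]
    exact fun i hi => absurd ⟨i, hi⟩ hk
  rw [this, measure_univ]

/-- The centred square. -/
def csq (x : ℝ) : ℝ := x ^ 2 - 1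

theorem int_csq_sq : Integrable (fun x => csq x ^ 2) (gaussianReal 0 1) ∧
    ∫ x, csq x ^ 2 ∂gaussianReal 0 1 = 2 ∧ ∫ x, csq x ∂gaussianReal 0 1 = 0 := by
  have i2 := integrable_pow_gauss 2
  have i4 := integrable_pow_gauss 4
  have m0 : ∫ x : ℝ, x ^ 0 ∂gaussianReal 0 1 = 1 := by simp
  have m2 : ∫ x : ℝ, x ^ 2 ∂gaussianReal 0 1 = 1 := by
    rw [show (2 : ℕ) = 0 + 2 from rfl, moment_step, m0]; simp
  have m4 : ∫ x : ℝ, x ^ 4 ∂gaussianReal 0 1 = 3 := by
    rw [show (4 : ℕ) = 2 + 2 from rfl, moment_step, m2]; norm_num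
  have e : (fun x => csq x ^ 2) = fun x : ℝ => x ^ 4 - 2 * x ^ 2 + 1 := by
    funext x; simp only [csq]; ring
  have e' : csq = fun x : ℝ => x ^ 2 - 1 := rfl
  refine ⟨?_, ?_, ?_⟩
  · rw [e]; exact (i4.sub (i2.const_mul 2)).add (integrable_const 1)
  · have h1 : Integrable (fun x : ℝ => x ^ 4 - 2 * x ^ 2) (gaussianReal 0 1) :=
      i4.sub (i2.const_mul 2)
    rw [e, integral_add h1 (integrable_const 1), integral_sub i4 (i2.const_mul 2),
      integral_const_mul, m4, m2]
    simp; norm_num
  · rw [e', integral_sub i2 (integrable_const 1), m2]; simp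

theorem csq_pair (i j : Fin n) :
    Integrable (fun z : Fin n → ℝ => csq (z i) * csq (z j)) (gp (Fin n)) ∧
    ∫ z, csq (z i) * csq (z j) ∂gp (Fin n) = if i = j then 2 else 0 := by
  obtain ⟨h2, e2, e1⟩ := int_csq_sq
  have hi1 : Integrable csq (gaussianReal 0 1) :=
    (integrable_pow_gauss 2).sub (integrable_const 1)
  have mp : ∀ k : Fin n, MeasurePreserving (fun z : Fin n → ℝ => z k) (gp (Fin n))
      (gaussianReal 0 1) := fun k => measurePreserving_eval _ k
  by_cases h : i = j
  · subst h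
    rw [if_pos rfl]
    simp only [← pow_two]
    refine ⟨(mp i).integrable_comp_of_integrable h2, ?_⟩
    rw [← e2]
    conv_rhs => rw [← (mp i).map_eq]
    rw [integral_map (mp i).measurable.aemeasurable]
    rw [(mp i).map_eq]
    exact h2.aestronglyMeasurable
  · rw [if_neg h]
    set f : Fin n → ℝ → ℝ := fun k x => if k = i then csq x else if k = j then csq x else 1
    have hp : ∀ z : Fin n → ℝ, csq (z i) * csq (z j) = ∏ k, f k (z k) := fun z => by
      rw [← prod_subset (subset_univ {i, j}) fun k _ hk => by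
        simp only [mem_insert, mem_singleton, not_or] at hk; simp [f, hk.1, hk.2]]
      rw [prod_pair h]
      simp [f, Ne.symm h]
    have hfi : ∀ k, Integrable (f k) (gaussianReal 0 1) := fun k => by
      by_cases hk : k = i
      · simpa [f, hk] using hi1
      · by_cases hk' : k = j
        · simpa [f, hk', Ne.symm h] using hi1
        · simp [f, hk, hk']
    simp only [hp]
    refine ⟨Integrable.fintype_prod hfi, ?_⟩
    rw [gp, integral_fintype_prod_eq_prod]
    refine prod_eq_zero (mem_univ i) ?_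
    simp only [f, if_pos]
    exact e1

/-- The second moment of a centred Gaussian quadratic form. -/
theorem quad_var (M : Matrix (Fin n) (Fin n) ℝ) (hM : M.transpose = M) :
    Integrable (fun g => (g ⬝ᵥ (M *ᵥ g) - M.trace) ^ 2) (gp (Fin n)) ∧
    ∫ g, (g ⬝ᵥ (M *ᵥ g) - M.trace) ^ 2 ∂gp (Fin n) = 2 * ∑ i, ∑ j, M i j ^ 2 := by
  classical
  have hH : M.IsHermitian := by
    rw [Matrix.IsHermitian, Matrix.conjTranspose_eq_transpose_of_trivial, hM]
  set U : Matrix (Fin n) (Fin n) ℝ := (hH.eigenvectorUnitary : Matrix (Fin n) (Fin n) ℝ)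
  set l := hH.eigenvalues with hl
  have hUU : U * U.transpose = 1 := by
    have := Matrix.mem_unitaryGroup_iff.1 hH.eigenvectorUnitary.2
    rwa [Matrix.star_eq_conjTranspose, Matrix.conjTranspose_eq_transpose_of_trivial] at this
  have hUU' : U.transpose * U = 1 := mul_eq_one_comm.1 hUU
  have hs : M = U * Matrix.diagonal l * U.transpose := by
    have h := hH.spectral_theorem
    rw [Unitary.conjStarAlgAut_apply] at h
    rw [Matrix.star_eq_conjTranspose, Matrix.conjTranspose_eq_transpose_of_trivial] at h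
    exact h
  have htr : M.trace = ∑ k, l k := by
    conv_lhs => rw [hs]
    rw [Matrix.trace_mul_comm, ← mul_assoc, hUU', one_mul, Matrix.trace_diagonal]
  have hfr : ∑ i, ∑ j, M i j ^ 2 = ∑ k, l k ^ 2 := by
    have e : ∑ i, ∑ j, M i j ^ 2 = (M * M.transpose).trace := by
      simp [Matrix.trace, Matrix.mul_apply, pow_two]
    rw [e, hM]
    conv_lhs => rw [hs]
    rw [show U * Matrix.diagonal l * U.transpose * (U * Matrix.diagonal l * U.transpose)
        = U * (Matrix.diagonal l * (U.transpose * U) * Matrix.diagonal l) * U.transpose by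
      simp only [mul_assoc], hUU', mul_one, Matrix.trace_mul_comm, ← mul_assoc, hUU', one_mul,
      Matrix.diagonal_mul_diagonal, Matrix.trace_diagonal]
    simp [pow_two]
  set T : (Fin n → ℝ) →ₗ[ℝ] (Fin n → ℝ) := Matrix.mulVecLin U.transpose with hT
  have mp : MeasurePreserving T (gp (Fin n)) (gp (Fin n)) := gp_rot T fun g => by
    simp only [hT, Matrix.mulVecLin_apply, pow_two]
    show (U.transpose *ᵥ g) ⬝ᵥ (U.transpose *ᵥ g) = g ⬝ᵥ g
    rw [Matrix.dotProduct_mulVec, ← Matrix.mulVec_transpose, Matrix.transpose_transpose,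
      Matrix.mulVec_mulVec, hUU, Matrix.one_mulVec]
  set F : (Fin n → ℝ) → ℝ := fun z => (∑ k, l k * csq (z k)) ^ 2 with hF
  have e : ∀ g, (g ⬝ᵥ (M *ᵥ g) - M.trace) ^ 2 = F (T g) := fun g => by
    rw [htr]
    congr 1
    simp only [hT, Matrix.mulVecLin_apply, csq, mul_sub, mul_one, sum_sub_distrib]
    congr 1
    conv_lhs => rw [hs, ← Matrix.mulVec_mulVec, ← Matrix.mulVec_mulVec, Matrix.dotProduct_mulVec,
      ← Matrix.mulVec_transpose]
    simp only [dotProduct, Matrix.mulVec_diagonal]
    exact sum_congr rfl fun k _ => by ring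
  have eF : F = fun z => ∑ k, ∑ m, l k * l m * (csq (z k) * csq (z m)) := by
    funext z
    show (∑ k, l k * csq (z k)) ^ 2 = _
    rw [pow_two, sum_mul_sum]
    exact sum_congr rfl fun k _ => sum_congr rfl fun m _ => by ring
  have hFi : Integrable F (gp (Fin n)) := by
    rw [eF]
    exact integrable_finsetSum _ fun k _ => integrable_finsetSum _ fun m _ =>
      (csq_pair k m).1.const_mul _
  simp only [e]
  refine ⟨mp.integrable_comp_of_integrable hFi, ?_⟩
  have hc : ∫ g, F (T g) ∂gp (Fin n) = ∫ z, F z ∂gp (Fin n) := by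
    conv_rhs => rw [← mp.map_eq]
    rw [integral_map mp.measurable.aemeasurable (by rw [mp.map_eq]; exact hFi.aestronglyMeasurable)]
  rw [hc, eF, integral_finsetSum _ fun k _ => integrable_finsetSum _ fun m _ =>
    (csq_pair k m).1.const_mul _, hfr, mul_sum]
  refine sum_congr rfl fun k _ => ?_
  rw [integral_finsetSum _ fun m _ => (csq_pair k m).1.const_mul _]
  simp only [integral_const_mul, (csq_pair _ _).2, mul_ite, mul_zero, sum_ite_eq, mem_univ, if_true]
  ring

/-- Where each coordinate comes from when the row of site `i` is resampled. -/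
def rowSrc (i : Fin n) : Pair n ⊕ Fin n → (Pair n ⊕ Fin n) ⊕ Fin n
  | Sum.inl p =>
    if p.1.1 = i then Sum.inr p.1.2 else if p.1.2 = i then Sum.inr p.1.1 else Sum.inl (Sum.inl p)
  | Sum.inr j => Sum.inl (Sum.inr j)

theorem rowSrc_inj (i : Fin n) : Function.Injective (rowSrc i) := by
  rintro (⟨⟨a, b⟩, hab⟩ | j) (⟨⟨a', b'⟩, hab'⟩ | j') h
  · simp only [rowSrc] at h hab hab'
    simp only [Sum.inl.injEq, Subtype.mk.injEq, Prod.mk.injEq]
    split_ifs at h <;> simp_all [Fin.ext_iff] <;> omega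
  · simp only [rowSrc] at h
    split_ifs at h <;> simp_all
  · simp only [rowSrc] at h
    split_ifs at h <;> simp_all
  · simpa [rowSrc] using h

/-- The row of site `i` replaced by `g`. -/
def rowUpd (i : Fin n) (d : Dis n) (g : Fin n → ℝ) : Dis n := fun k => Sum.elim d g (rowSrc i k)

theorem kmat_rowUpd_row (β : ℝ) (i : Fin n) (d : Dis n) (g : Fin n → ℝ) {j : Fin n} (hj : j ≠ i) :
    kmat n β (rowUpd i d g) i j = β / √n * g j := by
  rw [kmat_apply]
  congr 1
  rcases lt_or_gt_of_ne hj with h | h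
  · simp [goe, rowUpd, rowSrc, h, h.not_gt, h.ne]
  · simp [goe, rowUpd, rowSrc, h]

theorem kmat_rowUpd_rest (β : ℝ) (i : Fin n) (d : Dis n) (g : Fin n → ℝ) {a b : Fin n} (ha : a ≠ i)
    (hb : b ≠ i) : kmat n β (rowUpd i d g) a b = kmat n β d a b := by
  rw [kmat_apply, kmat_apply]
  congr 1
  rcases lt_trichotomy a b with h | h | h
  · simp [goe, rowUpd, rowSrc, h, ha, hb]
  · subst h; simp [goe, rowUpd, rowSrc]
  · simp [goe, rowUpd, rowSrc, h, h.not_gt, ha, hb]

/-- Resampling the row preserves the law. -/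
theorem integral_rowUpd (i : Fin n) {F : Dis n → ℝ} (hF : Integrable F (disX n)) :
    Integrable (fun p : Dis n × (Fin n → ℝ) => F (rowUpd i p.1 p.2)) ((disX n).prod (gp (Fin n))) ∧
    ∫ d, ∫ g, F (rowUpd i d g) ∂gp (Fin n) ∂disX n = ∫ d, F d ∂disX n := by
  have m1 : MeasurePreserving (MeasurableEquiv.sumPiEquivProdPi
      fun _ : (Pair n ⊕ Fin n) ⊕ Fin n => ℝ) (gp ((Pair n ⊕ Fin n) ⊕ Fin n))
      ((disX n).prod (gp (Fin n))) :=
    measurePreserving_sumPiEquivProdPi (fun _ : (Pair n ⊕ Fin n) ⊕ Fin n => gaussianReal 0 1)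
  have m2 := mp_inj (rowSrc_inj i)
  have m3 := m1.symm _
  have m := m2.comp m3
  have hF' : Integrable (fun p : Dis n × (Fin n → ℝ) => F (rowUpd i p.1 p.2))
      ((disX n).prod (gp (Fin n))) := by
    refine (m.integrable_comp_of_integrable hF).congr (ae_of_all _ fun p => ?_)
    simp only [Function.comp_apply]
    congr 1
  refine ⟨hF', ?_⟩
  have e1 : ∫ d, ∫ g, F (rowUpd i d g) ∂gp (Fin n) ∂disX n
      = ∫ p, F (rowUpd i p.1 p.2) ∂(disX n).prod (gp (Fin n)) := (integral_prod _ hF').symm
  have hmeas := (show AEStronglyMeasurable F (gp (Pair n ⊕ Fin n)) from hF.aestronglyMeasurable)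
  rw [← m.map_eq] at hmeas
  have e2 := integral_map m.measurable.aemeasurable hmeas
  rw [m.map_eq] at e2
  rw [e1, show disX n = gp (Pair n ⊕ Fin n) from rfl, e2]
  refine integral_congr_ae (ae_of_all _ fun p => ?_)
  simp only [Function.comp_apply]
  congr 1

end Vale.Agent.P150.Fast.LL
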