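import Vale.Agent.P150.Fast.Defs

/-!
Deterministic bounds for logarithms of determinants of positive matrices (P150): the tangent
bound, the second-order bound along a small symmetric perturbation, and the Lipschitz bound for
the regularised logarithm of the determinant.
-/

open Real Finset Matrix

namespace Vale.Agent.P150.Fast

variable {n : ℕ}

/-- The squared Frobenius norm. -/
noncomputable def fsq (M : Matrix (Fin n) (Fin n) ℝ) : ℝ := (M.transpose * M).trace

theorem fsq_eq (M : Matrix (Fin n) (Fin n) ℝ) : fsq M = ∑ i, ∑ j, M i j ^ 2 := by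
  simp only [fsq, Matrix.trace, Matrix.diag, Matrix.mul_apply, transpose_apply]
  rw [Finset.sum_comm]
  exact sum_congr rfl fun i _ => sum_congr rfl fun j _ => by ring

theorem fsq_nonneg (M : Matrix (Fin n) (Fin n) ℝ) : 0 ≤ fsq M := by
  rw [fsq_eq]; exact sum_nonneg fun i _ => sum_nonneg fun j _ => sq_nonneg _

theorem trace_mul_abs_le (X Y : Matrix (Fin n) (Fin n) ℝ) :
    |(X.transpose * Y).trace| ≤ √(fsq X) * √(fsq Y) := by
  rw [← sqrt_mul (fsq_nonneg X)]
  refine abs_le_sqrt ?_
  have e : (X.transpose * Y).trace = ∑ p : Fin n × Fin n, X p.1 p.2 * Y p.1 p.2 := by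
    simp only [Matrix.trace, Matrix.diag, Matrix.mul_apply, transpose_apply]
    rw [Finset.sum_comm, Fintype.sum_prod_type]
  rw [e, fsq_eq, fsq_eq, ← Fintype.sum_prod_type (f := fun p : Fin n × Fin n => X p.1 p.2 ^ 2),
    ← Fintype.sum_prod_type (f := fun p : Fin n × Fin n => Y p.1 p.2 ^ 2)]
  exact sum_mul_sq_le_sq_mul_sq _ _ _

/-- A positive matrix is a square. -/
theorem exists_sqrt_root {Z : Matrix (Fin n) (Fin n) ℝ} (hZ : Z.PosDef) :
    ∃ C : Matrix (Fin n) (Fin n) ℝ, C.IsSymm ∧ C * C = Z ∧ C.det ≠ 0 := by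
  set h := hZ.isHermitian
  set U : Matrix (Fin n) (Fin n) ℝ := (h.eigenvectorUnitary : Matrix (Fin n) (Fin n) ℝ) with hU
  set D : Matrix (Fin n) (Fin n) ℝ := diagonal fun i => √(h.eigenvalues i)
  have hUU : U.transpose * U = 1 := by
    have := Unitary.coe_star_mul_self h.eigenvectorUnitary
    simpa [hU, star_eq_conjTranspose, conjTranspose_eq_transpose_of_trivial] using this
  have hZe : Z = U * diagonal h.eigenvalues * U.transpose := by
    conv_lhs => rw [h.spectral_theorem]
    simp [hU, Unitary.conjStarAlgAut_apply, star_eq_conjTranspose,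
      conjTranspose_eq_transpose_of_trivial]
  have hC : U * D * U.transpose * (U * D * U.transpose) = Z := by
    rw [show U * D * U.transpose * (U * D * U.transpose) = U * D * (U.transpose * U) * D * U.transpose by
      simp only [Matrix.mul_assoc], hUU, Matrix.mul_one, Matrix.mul_assoc U D D, diagonal_mul_diagonal]
    refine Eq.trans ?_ hZe.symm
    congr 3
    funext i
    exact mul_self_sqrt (hZ.eigenvalues_pos i).le
  refine ⟨U * D * U.transpose, ?_, hC, ?_⟩
  · unfold Matrix.IsSymm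
    simp only [transpose_mul, transpose_transpose, D, diagonal_transpose, Matrix.mul_assoc]
  · intro h0
    have := congrArg Matrix.det hC
    rw [det_mul, h0, mul_zero] at this
    exact hZ.det_pos.ne this

/-- `log det` lies below its tangent. -/
theorem logdet_tangent {Y Z : Matrix (Fin n) (Fin n) ℝ} (hY : Y.PosDef) (hZ : Z.PosDef) :
    log Y.det ≤ log Z.det + (Z⁻¹ * (Y - Z)).trace := by
  obtain ⟨C, hCs, hCC, hC0⟩ := exists_sqrt_root hZ
  have hu : IsUnit C.det := isUnit_iff_ne_zero.2 hC0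
  set R := C⁻¹ with hR
  have hRs : R.transpose = R := by rw [hR, transpose_nonsing_inv, hCs.eq]
  have hM : (R * Y * R).PosDef := by
    have h1 := hY.conjTranspose_mul_mul_same (B := R) (by
      refine Matrix.mulVec_injective_of_isUnit ?_
      rw [Matrix.isUnit_iff_isUnit_det, hR]
      exact Matrix.isUnit_nonsing_inv_det C hu)
    rwa [conjTranspose_eq_transpose_of_trivial, hRs] at h1
  have hdet : log (R * Y * R).det = log Y.det - log Z.det := by
    rw [det_mul, det_mul, hR, det_nonsing_inv, Ring.inverse_eq_inv', ← hCC, det_mul,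
      ← log_div hY.det_pos.ne' (mul_ne_zero hC0 hC0)]
    congr 1
    field_simp
  have htr : (R * Y * R).trace = (Z⁻¹ * Y).trace := by
    rw [Matrix.trace_mul_comm, ← Matrix.mul_assoc, hR, ← hCC, Matrix.mul_inv_rev]
  have hle : log (R * Y * R).det ≤ (R * Y * R).trace - n := by
    rw [hM.isHermitian.det_eq_prod_eigenvalues, hM.isHermitian.trace_eq_sum_eigenvalues,
      log_prod (fun i _ => by simpa using (hM.eigenvalues_pos i).ne')]
    refine (sum_le_sum fun i _ => log_le_sub_one_of_pos (by simpa using hM.eigenvalues_pos i)).trans ?_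
    simp [sum_sub_distrib]
  rw [hdet, htr] at hle
  have e : (Z⁻¹ * (Y - Z)).trace = (Z⁻¹ * Y).trace - n := by
    rw [Matrix.mul_sub, Matrix.trace_sub, Matrix.nonsing_inv_mul _ (isUnit_iff_ne_zero.2 hZ.det_pos.ne'),
      Matrix.trace_one]
    simp
  rw [e]
  linarith

theorem posDef_of_qform {X : Matrix (Fin n) (Fin n) ℝ} (hX : X.IsSymm) {η : ℝ} (hη : 0 < η)
    (h : ∀ u, η * ∑ i, u i ^ 2 ≤ u ⬝ᵥ (X *ᵥ u)) : X.PosDef := by
  refine PosDef.of_dotProduct_mulVec_pos ?_ fun u hu => ?_
  · rw [IsHermitian, conjTranspose_eq_transpose_of_trivial, hX.eq]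
  · simp only [star_trivial]
    refine lt_of_lt_of_le (mul_pos hη ?_) (h u)
    obtain ⟨i, hi⟩ := Function.ne_iff.1 hu
    exact lt_of_lt_of_le (pow_two_pos_of_ne_zero hi)
      (single_le_sum (f := fun j => u j ^ 2) (fun j _ => sq_nonneg _) (mem_univ i))

theorem log_one_sub_le {x : ℝ} (hx : |x| ≤ 1 / 2) : log (1 - x) ≤ -x - x ^ 2 / 2 + 2 * |x| ^ 3 := by
  have h := Real.abs_log_sub_add_sum_range_le (lt_of_le_of_lt hx (by norm_num)) 2
  simp only [sum_range_succ, range_zero, sum_empty, zero_add] at h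
  push_cast at h
  norm_num at h
  have h1 : |x| ^ 3 / (1 - |x|) ≤ 2 * |x| ^ 3 := by
    rw [div_le_iff₀ (by linarith)]
    nlinarith [pow_nonneg (abs_nonneg x) 3]
  linarith [(abs_le.1 h).2]

/-- The second-order bound along a small symmetric perturbation. -/
theorem logdet_taylor {Y W : Matrix (Fin n) (Fin n) ℝ} (hY : Y.IsSymm) (hW : W.IsSymm) {η R ε : ℝ}
    (hη : 0 < η) (hε : 0 ≤ ε) (hR : 0 ≤ R) (hYη : ∀ u, η * ∑ i, u i ^ 2 ≤ u ⬝ᵥ (Y *ᵥ u))
    (hWR : ∀ u, |u ⬝ᵥ (W *ᵥ u)| ≤ R * ∑ i, u i ^ 2) (hsmall : ε * R / η ≤ 1 / 2) :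
    log (Y - ε • W).det ≤ log Y.det - ε * (Y⁻¹ * W).trace
      - ε ^ 2 / 2 * (Y⁻¹ * W * (Y⁻¹ * W)).trace + 2 * n * (ε * R / η) ^ 3 := by
  have hP := posDef_of_qform hY hη hYη
  obtain ⟨C, hCs, hCC, hC0⟩ := exists_sqrt_root hP
  have hu : IsUnit C.det := isUnit_iff_ne_zero.2 hC0
  set G := C⁻¹ with hG
  have hGs : G.transpose = G := by rw [hG, transpose_nonsing_inv, hCs.eq]
  set S := ε • (G * W * G) with hS
  have hSH : S.IsHermitian := by
    rw [IsHermitian, conjTranspose_eq_transpose_of_trivial, hS, transpose_smul, transpose_mul,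
      transpose_mul, hGs, hW.eq, Matrix.mul_assoc]
  have hfac : Y - ε • W = C * (1 - S) * C := by
    simp only [hS, hG, Matrix.mul_sub, Matrix.sub_mul, Matrix.mul_one, hCC, Matrix.mul_smul,
      Matrix.smul_mul, Matrix.mul_assoc]
    rw [Matrix.nonsing_inv_mul _ hu, Matrix.mul_one, ← Matrix.mul_assoc,
      Matrix.mul_nonsing_inv _ hu, Matrix.one_mul]
  set lam := hSH.eigenvalues
  set U : Matrix (Fin n) (Fin n) ℝ := (hSH.eigenvectorUnitary : Matrix (Fin n) (Fin n) ℝ) with hUd
  have hUU : U.transpose * U = 1 := by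
    have := Unitary.coe_star_mul_self hSH.eigenvectorUnitary
    simpa [hUd, star_eq_conjTranspose, conjTranspose_eq_transpose_of_trivial] using this
  have hUU' : U * U.transpose = 1 := mul_eq_one_comm.1 hUU
  have hSe : S = U * diagonal lam * U.transpose := by
    conv_lhs => rw [hSH.spectral_theorem]
    simp [hUd, lam, Unitary.conjStarAlgAut_apply, star_eq_conjTranspose,
      conjTranspose_eq_transpose_of_trivial]
  have hlam : ∀ i, |lam i| ≤ ε * R / η := fun i => by
    set e : Fin n → ℝ := fun j => U j i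
    have he1 : ∑ j, e j ^ 2 = 1 := by
      have := congrFun (congrFun hUU i) i
      simpa [Matrix.mul_apply, e, pow_two] using this
    have heq : e ⬝ᵥ (S *ᵥ e) = lam i := by
      have h1 : S * U = U * diagonal lam := by
        rw [hSe, Matrix.mul_assoc, hUU, Matrix.mul_one]
      have h2 : S *ᵥ e = fun j => e j * lam i := by
        funext j
        have := congrFun (congrFun h1 j) i
        simpa [Matrix.mul_apply, Matrix.mulVec, dotProduct, e, diagonal_apply] using this
      rw [h2]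
      simp only [dotProduct, ← mul_assoc, ← sum_mul, ← pow_two, he1, one_mul]
    set w := G *ᵥ e
    have hw : e ⬝ᵥ (S *ᵥ e) = ε * (w ⬝ᵥ (W *ᵥ w)) := by
      rw [hS, smul_mulVec, dotProduct_smul, smul_eq_mul, ← mulVec_mulVec, ← mulVec_mulVec,
        dotProduct_mulVec e G, ← mulVec_transpose, hGs]
    have hyw : η * ∑ j, w j ^ 2 ≤ 1 := by
      refine (hYη w).trans (le_of_eq ?_)
      rw [← hCC, ← mulVec_mulVec, show C *ᵥ w = e by
        rw [mulVec_mulVec, hG, Matrix.mul_nonsing_inv _ hu, one_mulVec],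
        dotProduct_mulVec w C, ← mulVec_transpose, hCs.eq, show C *ᵥ w = e by
        rw [mulVec_mulVec, hG, Matrix.mul_nonsing_inv _ hu, one_mulVec]]
      simp [dotProduct, ← pow_two, he1]
    rw [← heq, hw, abs_mul, abs_of_nonneg hε, mul_div_assoc]
    refine mul_le_mul_of_nonneg_left ((hWR w).trans ?_) hε
    rw [le_div_iff₀ hη]
    have := mul_le_mul_of_nonneg_left hyw hR
    linarith
  have h1S : (1 - S).det = ∏ i, (1 - lam i) := by
    have : 1 - S = U * diagonal (fun i => 1 - lam i) * U.transpose := by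
      rw [← diagonal_sub, diagonal_one, Matrix.mul_sub, Matrix.sub_mul, Matrix.mul_one, hUU', hSe]
    rw [this, det_mul, det_mul, det_diagonal, mul_right_comm, ← det_mul, hUU', det_one, one_mul]
  have hpos : ∀ i, 0 < 1 - lam i := fun i => by
    linarith [le_abs_self (lam i), hlam i]
  have hld : log (Y - ε • W).det = log Y.det + ∑ i, log (1 - lam i) := by
    have hp : 0 < ∏ i, (1 - lam i) := prod_pos fun i _ => hpos i
    rw [hfac, det_mul, det_mul, h1S, mul_comm C.det, mul_assoc, log_mul hp.ne' (mul_ne_zero hC0 hC0),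
      log_prod (fun i _ => (hpos i).ne'), ← det_mul, hCC, add_comm]
  have hGG : Y⁻¹ = G * G := by rw [hG, ← hCC, Matrix.mul_inv_rev]
  have tS : ∑ i, lam i = ε * (Y⁻¹ * W).trace := by
    have : S.trace = ∑ i, lam i := by
      rw [hSe, Matrix.trace_mul_comm, ← Matrix.mul_assoc, hUU, Matrix.one_mul, trace_diagonal]
    rw [← this, hS, trace_smul, smul_eq_mul, Matrix.trace_mul_comm, ← Matrix.mul_assoc, hGG]
  have tS2 : ∑ i, lam i ^ 2 = ε ^ 2 * (Y⁻¹ * W * (Y⁻¹ * W)).trace := by
    have : (S * S).trace = ∑ i, lam i ^ 2 := by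
      rw [hSe, show U * diagonal lam * U.transpose * (U * diagonal lam * U.transpose)
        = U * diagonal lam * (U.transpose * U) * diagonal lam * U.transpose by
          simp only [Matrix.mul_assoc], hUU, Matrix.mul_one, Matrix.mul_assoc U, diagonal_mul_diagonal,
        Matrix.trace_mul_comm, ← Matrix.mul_assoc, hUU, Matrix.one_mul, trace_diagonal]
      exact sum_congr rfl fun i _ => (pow_two _).symm
    rw [← this, hS, Matrix.smul_mul, Matrix.mul_smul, trace_smul, trace_smul, smul_eq_mul, smul_eq_mul,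
      ← mul_assoc, ← pow_two, hGG]
    congr 1
    simp only [Matrix.mul_assoc]
    rw [Matrix.trace_mul_comm G]
    simp only [Matrix.mul_assoc]
    have h0 := Matrix.trace_mul_comm W (G * (G * (W * (G * G))))
    simp only [Matrix.mul_assoc] at h0
    exact h0
  rw [hld]
  have hterm : ∑ i, log (1 - lam i) ≤ ∑ i, (-lam i - lam i ^ 2 / 2 + 2 * (ε * R / η) ^ 3) :=
    sum_le_sum fun i _ => (log_one_sub_le ((hlam i).trans hsmall)).trans (by
      have := pow_le_pow_left₀ (abs_nonneg _) (hlam i) 3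
      linarith)
  simp only [sum_add_distrib, sum_sub_distrib, sum_neg_distrib, ← sum_div, tS, tS2, sum_const,
    card_univ, Fintype.card_fin, nsmul_eq_mul] at hterm
  linarith

/-- The regularised logarithm of the absolute determinant. -/
noncomputable def regDet (κ : ℝ) (A : Matrix (Fin n) (Fin n) ℝ) : ℝ :=
  log (A.transpose * A + κ • (1 : Matrix (Fin n) (Fin n) ℝ)).det / 2

theorem reg_qform (κ : ℝ) (A : Matrix (Fin n) (Fin n) ℝ) (u : Fin n → ℝ) :
    u ⬝ᵥ ((A.transpose * A + κ • (1 : Matrix (Fin n) (Fin n) ℝ)) *ᵥ u)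
      = ∑ i, (A *ᵥ u) i ^ 2 + κ * ∑ i, u i ^ 2 := by
  rw [add_mulVec, dotProduct_add, smul_mulVec, one_mulVec, dotProduct_smul, smul_eq_mul,
    ← mulVec_mulVec, dotProduct_mulVec, vecMul_transpose]
  simp only [dotProduct, ← pow_two]

theorem reg_isSymm (κ : ℝ) (A : Matrix (Fin n) (Fin n) ℝ) :
    (A.transpose * A + κ • (1 : Matrix (Fin n) (Fin n) ℝ)).IsSymm := by
  simp [Matrix.IsSymm, transpose_mul]

theorem reg_posDef {κ : ℝ} (hκ : 0 < κ) (A : Matrix (Fin n) (Fin n) ℝ) :
    (A.transpose * A + κ • (1 : Matrix (Fin n) (Fin n) ℝ)).PosDef :=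
  posDef_of_qform (reg_isSymm κ A) hκ fun u => by
    rw [reg_qform]
    exact le_add_of_nonneg_left (sum_nonneg fun i _ => sq_nonneg _)

/-- One step of the Lipschitz bound. -/
theorem regDet_step {κ : ℝ} (hκ : 0 < κ) (A B : Matrix (Fin n) (Fin n) ℝ) :
    regDet κ A - regDet κ B ≤ √(n / κ) * √(fsq (A - B)) + fsq (A - B) / κ := by
  set Z := B.transpose * B + κ • (1 : Matrix (Fin n) (Fin n) ℝ) with hZd
  have hZ : Z.PosDef := reg_posDef hκ B
  have hu : IsUnit Z.det := isUnit_iff_ne_zero.2 hZ.det_pos.ne'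
  set M := Z⁻¹
  have hMs : M.transpose = M := by rw [transpose_nonsing_inv, (reg_isSymm κ B).eq]
  set D := A - B with hD
  have hcol : ∀ u : Fin n → ℝ, √(∑ i, (M *ᵥ u) i ^ 2) ≤ √(∑ i, u i ^ 2) / κ ∧
      0 ≤ u ⬝ᵥ (M *ᵥ u) ∧ u ⬝ᵥ (M *ᵥ u) ≤ (∑ i, u i ^ 2) / κ := fun u => by
    set w := M *ᵥ u
    have hZw : Z *ᵥ w = u := by rw [mulVec_mulVec, Matrix.mul_nonsing_inv _ hu, one_mulVec]
    have hq := reg_qform κ B w
    rw [← hZd, hZw, dotProduct_comm] at hq
    have h0 : 0 ≤ ∑ i, (B *ᵥ w) i ^ 2 := sum_nonneg fun i _ => sq_nonneg _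
    set W := ∑ i, w i ^ 2
    set U := ∑ i, u i ^ 2
    have hW0 : 0 ≤ W := sum_nonneg fun i _ => sq_nonneg _
    have hU0 : 0 ≤ U := sum_nonneg fun i _ => sq_nonneg _
    have hcs : u ⬝ᵥ w ≤ √U * √W := Real.sum_mul_le_sqrt_mul_sqrt univ u w
    have h1 : √W ≤ √U / κ := by
      rw [le_div_iff₀ hκ]
      rcases (sqrt_nonneg W).eq_or_lt with h | h
      · rw [← h, zero_mul]; exact sqrt_nonneg _
      · refine le_of_mul_le_mul_right ?_ h
        nlinarith [mul_self_sqrt hW0]
    refine ⟨h1, by nlinarith, hcs.trans ?_⟩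
    refine (mul_le_mul_of_nonneg_left h1 (sqrt_nonneg _)).trans_eq ?_
    rw [← mul_div_assoc, mul_self_sqrt hU0]
  have hMdiag : ∀ i, M i i ≤ 1 / κ := fun i => by
    have h := (hcol (Pi.single i 1)).2.2
    simpa [dotProduct, Pi.single_apply, Matrix.mulVec_single_one, ite_pow] using h
  have htrM : M.trace ≤ n / κ := by
    refine (sum_le_sum fun i _ => hMdiag i).trans_eq ?_
    simp [div_eq_mul_inv]
  have hBM : fsq (B * M) ≤ n / κ := by
    have e : M * (B.transpose * B) * M = M - κ • (M * M) := by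
      have : B.transpose * B = Z - κ • (1 : Matrix (Fin n) (Fin n) ℝ) := by simp [hZd]
      rw [this, Matrix.mul_sub, Matrix.sub_mul, Matrix.nonsing_inv_mul _ hu, Matrix.one_mul]
      simp
    have e2 : fsq (B * M) = M.trace - κ * fsq M := by
      simp only [fsq, transpose_mul, hMs]
      rw [show M * B.transpose * (B * M) = M * (B.transpose * B) * M by simp only [Matrix.mul_assoc],
        e, trace_sub, trace_smul, smul_eq_mul]
    rw [e2]
    nlinarith [fsq_nonneg M]
  have hMD : (M * (D.transpose * D)).trace ≤ fsq D / κ := by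
    have e : (M * (D.transpose * D)).trace = ∑ k, (fun j => D k j) ⬝ᵥ (M *ᵥ fun j => D k j) := by
      rw [← Matrix.mul_assoc, Matrix.trace_mul_comm, ← Matrix.mul_assoc]
      simp only [Matrix.trace, Matrix.diag, Matrix.mul_apply, transpose_apply, dotProduct,
        Matrix.mulVec, mul_sum, sum_mul]
      refine sum_congr rfl fun k _ => ?_
      rw [Finset.sum_comm]
      exact sum_congr rfl fun i _ => sum_congr rfl fun j _ => by ring
    rw [e, fsq_eq, sum_div]
    exact sum_le_sum fun k _ => (hcol _).2.2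
  have e : A.transpose * A + κ • (1 : Matrix (Fin n) (Fin n) ℝ) - Z
      = B.transpose * D + D.transpose * B + D.transpose * D := by
    simp only [hZd, hD, transpose_sub, Matrix.mul_sub, Matrix.sub_mul]
    abel
  have h := logdet_tangent (reg_posDef hκ A) hZ
  rw [e, Matrix.mul_add, Matrix.mul_add, trace_add, trace_add] at h
  have t2 : (M * (D.transpose * B)).trace = (M * (B.transpose * D)).trace := by
    conv_lhs => rw [← Matrix.trace_transpose]
    rw [transpose_mul, transpose_mul, transpose_transpose, hMs, Matrix.trace_mul_comm,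
      ← Matrix.mul_assoc]
  have t1 : (M * (B.transpose * D)).trace ≤ √(n / κ) * √(fsq D) := by
    have := trace_mul_abs_le (B * M) D
    rw [transpose_mul, hMs, Matrix.mul_assoc] at this
    exact (le_abs_self _).trans (this.trans (mul_le_mul_of_nonneg_right (sqrt_le_sqrt hBM) (sqrt_nonneg _)))
  rw [t2] at h
  have h2 : fsq D / κ / 2 ≤ fsq D / κ := half_le_self (div_nonneg (fsq_nonneg D) hκ.le)
  simp only [regDet]
  linarith

/-- The regularised logarithm of the determinant is Lipschitz in the Frobenius norm. -/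
theorem regDet_lip {κ : ℝ} (hκ : 0 < κ) (A B : Matrix (Fin n) (Fin n) ℝ) :
    regDet κ A - regDet κ B ≤ √(n / κ) * √(fsq (A - B)) := by
  set F := √(fsq (A - B))
  set S := √((n : ℝ) / κ)
  refine le_of_forall_pos_le_add fun e he => ?_
  obtain ⟨N, hN⟩ := exists_nat_gt (fsq (A - B) / κ / e)
  have hN0 : (0 : ℝ) < (N : ℝ) + 1 := by positivity
  set P : ℕ → Matrix (Fin n) (Fin n) ℝ := fun k => B + ((k : ℝ) / ((N : ℝ) + 1)) • (A - B) with hP
  have hstep : ∀ k, regDet κ (P (k + 1)) - regDet κ (P k)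
      ≤ S * (F / ((N : ℝ) + 1)) + fsq (A - B) / ((N : ℝ) + 1) ^ 2 / κ := fun k => by
    have hd : P (k + 1) - P k = (1 / ((N : ℝ) + 1)) • (A - B) := by
      simp only [hP, add_sub_add_left_eq_sub, ← sub_smul]
      congr 1
      push_cast
      ring
    have hf : fsq (P (k + 1) - P k) = fsq (A - B) / ((N : ℝ) + 1) ^ 2 := by
      rw [hd, fsq, fsq, transpose_smul, Matrix.smul_mul, Matrix.mul_smul, trace_smul, trace_smul,
        smul_eq_mul, smul_eq_mul]
      field_simp
    refine (regDet_step hκ _ _).trans (le_of_eq ?_)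
    rw [hf, sqrt_div (fsq_nonneg _), sqrt_sq hN0.le]
  have hk : ∀ k : ℕ, regDet κ (P k) - regDet κ (P 0)
      ≤ k * (S * (F / ((N : ℝ) + 1)) + fsq (A - B) / ((N : ℝ) + 1) ^ 2 / κ) := by
    intro k
    induction k with
    | zero => simp
    | succ k ih => push_cast; linarith [hstep k]
  have h1 := hk (N + 1)
  have e0 : P 0 = B := by simp [hP]
  have e1 : P (N + 1) = A := by
    simp only [hP, Nat.cast_add, Nat.cast_one, div_self hN0.ne', one_smul]
    abel
  rw [e0, e1] at h1
  push_cast at h1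
  have e2 : ((N : ℝ) + 1) * (S * (F / ((N : ℝ) + 1)) + fsq (A - B) / ((N : ℝ) + 1) ^ 2 / κ)
      = S * F + fsq (A - B) / κ / ((N : ℝ) + 1) := by field_simp
  rw [e2] at h1
  have : fsq (A - B) / κ / ((N : ℝ) + 1) ≤ e := by
    rw [div_le_iff₀ hN0]
    rw [div_lt_iff₀ he] at hN
    linarith
  linarith

end Vale.Agent.P150.Fast
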