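import Vale.Agent.P150.Fast.Defs

/-!
The alternation of a law `ν`, its reference alternation, their paths, and the exported statements
of the module M2 (first half) for P150. A step may pin a set `S` of sites at their current values.
-/

open MeasureTheory Real Finset
open scoped Matrix

namespace Vale.Agent.P150.Fast

/-- A transition rule: current state, field, next state. -/
abbrev Kern (n : ℕ) : Type := Conf n → (Fin n → ℝ) → Conf n → ℝ

/-- One step: the covariance of the channel, the external field, the pinned sites. -/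
structure Step (n : ℕ) where
  /-- The covariance of the channel. -/
  A : Matrix (Fin n) (Fin n) ℝ
  /-- The external field. -/
  h : Fin n → ℝ
  /-- The pinned sites. -/
  S : Finset (Fin n)

/-- Covariance positive definite with upper bound `L`. -/
def Step.Good {n : ℕ} (s : Step n) (L : ℝ) : Prop :=
  s.A.PosDef ∧ ∀ v : Fin n → ℝ, v ⬝ᵥ (s.A *ᵥ v) ≤ L * ∑ i, v i ^ 2

/-- The configurations that agree with `x` on `S`. -/
def fib {n : ℕ} (S : Finset (Fin n)) (x : Conf n) : Finset (Conf n) :=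
  univ.filter fun z => ∀ i ∈ S, z i = x i

/-- The law of the configuration given the field and the pinned spins. -/
noncomputable def postS {n : ℕ} (A : Matrix (Fin n) (Fin n) ℝ) (ν : Conf n → ℝ) (S : Finset (Fin n))
    (x : Conf n) (y : Fin n → ℝ) (z : Conf n) : ℝ :=
  if z ∈ fib S x then ν z * chan A z y / ∑ w ∈ fib S x, ν w * chan A w y else 0

/-- The product measure on the free sites in a field. -/
noncomputable def prodS {n : ℕ} (S : Finset (Fin n)) (x : Conf n) (y : Fin n → ℝ) (z : Conf n) : ℝ :=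
  if z ∈ fib S x then ∏ i ∈ Sᶜ, sig (z i) (y i) else 0

/-- The rule of the prior `ν`. -/
noncomputable def pR {n : ℕ} (ν : Conf n → ℝ) (s : Step n) : Kern n := postS s.A ν s.S

/-- The reference rule. -/
noncomputable def qR {n : ℕ} (s : Step n) : Kern n := fun x y z => prodS s.S x (y + s.h) z

/-- The kernel of one step. -/
noncomputable def kerOf {n : ℕ} (R : Step n → Kern n) (s : Step n) (x z : Conf n) : ℝ :=
  ∫ y, chan s.A x y * R s x y z

/-- The action of one step on functions. -/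
noncomputable def stepOp {n : ℕ} (R : Step n → Kern n) (s : Step n) (f : Conf n → ℝ) (x : Conf n) : ℝ :=
  ∫ y, chan s.A x y * ∑ z, R s x y z * f z

/-- The action of several steps. -/
noncomputable def chainOp {n : ℕ} (R : Step n → Kern n) :
    {r : ℕ} → (Fin r → Step n) → (Conf n → ℝ) → Conf n → ℝ
  | 0, _, f => f
  | _ + 1, σ, f => stepOp R (σ 0) (chainOp R (Fin.tail σ) f)

/-- Expectation along a path from `x`: `ω t` is the field of step `t` and the state after it. -/
noncomputable def pathE {n : ℕ} (R : Step n → Kern n) :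
    {r : ℕ} → (Fin r → Step n) → Conf n → ((Fin r → (Fin n → ℝ) × Conf n) → ℝ) → ℝ
  | 0, _, _, F => F Fin.elim0
  | _ + 1, σ, x, F => ∫ y, chan (σ 0).A x y *
      ∑ z, R (σ 0) x y z * pathE R (Fin.tail σ) z fun ω => F (Fin.cons (y, z) ω)

/-- The state at the end of a path. -/
def endAt {n r : ℕ} (x : Conf n) (ω : Fin r → (Fin n → ℝ) × Conf n) : Conf n :=
  (Fin.cons x fun t => (ω t).2 : Fin (r + 1) → Conf n) (Fin.last r)

/-- Expectation along a path started from `ν`. -/
noncomputable def lawE {n r : ℕ} (R : Step n → Kern n) (ν : Conf n → ℝ) (σ : Fin r → Step n)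
    (F : Conf n → (Fin r → (Fin n → ℝ) × Conf n) → ℝ) : ℝ :=
  ∑ x, ν x * pathE R σ x (F x)

/-- The single-site entropies at the free sites, against `exp (x A x / 2 + h x)`. -/
noncomputable def freeD {n : ℕ} (ν : Conf n → ℝ) (s : Step n) : ℝ :=
  ∑ i ∈ s.Sᶜ, Ent.entSite (Ent.coupW s.A s.h) (fun z => ν z / Ent.coupW s.A s.h z) i

/-- The relative entropy of the two rules at a state and a field. -/
noncomputable def klAt {n : ℕ} (ν : Conf n → ℝ) (s : Step n) (x : Conf n) (y : Fin n → ℝ) : ℝ :=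
  ∑ z, pR ν s x y z * log (pR ν s x y z / qR s x y z)

/-- A stochastic, symmetric, positive semidefinite kernel for the weight `w`. -/
structure IsPsdKer {ι : Type*} [Fintype ι] (w : ι → ℝ) (K : ι → ι → ℝ) : Prop where
  wnn : ∀ x, 0 ≤ w x
  nn : ∀ x z, 0 ≤ K x z
  row : ∀ x, ∑ z, K x z = 1
  symm : ∀ x z, w x * K x z = w z * K z x
  psd : ∀ f : ι → ℝ, 0 ≤ ∑ x, w x * f x * ∑ z, K x z * f z

/-- Powers of a kernel acting on functions. -/
def powOp {ι : Type*} [Fintype ι] (K : ι → ι → ℝ) (k : ℕ) (f : ι → ℝ) : ι → ℝ :=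
  (fun g x => ∑ z, K x z * g z)^[k] f

/-- The inner product of a weight. -/
def ip {ι : Type*} [Fintype ι] (w f g : ι → ℝ) : ℝ := ∑ x, w x * f x * g x

/-- The alternation is a positive reversible kernel and acts by `stepOp`. -/
def KerStmt : Prop :=
  ∀ (n : ℕ) (ν : Conf n → ℝ) (s : Step n), (∀ x, 0 < ν x) → s.A.PosDef →
    IsPsdKer ν (kerOf (pR ν) s) ∧ (∀ x, ∑ z, kerOf qR s x z = 1) ∧
    (∀ f x, stepOp (pR ν) s f x = ∑ z, kerOf (pR ν) s x z * f z) ∧
    (∀ f x, stepOp qR s f x = ∑ z, kerOf qR s x z * f z) ∧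
    ((s.S = ∅) → kerOf (pR ν) s = pKer s.A ν ∧ kerOf qR s = qKer s.A s.h)

/-- Dirichlet forms of powers. -/
def PowerStmt : Prop :=
  ∀ (ι : Type) [Fintype ι] (w : ι → ℝ) (K : ι → ι → ℝ), IsPsdKer w K → ∀ (f : ι → ℝ),
    (∀ k, 0 ≤ ip w f (powOp K k f)) ∧ (Antitone fun k => ip w f (powOp K k f)) ∧
    (∀ k l, ip w (powOp K k f) (powOp K l f) = ip w f (powOp K (k + l) f)) ∧
    (Antitone fun k => ip w f (powOp K k f) - ip w f (powOp K (k + 1) f)) ∧
    (∀ k : ℕ, ip w f f - ip w f (powOp K k f) ≤ k * (ip w f f - ip w f (powOp K 1 f))) ∧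
    (∀ k : ℕ, (2 * k + 1) * (ip w (powOp K k f) (powOp K k f) - ip w (powOp K k f) (powOp K (k + 1) f))
      ≤ ip w f f - ip w f (powOp K (2 * k + 1) f)) ∧
    (∀ k l : ℕ, k ≤ l → ip w (powOp K k f - powOp K l f) (powOp K k f - powOp K l f)
      ≤ ip w f (powOp K (2 * k) f) - ip w f (powOp K (2 * l) f))

/-- The cost of a step is at most the single-site entropies; so are the squared errors of the means. -/
def StepKLStmt : Prop :=
  ∀ (n : ℕ) (ν : Conf n → ℝ) (s : Step n), (∀ x, 0 < ν x) → ∑ x, ν x = 1 → s.A.PosDef →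
    (Integrable fun y => ∑ x, ν x * chan s.A x y * klAt ν s x y) ∧
    ∫ y, ∑ x, ν x * chan s.A x y * klAt ν s x y ≤ freeD ν s ∧
    (Integrable fun y => ∑ x, ν x * chan s.A x y
      * ∑ i ∈ s.Sᶜ, (∑ z, pR ν s x y z * spin (z i) - tanh (y i + s.h i)) ^ 2) ∧
    ∫ y, ∑ x, ν x * chan s.A x y
      * ∑ i ∈ s.Sᶜ, (∑ z, pR ν s x y z * spin (z i) - tanh (y i + s.h i)) ^ 2 ≤ 2 * freeD ν s

/-- The Gibbs variational bound along a path. -/
def PathVarStmt : Prop :=
  ∀ (n r : ℕ) (ν : Conf n → ℝ) (σ : Fin r → Step n), (∀ x, 0 < ν x) → ∑ x, ν x = 1 →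
    (∀ t, (σ t).A.PosDef) →
    ∀ F : Conf n → (Fin r → (Fin n → ℝ) × Conf n) → ℝ, (∀ x, Measurable (F x)) →
      (∃ M, ∀ x ω, |F x ω| ≤ M) →
      lawE (pR ν) ν σ F ≤ ∑ t, freeD ν (σ t) + log (lawE qR ν σ fun x ω => exp (F x ω))

/-- An event of small reference probability has small probability. -/
def PathTransferStmt : Prop :=
  ∀ (n r : ℕ) (ν : Conf n → ℝ) (σ : Fin r → Step n), (∀ x, 0 < ν x) → ∑ x, ν x = 1 →
    (∀ t, (σ t).A.PosDef) →
    ∀ B : Conf n → Set (Fin r → (Fin n → ℝ) × Conf n), (∀ x, MeasurableSet (B x)) →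
      ∀ q : ℝ, 0 < q → q < 1 → lawE qR ν σ (fun x => (B x).indicator 1) ≤ q →
        lawE (pR ν) ν σ (fun x => (B x).indicator 1) * log (1 / q) ≤ ∑ t, freeD ν (σ t) + log 2

/-- Paths of a stationary law, and their end points. -/
def PathEndStmt : Prop :=
  ∀ (n r : ℕ) (σ : Fin r → Step n) (f : Conf n → ℝ) (x : Conf n) (R : Step n → Kern n),
    pathE R σ x (fun ω => f (endAt x ω)) = chainOp R σ f x

end Vale.Agent.P150.Fast
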