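import Vale.Agent.P150.Fast.CurvStep
import Vale.Agent.P150.Fast.ChainPath

/-!
Several steps of the reference alternation: proofs of `CurvTailStmt`, `CurvTestStmt`,
`CurvMeanStmt`. Used for P150.
-/

open MeasureTheory Real Finset
open scoped Matrix

namespace Vale.Agent.P150.Fast

variable {n : ℕ} {R : Step n → Kern n}

theorem ok_int {s : Step n} (hs : OkStep R s) (x z : Conf n) :
    Integrable fun y => chan s.A x y * R s x y z :=
  chanV_bdd hs.pd _ (hs.meas x z) (M := 1) fun y => by
    rw [abs_of_nonneg (hs.nn x y z), ← hs.sum x y]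
    exact single_le_sum (fun w _ => hs.nn x y w) (mem_univ z)

theorem kerOf_nonneg {s : Step n} (hs : OkStep R s) (x z : Conf n) : 0 ≤ kerOf R s x z :=
  integral_nonneg fun y => mul_nonneg (chanV_pos hs.pd _ y).le (hs.nn x y z)

theorem chain_mono : ∀ {r : ℕ} (σ : Fin r → Step n), (∀ t, OkStep R (σ t)) →
    ∀ {f g : Conf n → ℝ}, (∀ z, f z ≤ g z) → ∀ x, chainOp R σ f x ≤ chainOp R σ g x
  | 0, _, _, _, _, h, x => h x
  | r + 1, σ, hσ, f, g, h, x => by
    simp only [chainOp]
    rw [stepOp_eq_sum (ok_int (hσ 0) x), stepOp_eq_sum (ok_int (hσ 0) x)]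
    exact sum_le_sum fun z _ => mul_le_mul_of_nonneg_left
      (chain_mono (Fin.tail σ) (fun t => hσ t.succ) h z) (kerOf_nonneg (hσ 0) x z)

theorem chain_affine : ∀ {r : ℕ} (σ : Fin r → Step n), (∀ t, OkStep R (σ t)) →
    ∀ (f g : Conf n → ℝ) (a b : ℝ) (x : Conf n),
      chainOp R σ (fun z => a * f z + b * g z) x = a * chainOp R σ f x + b * chainOp R σ g x
  | 0, _, _, _, _, _, _, _ => rfl
  | r + 1, σ, hσ, f, g, a, b, x => by
    simp only [chainOp]
    rw [stepOp_eq_sum (ok_int (hσ 0) x), stepOp_eq_sum (ok_int (hσ 0) x), stepOp_eq_sum (ok_int (hσ 0) x),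
      mul_sum, mul_sum, ← sum_add_distrib]
    exact sum_congr rfl fun z _ => by rw [chain_affine (Fin.tail σ) (fun t => hσ t.succ) f g a b z]; ring

theorem chain_one : ∀ {r : ℕ} (σ : Fin r → Step n), (∀ t, OkStep R (σ t)) → ∀ x,
    chainOp R σ (fun _ => (1 : ℝ)) x = 1
  | 0, _, _, _ => rfl
  | r + 1, σ, hσ, x => by
    simp only [chainOp]
    rw [stepOp_eq_sum (ok_int (hσ 0) x)]
    simp only [chain_one (Fin.tail σ) (fun t => hσ t.succ), mul_one]
    exact kerOf_row (hσ 0).pd (ok_int (hσ 0) x) ((hσ 0).sum x)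

theorem testD_of {f : Conf n → ℝ} {a : ℝ} (ha : ∀ x, grad2 f x ≤ a) :
    TestD (fun _ => f) (fun _ _ _ => 0) a 0 where
  za _ z := ha z
  cont _ _ := continuous_const
  yb _ _ := by simp
  deriv y z v := by simpa using hasDerivAt_const (0 : ℝ) (f z)

theorem stepOp_eq_testOp (s : Step n) (f : Conf n → ℝ) : stepOp qR s f = testOp s fun _ => f := rfl

theorem chain_grad {L : ℝ} (hL : 0 ≤ L) : ∀ {r : ℕ} (σ : Fin r → Step n), (∀ t, (σ t).Good L) →
    ∀ (f : Conf n → ℝ) (a : ℝ), (∀ x, grad2 f x ≤ a) → ∀ x,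
      grad2 (chainOp qR σ f) x ≤ curvC L ^ r * a
  | 0, _, _, _, _, ha, x => by simpa [chainOp] using ha x
  | r + 1, σ, hσ, f, a, ha, x => by
    have ih := chain_grad hL (Fin.tail σ) (fun t => hσ t.succ) f a ha
    have h := ((curvStep n (σ 0) L hL (hσ 0)).2 (fun _ => chainOp qR (Fin.tail σ) f) (curvC L ^ r * a) 0
      ⟨fun _ z => ih z, _, (testD_of ih).cont, (testD_of ih).yb, (testD_of ih).deriv⟩).1 x
    rw [add_zero] at h
    refine h.trans (le_of_eq ?_)
    ring

theorem chain_mgf {L : ℝ} (hL : 0 ≤ L) : ∀ {r : ℕ} (σ : Fin r → Step n), (∀ t, (σ t).Good L) →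
    ∀ (f : Conf n → ℝ) (a : ℝ), (∀ x, grad2 f x ≤ a) → ∀ (x : Conf n) (l : ℝ),
      chainOp qR σ (fun z => exp (l * f z)) x
        ≤ exp (l * chainOp qR σ f x + mgfC L * (curvC L ^ r - 1) * a * l ^ 2)
  | 0, _, _, _, _, _, x, l => by simp [chainOp]
  | r + 1, σ, hσ, f, a, ha, x, l => by
    set K := mgfC L * (curvC L ^ r - 1) * a * l ^ 2 with hK
    have ih := fun z => chain_mgf hL (Fin.tail σ) (fun t => hσ t.succ) f a ha z l
    have ok := ok_qR (hσ 0).1
    set g := chainOp qR (Fin.tail σ) f with hg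
    have hga : ∀ z, grad2 g z ≤ curvC L ^ r * a := chain_grad hL _ (fun t => hσ t.succ) f a ha
    have h := (mgf_step hL (hσ 0) (testD_of hga) x l).2
    simp only [chainOp]
    calc stepOp qR (σ 0) (chainOp qR (Fin.tail σ) fun z => exp (l * f z)) x
        ≤ stepOp qR (σ 0) (fun z => exp K * exp (l * g z)) x := by
          rw [stepOp_eq_sum (ok_int ok x), stepOp_eq_sum (ok_int ok x)]
          refine sum_le_sum fun z _ => mul_le_mul_of_nonneg_left ((ih z).trans_eq ?_) (kerOf_nonneg ok x z)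
          rw [← exp_add, add_comm]
      _ = exp K * stepOp qR (σ 0) (fun z => exp (l * g z)) x := by
          rw [stepOp_eq_sum (ok_int ok x), stepOp_eq_sum (ok_int ok x), mul_sum]
          exact sum_congr rfl fun z _ => by ring
      _ ≤ exp K * exp (l * testOp (σ 0) (fun _ => g) x + mgfC L * (curvC L ^ r * a + 0) * l ^ 2) :=
          mul_le_mul_of_nonneg_left h (exp_pos _).le
      _ ≤ _ := by
          rw [← exp_add, exp_le_exp, ← stepOp_eq_testOp, hK]
          have hC := curvC_ge hL
          have ha0 : 0 ≤ a := (sum_nonneg fun i _ => sq_nonneg _).trans (ha default)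
          have hm : 0 ≤ mgfC L := by unfold mgfC; linarith
          have h2 := mul_le_mul_of_nonneg_right (show (2 : ℝ) ≤ curvC L by linarith)
            (show 0 ≤ mgfC L * curvC L ^ r * a * l ^ 2 by positivity)
          rw [pow_succ (curvC L) r]
          linarith

theorem chain_mgf' {L : ℝ} (hL : 0 ≤ L) {r : ℕ} (σ : Fin r → Step n) (hσ : ∀ t, (σ t).Good L)
    (f : Conf n → ℝ) (a : ℝ) (ha : ∀ x, grad2 f x ≤ a) (x : Conf n) (l : ℝ) :
    chainOp qR σ (fun z => exp (l * f z)) x
      ≤ exp (l * chainOp qR σ f x + mgfC L * curvC L ^ r * a * l ^ 2) := by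
  refine (chain_mgf hL σ hσ f a ha x l).trans (exp_le_exp.2 ?_)
  have ha0 : 0 ≤ a := (sum_nonneg fun i _ => sq_nonneg _).trans (ha default)
  have hm : 0 ≤ mgfC L := by unfold mgfC; linarith
  nlinarith [mul_nonneg (mul_nonneg hm ha0) (sq_nonneg l)]

theorem curvTail : CurvTailStmt := by
  intro n r σ L hL hσ f a ha
  have ok : ∀ t, OkStep qR (σ t) := fun t => ok_qR (hσ t).1
  refine ⟨chain_grad hL σ hσ f a ha, fun x l => ?_, fun x u ha0 hu => ?_⟩
  · rw [pathEnd n r σ (fun z => exp (l * f z)) x qR]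
    exact chain_mgf' hL σ hσ f a ha x l
  · set m := chainOp qR σ f x with hm
    set K := mgfC L * curvC L ^ r * a with hK
    have hKp : 0 < K := by
      have : 0 < mgfC L := by unfold mgfC; linarith
      have := curvC_ge hL
      positivity
    set l := u / (2 * K) with hl
    have hl0 : 0 < l := by positivity
    have e : pathE qR σ x ({ω | u ≤ |f (endAt x ω) - m|}.indicator 1)
        = chainOp qR σ ({z | u ≤ |f z - m|}.indicator 1) x := by
      rw [← pathEnd n r σ _ x qR]
      congr 1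
    rw [e]
    refine (chain_mono σ ok (g := fun z => exp (-(l * m) - l * u) * exp (l * f z)
      + exp (l * m - l * u) * exp (-l * f z)) (fun z => ?_) x).trans ?_
    · by_cases hz : u ≤ |f z - m|
      · rw [Set.indicator_of_mem (show z ∈ {z | u ≤ |f z - m|} from hz), Pi.one_apply, ← exp_add, ← exp_add]
        rcases le_total 0 (f z - m) with h | h
        · rw [abs_of_nonneg h] at hz
          refine (one_le_exp ?_).trans (le_add_of_nonneg_right (exp_pos _).le)
          nlinarith [mul_le_mul_of_nonneg_left hz hl0.le]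
        · rw [abs_of_nonpos h] at hz
          refine (one_le_exp ?_).trans (le_add_of_nonneg_left (exp_pos _).le)
          nlinarith [mul_le_mul_of_nonneg_left hz hl0.le]
      · rw [Set.indicator_of_notMem (show z ∉ {z | u ≤ |f z - m|} from hz)]
        positivity
    · rw [chain_affine σ ok]
      have h1 := mul_le_mul_of_nonneg_left (chain_mgf' hL σ hσ f a ha x l) (exp_pos (-(l * m) - l * u)).le
      have h2 := mul_le_mul_of_nonneg_left (chain_mgf' hL σ hσ f a ha x (-l)) (exp_pos (l * m - l * u)).le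
      rw [← exp_add, ← hm, ← hK] at h1 h2
      have e3 : -(u ^ 2 / (4 * K)) = K * l ^ 2 - l * u := by rw [hl]; field_simp; ring
      rw [show 4 * mgfC L * curvC L ^ r * a = 4 * K by rw [hK]; ring, e3]
      refine (add_le_add h1 h2).trans (le_of_eq ?_)
      ring_nf

theorem pathE_last : ∀ {r : ℕ} (σ : Fin (r + 1) → Step n) (Φ : (Fin n → ℝ) → Conf n → ℝ) (x : Conf n),
    pathE R σ x (fun ω => Φ (ω (Fin.last r)).1 (ω (Fin.last r)).2)
      = chainOp R (Fin.init σ) (fun z => ∫ y, chan (σ (Fin.last r)).A z y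
          * ∑ w, R (σ (Fin.last r)) z y w * Φ y w) x
  | 0, σ, Φ, x => rfl
  | r + 1, σ, Φ, x => by
    have hcons : ∀ (p : (Fin n → ℝ) × Conf n) (ω : Fin (r + 1) → (Fin n → ℝ) × Conf n),
        (Fin.cons p ω : Fin (r + 2) → (Fin n → ℝ) × Conf n) (Fin.last (r + 1)) = ω (Fin.last r) :=
      fun p ω => by rw [← Fin.succ_last, Fin.cons_succ]
    simp only [pathE, chainOp, stepOp]
    refine integral_congr_ae (ae_of_all _ fun y => ?_)
    refine congrArg (chan (σ 0).A x y * ·) (sum_congr rfl fun z _ => congrArg (R (σ 0) x y z * ·) ?_)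
    simp only [hcons]
    refine (pathE_last (Fin.tail σ) Φ z).trans ?_
    rw [← Fin.tail_init_eq_init_tail]
    have : (Fin.tail σ) (Fin.last r) = σ (Fin.last (r + 1)) := by simp [Fin.tail]
    rw [this]

theorem curvTest : CurvTestStmt := by
  intro n r σ L hL hσ G a b ⟨hza, dG, hc, hb, hd⟩ x l
  have hG : TestD G dG a b := ⟨hza, hc, hb, hd⟩
  set K := mgfC L * (a + b) * l ^ 2 with hK
  set s := σ (Fin.last r) with hs
  have hI : ∀ t : Fin r, (Fin.init σ t).Good L := fun t => hσ _
  have ok : ∀ t : Fin r, OkStep qR (Fin.init σ t) := fun t => ok_qR (hI t).1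
  rw [pathE_last σ (fun y w => exp (l * G y w)) x]
  have hga : ∀ z, grad2 (testOp s G) z ≤ curvC L * (a + b) :=
    ((curvStep n s L hL (hσ _)).2 G a b ⟨hza, dG, hc, hb, hd⟩).1
  refine (chain_mono _ ok (g := fun z => exp K * exp (l * testOp s G z) + 0 * 0) (fun z => ?_) x).trans ?_
  · rw [zero_mul, add_zero, ← exp_add, add_comm]
    exact (mgf_step hL (hσ _) hG z l).2
  · rw [chain_affine _ ok (fun z => exp (l * testOp s G z)) (fun _ => 0)]
    refine (le_of_eq (by rw [zero_mul, add_zero])).trans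
      ((mul_le_mul_of_nonneg_left (chain_mgf hL _ hI _ _ hga x l) (exp_pos K).le).trans ?_)
    rw [← exp_add, exp_le_exp, hK]
    have hC := curvC_ge hL
    have hm : 0 ≤ mgfC L := by unfold mgfC; linarith
    obtain ⟨ha, hb⟩ := test_ab hG
    have h0 : 0 ≤ mgfC L * (a + b) * l ^ 2 := by positivity
    rw [pow_succ (curvC L) r]
    nlinarith [mul_le_mul_of_nonneg_left (show (1 : ℝ) ≤ curvC L by linarith) h0]

theorem le_two_sqrt {S D K : ℝ} (hK : 0 ≤ K) (h : ∀ l, 0 < l → l * S ≤ D + K * l ^ 2) :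
    S ≤ 2 * √(K * D) := by
  rcases le_or_gt S 0 with hS | hS
  · exact hS.trans (by positivity)
  rcases hK.eq_or_lt with hK | hK
  · exfalso
    have := h ((|D| + 1) / S) (by positivity)
    rw [← hK, zero_mul, add_zero, div_mul_cancel₀ _ hS.ne'] at this
    linarith [le_abs_self D]
  · have := h (S / (2 * K)) (by positivity)
    have e : K * (S / (2 * K)) ^ 2 = S / (2 * K) * S / 2 := by field_simp
    have h2 : S ^ 2 ≤ 4 * (K * D) := by
      rw [e] at this
      have h3 := mul_le_mul_of_nonneg_left this (show 0 ≤ 4 * K by linarith)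
      have e2 : 4 * K * (S / (2 * K) * S) = 2 * S ^ 2 := by field_simp; ring
      nlinarith
    calc S ≤ √(4 * (K * D)) := le_sqrt_of_sq_le h2
      _ = 2 * √(K * D) := by rw [sqrt_mul (by norm_num), show (4 : ℝ) = 2 ^ 2 by norm_num, sqrt_sq (by norm_num)]

theorem curvMean : CurvMeanStmt := by
  intro n r ν σ L hL hσ hν h1 f a ha
  set K := mgfC L * curvC L ^ r * a with hK
  have hC := curvC_ge hL
  have ha0 : 0 ≤ a := (sum_nonneg fun i _ => sq_nonneg _).trans (ha default)
  have hm0 : 0 ≤ mgfC L := by unfold mgfC; linarith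
  have okq : ∀ t, OkStep qR (σ t) := fun t => ok_qR (hσ t).1
  have okp : ∀ t, OkStep (pR ν) (σ t) := fun t => ok_pR hν (hσ t).1
  set φ : Conf n → ℝ := fun x => if chainOp qR σ f x ≤ chainOp (pR ν) σ f x then 1 else -1 with hφ
  refine le_two_sqrt (by positivity) fun l hl => ?_
  have hmeas : ∀ g : Conf n → ℝ, ∀ x, Measurable fun ω : Fin r → (Fin n → ℝ) × Conf n => g (endAt x ω) :=
    fun g x => (measurable_of_finite g).comp (by
      unfold endAt
      exact (measurable_pi_apply _).comp (measurable_pi_lambda _ fun i => by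
        refine Fin.cases ?_ (fun j => ?_) i
        · simp only [Fin.cons_zero]; exact measurable_const
        · simp only [Fin.cons_succ]; exact (measurable_pi_apply j).snd))
  have h := pathVar n r ν σ hν h1 (fun t => (hσ t).1)
    (fun x ω => l * φ x * (f (endAt x ω) - chainOp qR σ f x))
    (fun x => hmeas (fun z => l * φ x * (f z - chainOp qR σ f x)) x)
    ⟨∑ x, ∑ z, |l * φ x * (f z - chainOp qR σ f x)|, fun x ω =>
      (single_le_sum (f := fun z => |l * φ x * (f z - chainOp qR σ f x)|) (fun z _ => abs_nonneg _)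
        (mem_univ (endAt x ω))).trans (single_le_sum (f := fun x => ∑ z, |l * φ x * (f z - chainOp qR σ f x)|)
        (fun w _ => sum_nonneg fun z _ => abs_nonneg _) (mem_univ x))⟩
  have hP : lawE (pR ν) ν σ (fun x ω => l * φ x * (f (endAt x ω) - chainOp qR σ f x))
      = l * ∑ x, ν x * |chainOp (pR ν) σ f x - chainOp qR σ f x| := by
    rw [lawE, mul_sum]
    refine sum_congr rfl fun x _ => ?_
    rw [pathEnd n r σ (fun z => l * φ x * (f z - chainOp qR σ f x)) x (pR ν),
      show (fun z => l * φ x * (f z - chainOp qR σ f x))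
        = fun z => (l * φ x) * f z + (-(l * φ x * chainOp qR σ f x)) * 1 by funext z; ring,
      chain_affine σ okp f (fun _ => 1), chain_one σ okp]
    simp only [hφ]
    split
    · next hle => rw [abs_of_nonneg (sub_nonneg.2 hle)]; ring
    · next hle => rw [abs_of_neg (sub_neg.2 (not_le.1 hle))]; ring
  have hQ : lawE qR ν σ (fun x ω => exp (l * φ x * (f (endAt x ω) - chainOp qR σ f x))) ≤ exp (K * l ^ 2) := by
    rw [lawE]
    refine le_of_le_of_eq (sum_le_sum (g := fun x => ν x * exp (K * l ^ 2)) fun x _ =>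
      mul_le_mul_of_nonneg_left ?_ (hν x).le) (by rw [← sum_mul, h1, one_mul])
    rw [pathEnd n r σ (fun z => exp (l * φ x * (f z - chainOp qR σ f x))) x qR,
      show (fun z => exp (l * φ x * (f z - chainOp qR σ f x)))
        = fun z => exp (-(l * φ x * chainOp qR σ f x)) * exp (l * φ x * f z) + 0 * 0 by
          funext z; rw [← exp_add, zero_mul, add_zero]; ring_nf,
      chain_affine σ okq (fun z => exp (l * φ x * f z)) (fun _ => 0), zero_mul, add_zero]
    refine (mul_le_mul_of_nonneg_left (chain_mgf' hL σ hσ f a ha x (l * φ x)) (exp_pos _).le).trans_eq ?_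
    rw [← exp_add, ← hK]
    have : φ x ^ 2 = 1 := by simp only [hφ]; split <;> norm_num
    rw [mul_pow, this, mul_one]
    ring_nf
  rw [hP] at h
  refine h.trans (add_le_add le_rfl ?_)
  have hpos : 0 < lawE qR ν σ (fun x ω => exp (l * φ x * (f (endAt x ω) - chainOp qR σ f x))) := by
    refine sum_pos (fun x _ => mul_pos (hν x) ?_) univ_nonempty
    have := (pathVar_at hν h1 σ (fun t => (hσ t).1)
      (fun ω => l * φ x * (f (endAt x ω) - chainOp qR σ f x))
      (hmeas (fun z => l * φ x * (f z - chainOp qR σ f x)) x) _ (fun ω =>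
        single_le_sum (f := fun z => |l * φ x * (f z - chainOp qR σ f x)|) (fun z _ => abs_nonneg _)
          (mem_univ (endAt x ω))) x).1
    exact (exp_pos _).trans_le this
  exact (log_le_log hpos hQ).trans_eq (log_exp _)

end Vale.Agent.P150.Fast
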