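import Vale.Agent.P150.Fast.CurvChain
import Vale.Agent.P150.Fast.CurvRoot

/-!
Reference means are Lipschitz in the start, in the coupling and in the field: proof of
`CurvLipStmt`. Used for P150.
-/

open MeasureTheory Real Finset
open scoped Matrix

namespace Vale.Agent.P150.Fast

variable {n : ℕ}

theorem sqrt_sum_add_le (u v : Fin n → ℝ) :
    √(∑ i, (u i + v i) ^ 2) ≤ √(∑ i, u i ^ 2) + √(∑ i, v i ^ 2) := by
  refine Real.sqrt_le_iff.2 ⟨by positivity, ?_⟩
  rw [add_sq, sq_sqrt (sum_nonneg fun i _ => sq_nonneg _), sq_sqrt (sum_nonneg fun i _ => sq_nonneg _)]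
  have h := Real.sum_mul_le_sqrt_mul_sqrt univ u v
  have e : ∑ i, (u i + v i) ^ 2 = ∑ i, u i ^ 2 + 2 * ∑ i, u i * v i + ∑ i, v i ^ 2 := by
    rw [mul_sum, ← sum_add_distrib, ← sum_add_distrib]
    exact sum_congr rfl fun i _ => by ring
  linarith

theorem frob_mulVec_le (M : Matrix (Fin n) (Fin n) ℝ) (v : Fin n → ℝ) :
    √(∑ i, (M *ᵥ v) i ^ 2) ≤ frob M * √(∑ i, v i ^ 2) := by
  refine le_of_le_of_eq (sqrt_le_sqrt ?_)
    (sqrt_mul (sum_nonneg fun i _ => sum_nonneg fun j _ => sq_nonneg (M i j)) _)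
  rw [sum_mul]
  refine sum_le_sum fun i _ => ?_
  show (∑ j, M i j * v j) ^ 2 ≤ _
  exact sum_mul_sq_le_sq_mul_sq univ (fun j => M i j) v

theorem vec_sq (x : Conf n) : ∑ i, vec x i ^ 2 = (n : ℝ) := by
  have : ∀ i, vec x i ^ 2 = 1 := fun i => by unfold vec; cases x i <;> simp [spin]
  simp [this]

/-- The mean given the field is Lipschitz in the pinned spins. -/
theorem uMean_pin {s : Step n} {f : Conf n → ℝ} {a : ℝ} (ha : ∀ x, grad2 f x ≤ a) (x x' : Conf n)
    (y : Fin n → ℝ) :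
    |uMean s (fun _ => f) x y - uMean s (fun _ => f) x' y| ≤ √(a * ∑ i, (vec x i - vec x' i) ^ 2) := by
  set m := meanS s.S x (y + s.h)
  set m' := meanS s.S x' (y + s.h)
  have hd : ∀ t : ℝ, HasDerivAt (fun u : ℝ => mext (m' + u • (m - m')) f)
      (∑ i, (m - m') i * mext (m' + t • (m - m')) (dgrad f i)) t := fun t =>
    hasDerivAt_mext (μ := fun u => m' + u • (m - m')) (fun i => by
      simpa using ((hasDerivAt_id' t).mul_const ((m - m') i)).const_add (m' i)) f
  have hb : ∀ t ∈ Set.Icc (0 : ℝ) 1, ‖∑ i, (m - m') i * mext (m' + t • (m - m')) (dgrad f i)‖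
      ≤ √(a * ∑ i, (vec x i - vec x' i) ^ 2) := fun t ht => by
    have hm : ∀ i, |(m' + t • (m - m')) i| ≤ 1 := fun i => by
      have h1 := abs_le.1 (abs_meanS s.S x (y + s.h) i)
      have h2 := abs_le.1 (abs_meanS s.S x' (y + s.h) i)
      simp only [Pi.add_apply, Pi.smul_apply, Pi.sub_apply, smul_eq_mul]
      exact abs_le.2 ⟨by nlinarith [ht.1, ht.2], by nlinarith [ht.1, ht.2]⟩
    rw [Real.norm_eq_abs]
    refine abs_le_sqrt ((sum_mul_sq_le_sq_mul_sq _ _ _).trans ?_)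
    rw [mul_comm]
    refine mul_le_mul ?_ (sum_le_sum fun i _ => ?_) (sum_nonneg fun i _ => sq_nonneg _)
      ((sum_nonneg fun i _ => sq_nonneg _).trans (ha x))
    · refine (sum_le_sum fun i _ => mext_sq_le hm (dgrad f i)).trans ?_
      rw [← mext_sum]
      exact (mext_mono hm (fun z => ha z)).trans_eq (mext_const _ _)
    · simp only [m, m', Pi.sub_apply, meanS, vec]
      split
      · rfl
      · simp only [sub_self]
        refine (le_of_eq (zero_pow two_ne_zero)).trans (sq_nonneg _)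
  have h := Convex.norm_image_sub_le_of_norm_hasDerivWithin_le (fun t _ => (hd t).hasDerivWithinAt) hb
    (convex_Icc 0 1) (Set.left_mem_Icc.2 zero_le_one) (Set.right_mem_Icc.2 zero_le_one)
  simpa [uMean] using h

theorem lip_start {L : ℝ} (hL : 0 ≤ L) {s : Step n} (hs : s.Good L) {f : Conf n → ℝ} {a : ℝ}
    (ha : ∀ x, grad2 f x ≤ a) (x x' : Conf n) :
    |stepOp qR s f x - stepOp qR s f x'| ≤ √(curvC L * a * ∑ i, (vec x i - vec x' i) ^ 2) := by
  obtain ⟨hA, hAL⟩ := hs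
  have hG := testD_of ha
  obtain ⟨ha0, -⟩ := test_ab hG
  set Δ := vec x - vec x' with hΔ
  set S2 := ∑ i, (vec x i - vec x' i) ^ 2 with hS2
  set v := s.A *ᵥ vec x
  set v' := s.A *ᵥ vec x'
  have hu := uMean_lip (s := s) hG
  have i0 : ∀ x₀ p, Integrable fun y => chanV s.A p y * uMean s (fun _ => f) x₀ y := fun x₀ p =>
    (chanV_lip_mgf hA hAL hL (by positivity) (hu x₀) p 0).1
  have i1 : Integrable fun y => chanV s.A v' y * uMean s (fun _ => f) x' (y + (v - v')) :=
    (chanV_lip_mgf (κ := 2 * (a + 0)) (u := fun y => uMean s (fun _ => f) x' (y + (v - v'))) hA hAL hL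
      (by positivity) (fun y y' => by
        refine (hu x' (y + (v - v')) (y' + (v - v'))).trans_eq ?_
        simp only [Pi.add_apply, add_sub_add_right_eq_sub]) v' 0).1
  have b1 : |(∫ y, chanV s.A v y * uMean s (fun _ => f) x y) - ∫ y, chanV s.A v y * uMean s (fun _ => f) x' y|
      ≤ √(a * S2) := by
    have e : (∫ y, chanV s.A v y * uMean s (fun _ => f) x y) - ∫ y, chanV s.A v y * uMean s (fun _ => f) x' y
        = ∫ y, chanV s.A v y * (uMean s (fun _ => f) x y - uMean s (fun _ => f) x' y) := by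
      simp only [mul_sub]; rw [integral_sub (i0 x v) (i0 x' v)]
    rw [e]
    exact chanV_int_bound' hA v ((continuous_of_lip_vec (by positivity) (hu x)).sub
      (continuous_of_lip_vec (by positivity) (hu x'))).measurable fun y => uMean_pin ha x x' y
  have b2 : |(∫ y, chanV s.A v y * uMean s (fun _ => f) x' y) - ∫ y, chanV s.A v' y * uMean s (fun _ => f) x' y|
      ≤ √(2 * a * (L ^ 2 * S2)) := by
    have e : (∫ y, chanV s.A v y * uMean s (fun _ => f) x' y) - ∫ y, chanV s.A v' y * uMean s (fun _ => f) x' y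
        = ∫ y, chanV s.A v' y * (uMean s (fun _ => f) x' (y + (v - v')) - uMean s (fun _ => f) x' y) := by
      simp only [mul_sub]
      rw [integral_sub i1 (i0 x' v'), ← chanV_translate, add_sub_cancel]
    rw [e]
    have hc := continuous_of_lip_vec (by positivity) (hu x')
    refine chanV_int_bound' hA v' ((hc.comp (continuous_id.add continuous_const)).sub hc).measurable fun y => ?_
    refine (hu x' _ _).trans (sqrt_le_sqrt ?_)
    rw [add_zero]
    refine mul_le_mul_of_nonneg_left (le_of_eq_of_le ?_ (sum_sq_mulVec_le hA hAL hL Δ)) (by positivity)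
    refine sum_congr rfl fun i _ => ?_
    simp [v, v', hΔ, Matrix.mulVec_sub]
  rw [stepOp_eq_testOp, testOp_eq, testOp_eq, chan_eq, chan_eq]
  refine (abs_sub_le _ (∫ y, chanV s.A v y * uMean s (fun _ => f) x' y) _).trans ((add_le_add b1 b2).trans ?_)
  have h0 : 0 ≤ a * S2 := mul_nonneg ha0 (sum_nonneg fun i _ => sq_nonneg _)
  refine le_sqrt_of_sq_le ?_
  refine (add_sq_le).trans ?_
  rw [sq_sqrt h0, sq_sqrt (mul_nonneg (by positivity) (mul_nonneg (sq_nonneg L) (sum_nonneg fun i _ => sq_nonneg _)))]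
  have h1 : (1 : ℝ) ≤ exp (4 * L) := one_le_exp (by linarith)
  have h2 := mul_le_mul_of_nonneg_right h1 (show 0 ≤ 4 * (1 + L ^ 2) * (a * S2) by positivity)
  unfold curvC
  linarith [mul_nonneg (sq_nonneg L) h0]

theorem lip_param {L lam : ℝ} (hL : 0 ≤ L) (hlam : 0 < lam) {s s' : Step n} (hs : s.Good L)
    (hs' : s'.Good L) (hl : ∀ v : Fin n → ℝ, lam * ∑ i, v i ^ 2 ≤ v ⬝ᵥ (s.A *ᵥ v))
    (hl' : ∀ v : Fin n → ℝ, lam * ∑ i, v i ^ 2 ≤ v ⬝ᵥ (s'.A *ᵥ v)) (hS : s.S = s'.S)
    {f : Conf n → ℝ} {a δ : ℝ} (ha : ∀ x, grad2 f x ≤ a)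
    (hδ : √n * frob (s.A - s'.A) * (1 + 1 / √lam) + √(∑ i, (s.h i - s'.h i) ^ 2) ≤ δ) (x : Conf n) :
    |stepOp qR s f x - stepOp qR s' f x| ≤ δ * √(2 * a) := by
  rcases Nat.eq_zero_or_pos n with h0 | hn
  · subst h0
    have e : stepOp qR s f x = stepOp qR s' f x := by
      rw [stepOp_eq_testOp, stepOp_eq_testOp, testOp_eq, testOp_eq]
      have h1 : s.A = s'.A := Matrix.ext fun i => i.elim0
      simp only [chan_eq, uMean, h1, hS, Subsingleton.elim s.h s'.h]
    have hd0 : 0 ≤ δ := le_trans (by simp) hδ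
    rw [e, sub_self, abs_zero]
    positivity
  obtain ⟨B, hBs, hBB, hBd, hBl⟩ := exists_sym_root hs.1 hlam hl
  obtain ⟨B', hBs', hBB', hBd', hBl'⟩ := exists_sym_root hs'.1 hlam hl'
  have hG := testD_of ha
  obtain ⟨ha0, -⟩ := test_ab hG
  have hB : B * B.transpose = s.A := by rw [hBs, hBB]
  have hB' : B' * B'.transpose = s'.A := by rw [hBs', hBB']
  have hu := uMean_lip (s := s) hG x
  have hsame : ∀ y, uMean s' (fun _ => f) x y = uMean s (fun _ => f) x (y + (s'.h - s.h)) := fun y => by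
    simp only [uMean, hS]; congr 2; abel
  set u := uMean s (fun _ => f) x
  set c : Fin n → ℝ := fun i => (s.A *ᵥ vec x) i - (s'.A *ᵥ vec x) i + (s.h i - s'.h i)
  set M := B - B' with hM
  obtain ⟨iM, hiM⟩ := mean_norm_le M
  have iU : Integrable (fun g => u (s.A *ᵥ vec x + B *ᵥ g)) (gp (Fin n)) :=
    (chan_integral hB hBd _ u).2.1 (chanV_lip_mgf hs.1 hs.2 hL (by positivity) hu _ 0).1
  have iU' : Integrable (fun g => u (s'.A *ᵥ vec x + B' *ᵥ g + (s'.h - s.h))) (gp (Fin n)) :=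
    (chan_integral hB' hBd' _ fun y => u (y + (s'.h - s.h))).2.1
      (chanV_lip_mgf (κ := 2 * (a + 0)) hs'.1 hs'.2 hL (by positivity) (fun y y' => by
        refine (hu (y + (s'.h - s.h)) (y' + (s'.h - s.h))).trans_eq ?_
        simp only [Pi.add_apply, add_sub_add_right_eq_sub]) _ 0).1
  rw [stepOp_eq_testOp, stepOp_eq_testOp, testOp_eq, testOp_eq]
  simp only [hsame, chan_eq]
  rw [(chan_integral hB hBd _ u).1, (chan_integral hB' hBd' _ fun y => u (y + (s'.h - s.h))).1,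
    ← integral_sub iU iU']
  refine abs_integral_le_integral_abs.trans ?_
  have ib : Integrable (fun g => √(2 * a) * (√(∑ i, c i ^ 2) + √(∑ i, (M *ᵥ g) i ^ 2))) (gp (Fin n)) :=
    ((integrable_const _).fun_add iM).const_mul _
  refine (integral_mono (iU.sub iU').abs ib fun g => ?_).trans ?_
  · refine (hu _ _).trans ?_
    rw [add_zero, sqrt_mul (by positivity)]
    refine mul_le_mul_of_nonneg_left (le_of_eq_of_le ?_ (sqrt_sum_add_le c (M *ᵥ g))) (sqrt_nonneg _)
    congr 1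
    refine sum_congr rfl fun i _ => ?_
    simp only [c, hM, Matrix.sub_mulVec, Pi.add_apply, Pi.sub_apply]
    ring
  · rw [integral_const_mul, integral_add (integrable_const _) iM, integral_const, probReal_univ, one_smul,
      mul_comm δ]
    refine mul_le_mul_of_nonneg_left (le_trans ?_ hδ) (sqrt_nonneg _)
    have hF := sqrt_nonneg (∑ i, ∑ j, (s.A - s'.A) i j ^ 2)
    have hc : √(∑ i, c i ^ 2) ≤ frob (s.A - s'.A) * √n + √(∑ i, (s.h i - s'.h i) ^ 2) := by
      refine (sqrt_sum_add_le (fun i => (s.A *ᵥ vec x) i - (s'.A *ᵥ vec x) i) fun i => s.h i - s'.h i).trans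
        (add_le_add ?_ le_rfl)
      have := frob_mulVec_le (s.A - s'.A) (vec x)
      rw [vec_sq] at this
      simpa only [Matrix.sub_mulVec, Pi.sub_apply] using this
    have hk : (0 : ℝ) < √lam := sqrt_pos.2 hlam
    have hr := frob_root hBB hBB' hBs' hk hBl hBl'
    have hn1 : (1 : ℝ) ≤ √n := by rw [one_le_sqrt]; exact_mod_cast hn
    have hF' : 0 ≤ frob (s.A - s'.A) := hF
    have h1 : frob M ≤ √n * frob (s.A - s'.A) * (1 / √lam) := by
      have h2 : frob M ≤ frob (s.A - s'.A) * (1 / √lam) := by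
        rw [mul_one_div, le_div_iff₀ hk]
        have : 0 ≤ frob M := sqrt_nonneg _
        nlinarith
      refine h2.trans ?_
      rw [mul_assoc]
      exact le_mul_of_one_le_left (by positivity) hn1
    linarith

theorem chain_param {L lam δ : ℝ} (hL : 0 ≤ L) (hlam : 0 < lam) :
    ∀ {r : ℕ} (σ σ' : Fin r → Step n), (∀ t, (σ t).Good L) → (∀ t, (σ' t).Good L) →
      (∀ t (v : Fin n → ℝ), lam * ∑ i, v i ^ 2 ≤ v ⬝ᵥ ((σ t).A *ᵥ v) ∧
        lam * ∑ i, v i ^ 2 ≤ v ⬝ᵥ ((σ' t).A *ᵥ v)) →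
      (∀ t, (σ t).S = (σ' t).S ∧ √n * frob ((σ t).A - (σ' t).A) * (1 + 1 / √lam)
          + √(∑ i, ((σ t).h i - (σ' t).h i) ^ 2) ≤ δ) →
      ∀ (f : Conf n → ℝ) (a : ℝ), (∀ x, grad2 f x ≤ a) → ∀ x,
        |chainOp qR σ f x - chainOp qR σ' f x| ≤ r * δ * √(curvC L ^ r * a)
  | 0, _, _, _, _, _, _, _, _, _, _ => by simp [chainOp]
  | r + 1, σ, σ', hσ, hσ', hl, hd, f, a, ha, x => by
    have hC := curvC_ge hL
    have ha0 : 0 ≤ a := (sum_nonneg fun i _ => sq_nonneg _).trans (ha default)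
    have hδ0 : 0 ≤ δ := le_trans (by unfold frob; positivity) (hd 0).2
    set g := chainOp qR (Fin.tail σ') f with hg
    have hga : ∀ z, grad2 g z ≤ curvC L ^ r * a := chain_grad hL _ (fun t => hσ' t.succ) f a ha
    have ih := fun z => chain_param hL hlam (Fin.tail σ) (Fin.tail σ') (fun t => hσ t.succ)
      (fun t => hσ' t.succ) (fun t => hl t.succ) (fun t => hd t.succ) f a ha z
    have b1 : |stepOp qR (σ 0) (chainOp qR (Fin.tail σ) f) x - stepOp qR (σ 0) g x|
        ≤ r * δ * √(curvC L ^ r * a) := by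
      have hi := ok_int (ok_qR (hσ 0).1) x
      rw [stepOp_eq_sum hi, stepOp_eq_sum hi, ← sum_sub_distrib]
      simp only [← mul_sub]
      exact avg_bound (kerOf_nonneg (ok_qR (hσ 0).1) x)
        (kerOf_row (hσ 0).1 hi ((ok_qR (hσ 0).1).sum x)) ih
    have b2 := lip_param hL hlam (hσ 0) (hσ' 0) (fun v => (hl 0 v).1) (fun v => (hl 0 v).2) (hd 0).1 hga
      (hd 0).2 x
    simp only [chainOp]
    refine (abs_sub_le _ (stepOp qR (σ 0) g x) _).trans ((add_le_add b1 b2).trans ?_)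
    have h1 : √(curvC L ^ r * a) ≤ √(curvC L ^ (r + 1) * a) :=
      sqrt_le_sqrt (mul_le_mul_of_nonneg_right (pow_le_pow_right₀ (by linarith) (Nat.le_succ r)) ha0)
    have h2 : √(2 * (curvC L ^ r * a)) ≤ √(curvC L ^ (r + 1) * a) := by
      refine sqrt_le_sqrt ?_
      rw [pow_succ', mul_assoc]
      exact mul_le_mul_of_nonneg_right (by linarith) (by positivity)
    have := mul_le_mul_of_nonneg_left h1 (show 0 ≤ (r : ℝ) * δ by positivity)
    have := mul_le_mul_of_nonneg_left h2 hδ0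
    push_cast
    linarith

theorem curvLip : CurvLipStmt := by
  intro n r σ L hL hσ f a ha
  refine ⟨fun hr x x' => ?_, fun σ' lam δ hlam hσ' hl hd x => chain_param hL hlam σ σ' hσ hσ' hl hd f a ha x⟩
  obtain ⟨r, rfl⟩ : ∃ k, r = k + 1 := ⟨r - 1, by omega⟩
  simp only [chainOp]
  refine (lip_start hL (hσ 0) (chain_grad hL _ (fun t => hσ t.succ) f a ha) x x').trans_eq ?_
  rw [pow_succ', ← mul_assoc]
  rfl

end Vale.Agent.P150.Fast
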