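import Vale.Agent.P150.Fast.ChainStmt

/-!
Product measures on the cube given by their means, and the fibres of pinned sites. Used for P150.
-/

open Real Finset

namespace Vale.Agent.P150.Fast

variable {n : ℕ} {S : Finset (Fin n)}

/-- The product measure with means `m`. -/
noncomputable def prodM (m : Fin n → ℝ) (z : Conf n) : ℝ := ∏ i, (1 + m i * spin (z i)) / 2

/-- The means of `prodS`. -/
noncomputable def meanS (S : Finset (Fin n)) (x : Conf n) (y : Fin n → ℝ) (i : Fin n) : ℝ :=
  if i ∈ S then spin (x i) else tanh (y i)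

theorem abs_spin (b : Bool) : |spin b| = 1 := by cases b <;> simp [spin]

theorem mem_fib {x z : Conf n} : z ∈ fib S x ↔ ∀ i ∈ S, z i = x i := by simp [fib]

theorem self_mem_fib (S : Finset (Fin n)) (x : Conf n) : x ∈ fib S x := mem_fib.2 fun _ _ => rfl

theorem fib_eq {x z : Conf n} (hz : z ∈ fib S x) : fib S z = fib S x := by
  ext w
  simp only [mem_fib] at hz ⊢
  exact forall₂_congr fun i hi => by rw [hz i hi]

theorem mem_fib_comm {x z : Conf n} : z ∈ fib S x ↔ x ∈ fib S z := by
  simp only [mem_fib, eq_comm]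

theorem fib_empty (x : Conf n) : fib ∅ x = univ := by ext; simp [mem_fib]

theorem fib_univ (x : Conf n) : fib univ x = {x} := by
  ext z; simp [mem_fib, funext_iff]

theorem fib_swap (H : Conf n → Conf n → ℝ) :
    ∑ x, ∑ z ∈ fib S x, H x z = ∑ z, ∑ x ∈ fib S z, H x z := by
  rw [sum_comm' (t' := univ) (s' := fun z => fib S z)]
  intro x z
  simp [mem_fib_comm]

/-- A sum split over the fibres of a positive weight. -/
theorem fib_split {W : Conf n → ℝ} (hW : ∀ x, 0 < W x) (Q : Conf n → ℝ) :
    ∑ x, W x / (∑ w ∈ fib S x, W w) * ∑ z ∈ fib S x, Q z = ∑ z, Q z := by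
  simp only [mul_sum]
  rw [fib_swap fun x z => W x / (∑ w ∈ fib S x, W w) * Q z]
  refine sum_congr rfl fun z _ => ?_
  rw [← sum_mul]
  have h : ∀ x ∈ fib S z, W x / (∑ w ∈ fib S x, W w) = W x / (∑ w ∈ fib S z, W w) := fun x hx => by
    rw [fib_eq hx]
  rw [sum_congr rfl h, ← sum_div, div_self, one_mul]
  exact (sum_pos (fun x _ => hW x) ⟨z, self_mem_fib S z⟩).ne'

theorem prodM_nonneg {m : Fin n → ℝ} (hm : ∀ i, |m i| ≤ 1) (z : Conf n) : 0 ≤ prodM m z := by
  refine prod_nonneg fun i _ => ?_
  have h := abs_le.1 (hm i)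
  cases z i <;> simp [spin] <;> linarith [h.1, h.2]

theorem sum_prodM_mul (m : Fin n → ℝ) (a : Fin n → Bool → ℝ) :
    ∑ z : Conf n, prodM m z * ∏ i, a i (z i)
      = ∏ i, ((1 + m i) / 2 * a i true + (1 - m i) / 2 * a i false) := by
  simp only [prodM, ← prod_mul_distrib]
  rw [← Fintype.prod_sum (fun i (b : Bool) => (1 + m i * spin b) / 2 * a i b)]
  refine prod_congr rfl fun i _ => ?_
  simp only [Fintype.sum_bool, spin, if_true, Bool.false_eq_true, if_false]
  ring

theorem sum_prodM (m : Fin n → ℝ) : ∑ z : Conf n, prodM m z = 1 := by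
  have h := sum_prodM_mul m fun _ _ => 1
  simp only [prod_const_one, mul_one] at h
  rw [h]
  exact prod_eq_one fun i _ => by ring

theorem prodM_mean (m : Fin n → ℝ) (j : Fin n) : ∑ z : Conf n, prodM m z * spin (z j) = m j := by
  have h := sum_prodM_mul m fun i b => if i = j then spin b else 1
  simp only [prod_ite_eq', mem_univ, if_true] at h
  rw [h, prod_eq_single j (fun i _ hi => by simp only [if_neg hi]; ring) (by simp)]
  simp only [if_true, spin, Bool.false_eq_true, if_false]
  ring

theorem sig_eq (b : Bool) (y : ℝ) : sig b y = (1 + tanh y * spin b) / 2 := by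
  have h : (0 : ℝ) < exp y + exp (-y) := by positivity
  rw [sig, tanh_eq_sinh_div_cosh, sinh_eq, cosh_eq]
  cases b <;> simp [spin] <;> field_simp <;> ring

theorem abs_tanh_le (y : ℝ) : |tanh y| ≤ 1 := (abs_tanh_lt_one y).le

theorem abs_meanS (S : Finset (Fin n)) (x : Conf n) (y : Fin n → ℝ) (i : Fin n) :
    |meanS S x y i| ≤ 1 := by
  unfold meanS
  split
  · exact (abs_spin _).le
  · exact abs_tanh_le _

theorem prodS_eq (S : Finset (Fin n)) (x : Conf n) (y : Fin n → ℝ) :
    prodS S x y = prodM (meanS S x y) := by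
  funext z
  rw [prodS, prodM]
  split
  · next h =>
    rw [← Finset.prod_mul_prod_compl S, prod_eq_one (s := S) fun i hi => ?_, one_mul]
    · exact prod_congr rfl fun i hi => by rw [sig_eq, meanS, if_neg (mem_compl.1 hi)]
    · rw [meanS, if_pos hi, mem_fib.1 h i hi]
      cases x i <;> simp [spin]
  · next h =>
    simp only [mem_fib, not_forall] at h
    obtain ⟨i, hi, hne⟩ := h
    refine (prod_eq_zero (mem_univ i) ?_).symm
    rw [meanS, if_pos hi]
    revert hne
    cases z i <;> cases x i <;> simp [spin]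

theorem prodS_nonneg (S : Finset (Fin n)) (x : Conf n) (y : Fin n → ℝ) (z : Conf n) :
    0 ≤ prodS S x y z := by
  rw [prodS_eq]; exact prodM_nonneg (abs_meanS S x y) z

theorem prodS_pos {x z : Conf n} (hz : z ∈ fib S x) (y : Fin n → ℝ) : 0 < prodS S x y z := by
  rw [prodS, if_pos hz]
  exact prod_pos fun i _ => div_pos (exp_pos _) (by positivity)

theorem sum_prodS (S : Finset (Fin n)) (x : Conf n) (y : Fin n → ℝ) : ∑ z, prodS S x y z = 1 := by
  rw [prodS_eq]; exact sum_prodM _

theorem prodS_sum_fib (S : Finset (Fin n)) (x : Conf n) (y : Fin n → ℝ) (H : Conf n → ℝ) :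
    ∑ z, prodS S x y z * H z = ∑ z ∈ fib S x, prodS S x y z * H z :=
  (sum_subset (subset_univ _) fun z _ hz => by rw [prodS, if_neg hz, zero_mul]).symm

/-- On a fibre the product measure is the normalised linear tilt. -/
theorem prodS_tilt {x z : Conf n} (hz : z ∈ fib S x) (y : Fin n → ℝ) :
    prodS S x y z = exp (Ent.lin y z) / ∑ w ∈ fib S x, exp (Ent.lin y w) := by
  set K := (∏ i ∈ S, exp (spin (x i) * y i)) * ∏ i ∈ Sᶜ, (exp (y i) + exp (-(y i))) with hK
  have e : ∀ w ∈ fib S x, exp (Ent.lin y w) = K * prodS S x y w := fun w hw => by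
    rw [prodS, if_pos hw, hK, mul_assoc, ← prod_mul_distrib, Ent.lin, exp_sum,
      ← Finset.prod_mul_prod_compl S]
    congr 1
    · exact prod_congr rfl fun i hi => by rw [mem_fib.1 hw i hi, mul_comm]
    · refine prod_congr rfl fun i _ => ?_
      rw [sig, mul_div_cancel₀ _ (by positivity : exp (y i) + exp (-(y i)) ≠ 0), mul_comm]
  have hs : ∑ w ∈ fib S x, exp (Ent.lin y w) = K := by
    rw [sum_congr rfl e, ← mul_sum]
    have h := prodS_sum_fib S x y fun _ => 1
    simp only [mul_one, sum_prodS] at h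
    rw [← h, mul_one]
  rw [hs, e z hz, mul_div_cancel_left₀]
  have : 0 < K := by rw [hK]; positivity
  exact this.ne'

end Vale.Agent.P150.Fast
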