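import Vale.Agent.P150.Fast.CurvStmt
import Vale.Agent.P150.Fast.ProdM

/-!
Product measures on the cube: derivatives in the means and a sub-Gaussian bound (Herbst).
Used for P150.
-/

open Real Finset

namespace Vale.Agent.P150.Fast

variable {n : ℕ}

/-- The multilinear extension of `f`. -/
noncomputable def mext (m : Fin n → ℝ) (f : Conf n → ℝ) : ℝ := ∑ z, prodM m z * f z

theorem dgrad_flip (f : Conf n → ℝ) (i : Fin n) (z : Conf n) :
    dgrad f i (flipAt z i) = dgrad f i z := by simp [dgrad, flipAt]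

theorem spin_diff (f : Conf n → ℝ) (i : Fin n) (z : Conf n) :
    spin (z i) * (f z - f (flipAt z i)) = 2 * dgrad f i z := by
  have hz : Function.update z i (z i) = z := Function.update_eq_self i z
  cases h : z i <;> rw [h] at hz <;> simp [dgrad, flipAt, h, spin, hz] <;> ring

theorem mext_abs_le {m : Fin n → ℝ} (hm : ∀ i, |m i| ≤ 1) {f : Conf n → ℝ} {M : ℝ}
    (hf : ∀ z, |f z| ≤ M) : |mext m f| ≤ M := by
  refine (abs_sum_le_sum_abs _ _).trans ((sum_le_sum (g := fun z => prodM m z * M) fun z _ => ?_).trans_eq ?_)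
  · rw [abs_mul, abs_of_nonneg (prodM_nonneg hm z)]
    exact mul_le_mul_of_nonneg_left (hf z) (prodM_nonneg hm z)
  · rw [← sum_mul, sum_prodM, one_mul]

theorem mext_mono {m : Fin n → ℝ} (hm : ∀ i, |m i| ≤ 1) {f g : Conf n → ℝ} (h : ∀ z, f z ≤ g z) :
    mext m f ≤ mext m g :=
  sum_le_sum fun z _ => mul_le_mul_of_nonneg_left (h z) (prodM_nonneg hm z)

theorem mext_const (m : Fin n → ℝ) (c : ℝ) : mext m (fun _ => c) = c := by
  rw [mext, ← sum_mul, sum_prodM, one_mul]

theorem mext_sq_le {m : Fin n → ℝ} (hm : ∀ i, |m i| ≤ 1) (f : Conf n → ℝ) :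
    mext m f ^ 2 ≤ mext m fun z => f z ^ 2 := by
  have h := mext_mono hm (f := fun _ => (0 : ℝ)) (g := fun z => (f z - mext m f) ^ 2) fun z => sq_nonneg _
  rw [mext_const] at h
  have e : mext m (fun z => (f z - mext m f) ^ 2) = mext m (fun z => f z ^ 2) - mext m f ^ 2 := by
    have h1 : ∀ z, prodM m z * (f z - mext m f) ^ 2 = prodM m z * f z ^ 2
        - 2 * mext m f * (prodM m z * f z) + mext m f ^ 2 * prodM m z := fun z => by ring
    simp only [mext] at h1 ⊢
    rw [sum_congr rfl fun z _ => h1 z, sum_add_distrib, sum_sub_distrib, ← mul_sum, ← mul_sum, sum_prodM]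
    ring
  linarith

theorem mext_sum {ι : Type*} (s : Finset ι) (m : Fin n → ℝ) (g : ι → Conf n → ℝ) :
    mext m (fun z => ∑ j ∈ s, g j z) = ∑ j ∈ s, mext m (g j) := by
  simp only [mext, mul_sum]
  exact sum_comm

theorem mext_dgrad (m : Fin n → ℝ) (f : Conf n → ℝ) (i : Fin n) :
    mext m (dgrad f i) = ∑ z : Conf n, (∏ j ∈ univ.erase i, (1 + m j * spin (z j)) / 2) * (spin (z i) / 2) * f z := by
  set P : Conf n → ℝ := fun z => ∏ j ∈ univ.erase i, (1 + m j * spin (z j)) / 2 with hP
  have hPf : ∀ z, P (flipAt z i) = P z := fun z => prod_congr rfl fun j hj => by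
    rw [flipAt, Function.update_of_ne (ne_of_mem_erase hj)]
  have hs : ∀ z, spin (flipAt z i i) = -spin (z i) := fun z => by
    rw [flipAt, Function.update_self]; cases z i <;> simp [spin]
  have hl : ∀ z, prodM m z = P z * ((1 + m i * spin (z i)) / 2) := fun z => by
    rw [prodM, ← mul_prod_erase _ _ (mem_univ i), mul_comm]
  have h2 : ∀ H : Conf n → ℝ, 2 * ∑ z, H z = ∑ z, (H z + H (flipAt z i)) := fun H => by
    rw [sum_add_distrib, Ent.sum_flip i H, two_mul]
  refine mul_left_cancel₀ (two_ne_zero (α := ℝ)) ?_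
  rw [mext, h2, h2]
  refine sum_congr rfl fun z _ => ?_
  show _ = P z * (spin (z i) / 2) * f z + P (flipAt z i) * (spin (flipAt z i i) / 2) * f (flipAt z i)
  rw [hl, hl, hPf, hs, dgrad_flip]
  linear_combination -(P z / 2) * spin_diff f i z

theorem hasDerivAt_mext {μ : ℝ → Fin n → ℝ} {μ' : Fin n → ℝ} {t : ℝ}
    (h : ∀ i, HasDerivAt (fun u => μ u i) (μ' i) t) (f : Conf n → ℝ) :
    HasDerivAt (fun u => mext (μ u) f) (∑ i, μ' i * mext (μ t) (dgrad f i)) t := by
  have h1 : ∀ z : Conf n, HasDerivAt (fun u => prodM (μ u) z * f z)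
      ((∑ i, (∏ j ∈ univ.erase i, (1 + μ t j * spin (z j)) / 2) * (μ' i * spin (z i) / 2)) * f z) t := fun z => by
    have := HasDerivAt.fun_finset_prod (u := univ) (f := fun i u => (1 + μ u i * spin (z i)) / 2)
      (f' := fun i => μ' i * spin (z i) / 2)
      (x := t) fun i _ => (((h i).mul_const (spin (z i))).const_add 1).div_const 2
    simpa only [smul_eq_mul, prodM] using this.mul_const (f z)
  refine (HasDerivAt.fun_sum (u := univ) fun z _ => h1 z).congr_deriv ?_
  simp only [mext_dgrad, mul_sum, sum_mul]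
  rw [sum_comm]
  exact sum_congr rfl fun i _ => sum_congr rfl fun z _ => by ring

theorem exp_pair_le {p q a b : ℝ} (hp : 0 ≤ p) (hq : 0 ≤ q) (h : p + q = 1) :
    p * Ent.phi (exp a) (exp (p * a + q * b)) + q * Ent.phi (exp b) (exp (p * a + q * b))
      ≤ (a - b) ^ 2 * (p * exp a + q * exp b) := by
  have hJ : exp (p * a + q * b) ≤ p * exp a + q * exp b :=
    convexOn_exp.2 (Set.mem_univ a) (Set.mem_univ b) hp hq h
  have e : p * Ent.phi (exp a) (exp (p * a + q * b)) + q * Ent.phi (exp b) (exp (p * a + q * b))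
      = p * q * (a - b) * (exp a - exp b) + exp (p * a + q * b) - (p * exp a + q * exp b) := by
    simp only [Ent.phi, log_exp]
    obtain rfl : q = 1 - p := by linarith
    ring
  rw [e]
  have key : ∀ u v : ℝ, (u - v) * (exp u - exp v) ≤ (u - v) ^ 2 * max (exp u) (exp v) := fun u v => by
    rcases le_total v u with huv | huv
    · rw [max_eq_left (exp_le_exp.2 huv)]
      have h1 : exp u - exp v ≤ exp u * (u - v) := by
        have := mul_le_mul_of_nonneg_left (add_one_le_exp (v - u)) (exp_pos u).le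
        rw [← exp_add, add_sub_cancel] at this
        linarith
      linarith [mul_le_mul_of_nonneg_left h1 (sub_nonneg.2 huv)]
    · rw [max_eq_right (exp_le_exp.2 huv)]
      have h1 : exp v - exp u ≤ exp v * (v - u) := by
        have := mul_le_mul_of_nonneg_left (add_one_le_exp (u - v)) (exp_pos v).le
        rw [← exp_add, add_sub_cancel] at this
        linarith
      linarith [mul_le_mul_of_nonneg_left h1 (sub_nonneg.2 huv)]
  have hmax : p * q * max (exp a) (exp b) ≤ p * exp a + q * exp b := by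
    rcases max_choice (exp a) (exp b) with hm | hm <;> rw [hm]
    · nlinarith [mul_le_of_le_one_right hp (show q ≤ 1 by linarith), exp_pos a,
        mul_nonneg hq (exp_pos b).le]
    · nlinarith [mul_le_of_le_one_left hq (show p ≤ 1 by linarith), exp_pos b,
        mul_nonneg hp (exp_pos a).le]
  have h1 := mul_le_mul_of_nonneg_left (key a b) (mul_nonneg hp hq)
  have h2 := mul_le_mul_of_nonneg_left hmax (sq_nonneg (a - b))
  linarith

theorem entSite_exp_le {W : Conf n → ℝ} (hW : ∀ x, 0 < W x) (f : Conf n → ℝ) (l : ℝ) (i : Fin n) :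
    Ent.entSite W (fun z => exp (l * f z)) i
      ≤ 4 * l ^ 2 * ∑ x, W x * exp (l * f x) * dgrad f i x ^ 2 := by
  set c : Conf n → ℝ := fun x => exp ((W x * (l * f x) + W (flipAt x i) * (l * f (flipAt x i)))
    / (W x + W (flipAt x i))) with hc
  have hcf : ∀ x, c (flipAt x i) = c x := fun x => by
    simp only [hc, Ent.flip_flip]; congr 1; rw [add_comm (W (flipAt x i))]; ring
  refine (Ent.entSite_le hW (fun z => exp_pos _) i (c := c) (fun x => exp_pos _) hcf).trans ?_
  have h2 : ∀ H : Conf n → ℝ, 2 * ∑ z, H z = ∑ z, (H z + H (flipAt z i)) := fun H => by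
    rw [sum_add_distrib, Ent.sum_flip i H, two_mul]
  refine le_of_mul_le_mul_left ?_ (two_pos (α := ℝ))
  rw [mul_left_comm, h2, h2, mul_sum]
  refine sum_le_sum fun x _ => ?_
  rw [hcf, dgrad_flip]
  have hs : 0 < W x + W (flipAt x i) := add_pos (hW _) (hW _)
  have h := exp_pair_le (a := l * f x) (b := l * f (flipAt x i)) (div_pos (hW x) hs).le
    (div_pos (hW (flipAt x i)) hs).le (by rw [← add_div, div_self hs.ne'])
  have e : W x / (W x + W (flipAt x i)) * (l * f x)
      + W (flipAt x i) / (W x + W (flipAt x i)) * (l * f (flipAt x i))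
      = (W x * (l * f x) + W (flipAt x i) * (l * f (flipAt x i))) / (W x + W (flipAt x i)) := by
    rw [add_div]; ring
  rw [e] at h
  have hd : (l * f x - l * f (flipAt x i)) ^ 2 = 4 * l ^ 2 * dgrad f i x ^ 2 := by
    have h1 := spin_diff f i x
    have h3 : spin (x i) ^ 2 = 1 := by cases x i <;> simp [spin]
    have : (f x - f (flipAt x i)) ^ 2 = 4 * dgrad f i x ^ 2 := by
      calc (f x - f (flipAt x i)) ^ 2 = (spin (x i) * (f x - f (flipAt x i))) ^ 2 := by rw [mul_pow, h3, one_mul]
        _ = _ := by rw [h1]; ring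
    linear_combination l ^ 2 * this
  rw [hd] at h
  have h3 := mul_le_mul_of_nonneg_left h hs.le
  simp only [hc]
  calc W x * Ent.phi (exp (l * f x)) _ + W (flipAt x i) * Ent.phi (exp (l * f (flipAt x i))) _
      = (W x + W (flipAt x i)) * (W x / (W x + W (flipAt x i)) * Ent.phi (exp (l * f x)) _
          + W (flipAt x i) / (W x + W (flipAt x i)) * Ent.phi (exp (l * f (flipAt x i))) _) := by
        field_simp
    _ ≤ _ := h3
    _ = _ := by field_simp

theorem herbst_pos {m : Fin n → ℝ} (hm : ∀ i, |m i| < 1) {f : Conf n → ℝ} {a : ℝ}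
    (ha : ∀ x, grad2 f x ≤ a) {l : ℝ} (hl : 0 < l) :
    mext m (fun z => exp (l * f z)) ≤ exp (l * mext m f + 4 * a * l ^ 2) := by
  set w : Fin n → Bool → ℝ := fun i b => (1 + m i * spin b) / 2 with hw
  have hwp : ∀ i b, 0 < w i b := fun i b => by
    have h := abs_lt.1 (hm i)
    cases b <;> simp [hw, spin] <;> linarith [h.1, h.2]
  have hW : ∀ z, 0 < prodM m z := fun z => prod_pos fun i _ => hwp i (z i)
  have hWe : prodM m = Ent.prodW w := rfl
  set H : ℝ → ℝ := fun t => mext m fun z => exp (t * f z) with hH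
  have hHp : ∀ t, 0 < H t := fun t =>
    sum_pos (fun z _ => mul_pos (hW z) (exp_pos _)) univ_nonempty
  have hHd : ∀ t, HasDerivAt H (∑ z, prodM m z * (exp (t * f z) * f z)) t := fun t =>
    HasDerivAt.fun_sum (u := univ) fun z _ => ((((hasDerivAt_id' t).mul_const (f z)).exp).const_mul
      (prodM m z)).congr_deriv (by ring)
  have hineq : ∀ t, t * (∑ z, prodM m z * (exp (t * f z) * f z)) - H t * log (H t)
      ≤ 4 * a * t ^ 2 * H t := fun t => by
    have h1 : Ent.ent (prodM m) (fun z => exp (t * f z))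
        = t * (∑ z, prodM m z * (exp (t * f z) * f z)) - H t * log (H t) := by
      have e : Ent.avg (prodM m) (fun z => exp (t * f z)) = H t := by
        rw [Ent.avg, Ent.mass, sum_prodM, div_one]; rfl
      rw [Ent.ent, e]
      have e2 : ∀ z, prodM m z * Ent.phi (exp (t * f z)) (H t) = t * (prodM m z * (exp (t * f z) * f z))
          - log (H t) * (prodM m z * exp (t * f z)) - prodM m z * exp (t * f z) + H t * prodM m z := fun z => by
        simp only [Ent.phi, log_exp]; ring
      have e3 : ∑ z, prodM m z * exp (t * f z) = H t := rfl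
      rw [sum_congr rfl fun z _ => e2 z, sum_add_distrib, sum_sub_distrib, sum_sub_distrib, ← mul_sum,
        ← mul_sum, ← mul_sum, sum_prodM, e3]
      ring
    rw [← h1, hWe]
    refine (Ent.ent_le_entTot_prod n w hwp _ fun z => exp_pos _).trans ?_
    rw [← hWe, Ent.entTot]
    refine (sum_le_sum fun i _ => entSite_exp_le hW f t i).trans ?_
    rw [← mul_sum, sum_comm, show 4 * a * t ^ 2 * H t = 4 * t ^ 2 * (a * H t) by ring]
    refine mul_le_mul_of_nonneg_left ?_ (by positivity)
    simp only [hH, mext, mul_sum]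
    refine sum_le_sum fun z _ => ?_
    rw [← mul_sum, mul_comm a]
    exact mul_le_mul_of_nonneg_left (ha z) (mul_pos (hW z) (exp_pos _)).le
  set ψ : ℝ → ℝ := fun t => log (H t) / t - 4 * a * t with hψ
  have hd : ∀ t, 0 < t → HasDerivAt ψ
      ((t * (∑ z, prodM m z * (exp (t * f z) * f z)) - H t * log (H t)) / (t ^ 2 * H t) - 4 * a) t :=
    fun t ht => by
      refine ((((hHd t).log (hHp t).ne').div (hasDerivAt_id' t) ht.ne').sub
        ((hasDerivAt_id' t).const_mul (4 * a))).congr_deriv ?_
      field_simp [(hHp t).ne', ht.ne']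
  have hanti : AntitoneOn ψ (Set.Ioi 0) := antitoneOn_of_hasDerivWithinAt_nonpos (convex_Ioi 0)
    (fun t ht => (hd t ht).continuousAt.continuousWithinAt)
    (fun t ht => (hd t (interior_subset ht)).hasDerivWithinAt)
    (fun t ht => by
      have ht' : (0 : ℝ) < t := interior_subset ht
      rw [sub_nonpos, div_le_iff₀ (mul_pos (pow_pos ht' 2) (hHp t))]
      linarith [hineq t])
  have hfin : ψ l ≤ mext m f := by
    set F := ∑ z, |f z| with hF
    have hF0 : 0 ≤ F := sum_nonneg fun z _ => abs_nonneg _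
    have ha0 : 0 ≤ a := (sum_nonneg fun i _ => sq_nonneg _).trans (ha default)
    refine le_of_forall_pos_le_add fun ε hε => ?_
    set t := min (min l (1 / (F + 1))) (ε / (F ^ 2 + 1)) with ht
    have ht0 : 0 < t := by positivity
    have htl : t ≤ l := (min_le_left _ _).trans (min_le_left _ _)
    have hb : ∀ z, exp (t * f z) ≤ 1 + t * f z + t ^ 2 * F ^ 2 := fun z => by
      have hz : |f z| ≤ F := single_le_sum (f := fun z => |f z|) (fun z _ => abs_nonneg _) (mem_univ z)
      have h1 : |t * f z| ≤ 1 := by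
        rw [abs_mul, abs_of_pos ht0]
        have htF : t ≤ 1 / (F + 1) := (min_le_left _ _).trans (min_le_right _ _)
        refine (mul_le_mul htF hz (abs_nonneg _) (by positivity)).trans ?_
        rw [div_mul_eq_mul_div, one_mul, div_le_one (by linarith)]
        linarith
      have h2 := abs_le.1 (abs_exp_sub_one_sub_id_le h1)
      have h3 : (t * f z) ^ 2 ≤ t ^ 2 * F ^ 2 := by
        rw [mul_pow]; exact mul_le_mul_of_nonneg_left (sq_le_sq.2 (by rwa [abs_of_nonneg hF0])) (sq_nonneg t)
      linarith [h2.2]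
    have hHt : H t ≤ 1 + t * mext m f + t ^ 2 * F ^ 2 := by
      refine (mext_mono (fun i => (hm i).le) hb).trans_eq ?_
      have e : ∀ z, prodM m z * (1 + t * f z + t ^ 2 * F ^ 2)
          = prodM m z + t * (prodM m z * f z) + t ^ 2 * F ^ 2 * prodM m z := fun z => by ring
      simp only [mext]
      rw [sum_congr rfl fun z _ => e z, sum_add_distrib, sum_add_distrib, ← mul_sum, ← mul_sum, sum_prodM,
        mul_one]
    have hlog : log (H t) ≤ t * (mext m f + t * F ^ 2) := by
      linarith [log_le_sub_one_of_pos (hHp t)]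
    have h1 : ψ t ≤ mext m f + t * F ^ 2 := by
      simp only [hψ]
      have : log (H t) / t ≤ mext m f + t * F ^ 2 := by rw [div_le_iff₀ ht0]; linarith
      nlinarith
    refine le_trans (hanti (Set.mem_Ioi.2 ht0) hl htl) (le_trans h1 ?_)
    have : t * (F ^ 2 + 1) ≤ ε := (le_div_iff₀ (by positivity)).1 (min_le_right _ _)
    linarith
  simp only [hψ, tsub_le_iff_right, div_le_iff₀ hl] at hfin
  rw [← exp_log (hHp l)] at *
  refine (le_of_eq (exp_log (hHp l)).symm).trans (exp_le_exp.2 ?_)
  rw [log_exp] at hfin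
  linarith

/-- **Sub-Gaussian bound** for every product measure. -/
theorem herbst {m : Fin n → ℝ} (hm : ∀ i, |m i| ≤ 1) {f : Conf n → ℝ} {a : ℝ}
    (ha : ∀ x, grad2 f x ≤ a) (l : ℝ) :
    mext m (fun z => exp (l * f z)) ≤ exp (l * mext m f + 4 * a * l ^ 2) := by
  have main : ∀ k : ℝ, 0 ≤ k → k < 1 →
      mext (fun i => k * m i) (fun z => exp (l * f z))
        ≤ exp (l * mext (fun i => k * m i) f + 4 * a * l ^ 2) := fun k hk0 hk1 => by
    have hk : ∀ i, |k * m i| < 1 := fun i => by
      rw [abs_mul, abs_of_nonneg hk0]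
      exact (mul_le_of_le_one_right hk0 (hm i)).trans_lt hk1
    rcases lt_trichotomy l 0 with h | rfl | h
    · have hg : ∀ x, grad2 (fun z => -f z) x ≤ a := fun x => by
        refine le_trans (le_of_eq (sum_congr rfl fun i _ => ?_)) (ha x)
        simp only [dgrad]; ring
      have := herbst_pos hk hg (neg_pos.2 h)
      simpa only [mext, mul_neg, neg_mul, neg_neg, sum_neg_distrib, neg_sq] using this
    · simp only [zero_mul, exp_zero, mext_const, zero_add]
      norm_num
    · exact herbst_pos hk ha h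
  have hc : ∀ g : Conf n → ℝ, Continuous fun k : ℝ => mext (fun i => k * m i) g := fun g => by
    unfold mext prodM; fun_prop
  have h1 := (hc fun z => exp (l * f z)).tendsto 1
  have h2 : Filter.Tendsto (fun k : ℝ => exp (l * mext (fun i => k * m i) f + 4 * a * l ^ 2)) (nhds 1)
      (nhds (exp (l * mext (fun i => (1 : ℝ) * m i) f + 4 * a * l ^ 2))) :=
    (continuous_exp.comp (((hc f).const_mul l).add continuous_const)).tendsto 1
  have := le_of_tendsto_of_tendsto (h1.mono_left (nhdsWithin_le_nhds (s := Set.Iio 1)))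
    (h2.mono_left nhdsWithin_le_nhds) (Filter.eventually_of_mem
      (Ioo_mem_nhdsLT (show (0 : ℝ) < 1 by norm_num)) fun k hk => main k hk.1.le hk.2)
  simpa using this

end Vale.Agent.P150.Fast
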