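import Vale.Agent.P150.Fast.Chan
import Vale.Agent.P150.Fast.GaussTail

/-!
Shifts of the Gaussian channel: change of measure, derivative in the mean, operator bounds, and
exponential moments of Lipschitz functions of the field. Used for P150.
-/

open MeasureTheory Real Finset
open scoped Matrix

namespace Vale.Agent.P150.Fast

variable {n : ℕ} {A : Matrix (Fin n) (Fin n) ℝ} {L : ℝ}

theorem sum_sq_eq_dot (v : Fin n → ℝ) : ∑ i, v i ^ 2 = v ⬝ᵥ v :=
  sum_congr rfl fun i _ => sq (v i)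

theorem sum_sq_mulVec_le (hA : A.PosDef) (hL : ∀ v : Fin n → ℝ, v ⬝ᵥ (A *ᵥ v) ≤ L * ∑ i, v i ^ 2)
    (hL0 : 0 ≤ L) (v : Fin n → ℝ) : ∑ i, (A *ᵥ v) i ^ 2 ≤ L ^ 2 * ∑ i, v i ^ 2 := by
  rcases hL0.eq_or_lt with h | h
  · have hv : v = 0 := by
      by_contra hv
      have := hA.dotProduct_mulVec_pos hv
      rw [star_trivial] at this
      have := hL v
      rw [← h, zero_mul] at this
      linarith
    simp [hv]
  set w := A *ᵥ v with hw
  have hp := hA.posSemidef.dotProduct_mulVec_nonneg (v - (1 / L) • w)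
  rw [star_trivial, Matrix.mulVec_sub, Matrix.mulVec_smul, ← hw] at hp
  have hwv : v ⬝ᵥ (A *ᵥ w) = w ⬝ᵥ w := by
    rw [Matrix.dotProduct_mulVec, ← Matrix.mulVec_transpose, posDef_symm hA, ← hw]
  simp only [sub_dotProduct, dotProduct_sub, smul_dotProduct, dotProduct_smul, smul_eq_mul, hwv] at hp
  rw [sum_sq_eq_dot, sum_sq_eq_dot]
  have h1 := hL v
  have h2 := hL w
  rw [sum_sq_eq_dot, ← hw] at h1
  rw [sum_sq_eq_dot] at h2
  have h3 : 1 / L * (1 / L * (w ⬝ᵥ (A *ᵥ w))) ≤ 1 / L * (w ⬝ᵥ w) := by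
    refine mul_le_mul_of_nonneg_left ?_ (by positivity)
    rw [one_div, inv_mul_le_iff₀ h]
    exact h2
  have h4 : 1 / L * (w ⬝ᵥ w) ≤ L * (v ⬝ᵥ v) := by linarith
  rw [one_div, inv_mul_le_iff₀ h] at h4
  linarith

theorem sum_sq_root_le {B : Matrix (Fin n) (Fin n) ℝ} (hB : B * B.transpose = A)
    (hL : ∀ v : Fin n → ℝ, v ⬝ᵥ (A *ᵥ v) ≤ L * ∑ i, v i ^ 2) (d : Fin n → ℝ) :
    ∑ i, (B *ᵥ d) i ^ 2 ≤ L * ∑ i, d i ^ 2 := by
  set w := B *ᵥ d with hw
  set u := B.transpose *ᵥ w with hu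
  have e1 : ∑ i, w i ^ 2 = ∑ i, d i * u i := by
    rw [sum_sq_eq_dot]
    show w ⬝ᵥ w = d ⬝ᵥ u
    rw [hu, Matrix.mulVec_transpose, dotProduct_comm d, ← Matrix.dotProduct_mulVec]
  have e2 : ∑ i, u i ^ 2 ≤ L * ∑ i, w i ^ 2 := by
    refine le_of_eq_of_le ?_ (hL w)
    rw [sum_sq_eq_dot, ← hB, ← Matrix.mulVec_mulVec, Matrix.dotProduct_mulVec w B, ← Matrix.mulVec_transpose]
  have hcs := sum_mul_sq_le_sq_mul_sq univ d u
  rw [← e1] at hcs
  rcases (sum_nonneg fun i _ => sq_nonneg (w i) : 0 ≤ ∑ i, w i ^ 2).eq_or_lt with h | h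
  · rw [← h]
    have := hL d
    rcases (sum_nonneg fun i _ => sq_nonneg (d i) : 0 ≤ ∑ i, d i ^ 2).eq_or_lt with h' | h'
    · rw [← h', mul_zero]
    · have h0 : 0 ≤ d ⬝ᵥ (A *ᵥ d) := by
        rw [← hB, ← Matrix.mulVec_mulVec, Matrix.dotProduct_mulVec, ← Matrix.mulVec_transpose,
          ← sum_sq_eq_dot]
        exact sum_nonneg fun i _ => sq_nonneg _
      linarith
  · have hd0 : 0 ≤ ∑ i, d i ^ 2 := sum_nonneg fun i _ => sq_nonneg _
    have := mul_le_mul_of_nonneg_left e2 hd0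
    refine le_of_mul_le_mul_left ?_ h
    linarith

theorem chanV_int_bound' (hA : A.PosDef) (v : Fin n → ℝ) {G : (Fin n → ℝ) → ℝ} {M : ℝ} (hG : Measurable G)
    (hM : ∀ y, |G y| ≤ M) : |∫ y, chanV A v y * G y| ≤ M := by
  refine abs_integral_le_integral_abs.trans ?_
  refine (integral_mono (chanV_bdd hA v hG hM).abs ((chanV_integrable hA v).const_mul M) fun y => ?_).trans_eq ?_
  · simp only [abs_mul, abs_of_pos (chanV_pos hA v y), mul_comm M]
    exact mul_le_mul_of_nonneg_left (hM y) (chanV_pos hA v y).le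
  · rw [integral_const_mul, chanV_mass hA, mul_one]

/-- Cauchy-Schwarz for a shifted channel. -/
theorem chanV_shift_sq (hA : A.PosDef) (v d : Fin n → ℝ) {u : (Fin n → ℝ) → ℝ} (hu : Measurable u)
    {M : ℝ} (hM : ∀ y, |u y| ≤ M) :
    (∫ y, chanV A (v + A *ᵥ d) y * u y) ^ 2
      ≤ exp (d ⬝ᵥ (A *ᵥ d)) * ∫ y, chanV A v y * u y ^ 2 := by
  set E := exp (d ⬝ᵥ (A *ᵥ d))
  set I := ∫ y, chanV A (v + A *ᵥ d) y * u y
  set J := ∫ y, chanV A v y * u y ^ 2 with hJ
  have hu2 : ∀ y, |u y ^ 2| ≤ M ^ 2 := fun y => by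
    rw [abs_of_nonneg (sq_nonneg _), ← sq_abs]; exact pow_le_pow_left₀ (abs_nonneg _) (hM y) 2
  have iJ : Integrable fun y => chanV A v y * u y ^ 2 := chanV_bdd hA v (hu.pow_const 2) hu2
  have hbound : ∀ t : ℝ, 0 < t → |I| ≤ t / 2 * J + E / (2 * t) := fun t ht => by
    refine abs_integral_le_integral_abs.trans ?_
    have i2 := (chanV_integrable hA (v + (2 : ℝ) • (A *ᵥ d))).const_mul (E / (2 * t))
    refine (integral_mono (chanV_bdd hA _ hu hM).abs ((iJ.const_mul (t / 2)).fun_add i2) fun y => ?_).trans_eq ?_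
    · simp only [abs_mul, abs_of_pos (chanV_pos hA _ y)]
      have hp := chanV_pos hA v y
      have hq : chanV A (v + A *ᵥ d) y ^ 2 = E * chanV A v y * chanV A (v + (2 : ℝ) • (A *ᵥ d)) y :=
        chanV_sq hA v d y
      have h := two_mul_le_add_sq (t * chanV A v y * |u y|) (chanV A (v + A *ᵥ d) y)
      rw [hq, mul_pow, mul_pow, sq_abs] at h
      refine le_of_mul_le_mul_left ?_ (mul_pos (mul_pos two_pos ht) hp)
      have e : 2 * t * chanV A v y * (t / 2 * (chanV A v y * u y ^ 2)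
          + E / (2 * t) * chanV A (v + (2 : ℝ) • (A *ᵥ d)) y)
          = t ^ 2 * chanV A v y ^ 2 * u y ^ 2 + E * chanV A v y * chanV A (v + (2 : ℝ) • (A *ᵥ d)) y := by
        field_simp
      rw [e]
      linarith
    · rw [integral_add (iJ.const_mul _) i2, integral_const_mul, integral_const_mul, chanV_mass hA,
        mul_one, ← hJ]
  have hJ0 : 0 ≤ J := integral_nonneg fun y => mul_nonneg (chanV_pos hA v y).le (sq_nonneg _)
  have hE : 0 < E := exp_pos _
  rw [← sq_abs]
  rcases (abs_nonneg I).eq_or_lt with h | h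
  · rw [← h]; nlinarith
  rcases hJ0.eq_or_lt with hz | hz
  · have := hbound (E / |I|) (by positivity)
    rw [← hz] at this
    have e : E / (2 * (E / |I|)) = |I| / 2 := by field_simp
    rw [e] at this
    linarith
  · have := hbound (|I| / J) (by positivity)
    have e : |I| / J / 2 * J = |I| / 2 := by field_simp
    have e2 : E / (2 * (|I| / J)) = E * J / (2 * |I|) := by field_simp
    rw [e, e2] at this
    have h2 := mul_le_mul_of_nonneg_left this (show 0 ≤ 2 * |I| by positivity)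
    have e3 : 2 * |I| * (|I| / 2 + E * J / (2 * |I|)) = |I| ^ 2 + E * J := by field_simp
    rw [e3] at h2
    linarith

theorem chanV_translate (A : Matrix (Fin n) (Fin n) ℝ) (v w : Fin n → ℝ) (G : (Fin n → ℝ) → ℝ) :
    ∫ y, chanV A (v + w) y * G y = ∫ y, chanV A v y * G (y + w) := by
  rw [← integral_add_right_eq_self (fun y => chanV A (v + w) y * G y) w]
  refine integral_congr_ae (ae_of_all _ fun y => ?_)
  simp only [chanV, add_sub_add_right_eq_sub]

/-- Derivative of a channel mean along a line. -/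
theorem chanV_hasDeriv (hA : A.PosDef) (v w : Fin n → ℝ) {G DG : (Fin n → ℝ) → ℝ} (hG : Continuous G)
    (hint : ∀ p : Fin n → ℝ, Integrable fun y => chanV A v y * G (y + p)) (hDG : Continuous DG)
    {M : ℝ} (hM : ∀ y, |DG y| ≤ M) (hd : ∀ y, HasDerivAt (fun t : ℝ => G (y + t • w)) (DG y) 0)
    (t : ℝ) : HasDerivAt (fun t : ℝ => ∫ y, chanV A (v + t • w) y * G y)
      (∫ y, chanV A (v + t • w) y * DG y) t := by
  simp only [chanV_translate]
  refine (hasDerivAt_integral_of_dominated_loc_of_deriv_le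
    (F := fun (u : ℝ) (y : Fin n → ℝ) => chanV A v y * G (y + u • w))
    (F' := fun (u : ℝ) (y : Fin n → ℝ) => chanV A v y * DG (y + u • w))
    (bound := fun y => chanV A v y * M) Filter.univ_mem
    (Filter.Eventually.of_forall fun u => Continuous.aestronglyMeasurable (by fun_prop))
    (hint _) (Continuous.aestronglyMeasurable (by fun_prop))
    (ae_of_all _ fun y u _ => ?_) ((chanV_integrable hA v).mul_const M)
    (ae_of_all _ fun y u _ => ?_)).2
  · rw [Real.norm_eq_abs, abs_mul, abs_of_pos (chanV_pos hA v y)]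
    exact mul_le_mul_of_nonneg_left (hM _) (chanV_pos hA v y).le
  · have h0 := hd (y + u • w)
    have h1 : HasDerivAt (fun r : ℝ => G (y + r • w)) (DG (y + u • w)) u := by
      have h0' : HasDerivAt (fun t : ℝ => G (y + u • w + t • w)) (DG (y + u • w)) (u - u) := by
        rwa [sub_self]
      have := h0'.comp_sub_const u u
      refine this.congr_of_eventuallyEq (Filter.Eventually.of_forall fun r => ?_)
      show G (y + r • w) = G (y + u • w + (r - u) • w)
      congr 1
      rw [sub_smul]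
      abel
    exact h1.const_mul _

/-- Exponential moments of a Lipschitz function of the field. -/
theorem chanV_lip_mgf (hA : A.PosDef) (hL : ∀ v : Fin n → ℝ, v ⬝ᵥ (A *ᵥ v) ≤ L * ∑ i, v i ^ 2)
    (hL0 : 0 ≤ L) {u : (Fin n → ℝ) → ℝ} {κ : ℝ} (hκ : 0 ≤ κ)
    (hu : ∀ y y', |u y - u y'| ≤ √(κ * ∑ i, (y i - y' i) ^ 2)) (v : Fin n → ℝ) (l : ℝ) :
    (Integrable fun y => chanV A v y * u y) ∧ (Integrable fun y => chanV A v y * exp (l * u y)) ∧
      ∫ y, chanV A v y * exp (l * u y)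
        ≤ exp (l * (∫ y, chanV A v y * u y) + π ^ 2 * (κ * L) * l ^ 2 / 8) := by
  obtain ⟨B, hB, hd⟩ := exists_root hA
  set U : (Fin n → ℝ) → ℝ := fun g => u (v + B *ᵥ g) with hU
  have hlip : ∀ g h, |U g - U h| ≤ √(κ * L) * √(∑ i, (g i - h i) ^ 2) := fun g h => by
    rw [← sqrt_mul (mul_nonneg hκ hL0)]
    refine (hu _ _).trans (sqrt_le_sqrt ?_)
    rw [mul_assoc]
    refine mul_le_mul_of_nonneg_left (le_of_eq_of_le ?_ (sum_sq_root_le hB hL (g - h))) hκ
    exact sum_congr rfl fun i _ => by rw [Matrix.mulVec_sub]; simp only [Pi.sub_apply, Pi.add_apply]; ring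
  have hUc : Integrable U (gp (Fin n)) := by
    have hc : Continuous U := by
      refine continuous_iff_continuousAt.2 fun g => ?_
      refine continuousAt_of_locally_lipschitz zero_lt_one (√(κ * L) * √n) fun h _ => ?_
      rw [Real.dist_eq]
      refine (hlip h g).trans ?_
      rw [mul_assoc]
      refine mul_le_mul_of_nonneg_left ?_ (sqrt_nonneg _)
      refine Real.sqrt_le_iff.2 ⟨by positivity, ?_⟩
      rw [mul_pow, sq_sqrt (Nat.cast_nonneg n)]
      refine (sum_le_card_nsmul _ _ (dist h g ^ 2) fun i _ => ?_).trans_eq (by simp)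
      rw [← sq_abs, ← Real.dist_eq]
      exact pow_le_pow_left₀ dist_nonneg (dist_le_pi_dist h g i) 2
    refine ((integrable_const |U 0|).add (integrable_abs_coord_sum.const_mul √(κ * L))).mono'
      hc.aestronglyMeasurable (ae_of_all _ fun g => ?_)
    rw [Real.norm_eq_abs]
    have h := hlip g 0
    have h2 : √(∑ i, (g i - (0 : Fin n → ℝ) i) ^ 2) ≤ ∑ i, |g i| := by
      refine Real.sqrt_le_iff.2 ⟨by positivity, ?_⟩
      simp only [Pi.zero_apply, sub_zero, ← sq_abs (g _)]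
      exact sum_sq_le_sq_sum_of_nonneg fun i _ => abs_nonneg _
    have h3 := mul_le_mul_of_nonneg_left h2 (sqrt_nonneg (κ * L))
    simp only [Pi.add_apply]
    linarith [abs_sub_abs_le_abs_sub (U g) (U 0)]
  have hI := chan_integral hB hd v u
  have hE := chan_integral hB hd v fun y => exp (l * u y)
  refine ⟨hI.2.2 hUc, ?_⟩
  rw [hE.2, hE.1, hI.1]
  rcases (sqrt_nonneg (κ * L)).eq_or_lt with h0 | h0
  · have hc : ∀ g, U g = U 0 := fun g => by
      have := hlip g 0
      rw [← h0, zero_mul, abs_nonpos_iff, sub_eq_zero] at this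
      exact this
    have h0' : κ * L = 0 := (sqrt_eq_zero (mul_nonneg hκ hL0)).1 h0.symm
    refine ⟨(integrable_const (exp (l * U 0))).congr (ae_of_all _ fun g => by simp only [← hc g]; rfl), ?_⟩
    simp only [hU] at hc
    simp only [hc, integral_const, probReal_univ, one_smul, h0']
    norm_num
  · obtain ⟨h1, h2⟩ := gaussMgf (Fin n) U √(κ * L) h0 hlip l
    rw [sq_sqrt (mul_nonneg hκ hL0)] at h2
    set m := ∫ g, U g ∂gp (Fin n) with hm
    have e : ∀ g, exp (l * U g) = exp (l * m) * exp (l * (U g - m)) := fun g => by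
      rw [← exp_add]; ring_nf
    have h1' : Integrable (fun g => exp (l * U g)) (gp (Fin n)) :=
      (h1.const_mul (exp (l * m))).congr (ae_of_all _ fun g => (e g).symm)
    refine ⟨h1', ?_⟩
    show ∫ g, exp (l * U g) ∂gp (Fin n) ≤ _
    simp only [e, integral_const_mul, exp_add]
    exact mul_le_mul_of_nonneg_left h2 (exp_pos _).le

end Vale.Agent.P150.Fast
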