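import Vale.Agent.P150.Fast.CurvTestD

/-!
One step of the reference alternation: curvature and sub-Gaussian bound. Used for P150.
-/

open MeasureTheory Real Finset
open scoped Matrix

namespace Vale.Agent.P150.Fast

variable {n : ℕ}
variable {s : Step n} {G : (Fin n → ℝ) → Conf n → ℝ} {dG : (Fin n → ℝ) → Conf n → Fin n → ℝ} {a b L : ℝ}

theorem curvC_ge (hL : 0 ≤ L) : 4 ≤ curvC L := by
  have h1 : 1 ≤ exp (4 * L) := one_le_exp (by linarith)
  unfold curvC
  nlinarith [sq_nonneg L, exp_pos (4 * L)]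

/-- **Curvature of one step.** -/
theorem curv_step (hL : 0 ≤ L) (hs : s.Good L) (hG : TestD G dG a b) (x : Conf n) :
    grad2 (testOp s G) x ≤ curvC L * ∫ y, chan s.A x y * uSq s G dG x y := by
  obtain ⟨hA, hAL⟩ := hs
  obtain ⟨ha, hb⟩ := test_ab hG
  set κ := a + b with hκ
  set v := s.A *ᵥ vec x with hv
  set e1 : Fin n → (Fin n → ℝ) → ℝ := fun j y =>
    if j ∈ s.S then mext (meanS s.S x (y + s.h)) (dgrad (G y) j) else 0 with he1
  set e2 : Fin n → (Fin n → ℝ) → ℝ := fun j y => (s.A *ᵥ uGrad s G dG x y) j with he2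
  have hsq : ∀ y, uSq s G dG x y ≤ κ := fun y => (abs_le.1 (uSq_bound hG x y)).2
  have hsum1 : ∀ y, ∑ j, e1 j y ^ 2 ≤ uSq s G dG x y := fun y => by
    refine (sum_le_sum fun j _ => ?_).trans ((mext_sum univ _ _).symm.le.trans
      (mext_mono (abs_meanS s.S x (y + s.h)) fun z =>
        le_add_of_nonneg_right (sum_nonneg fun i _ => sq_nonneg (dG y z i))))
    simp only [he1]
    split
    · exact mext_sq_le (abs_meanS s.S x _) _
    · refine (le_of_eq (zero_pow two_ne_zero)).trans ?_
      have := mext_mono (abs_meanS s.S x (y + s.h)) (f := fun _ => (0 : ℝ))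
        (g := fun z => dgrad (G y) j z ^ 2) fun z => sq_nonneg _
      rwa [mext_const] at this
  have hsum2 : ∀ y, ∑ j, e2 j y ^ 2 ≤ L ^ 2 * (2 * uSq s G dG x y) := fun y =>
    (sum_sq_mulVec_le hA hAL hL _).trans (mul_le_mul_of_nonneg_left (uGrad_sq x y) (sq_nonneg L))
  have hu0 : ∀ y, 0 ≤ uSq s G dG x y := fun y => (sum_nonneg fun j _ => sq_nonneg (e1 j y)).trans (hsum1 y)
  have c1 : ∀ j, Continuous (e1 j) := fun j => by
    have hm := continuous_mean s.S x s.h
    have hg := G_cont hG
    simp only [he1]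
    by_cases hj : j ∈ s.S <;> simp only [hj, if_true, if_false]
    · unfold mext prodM dgrad; fun_prop
    · exact continuous_const
  have c2 : ∀ j, Continuous (e2 j) := fun j => by
    have := uGrad_cont (s := s) hG x
    simp only [he2, Matrix.mulVec, dotProduct]
    fun_prop
  have b1 : ∀ j y, |e1 j y| ≤ √κ := fun j y => abs_le_sqrt
    (((single_le_sum (fun i _ => sq_nonneg (e1 i y)) (mem_univ j)).trans (hsum1 y)).trans (hsq y))
  have b2 : ∀ j y, |e2 j y| ≤ √(2 * L ^ 2 * κ) := fun j y => abs_le_sqrt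
    (((single_le_sum (fun i _ => sq_nonneg (e2 i y)) (mem_univ j)).trans (hsum2 y)).trans
      (by nlinarith [hsq y, sq_nonneg L]))
  have i1 : ∀ j, Integrable fun y => chanV s.A v y * e1 j y ^ 2 := fun j =>
    chanV_bdd hA v ((c1 j).pow 2).measurable (M := √κ ^ 2) fun y => by
      rw [abs_pow]; exact pow_le_pow_left₀ (abs_nonneg _) (b1 j y) 2
  have i2 : ∀ j, Integrable fun y => chanV s.A v y * e2 j y ^ 2 := fun j =>
    chanV_bdd hA v ((c2 j).pow 2).measurable (M := √(2 * L ^ 2 * κ) ^ 2) fun y => by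
      rw [abs_pow]; exact pow_le_pow_left₀ (abs_nonneg _) (b2 j y) 2
  set E := exp (4 * L) with hE
  have hu : ∀ x' p, Integrable fun y => chanV s.A p y * uMean s G x' y := fun x' p =>
    (chanV_lip_mgf hA hAL hL (by positivity) (uMean_lip (s := s) hG x') p 0).1
  have hd1 : ∀ j, dgrad (testOp s G) j x ^ 2
      ≤ 2 * E * (∫ y, chanV s.A v y * e1 j y ^ 2) + 2 * E * ∫ y, chanV s.A v y * e2 j y ^ 2 := fun j => by
    set x' := flipAt x j with hx'
    set d : Fin n → ℝ := Pi.single j (-(2 * spin (x j))) with hd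
    have hvec : vec x' = vec x + d := by
      funext i
      rcases eq_or_ne i j with rfl | hi
      · simp only [vec, hx', flipAt, Function.update_self, hd, Pi.add_apply, Pi.single_eq_same]
        cases x i <;> simp [spin] <;> norm_num
      · simp [vec, hx', flipAt, Function.update_of_ne hi, hd, hi]
    have hsp : spin (x j) ^ 2 = 1 := by cases x j <;> simp [spin]
    have hdA : ∀ t : ℝ, |t| ≤ 1 → exp ((t • d) ⬝ᵥ (s.A *ᵥ (t • d))) ≤ E := fun t ht => by
      refine exp_le_exp.2 ((hAL _).trans ?_)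
      have e : ∑ i, (t • d) i ^ 2 = t ^ 2 * 4 := by
        rw [sum_eq_single j (fun i _ hi => by simp [hd, hi]) (by simp)]
        simp only [Pi.smul_apply, smul_eq_mul, hd, Pi.single_eq_same]
        linear_combination 4 * t ^ 2 * hsp
      rw [e]
      have : t ^ 2 ≤ 1 := by rw [← sq_abs]; exact pow_le_one₀ (abs_nonneg _) ht
      nlinarith
    set F1 := ∫ y, chanV s.A (v + s.A *ᵥ d) y * e1 j y with hF1
    have hv' : s.A *ᵥ vec x' = v + s.A *ᵥ d := by rw [hvec, Matrix.mulVec_add]
    have hB1 : F1 ^ 2 ≤ E * ∫ y, chanV s.A v y * e1 j y ^ 2 := by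
      refine (chanV_shift_sq hA v d (c1 j).measurable (b1 j)).trans ?_
      have := hdA 1 (by norm_num)
      rw [one_smul] at this
      exact mul_le_mul_of_nonneg_right this
        (integral_nonneg fun y => mul_nonneg (chanV_pos hA v y).le (sq_nonneg _))
    set D := (∫ y, chanV s.A v y * uMean s G x y) - ∫ y, chanV s.A (v + s.A *ᵥ d) y * uMean s G x y with hD
    have hB2 : D ^ 2 ≤ 4 * (E * ∫ y, chanV s.A v y * e2 j y ^ 2) := by
      set J := ∫ y, chanV s.A v y * e2 j y ^ 2 with hJ
      have hJ0 : 0 ≤ J := integral_nonneg fun y => mul_nonneg (chanV_pos hA v y).le (sq_nonneg _)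
      have hDG : ∀ y, ∑ i, uGrad s G dG x y i * (s.A *ᵥ d) i = -(2 * spin (x j)) * e2 j y := fun y => by
        show uGrad s G dG x y ⬝ᵥ (s.A *ᵥ d) = _
        rw [Matrix.dotProduct_mulVec, ← Matrix.mulVec_transpose, posDef_symm hA, hd, dotProduct_single,
          mul_comm]
      have hder := fun t => chanV_hasDeriv hA v (s.A *ᵥ d) (DG := fun y => -(2 * spin (x j)) * e2 j y)
        (M := 2 * √(2 * L ^ 2 * κ))
        (continuous_of_lip_vec (by positivity) (uMean_lip (s := s) hG x))
        (fun p => (chanV_lip_mgf (κ := 2 * (a + b)) (u := fun y => uMean s G x (y + p)) hA hAL hL (by positivity)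
          (fun y y' => by
            refine (uMean_lip (s := s) hG x (y + p) (y' + p)).trans_eq ?_
            simp only [Pi.add_apply, add_sub_add_right_eq_sub]) v 0).1)
        ((c2 j).const_mul _) (fun y => by
          rw [abs_mul, abs_neg, abs_mul, abs_of_pos (two_pos (α := ℝ)), abs_spin, mul_one]
          exact mul_le_mul_of_nonneg_left (b2 j y) zero_le_two)
        (fun y => (uMean_deriv (s := s) hG x y (s.A *ᵥ d)).congr_deriv (hDG y)) t
      have hbd : ∀ t ∈ Set.Icc (0 : ℝ) 1,
          ‖∫ y, chanV s.A (v + t • (s.A *ᵥ d)) y * (-(2 * spin (x j)) * e2 j y)‖ ≤ √(4 * (E * J)) := fun t ht => by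
        rw [Real.norm_eq_abs]
        refine abs_le_sqrt ?_
        have e : ∫ y, chanV s.A (v + t • (s.A *ᵥ d)) y * (-(2 * spin (x j)) * e2 j y)
            = -(2 * spin (x j)) * ∫ y, chanV s.A (v + s.A *ᵥ (t • d)) y * e2 j y := by
          rw [← integral_const_mul, Matrix.mulVec_smul]
          exact integral_congr_ae (ae_of_all _ fun y => by ring)
        rw [e, mul_pow, neg_sq, mul_pow, hsp, mul_one]
        refine (mul_le_mul_of_nonneg_left (chanV_shift_sq hA v (t • d) (c2 j).measurable (b2 j))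
          (by norm_num : (0 : ℝ) ≤ 2 ^ 2)).trans ?_
        rw [← hJ, show (2 : ℝ) ^ 2 = 4 by norm_num]
        exact mul_le_mul_of_nonneg_left (mul_le_mul_of_nonneg_right
          (hdA t (by rw [abs_of_nonneg ht.1]; exact ht.2)) hJ0) (by norm_num)
      have h := Convex.norm_image_sub_le_of_norm_hasDerivWithin_le (fun t _ => (hder t).hasDerivWithinAt)
        hbd (convex_Icc 0 1) (Set.right_mem_Icc.2 zero_le_one) (Set.left_mem_Icc.2 zero_le_one)
      simp only [one_smul, zero_smul, add_zero, zero_sub, norm_neg, norm_one, mul_one, Real.norm_eq_abs] at h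
      have h2 := mul_self_le_mul_self (abs_nonneg _) h
      rw [abs_mul_abs_self, ← sq, ← sq, sq_sqrt (mul_nonneg (by norm_num) (mul_nonneg (exp_pos _).le hJ0))] at h2
      exact h2
    have hdiff : testOp s G x - testOp s G x' = 2 * spin (x j) * F1 + D := by
      have hfl : ∀ y, uMean s G x' y = uMean s G x y - 2 * spin (x j) * e1 j y := fun y => by
        have := uMean_flip (s := s) (G := G) x y j
        simp only [he1, hx']
        linarith
      have ie : Integrable fun y => chanV s.A (v + s.A *ᵥ d) y * e1 j y :=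
        chanV_bdd hA _ (c1 j).measurable (b1 j)
      have e : ∫ y, chanV s.A (v + s.A *ᵥ d) y * uMean s G x' y
          = (∫ y, chanV s.A (v + s.A *ᵥ d) y * uMean s G x y) - 2 * spin (x j) * F1 := by
        rw [hF1, ← integral_const_mul, ← integral_sub (hu x _) (ie.const_mul _)]
        exact integral_congr_ae (ae_of_all _ fun y => by simp only [hfl]; ring)
      rw [testOp_eq, testOp_eq, chan_eq, chan_eq, hv', e, hD]
      ring
    have hg : dgrad (testOp s G) j x = spin (x j) * (2 * spin (x j) * F1 + D) / 2 := by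
      rw [← hdiff]
      linear_combination -(spin_diff (testOp s G) j x) / 2
    rw [hg]
    have hF : (2 * spin (x j) * F1) ^ 2 = 4 * F1 ^ 2 := by linear_combination 4 * F1 ^ 2 * hsp
    have h3 := add_sq_le (a := 2 * spin (x j) * F1) (b := D)
    rw [div_pow, mul_pow, hsp, one_mul]
    linarith
  have iS : Integrable fun y => chanV s.A v y * uSq s G dG x y :=
    chanV_bdd hA v (uSq_cont hG x).measurable (uSq_bound hG x)
  calc grad2 (testOp s G) x
      ≤ ∑ j, (2 * E * (∫ y, chanV s.A v y * e1 j y ^ 2) + 2 * E * ∫ y, chanV s.A v y * e2 j y ^ 2) :=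
        sum_le_sum fun j _ => hd1 j
    _ = 2 * E * ∫ y, ∑ j, (chanV s.A v y * e1 j y ^ 2 + chanV s.A v y * e2 j y ^ 2) := by
        rw [integral_finsetSum _ fun j _ => (i1 j).fun_add (i2 j), mul_sum]
        exact sum_congr rfl fun j _ => by rw [integral_add (i1 j) (i2 j), mul_add]
    _ ≤ 2 * E * ∫ y, (1 + 2 * L ^ 2) * (chanV s.A v y * uSq s G dG x y) := by
        refine mul_le_mul_of_nonneg_left (integral_mono
          (integrable_finsetSum _ fun j _ => (i1 j).fun_add (i2 j)) (iS.const_mul _) fun y => ?_) (by positivity)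
        simp only
        rw [sum_add_distrib, ← mul_sum, ← mul_sum, ← mul_add, mul_left_comm]
        exact mul_le_mul_of_nonneg_left (by linarith [hsum1 y, hsum2 y]) (chanV_pos hA v y).le
    _ ≤ _ := by
        rw [integral_const_mul, ← mul_assoc, chan_eq]
        refine mul_le_mul_of_nonneg_right ?_ (integral_nonneg fun y =>
          mul_nonneg (chanV_pos hA v y).le (hu0 y))
        unfold curvC
        linarith [sq_nonneg L, exp_pos (4 * L)]

/-- **Sub-Gaussian bound of one step.** -/
theorem mgf_step (hL : 0 ≤ L) (hs : s.Good L) (hG : TestD G dG a b) (x : Conf n) (l : ℝ) :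
    (Integrable fun y => chan s.A x y * ∑ z, qR s x y z * exp (l * G y z)) ∧
      ∫ y, chan s.A x y * ∑ z, qR s x y z * exp (l * G y z)
        ≤ exp (l * testOp s G x + mgfC L * (a + b) * l ^ 2) := by
  obtain ⟨hA, hAL⟩ := hs
  obtain ⟨ha, hb⟩ := test_ab hG
  set v := s.A *ᵥ vec x with hv
  have hq : ∀ y, ∑ z, qR s x y z * exp (l * G y z) = mext (meanS s.S x (y + s.h)) fun z => exp (l * G y z) :=
    fun y => by simp only [qR, prodS_eq, mext]
  simp only [hq, chan_eq, ← hv]
  obtain ⟨-, i3, h3⟩ := chanV_lip_mgf hA hAL hL (show 0 ≤ 2 * (a + b) by positivity)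
    (uMean_lip (s := s) hG x) v l
  have hpt : ∀ y, mext (meanS s.S x (y + s.h)) (fun z => exp (l * G y z))
      ≤ exp (4 * a * l ^ 2) * exp (l * uMean s G x y) := fun y => by
    refine (herbst (abs_meanS s.S x (y + s.h)) (hG.za y) l).trans_eq ?_
    rw [← exp_add, uMean]
    ring_nf
  have iR : Integrable fun y => exp (4 * a * l ^ 2) * (chanV s.A v y * exp (l * uMean s G x y)) := i3.const_mul _
  have iL : Integrable fun y => chanV s.A v y * mext (meanS s.S x (y + s.h)) fun z => exp (l * G y z) := by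
    have hm := continuous_mean s.S x s.h
    have hg := G_cont hG
    refine iR.mono' (Continuous.aestronglyMeasurable ?_) (ae_of_all _ fun y => ?_)
    · unfold mext prodM; fun_prop
    · have h0 : 0 ≤ mext (meanS s.S x (y + s.h)) fun z => exp (l * G y z) :=
        sum_nonneg fun z _ => mul_nonneg (prodM_nonneg (abs_meanS s.S x _) z) (exp_pos _).le
      rw [Real.norm_eq_abs, abs_of_nonneg (mul_nonneg (chanV_pos hA v y).le h0), mul_left_comm]
      exact mul_le_mul_of_nonneg_left (hpt y) (chanV_pos hA v y).le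
  refine ⟨iL, (integral_mono iL iR fun y => ?_).trans ?_⟩
  · simp only
    rw [mul_left_comm]
    exact mul_le_mul_of_nonneg_left (hpt y) (chanV_pos hA v y).le
  · rw [integral_const_mul]
    refine (mul_le_mul_of_nonneg_left h3 (exp_pos _).le).trans ?_
    rw [← exp_add, testOp_eq, chan_eq, exp_le_exp]
    have hpi : π ^ 2 ≤ 10 := by nlinarith [pi_lt_d2, pi_pos]
    have h1 : 0 ≤ L * l ^ 2 * (a + b) := mul_nonneg (mul_nonneg hL (sq_nonneg l)) (by linarith)
    unfold mgfC
    linarith [mul_le_mul_of_nonneg_right hpi h1, mul_nonneg hb (sq_nonneg l), mul_nonneg ha (sq_nonneg l)]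

theorem testD_fun (f : Conf n → ℝ) :
    TestD (fun _ => f) (fun _ _ _ => 0) (∑ z, grad2 f z) 0 where
  za _ z := single_le_sum (f := grad2 f) (fun w _ => sum_nonneg fun i _ => sq_nonneg _) (mem_univ z)
  cont _ _ := continuous_const
  yb _ _ := by simp
  deriv y z v := by simpa using hasDerivAt_const (0 : ℝ) (f z)

theorem curvStep : CurvStepStmt := by
  intro n s L hL hs
  refine ⟨fun f x => ?_, fun G a b ⟨hza, dG, hc, hb, hd⟩ => ?_⟩
  · have h := curv_step hL hs (testD_fun f) x
    have e : stepOp qR s (grad2 f) x = ∫ y, chan s.A x y * uSq s (fun _ => f) (fun _ _ _ => 0) x y := by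
      simp [stepOp, qR, prodS_eq, uSq, mext]
    rw [e]
    exact h
  · have hG : TestD G dG a b := ⟨hza, hc, hb, hd⟩
    refine ⟨fun x => (curv_step hL hs hG x).trans (mul_le_mul_of_nonneg_left ?_
      (le_trans (by norm_num) (curvC_ge hL))), fun x l => mgf_step hL hs hG x l⟩
    exact (abs_le.1 (chanV_int_bound' hs.1 (s.A *ᵥ vec x) (uSq_cont hG x).measurable
      (uSq_bound hG x))).2

end Vale.Agent.P150.Fast
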