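import Vale.Agent.P150.Fast.CurvProd
import Vale.Agent.P150.Fast.CurvShift
import Vale.Agent.P150.Fast.StepKL

/-!
Tests of the field and the new state: means given the field and their gradients. Used for P150.
-/

open MeasureTheory Real Finset
open scoped Matrix

namespace Vale.Agent.P150.Fast

variable {n : ℕ}

theorem line_deriv {F : (Fin n → ℝ) → ℝ} {D : (Fin n → ℝ) → (Fin n → ℝ) → ℝ}
    (hd : ∀ y w, HasDerivAt (fun t : ℝ => F (y + t • w)) (D y w) 0) (y w : Fin n → ℝ) (u : ℝ) :
    HasDerivAt (fun t : ℝ => F (y + t • w)) (D (y + u • w) w) u := by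
  have h0 : HasDerivAt (fun t : ℝ => F (y + u • w + t • w)) (D (y + u • w) w) (u - u) := by
    rw [sub_self]; exact hd (y + u • w) w
  refine (h0.comp_sub_const u u).congr_of_eventuallyEq (Filter.Eventually.of_forall fun r => ?_)
  show F (y + r • w) = F (y + u • w + (r - u) • w)
  congr 1
  rw [sub_smul]
  abel

theorem line_lip {F : (Fin n → ℝ) → ℝ} {D : (Fin n → ℝ) → Fin n → ℝ} {κ : ℝ}
    (hd : ∀ y w, HasDerivAt (fun t : ℝ => F (y + t • w)) (∑ i, D y i * w i) 0)
    (hκ : ∀ y, ∑ i, D y i ^ 2 ≤ κ) (y y' : Fin n → ℝ) :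
    |F y - F y'| ≤ √(κ * ∑ i, (y i - y' i) ^ 2) := by
  have hder := fun t => line_deriv (D := fun p w => ∑ i, D p i * w i) hd y' (y - y') t
  have h := Convex.norm_image_sub_le_of_norm_hasDerivWithin_le
    (f := fun t : ℝ => F (y' + t • (y - y'))) (s := Set.univ) (x := (0 : ℝ)) (y := (1 : ℝ))
    (fun t _ => (hder t).hasDerivWithinAt) (C := √(κ * ∑ i, (y i - y' i) ^ 2)) (fun t _ => by
      rw [Real.norm_eq_abs]
      refine abs_le_sqrt ?_
      refine (sum_mul_sq_le_sq_mul_sq _ _ _).trans ?_
      simp only [Pi.sub_apply]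
      exact mul_le_mul_of_nonneg_right (hκ _) (sum_nonneg fun i _ => sq_nonneg _))
    convex_univ (Set.mem_univ _) (Set.mem_univ _)
  simpa using h

theorem continuous_of_lip_vec {F : (Fin n → ℝ) → ℝ} {κ : ℝ} (hκ : 0 ≤ κ)
    (h : ∀ y y', |F y - F y'| ≤ √(κ * ∑ i, (y i - y' i) ^ 2)) : Continuous F := by
  refine continuous_iff_continuousAt.2 fun g => ?_
  refine continuousAt_of_locally_lipschitz zero_lt_one √(κ * n) fun p _ => ?_
  rw [Real.dist_eq]
  refine (h p g).trans ?_
  rw [← sqrt_sq (dist_nonneg (x := p) (y := g)), ← sqrt_mul (mul_nonneg hκ (Nat.cast_nonneg n)), mul_assoc]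
  refine sqrt_le_sqrt (mul_le_mul_of_nonneg_left ?_ hκ)
  refine (sum_le_card_nsmul _ _ (dist p g ^ 2) fun i _ => ?_).trans_eq (by simp)
  rw [← sq_abs, ← Real.dist_eq]
  exact pow_le_pow_left₀ dist_nonneg (dist_le_pi_dist p g i) 2

/-- Data of a test: the field gradient and uniform bounds. -/
structure TestD (G : (Fin n → ℝ) → Conf n → ℝ) (dG : (Fin n → ℝ) → Conf n → Fin n → ℝ) (a b : ℝ) : Prop where
  za : ∀ y z, grad2 (G y) z ≤ a
  cont : ∀ z i, Continuous fun y => dG y z i
  yb : ∀ y z, ∑ i, dG y z i ^ 2 ≤ b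
  deriv : ∀ y z (v : Fin n → ℝ), HasDerivAt (fun t : ℝ => G (y + t • v) z) (∑ i, dG y z i * v i) 0

/-- The mean of a test given the field. -/
noncomputable def uMean (s : Step n) (G : (Fin n → ℝ) → Conf n → ℝ) (x : Conf n) (y : Fin n → ℝ) : ℝ :=
  mext (meanS s.S x (y + s.h)) (G y)

/-- Its gradient in the field. -/
noncomputable def uGrad (s : Step n) (G : (Fin n → ℝ) → Conf n → ℝ)
    (dG : (Fin n → ℝ) → Conf n → Fin n → ℝ) (x : Conf n) (y : Fin n → ℝ) (i : Fin n) : ℝ :=
  (if i ∈ s.S then 0 else 1 - tanh (y i + s.h i) ^ 2) * mext (meanS s.S x (y + s.h)) (dgrad (G y) i)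
    + mext (meanS s.S x (y + s.h)) (fun z => dG y z i)

/-- The mean squared gradient given the field. -/
noncomputable def uSq (s : Step n) (G : (Fin n → ℝ) → Conf n → ℝ)
    (dG : (Fin n → ℝ) → Conf n → Fin n → ℝ) (x : Conf n) (y : Fin n → ℝ) : ℝ :=
  mext (meanS s.S x (y + s.h)) fun z => grad2 (G y) z + ∑ i, dG y z i ^ 2

theorem testOp_eq (s : Step n) (G : (Fin n → ℝ) → Conf n → ℝ) (x : Conf n) :
    testOp s G x = ∫ y, chan s.A x y * uMean s G x y := by
  simp only [testOp, qR, prodS_eq, uMean, mext]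

variable {s : Step n} {G : (Fin n → ℝ) → Conf n → ℝ} {dG : (Fin n → ℝ) → Conf n → Fin n → ℝ} {a b L : ℝ}

theorem uMean_deriv (hG : TestD G dG a b) (x : Conf n) (y w : Fin n → ℝ) :
    HasDerivAt (fun t : ℝ => uMean s G x (y + t • w)) (∑ i, uGrad s G dG x y i * w i) 0 := by
  set μ' : Fin n → ℝ := fun i => if i ∈ s.S then 0 else (1 - tanh (y i + s.h i) ^ 2) * w i with hμ'
  have hμ : ∀ i, HasDerivAt (fun t : ℝ => meanS s.S x (y + t • w + s.h) i) (μ' i) 0 := fun i => by
    simp only [meanS, hμ', Pi.add_apply, Pi.smul_apply, smul_eq_mul]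
    split
    · exact hasDerivAt_const _ _
    · have h1 : HasDerivAt (fun t : ℝ => y i + t * w i + s.h i) (w i) 0 :=
        (((hasDerivAt_id' (0 : ℝ)).mul_const (w i)).const_add (y i)).add_const (s.h i)
          |>.congr_deriv (one_mul _)
      refine ((hasDerivAt_tanh' _).comp 0 h1).congr_deriv ?_
      simp
  set m := meanS s.S x (y + s.h) with hm
  have h0 : meanS s.S x (y + (0 : ℝ) • w + s.h) = m := by simp [hm]
  have hP : ∀ z, HasDerivAt (fun t : ℝ => prodM (meanS s.S x (y + t • w + s.h)) z)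
      (∑ i, μ' i * mext m (dgrad (Pi.single z 1) i)) 0 := fun z => by
    have h := hasDerivAt_mext (μ := fun t => meanS s.S x (y + t • w + s.h)) hμ (Pi.single z (1 : ℝ))
    rw [h0] at h
    simpa [mext, Pi.single_apply] using h
  have hfroz := hasDerivAt_mext (μ := fun t => meanS s.S x (y + t • w + s.h)) hμ (G y)
  rw [h0] at hfroz
  have hfroz' : HasDerivAt (fun t : ℝ => mext (meanS s.S x (y + t • w + s.h)) (G y))
      (∑ z, (∑ i, μ' i * mext m (dgrad (Pi.single z 1) i)) * G y z) 0 :=
    HasDerivAt.fun_sum (u := univ) fun z _ => (hP z).mul_const (G y z)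
  have hall : HasDerivAt (fun t : ℝ => uMean s G x (y + t • w))
      (∑ z, ((∑ i, μ' i * mext m (dgrad (Pi.single z 1) i)) * G y z
        + prodM m z * ∑ i, dG y z i * w i)) 0 := by
    refine HasDerivAt.fun_sum (u := univ) fun z _ => ?_
    refine ((hP z).mul (hG.deriv y z w)).congr_deriv ?_
    simp [hm]
  refine hall.congr_deriv ?_
  rw [sum_add_distrib, hfroz'.unique hfroz]
  simp only [uGrad, ← hm, add_mul, sum_add_distrib]
  congr 1
  · exact sum_congr rfl fun i _ => by simp only [hμ']; split <;> ring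
  · simp only [mext, mul_sum, sum_mul]
    rw [sum_comm]
    exact sum_congr rfl fun i _ => sum_congr rfl fun z _ => by ring

theorem uGrad_sq (x : Conf n) (y : Fin n → ℝ) :
    ∑ i, uGrad s G dG x y i ^ 2 ≤ 2 * uSq s G dG x y := by
  set m := meanS s.S x (y + s.h)
  have hm := abs_meanS s.S x (y + s.h)
  have hpt : ∀ i, uGrad s G dG x y i ^ 2
      ≤ 2 * mext m (fun z => dgrad (G y) i z ^ 2) + 2 * mext m (fun z => dG y z i ^ 2) := fun i => by
    refine (add_sq_le).trans ?_
    have h1 := mext_sq_le hm (dgrad (G y) i)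
    have h2 := mext_sq_le hm (fun z => dG y z i)
    have h3 : ((if i ∈ s.S then 0 else 1 - tanh (y i + s.h i) ^ 2) * mext m (dgrad (G y) i)) ^ 2
        ≤ mext m (dgrad (G y) i) ^ 2 := by
      rw [mul_pow]
      refine mul_le_of_le_one_left (sq_nonneg _) ?_
      split
      · norm_num
      · have := (abs_tanh_lt_one (y i + s.h i)).le
        have h4 : tanh (y i + s.h i) ^ 2 ≤ 1 := by rw [← sq_abs]; exact pow_le_one₀ (abs_nonneg _) this
        nlinarith [sq_nonneg (tanh (y i + s.h i))]
    linarith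
  refine (sum_le_sum fun i _ => hpt i).trans_eq ?_
  rw [sum_add_distrib, ← mul_sum, ← mul_sum, ← mul_add, uSq, ← mext_sum, ← mext_sum]
  congr 1
  simp only [mext, ← sum_add_distrib, ← mul_add, grad2]
  rfl

theorem uSq_bound (hG : TestD G dG a b) (x : Conf n) (y : Fin n → ℝ) : |uSq s G dG x y| ≤ a + b :=
  mext_abs_le (abs_meanS s.S x _) fun z => by
    rw [abs_of_nonneg (add_nonneg (sum_nonneg fun i _ => sq_nonneg _) (sum_nonneg fun i _ => sq_nonneg _))]
    exact add_le_add (hG.za y z) (hG.yb y z)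

theorem uMean_lip (hG : TestD G dG a b) (x : Conf n) (y y' : Fin n → ℝ) :
    |uMean s G x y - uMean s G x y'| ≤ √(2 * (a + b) * ∑ i, (y i - y' i) ^ 2) :=
  line_lip (D := uGrad s G dG x) (uMean_deriv hG x)
    (fun p => (uGrad_sq x p).trans (by linarith [(abs_le.1 (uSq_bound (s := s) hG x p)).2])) y y'

theorem test_ab (hG : TestD G dG a b) : 0 ≤ a ∧ 0 ≤ b :=
  ⟨(sum_nonneg fun i _ => sq_nonneg _).trans (hG.za 0 default),
    (sum_nonneg fun i _ => sq_nonneg _).trans (hG.yb 0 default)⟩

theorem G_cont (hG : TestD G dG a b) (z : Conf n) : Continuous fun y => G y z :=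
  continuous_of_lip_vec (test_ab hG).2
    (line_lip (D := fun y => dG y z) (fun y w => hG.deriv y z w) fun y => hG.yb y z)

theorem continuous_mean (S : Finset (Fin n)) (x : Conf n) (h : Fin n → ℝ) (i : Fin n) :
    Continuous fun y : Fin n → ℝ => meanS S x (y + h) i := by
  have ht : Continuous tanh := continuous_iff_continuousAt.2 fun u => (hasDerivAt_tanh' u).continuousAt
  unfold meanS
  split
  · exact continuous_const
  · exact ht.comp (by fun_prop)

theorem uGrad_cont (hG : TestD G dG a b) (x : Conf n) (i : Fin n) :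
    Continuous fun y => uGrad s G dG x y i := by
  have hm := continuous_mean s.S x s.h
  have hg := G_cont hG
  have hd := hG.cont
  have ht : Continuous tanh := continuous_iff_continuousAt.2 fun u => (hasDerivAt_tanh' u).continuousAt
  unfold uGrad mext prodM dgrad
  by_cases hi : i ∈ s.S <;> simp only [hi, if_true, if_false] <;> fun_prop

theorem uSq_cont (hG : TestD G dG a b) (x : Conf n) : Continuous fun y => uSq s G dG x y := by
  have hm := continuous_mean s.S x s.h
  have hg := G_cont hG
  have hd := hG.cont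
  unfold uSq mext prodM grad2 dgrad
  fun_prop

theorem mext_update (m : Fin n → ℝ) (f : Conf n → ℝ) (j : Fin n) (c c' : ℝ) :
    mext (Function.update m j c) f - mext (Function.update m j c') f = (c - c') * mext m (dgrad f j) := by
  have e : ∀ d z, prodM (Function.update m j d) z
      = (∏ i ∈ univ.erase j, (1 + m i * spin (z i)) / 2) * ((1 + d * spin (z j)) / 2) := fun d z => by
    rw [prodM, ← mul_prod_erase _ _ (mem_univ j), Function.update_self, mul_comm]
    congr 1
    exact prod_congr rfl fun i hi => by rw [Function.update_of_ne (ne_of_mem_erase hi)]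
  rw [mext, mext, mext_dgrad, mul_sum, ← sum_sub_distrib]
  exact sum_congr rfl fun z _ => by rw [e, e]; ring

theorem uMean_flip (x : Conf n) (y : Fin n → ℝ) (j : Fin n) :
    uMean s G x y - uMean s G (flipAt x j) y
      = 2 * spin (x j) * if j ∈ s.S then mext (meanS s.S x (y + s.h)) (dgrad (G y) j) else 0 := by
  set m := meanS s.S x (y + s.h) with hm
  split
  · next hj =>
    have h1 : Function.update m j (spin (x j)) = m := by
      conv_rhs => rw [← Function.update_eq_self j m]
      congr 1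
      rw [hm, meanS, if_pos hj]
    have h2 : meanS s.S (flipAt x j) (y + s.h) = Function.update m j (-spin (x j)) := by
      funext i
      rcases eq_or_ne i j with rfl | hi
      · rw [Function.update_self, meanS, if_pos hj, flipAt, Function.update_self]
        cases x i <;> simp [spin]
      · rw [Function.update_of_ne hi, hm]
        simp only [meanS, flipAt, Function.update_of_ne hi]
    have h := mext_update m (G y) j (spin (x j)) (-spin (x j))
    rw [h1] at h
    rw [uMean, uMean, ← hm, h2, h]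
    ring
  · next hj =>
    rw [mul_zero, sub_eq_zero]
    unfold uMean
    congr 1
    funext i
    simp only [meanS]
    split
    · next hi => rw [flipAt, Function.update_of_ne (fun e => by subst e; exact hj hi)]
    · rfl

end Vale.Agent.P150.Fast
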