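import Vale.Agent.P150.Fast.GoeStmt
import Vale.Agent.P150.Edge.Spectral

/-!
The Sudakov-Fernique step for the margin (P150): the supremum of the quadratic form of the
coupling matrix over an arbitrary bounded set of vectors is controlled, with an exponential
tail, by a bound on the linear comparison process that holds with high probability.
-/

open MeasureTheory Real Finset Filter

namespace Vale.Agent.P150.Fast

variable {n : ℕ}

/-- The coefficients of the quadratic form of the coupling matrix at `x`. -/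
noncomputable def qcoef (n : ℕ) (β : ℝ) (x : Fin n → ℝ) : Pair n ⊕ Fin n → ℝ
  | Sum.inl p => β / √n * (2 * (x p.1.1 * x p.1.2))
  | Sum.inr i => β / √n * (√2 * x i ^ 2)

theorem lin_qcoef (β : ℝ) (x : Fin n → ℝ) (d : Dis n) :
    P150.lin (qcoef n β x) d = Ent.qform (kmat n β d) x := by
  have h := Edge.sum_sum_eq n fun i j => x i * kmat n β d i j * x j
  rw [show Ent.qform (kmat n β d) x = ∑ i, ∑ j, x i * kmat n β d i j * x j from rfl, h]
  simp only [P150.lin, Fintype.sum_sum_type, qcoef]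
  congr 1
  · refine sum_congr rfl fun p _ => ?_
    simp only [kmat, p.2, not_lt.2 p.2.le, ↓reduceDIte]
    ring
  · refine sum_congr rfl fun i _ => ?_
    simp only [kmat, lt_irrefl, ↓reduceDIte]
    ring

theorem qcoef_sq (hn : 0 < n) (β : ℝ) (x y : Fin n → ℝ) :
    ∑ p, (qcoef n β x p - qcoef n β y p) ^ 2
      = β ^ 2 / n * (2 * ((∑ i, x i ^ 2) ^ 2 + (∑ i, y i ^ 2) ^ 2 - 2 * (∑ i, x i * y i) ^ 2)) := by
  have hn' : (0 : ℝ) < n := by exact_mod_cast hn
  have hb : (β / √n) ^ 2 = β ^ 2 / n := by rw [div_pow, sq_sqrt hn'.le]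
  have h := Edge.sum_sum_eq n fun i j => 2 * (x i * x j - y i * y j) ^ 2
  have e1 : ∑ i, ∑ j, 2 * (x i * x j - y i * y j) ^ 2
      = 2 * ((∑ i, x i ^ 2) ^ 2 + (∑ i, y i ^ 2) ^ 2 - 2 * (∑ i, x i * y i) ^ 2) := by
    simp only [sq, sum_mul_sum]
    simp only [mul_sum, ← sum_add_distrib, ← sum_sub_distrib]
    exact sum_congr rfl fun i _ => sum_congr rfl fun j _ => by ring
  rw [← e1, h, Fintype.sum_sum_type, mul_add, mul_sum, mul_sum]
  simp only [qcoef, ← mul_sub, mul_pow, hb, sq_sqrt zero_le_two]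
  congr 1
  · exact sum_congr rfl fun p _ => by ring
  · exact sum_congr rfl fun i _ => by ring

/-- The coefficients of the comparison process. -/
noncomputable def lcoef (n : ℕ) (β : ℝ) (x : Fin n → ℝ) (i : Fin n) : ℝ :=
  β * (2 * √(∑ j, x j ^ 2) / √n) * x i

theorem qcoef_incr (hn : 0 < n) (β : ℝ) (x y : Fin n → ℝ) :
    ∑ p, (qcoef n β x p - qcoef n β y p) ^ 2 ≤ ∑ i, (lcoef n β x i - lcoef n β y i) ^ 2 := by
  have hn' : (0 : ℝ) < n := by exact_mod_cast hn
  set a := √(∑ j, x j ^ 2) with ha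
  set b := √(∑ j, y j ^ 2) with hb
  set c := ∑ i, x i * y i
  have ha2 : ∑ i, x i ^ 2 = a ^ 2 := (sq_sqrt (sum_nonneg fun i _ => sq_nonneg _)).symm
  have hb2 : ∑ i, y i ^ 2 = b ^ 2 := (sq_sqrt (sum_nonneg fun i _ => sq_nonneg _)).symm
  rw [qcoef_sq hn, ha2, hb2]
  have e : ∑ i, (lcoef n β x i - lcoef n β y i) ^ 2
      = β ^ 2 / n * (4 * (a ^ 4 + b ^ 4 - 2 * (a * b) * c)) := by
    have e0 : ∀ i, (lcoef n β x i - lcoef n β y i) ^ 2
        = β ^ 2 / n * 4 * (a ^ 2 * x i ^ 2 + b ^ 2 * y i ^ 2 - 2 * (a * b) * (x i * y i)) := fun i => by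
      simp only [lcoef, ← ha, ← hb]
      have : (√(n : ℝ)) ^ 2 = n := sq_sqrt hn'.le
      field_simp
      rw [this]
      ring
    simp only [e0, ← mul_sum, sum_add_distrib, sum_sub_distrib, ha2, hb2]
    ring
  rw [e]
  refine mul_le_mul_of_nonneg_left ?_ (by positivity)
  nlinarith [sq_nonneg (a ^ 2 - b ^ 2), sq_nonneg (a * b - c)]

/-- The mean of the largest quadratic form over finitely many vectors. -/
theorem mean_max_qform (hn : 0 < n) {β B p : ℝ} (hβ : 0 ≤ β) (hB : 0 ≤ B) {T : Type} [Fintype T]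
    [Nonempty T] (x : T → Fin n → ℝ) (hx : ∀ a, ∑ i, x a i ^ 2 ≤ B) {G : Set (Fin n → ℝ)}
    (hG : MeasurableSet G) (hp : (gp (Fin n)).real Gᶜ ≤ p)
    (hgood : ∀ g ∈ G, ∀ a, β * (2 * √(∑ j, x a j ^ 2) / √n) * (∑ i, g i * x a i) ≤ 1) :
    ∫ d, Edge.maxLin (fun a => qcoef n β (x a)) d ∂gp (Pair n ⊕ Fin n) ≤ 1 + 2 * β * B * √p := by
  have hn' : (0 : ℝ) < n := by exact_mod_cast hn
  have hp0 : 0 ≤ p := measureReal_nonneg.trans hp
  refine (Edge.mean_max_le _ (fun a => lcoef n β (x a))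
    fun a c => qcoef_incr hn β (x a) (x c)).trans ?_
  set K := 2 * β * B / √n with hK
  have hK0 : 0 ≤ K := by positivity
  set N : (Fin n → ℝ) → ℝ := fun g => √(∑ i, g i ^ 2) with hN
  have hlin : ∀ a g, P150.lin (lcoef n β (x a)) g
      = β * (2 * √(∑ j, x a j ^ 2) / √n) * ∑ i, g i * x a i := fun a g => by
    simp only [P150.lin, lcoef, mul_sum]
    exact sum_congr rfl fun i _ => by ring
  have hpt : ∀ g, Edge.maxLin (fun a => lcoef n β (x a)) g ≤ 1 + Gᶜ.indicator (fun g => K * N g) g :=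
    fun g => by
    refine Finset.sup'_le _ _ fun a _ => ?_
    rw [hlin]
    by_cases hg : g ∈ G
    · simpa [hg] using hgood g hg a
    · have h0 := Real.sum_mul_le_sqrt_mul_sqrt univ g (x a)
      have h1 : √(∑ j, x a j ^ 2) * √(∑ j, x a j ^ 2) ≤ B := by
        rw [mul_self_sqrt (sum_nonneg fun i _ => sq_nonneg _)]; exact hx a
      have h2 : β * (2 * √(∑ j, x a j ^ 2) / √n) * ∑ i, g i * x a i ≤ K * N g := by
        refine (mul_le_mul_of_nonneg_left h0 (by positivity)).trans ?_
        have e : β * (2 * √(∑ j, x a j ^ 2) / √n) * (√(∑ i, g i ^ 2) * √(∑ j, x a j ^ 2))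
            = 2 * β / √n * N g * (√(∑ j, x a j ^ 2) * √(∑ j, x a j ^ 2)) := by
          simp only [hN]; ring
        rw [e]
        refine (mul_le_mul_of_nonneg_left h1 (by positivity)).trans (le_of_eq ?_)
        simp only [hK]; ring
      simp only [Set.mem_compl_iff, hg, not_false_eq_true, Set.indicator_of_mem]
      linarith
  have hNi : Integrable N (gp (Fin n)) := Edge.mean_norm_le.1
  have hind : Integrable (Gᶜ.indicator fun g => K * N g) (gp (Fin n)) :=
    (hNi.const_mul K).indicator hG.compl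
  refine (integral_mono (g := fun g => 1 + Gᶜ.indicator (fun g => K * N g) g)
    (Edge.integrable_maxLin _) ((integrable_const 1).add hind) hpt).trans ?_
  rw [integral_add (integrable_const 1) hind]
  simp only [integral_const, probReal_univ, one_smul]
  have hSi : Integrable (fun g : Fin n → ℝ => ∑ i, g i ^ 2) (gp (Fin n)) :=
    integrable_finsetSum _ fun i _ => (Edge.sq_coord i).1
  have hSv : ∫ g, ∑ i, g i ^ 2 ∂gp (Fin n) = n := by
    rw [integral_finsetSum _ fun i _ => (Edge.sq_coord i).1]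
    simp [fun i : Fin n => (Edge.sq_coord i).2]
  have hbound : ∫ g, Gᶜ.indicator (fun g => K * N g) g ∂gp (Fin n) ≤ 2 * β * B * √p := by
    rcases hp0.eq_or_lt with h | h
    · subst h
      have h0 : (gp (Fin n)) Gᶜ = 0 := by
        have := le_antisymm hp measureReal_nonneg
        rwa [measureReal_eq_zero_iff] at this
      rw [integral_indicator hG.compl, Measure.restrict_eq_zero.2 h0]
      simp
    -- N ≤ (S/s + s)/2 with s = √(n/p)
    set s := √n / √p with hs
    have hs0 : 0 < s := div_pos (sqrt_pos.2 hn') (sqrt_pos.2 h)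
    have hle : ∀ g, Gᶜ.indicator (fun g => K * N g) g
        ≤ K * ((∑ i, g i ^ 2) / s / 2) + Gᶜ.indicator (fun _ => K * (s / 2)) g := fun g => by
      have hS : 0 ≤ ∑ i, g i ^ 2 := sum_nonneg fun i _ => sq_nonneg _
      by_cases hg : g ∈ Gᶜ
      · simp only [hg, Set.indicator_of_mem, ← mul_add]
        refine mul_le_mul_of_nonneg_left ?_ hK0
        have := sq_sqrt hS
        simp only [hN]
        rw [show (∑ i, g i ^ 2) / s / 2 + s / 2 = ((∑ i, g i ^ 2) + s ^ 2) / (2 * s) by field_simp,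
          le_div_iff₀ (by positivity)]
        nlinarith [sq_nonneg (√(∑ i, g i ^ 2) - s)]
      · simp only [hg, not_false_eq_true, Set.indicator_of_notMem, add_zero]
        positivity
    have hc : Integrable (Gᶜ.indicator fun _ : Fin n → ℝ => K * (s / 2)) (gp (Fin n)) :=
      (integrable_const _).indicator hG.compl
    refine (integral_mono hind
      ((((hSi.div_const s).div_const 2).const_mul K).add hc) hle).trans ?_
    simp only [Pi.add_apply]
    rw [integral_add (((hSi.div_const s).div_const 2).const_mul K) hc, integral_const_mul,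
      integral_div, integral_div, hSv, integral_indicator_const _ hG.compl, smul_eq_mul]
    have h1 : (gp (Fin n)).real Gᶜ * (K * (s / 2)) ≤ p * (K * (s / 2)) :=
      mul_le_mul_of_nonneg_right hp (by positivity)
    refine (add_le_add le_rfl h1).trans (le_of_eq ?_)
    have h2 : (√(n : ℝ)) ^ 2 = n := sq_sqrt hn'.le
    have h3 : (√p) ^ 2 = p := sq_sqrt h.le
    simp only [hK, hs]
    field_simp
    rw [h2, h3]
    ring
  linarith

/-- The supremum of the quadratic form over a bounded set of vectors has an exponential tail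
above the bound for the comparison process. -/
theorem sup_qform_tail (hT : GaussTail) (hn : 0 < n) {β B p s : ℝ} (hβ : 0 < β) (hB : 0 < B)
    (hs : 0 ≤ s) (X : Set (Fin n → ℝ)) (hX : ∀ x ∈ X, ∑ i, x i ^ 2 ≤ B) {G : Set (Fin n → ℝ)}
    (hG : MeasurableSet G) (hp : (gp (Fin n)).real Gᶜ ≤ p)
    (hgood : ∀ g ∈ G, ∀ x ∈ X, β * (2 * √(∑ j, x j ^ 2) / √n) * (∑ i, g i * x i) ≤ 1) :
    (disX n).real {d | ∃ x ∈ X, 1 + 2 * β * B * √p + s < Ent.qform (kmat n β d) x}
      ≤ exp (-(s ^ 2 * n / (π ^ 2 * β ^ 2 * B ^ 2))) := by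
  have hn' : (0 : ℝ) < n := by exact_mod_cast hn
  have : IsProbabilityMeasure (disX n) := by unfold disX gp; infer_instance
  rcases X.eq_empty_or_nonempty with rfl | hne
  · simpa using (exp_pos _).le
  obtain ⟨D, hDX, hDc, hXD⟩ := (TopologicalSpace.IsSeparable.of_separableSpace X).exists_countable_dense_subset
  obtain ⟨f, hf⟩ : ∃ f : ℕ → Fin n → ℝ, D = Set.range f := by
    refine hDc.exists_eq_range ?_
    obtain ⟨x0, hx0⟩ := hne
    obtain ⟨y, -, hy⟩ := mem_closure_iff.1 (hXD hx0) Set.univ isOpen_univ trivial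
    exact ⟨y, hy⟩
  set th := 1 + 2 * β * B * √p + s
  set E : ℕ → Set (Dis n) := fun k => {d | ∃ j : Fin (k + 1), th < Ent.qform (kmat n β d) (f j)}
  have hfX : ∀ j, f j ∈ X := fun j => hDX (hf ▸ Set.mem_range_self j)
  have hsub : {d | ∃ x ∈ X, th < Ent.qform (kmat n β d) x} ⊆ ⋃ k, E k := by
    rintro d ⟨x, hx, hlt⟩
    have hcont : Continuous fun y : Fin n → ℝ => Ent.qform (kmat n β d) y := by
      unfold Ent.qform; fun_prop
    obtain ⟨y, hy1, hy2⟩ := mem_closure_iff.1 (hXD hx) _ (isOpen_lt continuous_const hcont) hlt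
    obtain ⟨j, rfl⟩ := hf ▸ hy2
    exact Set.mem_iUnion.2 ⟨j, ⟨j, Nat.lt_succ_self j⟩, hy1⟩
  have hmono : Monotone E := fun a b hab d hd => by
    obtain ⟨j, hj⟩ := hd
    exact ⟨⟨j, by omega⟩, hj⟩
  have hE : ∀ k, (disX n).real (E k) ≤ exp (-(s ^ 2 * n / (π ^ 2 * β ^ 2 * B ^ 2))) := fun k => by
    set v : Fin (k + 1) → Pair n ⊕ Fin n → ℝ := fun j => qcoef n β (f j)
    have hL : 0 < β * √2 * B / √n := by positivity
    have hv : ∀ j, ∑ q, v j q ^ 2 ≤ (β * √2 * B / √n) ^ 2 := fun j => by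
      have h := qcoef_sq hn β (f j) 0
      have e0 : ∀ q, qcoef n β (0 : Fin n → ℝ) q = 0 := fun q => by cases q <;> simp [qcoef]
      simp only [e0, sub_zero, Pi.zero_apply, mul_zero, sum_const_zero] at h
      simp only [v, h, div_pow, mul_pow, sq_sqrt zero_le_two, sq_sqrt hn'.le]
      have hB2 : (∑ i, f j i ^ 2) ^ 2 ≤ B ^ 2 :=
        pow_le_pow_left₀ (sum_nonneg fun i _ => sq_nonneg _) (hX _ (hfX j)) 2
      rw [div_mul_eq_mul_div, div_le_div_iff_of_pos_right hn']
      have := mul_le_mul_of_nonneg_left hB2 (sq_nonneg β)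
      norm_num
      linarith
    have hmean := mean_max_qform hn hβ.le hB.le (fun j : Fin (k + 1) => f j) (fun j => hX _ (hfX j))
      hG hp fun g hg j => hgood g hg _ (hfX j)
    have h := hT (Pair n ⊕ Fin n) (Edge.maxLin v) _ hL (Edge.maxLin_lip v hL.le hv) s hs
    refine le_trans (measureReal_mono (fun d hd => ?_) (measure_ne_top _ _)) (h.trans (le_of_eq ?_))
    · obtain ⟨j, hj⟩ := hd
      have h1 : P150.lin (v j) d ≤ Edge.maxLin v d :=
        Finset.le_sup' (fun b => P150.lin (v b) d) (mem_univ j)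
      rw [lin_qcoef] at h1
      simp only [Set.mem_ofPred_eq, v] at *
      linarith
    · congr 1
      simp only [div_pow, mul_pow, sq_sqrt zero_le_two, sq_sqrt hn'.le]
      field_simp
  refine (measureReal_mono hsub (measure_ne_top _ _)).trans ?_
  have hlim : Tendsto (fun k => (disX n).real (E k)) atTop (nhds ((disX n).real (⋃ k, E k))) := by
    simp only [measureReal_def]
    exact (ENNReal.tendsto_toReal (measure_ne_top _ _)).comp (tendsto_measure_iUnion_atTop hmono)
  exact le_of_tendsto' hlim hE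

end Vale.Agent.P150.Fast
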