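import Vale.Agent.P150.Fast.MarginAlg
import Vale.Agent.P150.Fast.MarginSF

/-!
The margin of the conditioned TAP Hessian (P150): at a point whose weighted statistics are those
of the replica-symmetric type, the conditioned coupling is dominated by the diagonal outside an
event of exponentially small probability.
-/

open MeasureTheory Real Finset Filter

namespace Vale.Agent.P150.Fast

variable {n : ℕ}

/-- The diagonal side of the margin: the TAP diagonal less the conditioned rank terms. -/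
noncomputable def margForm (t q η : ℝ) (m v r u : Fin n → ℝ) : ℝ :=
  ∑ i, u i ^ 2 * (1 / v i + t * (1 - q) - η) - rankForm t m (fun i => r i + t * (1 - q) * m i) u

theorem rankForm_ge (hn : 0 < n) {t q W : ℝ} (ht : 0 ≤ t) (hq : 0 < q) (hW : 0 ≤ W)
    {m w : Fin n → ℝ} (hm : ∑ i, m i ^ 2 = q * n) (hw : ∑ i, w i ^ 2 ≤ W ^ 2 * (q * n))
    (u : Fin n → ℝ) : -(3 * W * ∑ i, u i ^ 2) ≤ rankForm t m w u := by
  have hn' : (0 : ℝ) < n := by exact_mod_cast hn
  set N := q * (n : ℝ) with hN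
  have hN0 : 0 < N := mul_pos hq hn'
  set U := ∑ i, u i ^ 2 with hU
  have hU0 : 0 ≤ U := sum_nonneg fun i _ => sq_nonneg _
  set a := ∑ i, u i * m i
  set b := ∑ i, u i * w i
  set X := ∑ i, m i * w i
  have ha : a ^ 2 ≤ N * U := by
    have := sum_mul_sq_le_sq_mul_sq univ u m
    rw [hm] at this
    linarith [mul_comm U N]
  have hb : b ^ 2 ≤ W ^ 2 * N * U := by
    have h1 := sum_mul_sq_le_sq_mul_sq univ u w
    have h2 := mul_le_mul_of_nonneg_left hw hU0
    linarith [show U * (W ^ 2 * N) = W ^ 2 * N * U by ring]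
  have hab : |b * a| ≤ W * N * U := by
    refine abs_le_of_sq_le_sq ?_ (by positivity)
    rw [mul_pow]
    refine (mul_le_mul hb ha (sq_nonneg _) (by positivity)).trans (le_of_eq ?_)
    ring
  have hX : |X| ≤ W * N := by
    refine abs_le_of_sq_le_sq ?_ (by positivity)
    have h1 := sum_mul_sq_le_sq_mul_sq univ m w
    rw [hm] at h1
    have h2 := mul_le_mul_of_nonneg_left hw hN0.le
    linarith [show N * (W ^ 2 * N) = (W * N) ^ 2 by ring]
  have hXa : X * a ^ 2 ≤ W * N * (N * U) :=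
    mul_le_mul ((le_abs_self _).trans hX) ha (sq_nonneg _) (by positivity)
  have t1 : -(2 * W * U) ≤ 2 * b * a / N := by
    rw [le_div_iff₀ hN0]
    linarith [neg_abs_le (b * a)]
  have t2 : X * a ^ 2 / N ^ 2 ≤ W * U := by
    rw [div_le_iff₀ (by positivity)]
    linarith
  have t3 : 0 ≤ t / n * (∑ i, u i) ^ 2 := by positivity
  have t4 : 0 ≤ 2 * t / n * a ^ 2 := by positivity
  simp only [rankForm, hm]
  linarith

theorem margForm_smul (t q η c : ℝ) (m v r u : Fin n → ℝ) :
    margForm t q η m v r (fun i => c * u i) = c ^ 2 * margForm t q η m v r u := by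
  simp only [margForm, rankForm, mul_pow, mul_assoc, ← mul_sum]
  ring

theorem projOff_smul (c : ℝ) (m u : Fin n → ℝ) :
    projOff m (fun i => c * u i) = fun i => c * projOff m u i := by
  funext i
  simp only [projOff, mul_assoc, ← mul_sum]
  ring

theorem lin_tail (hT : GaussTail) {c : Fin n → ℝ} {S e : ℝ} (hS : 0 < S)
    (hc : ∑ i, c i ^ 2 ≤ S * n) (hn : 0 < n) (he : 0 ≤ e) :
    (gp (Fin n)).real {g | e * n < |∑ i, g i * c i|} ≤ 2 * exp (-(2 * e ^ 2 * n / (π ^ 2 * S))) := by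
  have hn' : (0 : ℝ) < n := by exact_mod_cast hn
  have key : ∀ c : Fin n → ℝ, ∑ i, c i ^ 2 ≤ S * n →
      (gp (Fin n)).real {g | e * n ≤ ∑ i, g i * c i} ≤ exp (-(2 * e ^ 2 * n / (π ^ 2 * S))) := by
    intro c hc
    have hL : 0 < √(S * n) := sqrt_pos.2 (mul_pos hS hn')
    have h0 : ∫ g, (∑ i, g i * c i) ∂gp (Fin n) = 0 := by
      rw [integral_finsetSum _ fun i _ => (integrable_coord i).mul_const _]
      refine sum_eq_zero fun i _ => ?_
      have mp : MeasurePreserving (fun g : Fin n → ℝ => g i) (gp (Fin n))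
          (ProbabilityTheory.gaussianReal 0 1) := measurePreserving_eval _ i
      rw [integral_mul_const, show ∫ g, g i ∂gp (Fin n) = ∫ x, x ∂ProbabilityTheory.gaussianReal 0 1 by
        rw [← mp.map_eq, integral_map mp.measurable.aemeasurable]
        exact continuous_id.aestronglyMeasurable]
      simp
    have h := hT (Fin n) (fun g => ∑ i, g i * c i) √(S * n) hL (fun g h => by
      have h1 := abs_le_sqrt (sum_mul_sq_le_sq_mul_sq univ (fun i => g i - h i) c)
      rw [← sum_sub_distrib]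
      simp only [← sub_mul]
      refine h1.trans ?_
      rw [sqrt_mul (sum_nonneg fun i _ => sq_nonneg _), mul_comm]
      exact mul_le_mul_of_nonneg_right (sqrt_le_sqrt hc) (sqrt_nonneg _)) (e * n) (by positivity)
    rw [h0, zero_add] at h
    refine h.trans (le_of_eq ?_)
    rw [sq_sqrt (by positivity)]
    congr 1
    field_simp
  have hsub : {g : Fin n → ℝ | e * n < |∑ i, g i * c i|}
      ⊆ {g | e * n ≤ ∑ i, g i * c i} ∪ {g | e * n ≤ ∑ i, g i * (-c i)} := fun g hg => by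
    simp only [Set.mem_union, Set.mem_ofPred_eq, mul_neg, sum_neg_distrib] at hg ⊢
    rcases le_total 0 (∑ i, g i * c i) with h | h
    · rw [abs_of_nonneg h] at hg; exact Or.inl hg.le
    · rw [abs_of_nonpos h] at hg; exact Or.inr hg.le
  refine ((measureReal_mono hsub (measure_ne_top _ _)).trans (measureReal_union_le _ _)).trans ?_
  have := key c hc
  have := key (fun i => -c i) (by simpa using hc)
  linarith

theorem sq_tail (hT : GaussTail) {v : Fin n → ℝ} (hv : ∀ i, 0 ≤ v i) (hv1 : ∀ i, v i ≤ 1)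
    {U e : ℝ} (hU : ∑ i, v i ≤ U * n) (he : 0 ≤ e) :
    (gp (Fin n)).real {g | √U * √n + e * √n < √(∑ i, v i * g i ^ 2)}
      ≤ exp (-(2 * e ^ 2 * n / π ^ 2)) := by
  set f : (Fin n → ℝ) → ℝ := fun g => √(∑ i, v i * g i ^ 2) with hf
  have hlip : ∀ g h, |f g - f h| ≤ 1 * √(∑ i, (g i - h i) ^ 2) := by
    have key : ∀ g h, f g ≤ f h + √(∑ i, (g i - h i) ^ 2) := fun g h => by
      have hh : 0 ≤ ∑ i, v i * h i ^ 2 := sum_nonneg fun i _ => mul_nonneg (hv i) (sq_nonneg _)
      have hd : 0 ≤ ∑ i, (g i - h i) ^ 2 := sum_nonneg fun i _ => sq_nonneg _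
      rw [sqrt_le_left (by positivity)]
      have hcs := Real.sum_mul_le_sqrt_mul_sqrt univ (fun i => √(v i) * h i)
        (fun i => √(v i) * (g i - h i))
      have e1 : ∑ i, (√(v i) * (g i - h i)) ^ 2 ≤ ∑ i, (g i - h i) ^ 2 := sum_le_sum fun i _ => by
        rw [mul_pow, sq_sqrt (hv i)]
        exact mul_le_of_le_one_left (sq_nonneg _) (hv1 i)
      have e2 : ∑ i, (√(v i) * h i) ^ 2 = ∑ i, v i * h i ^ 2 :=
        sum_congr rfl fun i _ => by rw [mul_pow, sq_sqrt (hv i)]
      have e3 : ∑ i, v i * g i ^ 2 = ∑ i, v i * h i ^ 2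
          + 2 * (∑ i, √(v i) * h i * (√(v i) * (g i - h i))) + ∑ i, (√(v i) * (g i - h i)) ^ 2 := by
        rw [mul_sum, ← sum_add_distrib, ← sum_add_distrib]
        refine sum_congr rfl fun i _ => ?_
        have := sq_sqrt (hv i)
        linear_combination (h i ^ 2 - g i ^ 2) * this
      rw [e2] at hcs
      have e4 := mul_le_mul_of_nonneg_left (sqrt_le_sqrt e1) (sqrt_nonneg (∑ i, v i * h i ^ 2))
      simp only [hf]
      rw [add_sq, sq_sqrt hh, sq_sqrt hd]
      linarith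
    intro g h
    have e : √(∑ i, (h i - g i) ^ 2) = √(∑ i, (g i - h i) ^ 2) := by
      congr 1; exact sum_congr rfl fun i _ => by ring
    rw [one_mul, abs_sub_le_iff]
    exact ⟨by linarith [key g h], by have := key h g; rw [e] at this; linarith⟩
  rcases Nat.eq_zero_or_pos n with rfl | hn
  · refine le_of_eq_of_le ?_ (exp_pos _).le
    simp
  have hn' : (0 : ℝ) < n := by exact_mod_cast hn
  have hU0 : 0 ≤ U := nonneg_of_mul_nonneg_left ((sum_nonneg fun i _ => hv i).trans hU) hn'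
  have hsi : ∀ i : Fin n, Integrable (fun g : Fin n → ℝ => v i * g i ^ 2) (gp (Fin n)) :=
    fun i => (Edge.sq_coord i).1.const_mul _
  have hmean : ∫ g, f g ∂gp (Fin n) ≤ √U * √n := by
    rcases eq_or_lt_of_le (sum_nonneg fun i (_ : i ∈ univ) => hv i) with h | h
    · have : ∀ i, v i = 0 := fun i => (sum_eq_zero_iff_of_nonneg fun i _ => hv i).1 h.symm i (mem_univ i)
      simp only [hf, this, zero_mul, sum_const_zero, sqrt_zero, integral_zero]
      positivity
    set S := √(U * n) with hS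
    have hS0 : 0 < S := sqrt_pos.2 (lt_of_lt_of_le h hU)
    have hpt : ∀ g, f g ≤ (∑ i, v i * g i ^ 2) / (2 * S) + S / 2 := fun g => by
      have h0 : 0 ≤ ∑ i, v i * g i ^ 2 := sum_nonneg fun i _ => mul_nonneg (hv i) (sq_nonneg _)
      rw [div_add_div _ _ (by positivity) two_ne_zero, le_div_iff₀ (by positivity)]
      have := sq_sqrt h0
      simp only [hf]
      linarith [two_mul_le_add_sq √(∑ i, v i * g i ^ 2) S]
    have hI : Integrable (fun g : Fin n → ℝ => (∑ i, v i * g i ^ 2) / (2 * S)) (gp (Fin n)) :=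
      (integrable_finsetSum _ fun i _ => hsi i).div_const _
    have hfi : Integrable f (gp (Fin n)) := (hI.add (integrable_const (S / 2))).mono'
      (Continuous.aestronglyMeasurable (by fun_prop))
      (ae_of_all _ fun g => by rw [Real.norm_eq_abs, abs_of_nonneg (sqrt_nonneg _)]; exact hpt g)
    refine (integral_mono hfi (hI.add (integrable_const (S / 2))) hpt).trans ?_
    simp only [Pi.add_apply]
    rw [integral_add hI (integrable_const _), integral_div, integral_finsetSum _ fun i _ => hsi i]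
    simp only [integral_const_mul, fun i : Fin n => (Edge.sq_coord i).2, mul_one, integral_const,
      probReal_univ, one_smul]
    rw [← sqrt_mul hU0, ← hS, div_add_div _ _ (by positivity) two_ne_zero, div_le_iff₀ (by positivity)]
    have : S ^ 2 = U * n := sq_sqrt (by positivity)
    linarith
  have h := hT (Fin n) f 1 one_pos hlip (e * √n) (by positivity)
  refine le_trans (measureReal_mono (fun g hg => ?_) (measure_ne_top _ _)) (h.trans (le_of_eq ?_))
  · simp only [Set.mem_ofPred_eq] at hg ⊢; linarith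
  · rw [mul_pow, sq_sqrt hn'.le]; congr 1; ring

/-- The set of comparison vectors on which the pointwise bound holds. -/
def goodDir (t q U e : ℝ) (m v r : Fin n → ℝ) : Set (Fin n → ℝ) :=
  {g | |∑ i, g i * (v i * spec t q m r i)| ≤ e * n ∧ |∑ i, g i * v i| ≤ e * n ∧
    |∑ i, g i * (v i * m i)| ≤ e * n ∧ |∑ i, g i * m i| ≤ e * n ∧
    √(∑ i, v i * g i ^ 2) ≤ √U * √n + e * √n}

theorem measurableSet_goodDir (t q U e : ℝ) (m v r : Fin n → ℝ) :
    MeasurableSet (goodDir t q U e m v r) := by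
  have hcl : ∀ c : Fin n → ℝ, IsClosed {g : Fin n → ℝ | |∑ i, g i * c i| ≤ e * n} := fun c =>
    isClosed_le (by fun_prop) continuous_const
  have hsq : IsClosed {g : Fin n → ℝ | √(∑ i, v i * g i ^ 2) ≤ √U * √n + e * √n} :=
    isClosed_le (by fun_prop) continuous_const
  exact ((hcl fun i => v i * spec t q m r i).inter ((hcl v).inter
    ((hcl fun i => v i * m i).inter ((hcl m).inter hsq)))).measurableSet

theorem goodDir_prob (hT : GaussTail) (hn : 0 < n) {t q U e S : ℝ} (hS : 0 ≤ S) (he : 0 ≤ e)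
    {m v r : Fin n → ℝ} (hv : ∀ i, 0 < v i) (hv1 : ∀ i, v i ≤ 1) (hm1 : ∀ i, |m i| ≤ 1)
    (hvs : ∑ i, v i ≤ U * n) (hS1 : ∑ i, v i * spec t q m r i ^ 2 ≤ S * n) :
    (gp (Fin n)).real (goodDir t q U e m v r)ᶜ ≤ 8 * exp (-(2 * e ^ 2 * n / (π ^ 2 * (S + 1))))
      + exp (-(2 * e ^ 2 * n / π ^ 2)) := by
  have hn' : (0 : ℝ) < n := by exact_mod_cast hn
  have hsub : (goodDir t q U e m v r)ᶜ ⊆ {g | e * n < |∑ i, g i * (v i * spec t q m r i)|}
      ∪ ({g | e * n < |∑ i, g i * v i|} ∪ ({g | e * n < |∑ i, g i * (v i * m i)|}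
      ∪ ({g | e * n < |∑ i, g i * m i|}
      ∪ {g | √U * √n + e * √n < √(∑ i, v i * g i ^ 2)}))) := fun g hg => by
    simp only [goodDir, Set.mem_compl_iff, Set.mem_ofPred_eq, not_and_or, not_le] at hg
    exact hg
  refine (measureReal_mono hsub (measure_ne_top _ _)).trans ?_
  refine (measureReal_union_le _ _).trans ((add_le_add le_rfl ((measureReal_union_le _ _).trans
    (add_le_add le_rfl ((measureReal_union_le _ _).trans (add_le_add le_rfl
      (measureReal_union_le _ _)))))).trans ?_)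
  have hS' : (0 : ℝ) < S + 1 := by linarith
  have hsum : ∀ f : Fin n → ℝ, (∀ i, |f i| ≤ 1) → ∑ i, f i ^ 2 ≤ (S + 1) * n := fun f hf => by
    refine (sum_le_sum fun i _ => (sq_le_one_iff_abs_le_one _).2 (hf i)).trans ?_
    simp only [sum_const, card_univ, Fintype.card_fin, nsmul_eq_mul, mul_one]
    exact le_mul_of_one_le_left hn'.le (by linarith)
  have habs : ∀ i, |v i| ≤ 1 := fun i => by rw [abs_of_pos (hv i)]; exact hv1 i
  have a1 := lin_tail hT hS' (c := fun i => v i * spec t q m r i) (e := e) (by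
    refine (sum_le_sum fun i _ => ?_).trans (hS1.trans ?_)
    · rw [mul_pow]
      exact mul_le_mul_of_nonneg_right (pow_le_of_le_one (hv i).le (hv1 i) two_ne_zero) (sq_nonneg _)
    · exact mul_le_mul_of_nonneg_right (by linarith) hn'.le) hn he
  have a2 := lin_tail hT hS' (hsum v habs) hn he
  have a3 := lin_tail hT hS' (hsum (fun i => v i * m i) fun i => by
    rw [abs_mul]; exact mul_le_one₀ (habs i) (abs_nonneg _) (hm1 i)) hn he
  have a4 := lin_tail hT hS' (hsum m hm1) hn he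
  have a5 := sq_tail hT (fun i => (hv i).le) hv1 hvs he
  linarith

theorem combine {ζ M tl κ η W tU R E U P G L : ℝ}
    (h1 : (1 + ζ) * (R + P + G) ≤ (1 + ζ) * (M * E + (tl + κ) * U))
    (h2 : (1 - (1 + ζ) * M) * U ≤ (1 - (1 + ζ) * M) * E)
    (h3 : ((1 + ζ) * (M + tl + κ) + η + 3 * ζ * W) * U ≤ (1 + tU) * U)
    (h4 : ζ * -(3 * W * U) ≤ ζ * R) (hL : L = P + G) :
    (1 + ζ) * L ≤ E + (tU - η) * U - R := by
  subst hL
  linarith

theorem good_pointwise (hn : 0 < n) {t q lam κ η ζ W S e M U : ℝ} (ht : 0 < t)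
    (hq : 0 < q) (hq1 : q < 1) (hlam : 1 - q ≤ lam) (hU1 : U ≤ 1) (hζ : 0 ≤ ζ) (hW : 0 ≤ W) (hS : 0 ≤ S)
    (he : 0 ≤ e) {m v r g : Fin n → ℝ} (hv : ∀ i, 0 < v i) (hv1 : ∀ i, v i ≤ 1)
    (hm : ∑ i, m i ^ 2 = q * n) (hvs : ∑ i, v i ≤ U * n) (hm1 : ∀ i, |m i| ≤ 1)
    (hκ : |∑ i, m i * r i - t * (1 - q) * q * n| ≤ κ * q * n)
    (hw : ∑ i, (r i + t * (1 - q) * m i) ^ 2 ≤ W ^ 2 * (q * n))
    (hS1 : ∑ i, v i * spec t q m r i ^ 2 ≤ S * n)
    (hS2 : |∑ i, v i * spec t q m r i| ≤ e * n)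
    (hM1 : t / (2 + (1 - q) / q) * S + t * e + (e + e / q * (S + 1)) / lam ≤ M)
    (hM2 : t / (2 + (1 - q) / q) * e + t * U + (e + e / q) / lam ≤ M)
    (hM3 : t / (2 + (1 - q) / q) * (e + e / q * (S + 1)) + t * (e + e / q)
      + ((√U + e) ^ 2 + 2 * (e / q * e) + (e / q) ^ 2) / lam ≤ M)
    (hMζ : (1 + ζ) * M ≤ 1)
    (hroom : (1 + ζ) * (M + t * lam + κ) + η + 3 * ζ * W ≤ 1 + t * (1 - q))
    (hg : g ∈ goodDir t q U e m v r) (u : Fin n → ℝ) :
    (1 + ζ) * (t * lam * ∑ i, projOff m u i ^ 2 + (∑ i, g i * projOff m u i) ^ 2 / (lam * n))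
      ≤ margForm t q η m v r u := by
  obtain ⟨g1, g2, g3, g4, g5⟩ := hg
  have hn' : (0 : ℝ) < n := by exact_mod_cast hn
  have hlam0 : 0 < lam := lt_of_lt_of_le (by linarith) hlam
  have hN : (0 : ℝ) < q * n := mul_pos hq hn'
  set A := ∑ j, g j * m j with hA'
  set a := A / (q * n) with ha
  have hA : |a| ≤ e / q := by
    rw [ha, abs_div, abs_of_pos hN, div_le_div_iff₀ hN hq]
    linarith [mul_le_mul_of_nonneg_right g4 hq.le]
  have hP : ∀ i, projOff m g i = g i - a * m i := fun i => by rw [projOff, hm]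
  have hm2 : ∀ i, m i ^ 2 ≤ 1 := fun i => (sq_le_one_iff_abs_le_one _).2 (hm1 i)
  set sp := spec t q m r
  have b1 : |∑ i, v i * sp i * m i| ≤ (S + 1) * n := by
    refine (abs_sum_le_sum_abs _ _).trans ?_
    calc ∑ i, |v i * sp i * m i| ≤ ∑ i, (v i * sp i ^ 2 + v i) := by
          refine sum_le_sum fun i _ => ?_
          rw [abs_mul, abs_mul, abs_of_pos (hv i), ← mul_add_one, mul_assoc]
          refine mul_le_mul_of_nonneg_left ?_ (hv i).le
          refine (mul_le_of_le_one_right (abs_nonneg _) (hm1 i)).trans ?_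
          linarith [sq_nonneg (|sp i| - 1), sq_abs (sp i), abs_nonneg (sp i)]
      _ ≤ (S + 1) * n := by
          rw [sum_add_distrib, add_mul, one_mul]
          have : U * n ≤ (n : ℝ) := mul_le_of_le_one_left hn'.le hU1
          linarith
  have b2 : |∑ i, v i * m i| ≤ n := by
    refine (abs_sum_le_sum_abs _ _).trans ((sum_le_sum fun i _ => ?_).trans_eq
      (show ∑ _i : Fin n, (1 : ℝ) = n by simp))
    rw [abs_mul, abs_of_pos (hv i)]
    exact mul_le_one₀ (hv1 i) (abs_nonneg _) (hm1 i)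
  have b3 : ∑ i, v i * m i ^ 2 ≤ n := by
    refine (sum_le_sum fun i _ => ?_).trans_eq (show ∑ _i : Fin n, (1 : ℝ) = n by simp)
    exact mul_le_one₀ (hv1 i) (sq_nonneg _) (hm2 i)
  have c13 : |∑ i, v i * sp i * projOff m g i| ≤ (e + e / q * (S + 1)) * n := by
    have e1 : ∑ i, v i * sp i * projOff m g i
        = ∑ i, g i * (v i * sp i) - a * ∑ i, v i * sp i * m i := by
      rw [mul_sum, ← sum_sub_distrib]
      exact sum_congr rfl fun i _ => by rw [hP]; ring
    rw [e1]
    refine (abs_sub _ _).trans ?_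
    rw [abs_mul, add_mul, mul_assoc]
    exact add_le_add g1 (mul_le_mul hA b1 (abs_nonneg _) (by positivity))
  have c23 : |∑ i, v i * projOff m g i| ≤ (e + e / q) * n := by
    have e1 : ∑ i, v i * projOff m g i = ∑ i, g i * v i - a * ∑ i, v i * m i := by
      rw [mul_sum, ← sum_sub_distrib]
      exact sum_congr rfl fun i _ => by rw [hP]; ring
    rw [e1]
    refine (abs_sub _ _).trans ?_
    rw [abs_mul, add_mul]
    exact add_le_add g2 (mul_le_mul hA b2 (abs_nonneg _) (by positivity))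
  have c33 : |∑ i, v i * projOff m g i ^ 2|
      ≤ ((√U + e) ^ 2 + 2 * (e / q * e) + (e / q) ^ 2) * n := by
    rw [abs_of_nonneg (sum_nonneg fun i _ => mul_nonneg (hv i).le (sq_nonneg _))]
    have e1 : ∑ i, v i * projOff m g i ^ 2 = ∑ i, v i * g i ^ 2
        - 2 * a * (∑ i, g i * (v i * m i)) + a ^ 2 * ∑ i, v i * m i ^ 2 := by
      rw [mul_sum, mul_sum, ← sum_sub_distrib, ← sum_add_distrib]
      exact sum_congr rfl fun i _ => by rw [hP]; ring
    have d1 : ∑ i, v i * g i ^ 2 ≤ (√U + e) ^ 2 * n := by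
      have h0 : 0 ≤ ∑ i, v i * g i ^ 2 := sum_nonneg fun i _ => mul_nonneg (hv i).le (sq_nonneg _)
      have h1 := pow_le_pow_left₀ (sqrt_nonneg _) g5 2
      rw [sq_sqrt h0, ← add_mul, mul_pow, sq_sqrt hn'.le] at h1
      exact h1
    have d2 : |a * ∑ i, g i * (v i * m i)| ≤ e / q * (e * n) := by
      rw [abs_mul]; exact mul_le_mul hA g3 (abs_nonneg _) (by positivity)
    have d3 : a ^ 2 * ∑ i, v i * m i ^ 2 ≤ (e / q) ^ 2 * n := by
      refine mul_le_mul ?_ b3 (sum_nonneg fun i _ => mul_nonneg (hv i).le (sq_nonneg _))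
        (sq_nonneg _)
      rw [← sq_abs a]
      exact pow_le_pow_left₀ (abs_nonneg _) hA 2
    rw [e1]
    linarith only [d1, d2, d3, neg_abs_le (a * ∑ i, g i * (v i * m i))]
  have hv' : |∑ i, v i| ≤ U * n := by
    rwa [abs_of_nonneg (sum_nonneg fun i _ => (hv i).le)]
  have hS' : |∑ i, v i * sp i ^ 2| ≤ S * n := by
    rwa [abs_of_nonneg (sum_nonneg fun i _ => mul_nonneg (hv i).le (sq_nonneg _))]
  set α := t / (2 + (1 - q) / q) with hα
  have hk : 0 ≤ (1 - q) / q := div_nonneg (by linarith) hq.le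
  have hα0 : 0 ≤ α := by positivity
  have conv : ∀ {a b c A B C : ℝ}, a ≤ A * n → b ≤ B * n → c ≤ C * n →
      α / n * a + t / n * b + 1 / (lam * n) * c ≤ α * A + t * B + C / lam := by
    intro a b c A B C h1 h2 h3
    have i1 := mul_le_mul_of_nonneg_left h1 (show 0 ≤ α / n by positivity)
    have i2 := mul_le_mul_of_nonneg_left h2 (show 0 ≤ t / n by positivity)
    have i3 := mul_le_mul_of_nonneg_left h3 (show 0 ≤ 1 / (lam * n) by positivity)
    have e1 : α / n * (A * n) = α * A := by field_simp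
    have e2 : t / n * (B * n) = t * B := by field_simp
    have e3 : 1 / (lam * n) * (C * n) = C / lam := by field_simp
    linarith
  have hM0 : 0 ≤ M := le_trans (by positivity) hM3
  have hp := margin_pointwise hn ht hq hq1.le hlam hlam0 hv hm hκ hM0
    ((conv hS' hS2 c13).trans hM1) ((conv hS2 hv' c23).trans hM2)
    ((conv c13 c23 c33).trans hM3) u
  have hr := rankForm_ge hn ht.le hq hW hm (w := fun i => r i + t * (1 - q) * m i) hw u
  have hd : ∑ i, u i ^ 2 ≤ ∑ i, u i ^ 2 / v i := sum_le_sum fun i _ => by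
    rw [le_div_iff₀ (hv i)]
    exact mul_le_of_le_one_right (sq_nonneg _) (hv1 i)
  have hU : 0 ≤ ∑ i, u i ^ 2 := sum_nonneg fun i _ => sq_nonneg _
  have h1 := mul_le_mul_of_nonneg_left hp (show 0 ≤ 1 + ζ by linarith)
  have h2 := mul_le_mul_of_nonneg_left hd (show 0 ≤ 1 - (1 + ζ) * M by linarith)
  have h3 := mul_le_mul_of_nonneg_right hroom hU
  have h4 := mul_le_mul_of_nonneg_left hr hζ
  have e0 : ∑ i, u i ^ 2 * (1 / v i + t * (1 - q) - η)
      = ∑ i, u i ^ 2 / v i + (t * (1 - q) - η) * ∑ i, u i ^ 2 := by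
    rw [mul_sum, ← sum_add_distrib]
    exact sum_congr rfl fun i _ => by ring
  rw [margForm, e0]
  generalize rankForm t m (fun i => r i + t * (1 - q) * m i) u = R at h1 h4 ⊢
  exact combine h1 h2 h3 h4 rfl

/-- The margin event. The statistics `S` and `e` of the point and the numerical room `ζ` are
explicit; the last hypothesis holds for large `n`. -/
theorem margin_event (hT : GaussTail) (hn : 0 < n) {t q lam κ η ζ W S e M U : ℝ} (ht : 0 < t)
    (hq : 0 < q) (hq1 : q < 1) (hlam : 1 - q ≤ lam) (hU1 : U ≤ 1) (hζ : 0 < ζ) (hW : 0 ≤ W) (hS : 0 ≤ S)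
    (he : 0 < e) {m v r : Fin n → ℝ} (hv : ∀ i, 0 < v i) (hv1 : ∀ i, v i ≤ 1)
    (hm : ∑ i, m i ^ 2 = q * n) (hvs : ∑ i, v i ≤ U * n) (hm1 : ∀ i, |m i| ≤ 1)
    (hκ : |∑ i, m i * r i - t * (1 - q) * q * n| ≤ κ * q * n)
    (hw : ∑ i, (r i + t * (1 - q) * m i) ^ 2 ≤ W ^ 2 * (q * n))
    (hS1 : ∑ i, v i * spec t q m r i ^ 2 ≤ S * n)
    (hS2 : |∑ i, v i * spec t q m r i| ≤ e * n)
    (hM1 : t / (2 + (1 - q) / q) * S + t * e + (e + e / q * (S + 1)) / lam ≤ M)
    (hM2 : t / (2 + (1 - q) / q) * e + t * U + (e + e / q) / lam ≤ M)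
    (hM3 : t / (2 + (1 - q) / q) * (e + e / q * (S + 1)) + t * (e + e / q)
      + ((√U + e) ^ 2 + 2 * (e / q * e) + (e / q) ^ 2) / lam ≤ M)
    (hMζ : (1 + ζ) * M ≤ 1)
    (hroom : (1 + ζ) * (M + t * lam + κ) + η + 3 * ζ * W ≤ 1 + t * (1 - q))
    (hlarge : 2 * √t * (1 / (t * lam)) * √(8 * exp (-(2 * e ^ 2 * n / (π ^ 2 * (S + 1))))
      + exp (-(2 * e ^ 2 * n / π ^ 2))) ≤ ζ / 2) :
    (disX n).real {d | ∃ u, margForm t q η m v r u < Ent.qform (kmat n √t d) (projOff m u)}
      ≤ exp (-((ζ / 2) ^ 2 * n * (t * lam ^ 2) / π ^ 2)) := by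
  have hlam0 : 0 < lam := lt_of_lt_of_le (by linarith) hlam
  have : IsProbabilityMeasure (disX n) := by unfold disX gp; infer_instance
  have hpt := fun g hg u => good_pointwise hn ht hq hq1 hlam hU1 hζ.le hW hS he.le hv hv1 hm hvs hm1
    hκ hw hS1 hS2 hM1 hM2 hM3 hMζ hroom (g := g) hg u
  set p := 8 * exp (-(2 * e ^ 2 * n / (π ^ 2 * (S + 1)))) + exp (-(2 * e ^ 2 * n / π ^ 2))
  have hp : (gp (Fin n)).real (goodDir t q U e m v r)ᶜ ≤ p :=
    goodDir_prob hT hn hS he.le hv hv1 hm1 hvs hS1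
  set g0 : Fin n → ℝ := fun _ => 0 with hg0d
  have hg0 : g0 ∈ goodDir t q U e m v r := by
    simp only [goodDir, Set.mem_ofPred_eq, hg0d, zero_mul, sum_const_zero, abs_zero]
    have h1 : 0 ≤ e * (n : ℝ) := by positivity
    refine ⟨h1, h1, h1, h1, ?_⟩
    simp
    positivity
  set B := 1 / (t * lam) with hB
  set X : Set (Fin n → ℝ) := {x | ∃ u, x = projOff m u ∧ margForm t q η m v r u ≤ 1 + ζ}
  have hX : ∀ x ∈ X, ∑ i, x i ^ 2 ≤ B := by
    rintro x ⟨u, rfl, hu⟩
    have h := hpt g0 hg0 u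
    have h0 : 0 ≤ (∑ i, g0 i * projOff m u i) ^ 2 / (lam * n) := by positivity
    rw [hB, le_div_iff₀ (mul_pos ht hlam0)]
    have : t * lam * ∑ i, projOff m u i ^ 2 ≤ 1 :=
      le_of_mul_le_mul_left (a := 1 + ζ) (by
        linarith [mul_nonneg (show 0 ≤ 1 + ζ by linarith) h0]) (by linarith)
    linarith
  have hgood : ∀ g ∈ goodDir t q U e m v r, ∀ x ∈ X,
      √t * (2 * √(∑ j, x j ^ 2) / √n) * (∑ i, g i * x i) ≤ 1 := by
    rintro g hg x ⟨u, rfl, hu⟩
    have h := hpt g hg u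
    set x := projOff m u
    have hP : 0 ≤ ∑ j, x j ^ 2 := sum_nonneg fun i _ => sq_nonneg _
    have hn' : (0 : ℝ) < n := by exact_mod_cast hn
    have hAG : √t * (2 * √(∑ j, x j ^ 2) / √n) * (∑ i, g i * x i)
        ≤ t * lam * ∑ j, x j ^ 2 + (∑ i, g i * x i) ^ 2 / (lam * n) := by
      set a := √(t * lam) * √(∑ j, x j ^ 2) with ha
      set b := (∑ i, g i * x i) / (√lam * √n) with hb
      have e1 : a ^ 2 = t * lam * ∑ j, x j ^ 2 := by
        rw [ha, mul_pow, sq_sqrt (by positivity), sq_sqrt hP]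
      have e2 : b ^ 2 = (∑ i, g i * x i) ^ 2 / (lam * n) := by
        rw [hb, div_pow, mul_pow, sq_sqrt hlam0.le, sq_sqrt hn'.le]
      have e3 : √t * (2 * √(∑ j, x j ^ 2) / √n) * (∑ i, g i * x i) = 2 * a * b := by
        rw [ha, hb, sqrt_mul ht.le]; field_simp
      rw [← e1, ← e2, e3]
      exact two_mul_le_add_sq a b
    refine hAG.trans (le_of_mul_le_mul_left (a := 1 + ζ) ?_ (by linarith))
    linarith
  have h := sup_qform_tail hT hn (sqrt_pos.2 ht) (show 0 < B by positivity) (s := ζ / 2)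
    (by linarith) X hX (measurableSet_goodDir t q U e m v r) hp hgood
  refine le_trans (measureReal_mono ?_ (measure_ne_top _ _)) (h.trans (le_of_eq ?_))
  · rintro d ⟨u, hu⟩
    set F := margForm t q η m v r u
    have hF := hpt g0 hg0 u
    have hF0 : 0 ≤ F := by
      refine le_trans ?_ hF
      positivity
    have hq0 : 0 < Ent.qform (kmat n √t d) (projOff m u) := hF0.trans_lt hu
    rcases hF0.eq_or_lt with h0 | h0
    · exfalso
      have hz : ∀ i, projOff m u i = 0 := fun i => by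
        by_contra hne
        have hp0 : 0 < ∑ j, projOff m u j ^ 2 := lt_of_lt_of_le (by positivity)
          (single_le_sum (f := fun j => projOff m u j ^ 2) (fun j _ => sq_nonneg _) (mem_univ i))
        have : 0 < (1 + ζ) * (t * lam * ∑ j, projOff m u j ^ 2
            + (∑ j, g0 j * projOff m u j) ^ 2 / (lam * n)) := by positivity
        linarith
      simp [Ent.qform, hz] at hq0
    set c := √((1 + ζ) / F)
    have hc : c ^ 2 = (1 + ζ) / F := sq_sqrt (by positivity)
    refine ⟨projOff m fun i => c * u i, ⟨_, rfl, by rw [margForm_smul, hc, div_mul_cancel₀ _ h0.ne']⟩, ?_⟩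
    rw [projOff_smul, show Ent.qform (kmat n √t d) (fun i => c * projOff m u i)
      = c ^ 2 * Ent.qform (kmat n √t d) (projOff m u) by
        simp only [Ent.qform, mul_sum]; exact sum_congr rfl fun i _ => sum_congr rfl fun j _ => by ring]
    have h2 : 1 + ζ < c ^ 2 * Ent.qform (kmat n √t d) (projOff m u) := by
      rw [hc, div_mul_eq_mul_div, lt_div_iff₀ h0]
      exact mul_lt_mul_of_pos_left hu (by linarith)
    refine lt_of_le_of_lt ?_ h2
    rw [hB]
    linarith
  · rw [hB, sq_sqrt ht.le]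
    congr 1
    field_simp

end Vale.Agent.P150.Fast
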