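import Vale.Agent.P150.Fast.Cond
import Vale.Agent.P150.Fast.Margin
import Vale.Agent.P150.Fast.LogDetMat
import Vale.Agent.P150.Scalar

/-!
Gaussian ingredients of the upper bound on the logarithm of the determinant of the bulk Hessian
(P150): the bulk margin, the second moment of a quadratic trace, and truncated second moments.
-/

open MeasureTheory Real Finset Matrix

namespace Vale.Agent.P150.Fast

variable {n : ℕ}

theorem lin_sq {ι : Type} [Fintype ι] (c : ι → ℝ) :
    Integrable (fun g => lin c g ^ 2) (gp ι) ∧ ∫ g, lin c g ^ 2 ∂gp ι = ∑ i, c i ^ 2 := by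
  set S := √(∑ i, c i ^ 2) with hS
  have hlaw : (gp ι).map (fun g (_ : Fin 1) => lin c g) = (gp (Fin 1)).map (fun z _ => lin (fun _ => S) z) :=
    lin_image_eq (fun g _ => lin c g) (fun z _ => lin (fun _ => S) z) (fun _ => c) (fun _ _ => S)
      (fun _ _ => rfl) (fun _ _ => rfl) fun ξ => by
        simp only [Fin.sum_univ_one, mul_pow, ← mul_sum]
        rw [hS, sq_sqrt (sum_nonneg fun i _ => sq_nonneg _)]
  have mA : Measurable fun g (_ : Fin 1) => lin c g :=
    measurable_pi_lambda _ fun _ => (continuous_lin _).measurable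
  have mB : Measurable fun z (_ : Fin 1) => lin (fun _ : Fin 1 => S) z :=
    measurable_pi_lambda _ fun _ => (continuous_lin _).measurable
  have hB : Integrable (fun z : Fin 1 → ℝ => lin (fun _ => S) z ^ 2) (gp (Fin 1)) ∧
      ∫ z, lin (fun _ : Fin 1 => S) z ^ 2 ∂gp (Fin 1) = ∑ i, c i ^ 2 := by
    have h := Edge.sq_coord (ι := Fin 1) 0
    simp only [lin, Fin.sum_univ_one, mul_pow]
    refine ⟨h.1.mul_const _, ?_⟩
    rw [integral_mul_const, h.2, one_mul, hS, sq_sqrt (sum_nonneg fun i _ => sq_nonneg _)]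
  have hf : AEStronglyMeasurable (fun w : Fin 1 → ℝ => w 0 ^ 2)
      ((gp ι).map fun g (_ : Fin 1) => lin c g) := Continuous.aestronglyMeasurable (by fun_prop)
  have hf' : AEStronglyMeasurable (fun w : Fin 1 → ℝ => w 0 ^ 2)
      ((gp (Fin 1)).map fun z (_ : Fin 1) => lin (fun _ => S) z) :=
    Continuous.aestronglyMeasurable (by fun_prop)
  constructor
  · have h2 := (integrable_map_measure hf' mB.aemeasurable).2 hB.1
    rw [← hlaw] at h2
    exact (integrable_map_measure hf mA.aemeasurable).1 h2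
  · have e := congrArg (fun μ => ∫ w : Fin 1 → ℝ, w 0 ^ 2 ∂μ) hlaw
    simp only [integral_map mA.aemeasurable hf, integral_map mB.aemeasurable hf'] at e
    rw [e]
    exact hB.2

theorem lin_mul {ι : Type} [Fintype ι] (a b : ι → ℝ) :
    Integrable (fun g => lin a g * lin b g) (gp ι) ∧
      ∫ g, lin a g * lin b g ∂gp ι = ∑ i, a i * b i := by
  have e : ∀ g : ι → ℝ, lin a g * lin b g
      = (lin (fun i => a i + b i) g ^ 2 - lin a g ^ 2 - lin b g ^ 2) / 2 := fun g => by
    have : lin (fun i => a i + b i) g = lin a g + lin b g := by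
      simp only [lin, mul_add, sum_add_distrib]
    rw [this]; ring
  simp only [e]
  have h := lin_sq fun i => a i + b i
  refine ⟨((h.1.sub (lin_sq a).1).sub (lin_sq b).1).div_const 2, ?_⟩
  rw [integral_div, integral_sub (f := fun g => lin (fun i => a i + b i) g ^ 2 - lin a g ^ 2)
    (h.1.sub (lin_sq a).1) (lin_sq b).1, integral_sub h.1 (lin_sq a).1, h.2, (lin_sq a).2, (lin_sq b).2,
    ← sum_sub_distrib, ← sum_sub_distrib, sum_div]
  exact sum_congr rfl fun i _ => by ring

/-- The polarised coefficients. -/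
noncomputable def pol (x y : Fin n → ℝ) (k : Pair n ⊕ Fin n) : ℝ :=
  (coef (fun i => x i + y i) k - coef x k - coef y k) / 2

theorem pol_inner (x y z w : Fin n → ℝ) :
    ∑ k, pol x y k * pol z w k = (∑ i, x i * z i) * (∑ i, y i * w i) + (∑ i, x i * w i) * (∑ i, y i * z i) := by
  have e : ∀ k, pol x y k * pol z w k
      = (coef (fun i => x i + y i) k * coef (fun i => z i + w i) k
        - coef (fun i => x i + y i) k * coef z k - coef (fun i => x i + y i) k * coef w k
        - coef x k * coef (fun i => z i + w i) k + coef x k * coef z k + coef x k * coef w k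
        - coef y k * coef (fun i => z i + w i) k + coef y k * coef z k + coef y k * coef w k) / 4 :=
    fun k => by simp only [pol]; ring
  simp only [e, ← sum_div, sum_add_distrib, sum_sub_distrib, coef_inner]
  simp only [add_mul, mul_add, sum_add_distrib]
  ring

theorem goe_bilin (d : Dis n) (x y : Fin n → ℝ) :
    ∑ i, ∑ j, x i * goe n d i j * y j = lin (pol x y) d := by
  have h : ∀ u, lin (coef u) d = Ent.qform (goe n d) u := fun u => (qform_goe d u).symm
  have e : lin (pol x y) d = (lin (coef fun i => x i + y i) d - lin (coef x) d - lin (coef y) d) / 2 := by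
    simp only [lin, pol, ← sum_sub_distrib, sum_div]
    exact sum_congr rfl fun k _ => by ring
  rw [e, h, h, h]
  simp only [Ent.qform, ← sum_sub_distrib]
  have e2 : ∀ i j, (x i + y i) * goe n d i j * (x j + y j) - x i * goe n d i j * x j
      - y i * goe n d i j * y j = x i * goe n d i j * y j + y i * goe n d i j * x j := fun i j => by ring
  simp only [e2, sum_add_distrib]
  have : ∑ i, ∑ j, y i * goe n d i j * x j = ∑ i, ∑ j, x i * goe n d i j * y j := by
    rw [Finset.sum_comm]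
    exact sum_congr rfl fun i _ => sum_congr rfl fun j _ => by rw [goe_symm]; ring
  rw [this]
  ring

theorem goe_entry (d : Dis n) (a b : Fin n) :
    goe n d a b = lin (pol (Pi.single a 1) (Pi.single b 1)) d := by
  rw [← goe_bilin]
  simp [Pi.single_apply]

/-- The second moment of the quadratic trace. -/
theorem trace_sq_mean {G : Matrix (Fin n) (Fin n) ℝ} (hG : G.IsSymm) :
    Integrable (fun d => (G * goe n d * (G * goe n d)).trace) (disX n) ∧
      ∫ d, (G * goe n d * (G * goe n d)).trace ∂disX n = G.trace ^ 2 + fsq G := by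
  have e : ∀ d : Dis n, (G * goe n d * (G * goe n d)).trace
      = ∑ a, ∑ c, ∑ b, ∑ f, G a b * G c f * (goe n d b c * goe n d f a) := fun d => by
    simp only [Matrix.trace, Matrix.diag, Matrix.mul_apply, sum_mul, mul_sum]
    refine sum_congr rfl fun a _ => sum_congr rfl fun c _ => ?_
    rw [Finset.sum_comm]
    exact sum_congr rfl fun b _ => sum_congr rfl fun f _ => by ring
  have hI : ∀ a b c f : Fin n, Integrable (fun d => G a b * G c f * (goe n d b c * goe n d f a))
      (disX n) := fun a b c f => by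
    simp only [goe_entry]
    exact (lin_mul _ _).1.const_mul _
  simp only [e]
  refine ⟨integrable_finsetSum _ fun a _ => integrable_finsetSum _ fun c _ =>
    integrable_finsetSum _ fun b _ => integrable_finsetSum _ fun f _ => hI a b c f, ?_⟩
  rw [integral_finsetSum _ fun a _ => integrable_finsetSum _ fun c _ =>
    integrable_finsetSum _ fun b _ => integrable_finsetSum _ fun f _ => hI a b c f]
  simp only [fun a => integral_finsetSum (μ := disX n) univ (f := fun c d => ∑ b, ∑ f,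
      G a b * G c f * (goe n d b c * goe n d f a)) fun c _ =>
      integrable_finsetSum _ fun b _ => integrable_finsetSum _ fun f _ => hI a b c f,
    fun a c => integral_finsetSum (μ := disX n) univ (f := fun b d => ∑ f,
      G a b * G c f * (goe n d b c * goe n d f a)) fun b _ =>
      integrable_finsetSum _ fun f _ => hI a b c f,
    fun a c b => integral_finsetSum (μ := disX n) univ (f := fun f d =>
      G a b * G c f * (goe n d b c * goe n d f a)) fun f _ => hI a b c f]
  simp only [integral_const_mul, goe_entry, fun p q : Pair n ⊕ Fin n → ℝ =>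
    show ∫ d, lin p d * lin q d ∂disX n = ∑ i, p i * q i from (lin_mul p q).2, pol_inner,
    Pi.single_apply, ite_mul, one_mul, zero_mul, sum_ite_eq', mem_univ, if_true]
  simp only [mul_add, sum_add_distrib, mul_ite, mul_one, mul_zero]
  rw [fsq_eq, Matrix.trace, pow_two, sum_mul_sum, add_comm]
  simp [hG.apply, pow_two, Matrix.diag]

/-- Truncated second moments, by the fourth moment. -/
theorem sq_sum_indicator {ι : Type} [Fintype ι] {B : Set (ι → ℝ)} (hB : MeasurableSet B) {M : ℝ}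
    (hM : 0 < M) :
    ∫ g, B.indicator (fun g => ∑ i, g i ^ 2) g ∂gp ι
      ≤ (Fintype.card ι : ℝ) * (3 / (2 * M) + M / 2 * (gp ι).real B) := by
  have h4 : ∀ i : ι, Integrable (fun g : ι → ℝ => g i ^ 4) (gp ι) ∧
      ∫ g, g i ^ 4 ∂gp ι = 3 := fun i => by
    have mp : MeasurePreserving (fun g : ι → ℝ => g i) (gp ι) (ProbabilityTheory.gaussianReal 0 1) :=
      measurePreserving_eval _ i
    refine ⟨mp.integrable_comp_of_integrable (integrable_pow_gauss 4), ?_⟩
    rw [show ∫ g, g i ^ 4 ∂gp ι = ∫ x : ℝ, x ^ 4 ∂ProbabilityTheory.gaussianReal 0 1 by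
      rw [← mp.map_eq, integral_map mp.measurable.aemeasurable]
      exact (continuous_pow 4).aestronglyMeasurable]
    have h := moment_step 2
    have h0 := moment_step 0
    simp at h h0
    rw [h, h0]
    norm_num
  have hpt : ∀ g : ι → ℝ, B.indicator (fun g => ∑ i, g i ^ 2) g
      ≤ ∑ i, (g i ^ 4 / (2 * M) + B.indicator (fun _ => M / 2) g) := fun g => by
    by_cases hg : g ∈ B
    · simp only [Set.indicator_of_mem hg]
      refine sum_le_sum fun i _ => ?_
      rw [div_add_div _ _ (by positivity) two_ne_zero, le_div_iff₀ (by positivity)]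
      linarith [sq_nonneg (g i ^ 2 - M)]
    · simp only [Set.indicator_of_notMem hg, add_zero]
      exact sum_nonneg fun i _ => by positivity
  have hI : ∀ i : ι, Integrable (fun g : ι → ℝ => g i ^ 4 / (2 * M) + B.indicator (fun _ => M / 2) g)
      (gp ι) := fun i => ((h4 i).1.div_const _).add ((integrable_const _).indicator hB)
  refine (integral_mono ((integrable_finsetSum _ fun i _ => (Edge.sq_coord i).1).indicator hB)
    (integrable_finsetSum _ fun i _ => hI i) hpt).trans (le_of_eq ?_)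
  rw [integral_finsetSum _ fun i _ => hI i]
  simp only [fun i => integral_add ((h4 i).1.div_const (2 * M)) ((integrable_const (M / 2)).indicator hB),
    integral_div, fun i => (h4 i).2, integral_indicator_const _ hB, smul_eq_mul, sum_const, card_univ,
    nsmul_eq_mul]
  ring

theorem op_of_qform {M : Matrix (Fin n) (Fin n) ℝ} (hM : M.IsSymm) {R : ℝ} (hR : 0 ≤ R)
    (h : ∀ u, |u ⬝ᵥ (M *ᵥ u)| ≤ R * ∑ i, u i ^ 2) (u : Fin n → ℝ) :
    ∑ i, (M *ᵥ u) i ^ 2 ≤ R ^ 2 * ∑ i, u i ^ 2 := by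
  set w := M *ᵥ u
  set U := ∑ i, u i ^ 2
  set W := ∑ i, w i ^ 2
  have hU : 0 ≤ U := sum_nonneg fun i _ => sq_nonneg _
  have hW : 0 ≤ W := sum_nonneg fun i _ => sq_nonneg _
  rcases hW.eq_or_lt with h0 | h0
  · rw [← h0]; positivity
  set a := √U
  set b := √W
  have hb : 0 < b := sqrt_pos.2 h0
  have ha2 : a ^ 2 = U := sq_sqrt hU
  have hb2 : b ^ 2 = W := sq_sqrt hW
  have hwu : w ⬝ᵥ (M *ᵥ u) = W := by simp [dotProduct, W, w, pow_two]
  have huw : u ⬝ᵥ (M *ᵥ w) = W := by
    rw [dotProduct_mulVec, ← mulVec_transpose, hM.eq]; simp [dotProduct, W, w, pow_two]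
  have ex : ∀ c : ℝ, (b • u + c • w) ⬝ᵥ (M *ᵥ (b • u + c • w))
      = b ^ 2 * (u ⬝ᵥ (M *ᵥ u)) + 2 * b * c * W + c ^ 2 * (w ⬝ᵥ (M *ᵥ w)) := fun c => by
    simp only [mulVec_add, mulVec_smul, add_dotProduct, dotProduct_add, smul_dotProduct,
      dotProduct_smul, smul_eq_mul]
    rw [hwu, huw]
    ring
  have en : ∀ c : ℝ, ∑ i, (b • u + c • w) i ^ 2 = b ^ 2 * U + 2 * b * c * (u ⬝ᵥ w) + c ^ 2 * W :=
    fun c => by
    simp only [U, W, dotProduct, mul_sum, ← sum_add_distrib, Pi.add_apply, Pi.smul_apply, smul_eq_mul]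
    exact sum_congr rfl fun i _ => by ring
  have h1 := (abs_le.1 (h (b • u + a • w))).2
  have h2 := (abs_le.1 (h (b • u + (-a) • w))).1
  rw [ex, en] at h1 h2
  have h3 : b * a * W ≤ R * (b ^ 2 * a ^ 2) := by
    rw [← ha2, ← hb2] at h1 h2
    rw [← hb2]
    linarith
  rcases (sqrt_nonneg U).eq_or_lt with hz | hz
  · exfalso
    have hu : ∀ i, u i = 0 := fun i => by
      have : U = 0 := by rw [← sqrt_eq_zero hU]; exact hz.symm
      simpa using (sum_eq_zero_iff_of_nonneg fun i _ => sq_nonneg (u i)).1 this i (mem_univ i)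
    have : w = 0 := by
      change M *ᵥ u = 0
      rw [show u = 0 from funext hu, mulVec_zero]
    simp [W, this] at h0
  have h4 : b ≤ R * a := by
    rw [← hb2] at h3
    refine le_of_mul_le_mul_left ?_ (mul_pos (pow_pos hb 2) hz)
    linarith
  rw [← hb2, ← ha2, ← mul_pow]
  exact pow_le_pow_left₀ hb.le h4 2

theorem inv_bounds {X : Matrix (Fin n) (Fin n) ℝ} (hX : X.IsSymm) {η : ℝ} (hη : 0 < η)
    (h : ∀ u, η * ∑ i, u i ^ 2 ≤ u ⬝ᵥ (X *ᵥ u)) :
    (∀ u, ∑ i, (X⁻¹ *ᵥ u) i ^ 2 ≤ (∑ i, u i ^ 2) / η ^ 2) ∧ fsq X⁻¹ ≤ n / η ^ 2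
      ∧ 0 ≤ X⁻¹.trace ∧ X⁻¹.trace ≤ n / η := by
  have hu : IsUnit X.det := isUnit_iff_ne_zero.2 (posDef_of_qform hX hη h).det_pos.ne'
  have key : ∀ u, √(∑ i, (X⁻¹ *ᵥ u) i ^ 2) ≤ √(∑ i, u i ^ 2) / η ∧
      0 ≤ u ⬝ᵥ (X⁻¹ *ᵥ u) ∧ u ⬝ᵥ (X⁻¹ *ᵥ u) ≤ (∑ i, u i ^ 2) / η := fun u => by
    set w := X⁻¹ *ᵥ u
    have hw : X *ᵥ w = u := by rw [mulVec_mulVec, Matrix.mul_nonsing_inv _ hu, one_mulVec]
    have h1 := h w
    rw [hw, dotProduct_comm] at h1
    have hcs : u ⬝ᵥ w ≤ √(∑ i, u i ^ 2) * √(∑ i, w i ^ 2) := Real.sum_mul_le_sqrt_mul_sqrt univ u w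
    have hW : 0 ≤ ∑ i, w i ^ 2 := sum_nonneg fun i _ => sq_nonneg _
    have h2 : √(∑ i, w i ^ 2) ≤ √(∑ i, u i ^ 2) / η := by
      rw [le_div_iff₀ hη]
      rcases (sqrt_nonneg (∑ i, w i ^ 2)).eq_or_lt with h0 | h0
      · rw [← h0, zero_mul]; exact sqrt_nonneg _
      · refine le_of_mul_le_mul_right ?_ h0
        nlinarith [mul_self_sqrt hW]
    refine ⟨h2, by nlinarith, hcs.trans ((mul_le_mul_of_nonneg_left h2 (sqrt_nonneg _)).trans_eq ?_)⟩
    rw [← mul_div_assoc, mul_self_sqrt (sum_nonneg fun i _ => sq_nonneg _)]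
  have hop : ∀ u, ∑ i, (X⁻¹ *ᵥ u) i ^ 2 ≤ (∑ i, u i ^ 2) / η ^ 2 := fun u => by
    have := pow_le_pow_left₀ (sqrt_nonneg _) (key u).1 2
    rwa [sq_sqrt (sum_nonneg fun i _ => sq_nonneg _), div_pow,
      sq_sqrt (sum_nonneg fun i _ => sq_nonneg _)] at this
  refine ⟨hop, ?_, ?_, ?_⟩
  · rw [fsq_eq, Finset.sum_comm]
    refine (sum_le_sum fun j _ => ?_).trans_eq
      (show ∑ _j : Fin n, (1 : ℝ) / η ^ 2 = n / η ^ 2 by simp [div_eq_mul_inv])
    have := hop (Pi.single j 1)
    simpa [Matrix.mulVec_single_one, Pi.single_apply, ite_pow] using this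
  · refine sum_nonneg fun i _ => ?_
    simpa [dotProduct, Pi.single_apply, Matrix.mulVec_single_one] using (key (Pi.single i 1)).2.1
  · refine (sum_le_sum fun i _ => ?_).trans_eq
      (show ∑ _j : Fin n, (1 : ℝ) / η = n / η by simp [div_eq_mul_inv])
    simpa [dotProduct, Pi.single_apply, Matrix.mulVec_single_one, ite_pow] using
      (key (Pi.single i 1)).2.2

/-- The bulk margin holds outside an event of exponentially small probability. -/
theorem bulk_event (hT : GaussTail) (hn : 0 < n) {τ U lam η ζ e : ℝ} (hτ : 0 < τ) (hU : 0 ≤ U)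
    (hlam : 0 < lam) (hη : 0 < η) (hζ : 0 < ζ) (he : 0 < e) {v : Fin n → ℝ} (hv : ∀ i, 0 < v i)
    (hv1 : ∀ i, v i ≤ 1) (hvs : ∑ i, v i ≤ U * n)
    (hroom : (1 + ζ) * ((√U + e) ^ 2 / lam + τ * lam) + 2 * η ≤ 1 + τ * U)
    (hMζ : (1 + ζ) * ((√U + e) ^ 2 / lam) ≤ 1)
    (hlarge : 2 * √τ * ((1 + ζ) / η) * √(exp (-(2 * e ^ 2 * n / π ^ 2))) ≤ ζ / 2) :
    (disX n).real {d | ¬ ∀ u : Fin n → ℝ,
        Ent.qform (kmat n √τ d) u ≤ ∑ i, u i ^ 2 * (1 / v i + τ * U - η)}
      ≤ exp (-((ζ / 2) ^ 2 * n * η ^ 2 / (π ^ 2 * τ * (1 + ζ) ^ 2))) := by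
  have hn' : (0 : ℝ) < n := by exact_mod_cast hn
  have : IsProbabilityMeasure (disX n) := inferInstance
  set Q : (Fin n → ℝ) → ℝ := fun u => ∑ i, u i ^ 2 * (1 / v i + τ * U - η) with hQ
  set G : Set (Fin n → ℝ) := {g | √(∑ i, v i * g i ^ 2) ≤ √U * √n + e * √n}
  have hGm : MeasurableSet G := (isClosed_le (by fun_prop) continuous_const).measurableSet
  have hp : (gp (Fin n)).real Gᶜ ≤ exp (-(2 * e ^ 2 * n / π ^ 2)) := by
    refine le_trans (measureReal_mono (fun g hg => ?_) (measure_ne_top _ _))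
      (sq_tail hT (fun i => (hv i).le) hv1 hvs he.le)
    simpa [G, not_le] using hg
  set B := (1 + ζ) / η
  set X : Set (Fin n → ℝ) := {u | Q u ≤ 1 + ζ}
  have hQlow : ∀ g ∈ G, ∀ u, (1 + ζ) * (τ * lam * ∑ i, u i ^ 2 + (∑ i, g i * u i) ^ 2 / (lam * n))
      + η * ∑ i, u i ^ 2 ≤ Q u := fun g hg u => by
    set M := (√U + e) ^ 2
    have hS : ∑ i, v i * g i ^ 2 ≤ M * n := by
      have h1 := pow_le_pow_left₀ (sqrt_nonneg _) hg 2
      rw [sq_sqrt (sum_nonneg fun i _ => mul_nonneg (hv i).le (sq_nonneg _)), ← add_mul, mul_pow,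
        sq_sqrt hn'.le] at h1
      exact h1
    set E := ∑ i, u i ^ 2 / v i
    have hE0 : 0 ≤ E := sum_nonneg fun i _ => div_nonneg (sq_nonneg _) (hv i).le
    have hcs : (∑ i, g i * u i) ^ 2 ≤ M * n * E := by
      have h := sum_mul_sq_le_sq_mul_sq univ (fun i => √(v i) * g i) (fun i => u i / √(v i))
      have e1 : ∀ i, √(v i) * g i * (u i / √(v i)) = g i * u i := fun i => by
        have := (sqrt_pos.2 (hv i)).ne'
        field_simp
      have e2 : ∑ i, (√(v i) * g i) ^ 2 = ∑ i, v i * g i ^ 2 :=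
        sum_congr rfl fun i _ => by rw [mul_pow, sq_sqrt (hv i).le]
      have e3 : ∑ i, (u i / √(v i)) ^ 2 = E :=
        sum_congr rfl fun i _ => by rw [div_pow, sq_sqrt (hv i).le]
      simp only [e1, e2, e3] at h
      exact h.trans (mul_le_mul_of_nonneg_right hS hE0)
    have h2 : (∑ i, g i * u i) ^ 2 / (lam * n) ≤ M / lam * E := by
      rw [div_le_iff₀ (mul_pos hlam hn')]
      refine hcs.trans (le_of_eq ?_)
      field_simp
    have hd : ∑ i, u i ^ 2 ≤ E := sum_le_sum fun i _ => by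
      rw [le_div_iff₀ (hv i)]
      exact mul_le_of_le_one_right (sq_nonneg _) (hv1 i)
    have e0 : Q u = E + (τ * U - η) * ∑ i, u i ^ 2 := by
      simp only [hQ, E]
      rw [mul_sum, ← sum_add_distrib]
      exact sum_congr rfl fun i _ => by ring
    have h3 := mul_le_mul_of_nonneg_left h2 (show 0 ≤ 1 + ζ by linarith)
    have h4 := mul_le_mul_of_nonneg_left hd (show 0 ≤ 1 - (1 + ζ) * (M / lam) by linarith)
    have h5 := mul_le_mul_of_nonneg_right hroom (sum_nonneg fun i _ => sq_nonneg (u i) : 0 ≤ ∑ i, u i ^ 2)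
    rw [e0]
    linarith only [h3, h4, h5]
  have hG0 : (fun _ => (0 : ℝ)) ∈ G := by simp [G]; positivity
  have hbase : ∀ u, η * ∑ i, u i ^ 2 ≤ Q u := fun u => by
    refine le_trans (le_add_of_nonneg_left ?_) (hQlow _ hG0 u)
    positivity
  have hXB : ∀ x ∈ X, ∑ i, x i ^ 2 ≤ B := fun x hx => by
    rw [le_div_iff₀ hη]; linarith [hbase x, show Q x ≤ 1 + ζ from hx]
  have hgood : ∀ g ∈ G, ∀ x ∈ X, √τ * (2 * √(∑ j, x j ^ 2) / √n) * (∑ i, g i * x i) ≤ 1 := by
    intro g hg x hx
    have hP : 0 ≤ ∑ j, x j ^ 2 := sum_nonneg fun i _ => sq_nonneg _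
    have hAG : √τ * (2 * √(∑ j, x j ^ 2) / √n) * (∑ i, g i * x i)
        ≤ τ * lam * ∑ j, x j ^ 2 + (∑ i, g i * x i) ^ 2 / (lam * n) := by
      set a := √(τ * lam) * √(∑ j, x j ^ 2) with ha
      set b := (∑ i, g i * x i) / (√lam * √n) with hb
      have e1 : a ^ 2 = τ * lam * ∑ j, x j ^ 2 := by
        rw [ha, mul_pow, sq_sqrt (by positivity), sq_sqrt hP]
      have e2 : b ^ 2 = (∑ i, g i * x i) ^ 2 / (lam * n) := by
        rw [hb, div_pow, mul_pow, sq_sqrt hlam.le, sq_sqrt hn'.le]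
      have e3 : √τ * (2 * √(∑ j, x j ^ 2) / √n) * (∑ i, g i * x i) = 2 * a * b := by
        rw [ha, hb, sqrt_mul hτ.le]; field_simp
      rw [← e1, ← e2, e3]
      exact two_mul_le_add_sq a b
    refine hAG.trans (le_of_mul_le_mul_left (a := 1 + ζ) ?_ (by linarith))
    have := hQlow g hg x
    have hx' : Q x ≤ 1 + ζ := hx
    nlinarith
  have h := sup_qform_tail hT hn (sqrt_pos.2 hτ) (show 0 < B by positivity) (s := ζ / 2)
    (by linarith) X hXB hGm hp hgood
  refine le_trans (measureReal_mono ?_ (measure_ne_top _ _)) (h.trans (le_of_eq ?_))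
  · intro d hd
    simp only [Set.mem_ofPred_eq, not_forall, not_le] at hd
    obtain ⟨u, hu⟩ := hd
    have hu' : Q u < Ent.qform (kmat n √τ d) u := hu
    have hpos : 0 < ∑ i, u i ^ 2 := by
      rcases (sum_nonneg fun i (_ : i ∈ univ) => sq_nonneg (u i)).eq_or_lt with h0 | h0
      · exfalso
        have hu0 : ∀ i, u i = 0 := fun i => by
          simpa using (sum_eq_zero_iff_of_nonneg fun i _ => sq_nonneg (u i)).1 h0.symm i (mem_univ i)
        simp [hQ, Ent.qform, hu0] at hu'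
      · exact h0
    have hF : 0 < Q u := lt_of_lt_of_le (mul_pos hη hpos) (hbase u)
    set c := √((1 + ζ) / Q u)
    have hc : c ^ 2 = (1 + ζ) / Q u := sq_sqrt (by positivity)
    refine ⟨fun i => c * u i, ?_, ?_⟩
    · change Q (fun i => c * u i) ≤ 1 + ζ
      have : Q (fun i => c * u i) = c ^ 2 * Q u := by
        simp only [hQ, mul_sum]; exact sum_congr rfl fun i _ => by ring
      rw [this, hc, div_mul_cancel₀ _ hF.ne']
    · rw [qform_smul]
      refine lt_of_le_of_lt (b := 1 + ζ) (by linarith) ?_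
      rw [hc, div_mul_eq_mul_div, lt_div_iff₀ hF]
      exact mul_lt_mul_of_pos_left hu' (by linarith)
  · rw [sq_sqrt hτ.le]
    congr 1
    simp only [B]
    field_simp

end Vale.Agent.P150.Fast
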