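import Vale.Agent.P150.Fast.Goe
import Vale.Agent.P150.Fast.Drift.Node
import Vale.Agent.P150.Fast.Drift.Tensor
import Vale.Agent.P150.Fast.Drift.Extra

/-!
Module M8 (P150): warm tensorisation of entropy from centres on an exponential mesh.
-/

open MeasureTheory Real Finset Filter
open scoped Matrix

namespace Vale.Agent.P150.Fast

open Drift

variable {n : ℕ}

/-- The weight of a level of phase I. -/
theorem sum_quad_phase (B : Fin n → Fin n → ℝ) (U N : ℕ) (x : Conf n) :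
    ∑ l ∈ range ((U + 1) * N ^ 2), Ent.quad (phaseB B N l) x
      = (N : ℝ) ^ 2 * Ent.quad B x + (U : ℝ) * (N : ℝ) ^ 2 * n := by
  rw [show (U + 1) * N ^ 2 = N ^ 2 + U * N ^ 2 by ring, sum_range_add]
  congr 1
  · rw [sum_congr rfl fun l hl => by rw [phaseB, if_pos (mem_range.1 hl)]]
    simp
  · rw [sum_congr rfl fun l _ => by rw [phaseB, if_neg (by omega), quad_idB]]
    simp

/-- The root is the Gibbs measure. -/
theorem root_weight {β : ℝ} {d : Dis n} {B : Fin n → Fin n → ℝ} {U N : ℕ} {t : ℝ}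
    (hB : ∀ v : Vec n, ∑ u, bvec B v u ^ 2 = Ent.qform (aop n β d) v) (hNt : (N : ℝ) ^ 2 * t ^ 2 = 1)
    (x : Conf n) : nodeW (phaseB B N) t ((U + 1) * N ^ 2) 0 x
      = Ent.mass (nodeW (phaseB B N) t ((U + 1) * N ^ 2) 0) * mu n β (offd d) x := by
  have he : ∀ x, nodeW (phaseB B N) t ((U + 1) * N ^ 2) 0 x
      = exp ((β / √n * √2 * ∑ i, d (Sum.inr i) + shift β * n + U * n) / 2)
        * exp (energy n β (offd d) x) := fun x => by
    rw [nodeW, sum_quad_phase, ← exp_add]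
    congr 1
    have h1 : Ent.quad B x = Ent.qform (aop n β d) (vec x) := hB (vec x)
    have h2 : Ent.qform (aop n β d) (vec x) = Ent.qform (kmat n β d) (vec x) + shift β * n := by
      simp only [Ent.qform, aop, Matrix.add_apply, Matrix.smul_apply, Matrix.one_apply, smul_eq_mul,
        mul_add, add_mul, sum_add_distrib, mul_ite, ite_mul, mul_one, mul_zero, zero_mul, sum_ite_eq,
        mem_univ, if_true]
      congr 1
      have : ∀ i, vec x i * (shift β * vec x i) = shift β := fun i => by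
        rw [mul_left_comm, vec, spin_sq, mul_one]
      simp [this, mul_comm]
    have e : t ^ 2 / 2 * ((N : ℝ) ^ 2 * Ent.quad B x + (U : ℝ) * (N : ℝ) ^ 2 * n)
        = ((N : ℝ) ^ 2 * t ^ 2) * (Ent.quad B x + U * n) / 2 := by ring
    rw [e, hNt, one_mul, h1, h2, qform_kmat_vec]
    simp [Ent.lin]
    ring
  rw [Ent.mass, he x]
  simp only [he, ← mul_sum, mu]
  field_simp

/-- The root has small probability of bad nodes below. -/
theorem root_bad {β L γ κ : ℝ} {U : ℕ} {d : Dis n} {B : Fin n → Fin n → ℝ} {N : ℕ} {P : ℝ}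
    {M : ℕ → Vec n → Vec n} {G : ℕ → Set (Vec n)} (hD : NodeData β L γ κ U d B N P M G)
    (hN0 : (0 : ℝ) < N) :
    badF (phaseB B N) (1 / (N : ℝ)) G (fun _ => 1) ((U + 1) * N ^ 2) 0
      ≤ Ent.mass (nodeW (phaseB B N) (1 / (N : ℝ)) ((U + 1) * N ^ 2) 0)
        * (((U : ℝ) + 1) * exp (-(γ * n / 2))) := by
  set t := 1 / (N : ℝ) with ht
  have ht0 : 0 < t := by rw [ht]; positivity
  have hNt : (N : ℝ) ^ 2 * t ^ 2 = 1 := by rw [ht]; field_simp
  set Bs := phaseB B N with hBs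
  set W := nodeW Bs t ((U + 1) * N ^ 2) 0 with hW'
  have hm := Ent.mass_pos (W := W) fun x => nodeW_pos _ _ _
  set m := Ent.mass W with hm'
  set μ := mu n β (offd d) with hμ
  have hmu : ∀ x, W x = m * μ x := root_weight hD.factor hNt
  have hμp : ∀ x, 0 < μ x := fun x => div_pos (exp_pos _) (sum_pos (fun y _ => exp_pos _) univ_nonempty)
  rw [badF]
  simp only [mul_one, hmu, mul_assoc, ← mul_sum, ← hW']
  refine mul_le_mul_of_nonneg_left ?_ hm.le
  set K := (U + 1) * N ^ 2 with hK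
  set p1 : Conf n → ℕ → ℝ := fun x i =>
    (gp (Fin n)).real {g | sideField ((i : ℝ) / (N : ℝ) ^ 2) x g ∉ G (K - i)} with hp1
  set p2 : Conf n → ℕ → ℝ := fun x i =>
    ∫ g₁, (gp (Fin n)).real {g₂ | nodeField β d B U N i x g₁ g₂ ∉ G (N ^ 2 - i)} ∂gp (Fin n) with hp2
  have hx : ∀ x, badP Bs t G K 0 x
      ≤ ∑ i ∈ range (U * N ^ 2), p1 x i + ∑ i ∈ range (N ^ 2), p2 x i := by
    intro x
    have hK' : K = N ^ 2 + U * N ^ 2 := by rw [hK]; ring
    have hI := badP_le_sum (B := idB n) (Bs := Bs) (t := t) hD.meas_good ht0.le x (U * N ^ 2) (N ^ 2) 0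
      fun l h1 _ => by rw [hBs, phaseB, if_neg (by omega)]
    rw [← hK'] at hI
    refine hI.trans (add_le_add (le_of_eq (sum_congr rfl fun i _ => ?_)) ?_)
    · have e : (i : ℝ) / (N : ℝ) ^ 2 = i * t ^ 2 := by rw [ht]; ring
      simp only [hp1, e, fieldAt_idB ht0.le]
    · have e : ∀ g₁, fieldAt (idB n) t x 0 (U * N ^ 2) g₁ = sideField (U : ℝ) x g₁ := fun g₁ => by
        rw [fieldAt_idB ht0.le]
        congr 1
        push_cast
        rw [mul_assoc, hNt, mul_one]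
      simp only [e]
      have hII : ∀ H, badP Bs t G (N ^ 2) H x ≤ ∑ i ∈ range (N ^ 2),
          (gp (Fin n)).real {g | fieldAt B t x H i g ∉ G (N ^ 2 - i)} := fun H => by
        have := badP_le_sum (B := B) (Bs := Bs) (t := t) hD.meas_good ht0.le x (N ^ 2) 0 H
          fun l _ h2 => by rw [hBs, phaseB, if_pos (by omega)]
        simpa [badP, zero_add] using this
      have hs : Measurable fun g₁ : Vec n => sideField (U : ℝ) x g₁ := by unfold sideField; fun_prop
      have hi : ∀ i, Integrable (fun g₁ => (gp (Fin n)).real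
          {g | fieldAt B t x (sideField (U : ℝ) x g₁) i g ∉ G (N ^ 2 - i)}) (gp (Fin n)) := fun i => by
        have hf : Measurable fun p : Vec n × Vec n => fieldAt B t x (sideField (U : ℝ) x p.1) i p.2 := by
          unfold fieldAt sideField; fun_prop
        have hm' := measurable_measure_prodMk_left (ν := gp (Fin n))
          (hf (hD.meas_good (N ^ 2 - i)).compl)
        exact Integrable.of_bound hm'.ennreal_toReal.aestronglyMeasurable 1 (ae_of_all _ fun g => by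
          rw [Real.norm_eq_abs, abs_of_nonneg measureReal_nonneg]; exact measureReal_le_one)
      refine (integral_mono ?_ (integrable_finsetSum _ fun i _ => hi i) fun g₁ => hII _).trans ?_
      · exact Integrable.of_bound ((badP_prop hD.meas_good _ x).1.comp hs).aestronglyMeasurable 1
          (ae_of_all _ fun g => by
            obtain ⟨h0, h1⟩ := (badP_prop (Bs := Bs) (t := t) hD.meas_good (N ^ 2) x).2
              (sideField (U : ℝ) x g)
            rw [Real.norm_eq_abs, abs_of_nonneg h0]; exact h1)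
      · rw [integral_finsetSum _ fun i _ => hi i]
        refine le_of_eq (sum_congr rfl fun i _ => integral_congr_ae (ae_of_all _ fun g₁ => ?_))
        have e2 : ∀ g, fieldAt B t x (sideField (U : ℝ) x g₁) i g = nodeField β d B U N i x g₁ g :=
          fun g => by
            funext j
            show _ + (i : ℝ) * t ^ 2 * pull B x j + √(i : ℝ) * t * _
              = _ + (i : ℝ) / (N : ℝ) ^ 2 * _ + √(i : ℝ) / N * _
            rw [pull_eq hD.factor, ht]; ring
        simp only [e2]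
  refine (sum_le_sum fun x _ => mul_le_mul_of_nonneg_left (hx x) (hμp x).le).trans ?_
  simp only [mul_add, sum_add_distrib, mul_sum]
  rw [sum_comm, sum_comm (s := univ) (t := range (N ^ 2))]
  refine (add_le_add (sum_le_sum fun i hi => hD.bad_side i (mem_range.1 hi))
    (sum_le_sum fun i hi => hD.bad_small i (mem_range.1 hi))).trans ?_
  rw [sum_const, card_range, sum_const, card_range, nsmul_eq_mul, nsmul_eq_mul]
  push_cast
  calc (U : ℝ) * (N : ℝ) ^ 2 * exp (-(γ * n)) + (N : ℝ) ^ 2 * exp (-(γ * n))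
      = ((U : ℝ) + 1) * ((N : ℝ) ^ 2 * exp (-(γ * n))) := by ring
    _ ≤ ((U : ℝ) + 1) * (exp (γ * n / 4) ^ 2 * exp (-(γ * n))) :=
        mul_le_mul_of_nonneg_left
          (mul_le_mul_of_nonneg_right (pow_le_pow_left₀ hN0.le hD.mesh_hi 2) (exp_pos _).le) (by positivity)
    _ = _ := by rw [← exp_nat_mul, ← exp_add]; push_cast; ring_nf

/-- The additive term, as real arithmetic. -/
theorem add_term {L γ κ c m V Q : ℝ} {n N K : ℕ} (hN0 : (0 : ℝ) < N) (hK : (K : ℝ) = Q * (N : ℝ) ^ 2)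
    (hQ : 1 ≤ Q) (hL : 0 < L) (hm : 0 < m)
    (ht1 : 1 / (N : ℝ) ≤ exp (-(κ * n))) (hγ : 0 < γ) (hκ : 0 < κ) (hcκ : 4 * c ≤ κ) (hcγ : 8 * c ≤ γ)
    (hbad : V ≤ m * (Q * exp (-(γ * n / 2)))) :
    (K : ℝ) * (8 * (1 / (N : ℝ)) ^ 2 * L * n * (2 * exp (c * n)) / exp (-(γ * n / 8)) * V
      + 32 * ((1 / (N : ℝ)) ^ 2 * (L * n)) ^ 2 * (2 * exp (c * n)) ^ 2 / exp (-(c * n)) * m)
      ≤ m * (exp (-(c * n)) * (Q ^ 2 * (16 * L * n + 128 * (L * n) ^ 2))) := by
  have hn0 : (0 : ℝ) ≤ n := Nat.cast_nonneg n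
  set t := 1 / (N : ℝ) with ht
  have ht0 : 0 < t := by rw [ht]; positivity
  have hNt : ((N ^ 2 : ℕ) : ℝ) * t ^ 2 = 1 := by push_cast; rw [ht]; field_simp
  have hg := mul_nonneg hγ.le hn0
  have hk := mul_nonneg hκ.le hn0
  set R := L * (n : ℝ) with hR
  set hi := 2 * exp (c * n) with hhi
  set lo := exp (-(c * n)) with hlo
  set θ := exp (-(γ * n / 8)) with hθ
  have a1 : hi / θ * exp (-(γ * n / 2)) ≤ 2 * lo := by
    rw [hhi, hθ, hlo, div_mul_eq_mul_div, div_le_iff₀ (exp_pos _), mul_assoc, mul_assoc, ← exp_add,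
      ← exp_add]
    exact mul_le_mul_of_nonneg_left (exp_le_exp.2 (by linarith [mul_le_mul_of_nonneg_right hcγ hn0]))
      (by norm_num)
  have a2 : t ^ 2 * hi ^ 2 / lo ≤ 4 * lo := by
    rw [div_le_iff₀ (exp_pos _)]
    refine (mul_le_mul_of_nonneg_right (pow_le_pow_left₀ ht0.le ht1 2) (sq_nonneg hi)).trans ?_
    rw [hhi, hlo, mul_pow, mul_assoc (4 : ℝ), ← exp_nat_mul, ← exp_nat_mul, ← exp_add, mul_left_comm,
      ← exp_add, show (2 : ℝ) ^ 2 = 4 by norm_num]
    refine mul_le_mul_of_nonneg_left (exp_le_exp.2 ?_) (by norm_num)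
    push_cast
    linarith [mul_le_mul_of_nonneg_right hcκ hn0]
  have e1 : (K : ℝ) * (8 * t ^ 2 * L * n * hi / θ * V
      + 32 * (t ^ 2 * R) ^ 2 * hi ^ 2 / lo * m)
      = Q * ((((N ^ 2 : ℕ) : ℝ) * t ^ 2) * (8 * L * n * (hi / θ * V)
        + 32 * R ^ 2 * (t ^ 2 * hi ^ 2 / lo) * m)) := by rw [hK]; push_cast; ring
  rw [e1, hNt, one_mul]
  have b1 : hi / θ * V ≤ Q * (m * (2 * lo)) := by
    refine (mul_le_mul_of_nonneg_left hbad (by positivity)).trans ?_
    rw [mul_left_comm, mul_left_comm (hi / θ) Q, mul_left_comm m Q]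
    exact mul_le_mul_of_nonneg_left (mul_le_mul_of_nonneg_left a1 hm.le) (zero_le_one.trans hQ)
  have b2 := mul_le_mul_of_nonneg_left b1 (show 0 ≤ 8 * L * n by positivity)
  have b3 := mul_le_mul_of_nonneg_right (mul_le_mul_of_nonneg_left a2 (show 0 ≤ 32 * R ^ 2 by positivity)) hm.le
  have hQ0 : 0 ≤ Q := zero_le_one.trans hQ
  refine (mul_le_mul_of_nonneg_left (add_le_add b2 b3) hQ0).trans ?_
  have b4 := mul_le_mul_of_nonneg_left hQ (show 0 ≤ Q * (32 * R ^ 2 * (4 * lo) * m) by positivity)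
  linarith

/-- The sub-Gaussian nodes of the mesh. -/
theorem nodes_mesh {β L γ κ : ℝ} {U : ℕ} {d : Dis n} {B : Fin n → Fin n → ℝ} {N : ℕ} {P : ℝ}
    {M : ℕ → Vec n → Vec n} {G : ℕ → Set (Vec n)} (hD : NodeData β L γ κ U d B N P M G)
    (hn : 1 ≤ n) (hL : 0 < L) (hγ : 0 < γ) (hκ : 0 < κ) {C : ℝ}
    (hC : C = nodeConst (L * ((U : ℝ) + 1)) (γ / 8) (((U : ℝ) + 1) * (L + 1)))
    (hb1 : exp (-(κ * n)) * (1 + ((L + 1) * n) ^ 2) + exp (-(κ * n / 2)) ≤ 1)
    (hb2 : exp (-(κ * n)) * (4 * ((L + 1) * n) + 2 * L + 16 * (C + 1) * (L + 1)) ≤ 1) :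
    let t := 1 / (N : ℝ)
    0 < C ∧ (∀ k x, Ent.quad (phaseB B N k) x ≤ (L + 1) * n) ∧ 4 * (t ^ 2 * ((L + 1) * n)) ≤ 1 ∧
    8 * C * (L + 1) * t ^ 2 ≤ 1 / 2 ∧
    ∀ k, k ≤ (U + 1) * N ^ 2 → ∀ h, badF (phaseB B N) t G (fun _ => 1) k h
        ≤ exp (-(γ * n / 8)) * Ent.mass (nodeW (phaseB B N) t k h) →
      SubG (nodeW (phaseB B N) t k h) C := by
  intro t
  have hn0 : (0 : ℝ) < n := by exact_mod_cast hn
  have hN0 : (0 : ℝ) < N := (exp_pos _).trans_le hD.mesh_lo
  have ht : t = 1 / (N : ℝ) := rfl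
  have ht0 : 0 < t := by rw [ht]; positivity
  have ht1 : t ≤ exp (-(κ * n)) := by
    rw [ht, exp_neg, one_div]; exact inv_anti₀ (exp_pos _) hD.mesh_lo
  have htle1 : t ≤ 1 := ht1.trans (exp_le_one_iff.2 (neg_nonpos.2 (by positivity)))
  set Q : ℝ := (U : ℝ) + 1 with hQ
  have hQ0 : 0 < Q := by positivity
  set R := (L + 1) * n with hR
  have hnR : (n : ℝ) ≤ R := by rw [hR]; exact le_mul_of_one_le_left hn0.le (by linarith)
  have hq : ∀ k x, Ent.quad (phaseB B N k) x ≤ R := fun k x => by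
    rw [phaseB]
    split
    · have := (hD.factor (vec x)).trans_le (hD.opn (vec x))
      simp only [Ent.quad, bvec, Ent.lin, vec] at this ⊢
      refine this.trans ?_
      rw [hR]
      simp [pow_two, spin_sq]
      linarith
    · rw [quad_idB]; exact hnR
  have htt : t ^ 2 ≤ t := by rw [pow_two]; exact mul_le_of_le_one_left ht0.le htle1
  have hP2 : t * P ^ 2 ≤ exp (-(κ * n / 2)) := by
    have h1 : (t * P ^ 2) ^ 2 ≤ exp (-(κ * n / 2)) ^ 2 := by
      rw [← exp_nat_mul, mul_pow, ← pow_mul,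
        show ((2 : ℕ) : ℝ) * -(κ * n / 2) = -(κ * n) by push_cast; ring]
      calc t ^ 2 * P ^ (2 * 2) ≤ t ^ 2 * N := mul_le_mul_of_nonneg_left hD.err_le (sq_nonneg t)
        _ = t := by rw [ht]; field_simp
        _ ≤ _ := ht1
    exact pow_le_pow_iff_left₀ (by positivity) (exp_pos _).le two_ne_zero |>.1 h1
  have hC0 : 0 < C := by
    have hs : 0 < slope (L * Q) (γ / 8) := by unfold Drift.slope; positivity
    have hq' : exp (-(1 / 2 : ℝ)) < 1 := exp_lt_one_iff.2 (by norm_num)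
    have : 0 ≤ sqConst (2 * (exp (offset (L * Q) (γ / 8) (Q * (L + 1)) ^ 2
        / slope (L * Q) (γ / 8) ^ 2) + 2)) := by
      rw [sqConst]
      have : 0 ≤ 2 * (exp (offset (L * Q) (γ / 8) (Q * (L + 1)) ^ 2 / slope (L * Q) (γ / 8) ^ 2) + 2)
          * exp (1 / 2) / (1 - exp (-(1 / 2))) := div_nonneg (by positivity) (by linarith)
      linarith
    rw [hC, nodeConst]; positivity
  have hR0 : 0 ≤ R := by rw [hR]; positivity
  have hbig : t * (4 * R + 2 * L + 16 * (C + 1) * (L + 1)) ≤ 1 :=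
    (mul_le_mul_of_nonneg_right ht1 (by positivity)).trans hb2
  have p1 : 0 ≤ t * (4 * R) := by positivity
  have p2 : 0 ≤ t * (2 * L) := by positivity
  have p3 : 0 ≤ t * (16 * (C + 1) * (L + 1)) := by positivity
  have p4 : 0 ≤ t * (16 * (L + 1)) := by positivity
  have q1 : t ^ 2 * R ≤ t * R := mul_le_mul_of_nonneg_right htt hR0
  have q2 : L * t ^ 2 ≤ L * t := mul_le_mul_of_nonneg_left htt hL.le
  have q3 : 8 * C * (L + 1) * t ^ 2 ≤ 8 * C * (L + 1) * t := mul_le_mul_of_nonneg_left htt (by positivity)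
  have hmesh : Mesh (phaseB B N) t L L P R M G ((U + 1) * N ^ 2) :=
    { tpos := ht0, Lnn := hL.le, ρnn := hL.le, Pnn := hD.err_nonneg, quad := hq
      small := by linarith
      smallL := by linarith
      meas := hD.meas, bdd := hD.bdd, base := hD.base, measG := hD.meas_good
      step := fun k hk h hh => hD.step k hk h hh }
  have hKt : (((U + 1) * N ^ 2 : ℕ) : ℝ) * t ^ 2 = Q := by
    push_cast; rw [ht, hQ]; field_simp
  have hkt : ∀ k : ℕ, k ≤ (U + 1) * N ^ 2 → (k : ℝ) * t ^ 2 ≤ Q := fun k hk =>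
    (mul_le_mul_of_nonneg_right (Nat.cast_le.2 hk) (sq_nonneg t)).trans hKt.le
  have hρ : ∀ k : ℕ, k ≤ (U + 1) * N ^ 2 → (k : ℝ) * stepErr t L P R ≤ Q * (L + 1) := by
    intro k hk
    have he : t * (P + (R ^ 2 + P ^ 2) / 2) ≤ 1 := by
      have h1 : P + (R ^ 2 + P ^ 2) / 2 ≤ (1 + R ^ 2) + P ^ 2 := by
        linarith [sq_nonneg (P - 1), sq_nonneg R]
      refine (mul_le_mul_of_nonneg_left h1 ht0.le).trans ?_
      rw [mul_add]
      exact (add_le_add (mul_le_mul_of_nonneg_right ht1 (by positivity)) hP2).trans hb1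
    have hs0 : 0 ≤ stepErr t L P R := by have := hD.err_nonneg; rw [stepErr]; positivity
    have e : (k : ℝ) * stepErr t L P R = (k : ℝ) * t ^ 2 * (L + t * (P + (R ^ 2 + P ^ 2) / 2)) := by
      rw [stepErr]; ring
    rw [e]
    exact mul_le_mul (hkt k hk) (by linarith)
      (by have := hD.err_nonneg; positivity) hQ0.le
  refine ⟨hC0, hq, by linarith, by linarith, fun k hk h hb => ?_⟩
  rw [hC]
  exact node_subG hmesh hn hk (hkt k hk) (hρ k hk) (by positivity) (le_of_eq (by ring)) hb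

/-- The tensorisation at one disorder. -/
theorem warm_of_nodes {β L γ κ c C : ℝ} {U : ℕ} {d : Dis n} {B : Fin n → Fin n → ℝ} {N : ℕ} {P : ℝ}
    {M : ℕ → Vec n → Vec n} {G : ℕ → Set (Vec n)} (hD : NodeData β L γ κ U d B N P M G)
    (hn : 1 ≤ n) (hL : 0 < L) (hγ : 0 < γ) (hκ : 0 < κ) (hc : 0 < c) (hcκ : 4 * c ≤ κ)
    (hcγ : 8 * c ≤ γ)
    (hC : C = nodeConst (L * ((U : ℝ) + 1)) (γ / 8) (((U : ℝ) + 1) * (L + 1)))
    (hb1 : exp (-(κ * n)) * (1 + ((L + 1) * n) ^ 2) + exp (-(κ * n / 2)) ≤ 1)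
    (hb2 : exp (-(κ * n)) * (4 * ((L + 1) * n) + 2 * L + 16 * (C + 1) * (L + 1)) ≤ 1)
    {u : Conf n → ℝ} (hu : ∀ x, 0 < u x) (hu1 : ∑ x, mu n β (offd d) x * u x = 1)
    (hub : ∀ x, u x ≤ exp (c * n)) :
    Ent.ent (mu n β (offd d)) u ≤ exp (16 * (|C| + 1) * (L + 1) * ((U : ℝ) + 1))
        * Ent.entTot (mu n β (offd d)) u
      + exp (-(c * n)) * (exp (16 * (|C| + 1) * (L + 1) * ((U : ℝ) + 1))
        * (((U : ℝ) + 1) ^ 2 * (16 * (L + 1) * n + 128 * ((L + 1) * n) ^ 2)) + (2 + c * n)) := by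
  have hn0 : (0 : ℝ) < n := by exact_mod_cast hn
  have hN0 : (0 : ℝ) < N := (exp_pos _).trans_le hD.mesh_lo
  set t := 1 / (N : ℝ) with ht
  have ht0 : 0 < t := by rw [ht]; positivity
  have ht1 : t ≤ exp (-(κ * n)) := by
    rw [ht, exp_neg, one_div]; exact inv_anti₀ (exp_pos _) hD.mesh_lo
  set Q : ℝ := (U : ℝ) + 1 with hQ
  set Λ : ℝ := L + 1 with hΛ
  have hΛ0 : 0 < Λ := by positivity
  have hKQ : (((U + 1) * N ^ 2 : ℕ) : ℝ) = Q * (N : ℝ) ^ 2 := by push_cast; rw [hQ]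
  have hKt : (((U + 1) * N ^ 2 : ℕ) : ℝ) * t ^ 2 = Q := by rw [hKQ, ht]; field_simp
  set R := Λ * n with hR
  obtain ⟨hC0, hq, hsm1, hsm2, hsub⟩ := nodes_mesh hD hn hL hγ hκ hC hb1 hb2
  set Bs := phaseB B N with hBs
  have hop : ∀ k, ∀ v : Vec n, ∑ w, bvec (Bs k) v w ^ 2 ≤ Λ * ∑ j, v j ^ 2 := fun k v => by
    have hv : 0 ≤ ∑ j, v j ^ 2 := sum_nonneg fun j _ => sq_nonneg _
    rw [hBs, phaseB]
    split
    · refine ((hD.factor v).trans_le (hD.opn v)).trans ?_
      rw [hΛ, add_mul, one_mul]; linarith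
    · rw [bvec_idB, hΛ, add_mul, one_mul]; linarith [mul_nonneg hL.le hv]
  set θ := exp (-(γ * n / 8)) with hθ
  set lo := exp (-(c * n)) with hlo
  set hi := 2 * exp (c * n) with hhi
  set f := fun x => u x + lo with hf
  have hlo1 : lo ≤ 1 := exp_le_one_iff.2 (neg_nonpos.2 (by positivity))
  have hfhi : ∀ x, f x ≤ hi := fun x => by
    rw [hf, hhi]; dsimp only
    linarith [hub x, one_le_exp (mul_pos hc hn0).le]
  set K := (U + 1) * N ^ 2 with hK
  have hdef := defective (t := t) (Bs := Bs) hD.meas_good (f := f) (exp_pos _)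
    (fun x => le_add_of_nonneg_left (hu x).le) hfhi hq hsm1 hC0
    hΛ0.le hop (exp_pos _) hsm2 hsub K le_rfl 0
  -- the root
  set W := nodeW Bs t K 0 with hW'
  have hWp : ∀ x, 0 < W x := fun x => nodeW_pos _ _ _
  have hm := Ent.mass_pos hWp
  set m := Ent.mass W with hm'
  set μ := mu n β (offd d) with hμ
  have hNt : (N : ℝ) ^ 2 * t ^ 2 = 1 := by rw [ht]; field_simp
  have hmu : ∀ x, W x = m * μ x := root_weight hD.factor hNt
  have hμp : ∀ x, 0 < μ x := fun x => div_pos (exp_pos _) (sum_pos (fun y _ => exp_pos _) univ_nonempty)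
  have hμ1 : ∑ x, μ x = 1 := by
    simp only [hμ, mu, ← sum_div]; exact div_self (sum_pos (fun y _ => exp_pos _) univ_nonempty).ne'
  have hbad : badF Bs t G (fun _ => 1) K 0 ≤ m * (Q * exp (-(γ * n / 2))) := root_bad hD hN0
  -- conclusion
  have hle : ∀ x, μ x ≤ m⁻¹ * W x := fun x => by rw [hmu, ← mul_assoc, inv_mul_cancel₀ hm.ne', one_mul]
  have hge : ∀ x, W x ≤ m * μ x := fun x => (hmu x).le
  have hfp : ∀ x, 0 < f x := fun x => add_pos (hu x) (exp_pos _)
  have h1 := Ent.ent_mono hμp hWp hfp hle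
  have h2 := Ent.entTot_mono hWp hμp hfp hge
  have h3 : Ent.entTot μ f ≤ Ent.entTot μ u := entTot_add_le hμp hu (exp_pos _)
  have h4 := ent_le_add hμp hμ1 hu hu1 (exp_pos (-(c * n))) hlo1
  rw [log_exp, ← hlo] at h4
  set E := exp (16 * (|C| + 1) * Λ * Q) with hE
  have hT : 0 ≤ Ent.entTot μ u := sum_nonneg fun i _ => Ent.entSite_nonneg hμp hu i
  set Y := Q ^ 2 * (16 * Λ * n + 128 * R ^ 2) with hY
  have hX : (K : ℝ) * (8 * t ^ 2 * Λ * n * hi / θ * badF Bs t G (fun _ => 1) K 0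
      + 32 * (t ^ 2 * R) ^ 2 * hi ^ 2 / lo * m) ≤ m * (lo * Y) :=
    add_term hN0 hKQ (le_add_of_nonneg_left (Nat.cast_nonneg U)) hΛ0 hm ht1 hγ hκ hcκ hcγ hbad
  have hexp : exp (16 * C * Λ * t ^ 2 * (K : ℝ)) ≤ E := by
    refine exp_le_exp.2 ?_
    have : 16 * C * Λ * t ^ 2 * (K : ℝ) = 16 * C * Λ * Q := by rw [← hKt]; ring
    rw [this]
    refine mul_le_mul_of_nonneg_right ?_ (by positivity)
    exact mul_le_mul_of_nonneg_right (by linarith [le_abs_self C]) hΛ0.le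
  have h5 : Ent.ent W f ≤ E * (m * Ent.entTot μ u + m * (lo * Y)) := by
    refine hdef.trans (mul_le_mul hexp ?_ ?_ (exp_pos _).le)
    · exact add_le_add (h2.trans (mul_le_mul_of_nonneg_left h3 hm.le)) hX
    · have := badF_nonneg (Bs := Bs) (t := t) hD.meas_good (fun _ => zero_le_one (α := ℝ)) K 0
      have : 0 ≤ Ent.entTot (nodeW Bs t K 0) f :=
        sum_nonneg fun i _ => Ent.entSite_nonneg hWp hfp i
      positivity
  have h6 : m⁻¹ * Ent.ent W f ≤ E * (Ent.entTot μ u + lo * Y) := by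
    refine (mul_le_mul_of_nonneg_left h5 (inv_nonneg.2 hm.le)).trans (le_of_eq ?_)
    field_simp
  linarith

/-- Outer measures are unchanged by forgetting the diagonal. -/
theorem real_preimage_offd (S : Set (Pair n → ℝ)) :
    (disX n).real (offd ⁻¹' S) = (disorder n).real S := by
  have mp := measurePreserving_sumPiEquivProdPi (fun _ : Pair n ⊕ Fin n => ProbabilityTheory.gaussianReal 0 1)
  have e : offd (n := n) ⁻¹' S
      = (MeasurableEquiv.sumPiEquivProdPi fun _ : Pair n ⊕ Fin n => ℝ) ⁻¹' (S ×ˢ Set.univ) := by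
    ext d; simp [MeasurableEquiv.coe_sumPiEquivProdPi, Equiv.sumPiEquivProdPi]; rfl
  rw [measureReal_def, measureReal_def, e, disX, gp, ← MeasurableEquiv.map_apply, mp.map_eq,
    Measure.prod_prod]
  simp [disorder]

/-- Module M8: centres on an exponential mesh give the warm tensorisation. -/
theorem driftStmt : DriftStmt := by
  intro β _ _ hN
  obtain ⟨U, L, γ, κ, hL, hγ, hκ, h⟩ := hN
  set c := min (κ / 4) (γ / 8) with hc
  have hc0 : 0 < c := lt_min (by positivity) (by positivity)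
  set C := nodeConst (L * ((U : ℝ) + 1)) (γ / 8) (((U : ℝ) + 1) * (L + 1)) with hC
  set E := exp (16 * (|C| + 1) * (L + 1) * ((U : ℝ) + 1)) with hE
  refine ⟨E, c / 2, exp_pos _, by positivity, fun δ hδ => ?_⟩
  have lim : ∀ (k : ℕ) (r : ℝ), 0 < r →
      Tendsto (fun n : ℕ => (n : ℝ) ^ k * exp (-(r * n))) atTop (nhds 0) := fun k r hr => by
    have h1 := (tendsto_rpow_mul_exp_neg_mul_atTop_nhds_zero (k : ℝ) r hr).comp
      tendsto_natCast_atTop_atTop
    refine h1.congr fun n => ?_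
    simp [Function.comp, neg_mul]
  set Λ : ℝ := L + 1 with hΛ
  have t1 : Tendsto (fun n : ℕ => exp (-(κ * n)) * (1 + (Λ * n) ^ 2) + exp (-(κ * n / 2))) atTop (nhds 0) := by
    have := (((lim 0 κ hκ).add ((lim 2 κ hκ).const_mul (Λ ^ 2))).add (lim 0 (κ / 2) (by positivity)))
    simp only [mul_zero, add_zero] at this
    exact this.congr fun n => by rw [show -(κ / 2 * n) = -(κ * n / 2) by ring]; ring
  have t2 : Tendsto (fun n : ℕ => exp (-(κ * n)) * (4 * (Λ * n) + 2 * L + 16 * (C + 1) * Λ)) atTop (nhds 0) := by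
    have := ((lim 1 κ hκ).const_mul (4 * Λ)).add ((lim 0 κ hκ).const_mul (2 * L + 16 * (C + 1) * Λ))
    simp only [mul_zero, add_zero] at this
    exact this.congr fun n => by ring
  set S2 : ℝ := ((U : ℝ) + 1) ^ 2 with hS2
  have t3 : Tendsto (fun n : ℕ => exp (-(c / 2 * n)) * (E * (S2 * (16 * Λ * n + 128 * (Λ * n) ^ 2)) + (2 + c * n)))
      atTop (nhds 0) := by
    have hh : (0 : ℝ) < c / 2 := by positivity
    have := (((lim 1 (c / 2) hh).const_mul (16 * E * S2 * Λ + c)).add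
      ((lim 2 (c / 2) hh).const_mul (128 * E * S2 * Λ ^ 2))).add ((lim 0 (c / 2) hh).const_mul 2)
    simp only [mul_zero, add_zero] at this
    exact this.congr fun n => by ring
  filter_upwards [h δ hδ, eventually_ge_atTop 1, t1.eventually (ge_mem_nhds zero_lt_one),
    t2.eventually (ge_mem_nhds zero_lt_one), t3.eventually (ge_mem_nhds zero_lt_one)]
    with n hn hn1 h1 h2 h3
  refine le_trans ?_ hn
  set S := {g : Pair n → ℝ | ¬ ∀ u : Conf n → ℝ, (∀ x, 0 < u x) → ∑ x, mu n β g x * u x = 1 →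
    (∀ x, u x ≤ exp (c / 2 * n)) →
      Ent.ent (mu n β g) u ≤ E * Ent.entTot (mu n β g) u + exp (-(c / 2 * n))}
  have : IsProbabilityMeasure (disX n) := by unfold disX; infer_instance
  have hmap : (disorder n).real S ≤ (disX n).real (offd ⁻¹' S) := (real_preimage_offd S).ge
  refine le_trans ?_ (le_trans (le_of_eq rfl) (measureReal_mono (s₁ := offd ⁻¹' S) ?_ (measure_ne_top _ _)))
  · exact hmap
  intro d hd hex
  obtain ⟨B, N, P, M, G, hD⟩ := hex
  refine hd fun u hu hu1 hub => ?_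
  have hn0 : (0 : ℝ) ≤ n := Nat.cast_nonneg n
  have hc2 : c / 2 * n ≤ c * n := by nlinarith
  refine (warm_of_nodes hD hn1 hL hγ hκ hc0 (by linarith [min_le_left (κ / 4) (γ / 8)])
    (by linarith [min_le_right (κ / 4) (γ / 8)]) hC h1 h2 hu hu1
    (fun x => (hub x).trans (exp_le_exp.2 hc2))).trans (add_le_add le_rfl ?_)
  have e : exp (-(c * n)) = exp (-(c / 2 * n)) * exp (-(c / 2 * n)) := by rw [← exp_add]; ring_nf
  rw [e, mul_assoc]
  exact mul_le_of_le_one_right (exp_pos _).le h3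

end Vale.Agent.P150.Fast
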