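import Vale.Agent.P150.Fast.Defs
import Vale.Agent.P150.Fast.Path

/-!
The interface of the module M8 (P150): nodes of the Gaussian localisation of the Gibbs measure, the
one-step condition on the map of approximate centres, and the event under which the warm
tensorisation holds. The localisation has two phases. On a mesh `t = 1 / N`, the top `U N ^ 2`
levels take isotropic steps at full coupling (phase I: the node field is the side field of
strength `i t ^ 2`), the lower `N ^ 2` levels take steps along a factor `B` with `Bᵀ B = aop`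
(phase II). The node at level `k` with field `h` is the weight
`exp (t ^ 2 / 2 ∑ l < k, |B_l x| ^ 2 + h · x)`; it is the mixture over standard Gaussians `g` of the
nodes at level `k - 1` with fields `shiftH B_(k-1) t h g`.
-/

open MeasureTheory Real Finset Filter
open scoped Matrix

namespace Vale.Agent.P150.Fast

/-- A field or a vector of means. -/
abbrev Vec (n : ℕ) : Type := Fin n → ℝ

/-- The Euclidean norm. -/
noncomputable def eno {n : ℕ} (v : Vec n) : ℝ := √(∑ j, v j ^ 2)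

/-- The image of a vector under the factor. -/
def bvec {n : ℕ} (B : Fin n → Fin n → ℝ) (v : Vec n) (u : Fin n) : ℝ := ∑ j, B u j * v j

/-- The child of a field along a Gaussian vector. -/
def shiftH {n : ℕ} (B : Fin n → Fin n → ℝ) (t : ℝ) (h g : Vec n) : Vec n :=
  fun j => h j + t * ∑ u, g u * B u j

/-- One step of the centres: small increments, and the first-order expansion of the increment in
the direction of any vector of means `y`, up to `t ^ 2 (L |y - M| + ρ) + P t ^ 3`. -/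
def StepOK {n : ℕ} (B : Fin n → Fin n → ℝ) (t L ρ P : ℝ) (M : ℕ → Vec n → Vec n) (k : ℕ)
    (h : Vec n) : Prop :=
  (∫ g, ∑ j, (M k (shiftH B t h g) j - M (k + 1) h j) ^ 2 ∂gp (Fin n) ≤ (P * t) ^ 2) ∧
  ∀ y : Vec n, (∀ j, |y j| ≤ 1) →
    eno (fun j => ∫ g, (1 + t * ∑ u, g u * bvec B y u)
        * (M k (shiftH B t h g) j - M (k + 1) h j) ∂gp (Fin n))
      ≤ t ^ 2 * (L * eno (fun j => y j - M (k + 1) h j) + ρ) + P * t ^ 3

/-- The identity, as a factor. -/
def idB (n : ℕ) : Fin n → Fin n → ℝ := fun u j => if u = j then 1 else 0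

/-- The factor of the step from level `k + 1` to level `k`. -/
def phaseB {n : ℕ} (B : Fin n → Fin n → ℝ) (N : ℕ) (k : ℕ) : Fin n → Fin n → ℝ :=
  if k < N ^ 2 then B else idB n

/-- The field of the node `i` steps below the bottom of phase I, given the configuration: its law
is `N (U x + s A x, U + s A)` with `s = i / N ^ 2`; its level is `N ^ 2 - i`. -/
noncomputable def nodeField {n : ℕ} (β : ℝ) (d : Dis n) (B : Fin n → Fin n → ℝ) (U N i : ℕ)
    (x : Conf n) (g₁ g₂ : Vec n) : Vec n :=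
  fun j => sideField (U : ℝ) x g₁ j + (i : ℝ) / (N : ℝ) ^ 2 * (aop n β d *ᵥ vec x) j
    + √(i : ℝ) / N * ∑ u, g₂ u * B u j

/-- The centres `M` and the good nodes `G` on a mesh `1 / N`, with phase I of length `U`. -/
structure NodeData {n : ℕ} (β L γ κ : ℝ) (U : ℕ) (d : Dis n) (B : Fin n → Fin n → ℝ) (N : ℕ) (P : ℝ)
    (M : ℕ → Vec n → Vec n) (G : ℕ → Set (Vec n)) : Prop where
  factor : ∀ v : Vec n, ∑ u, bvec B v u ^ 2 = Ent.qform (aop n β d) v
  opn : ∀ v : Vec n, Ent.qform (aop n β d) v ≤ L * ∑ j, v j ^ 2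
  mesh_lo : exp (κ * n) ≤ N
  mesh_hi : (N : ℝ) ≤ exp (γ * n / 4)
  err_nonneg : 0 ≤ P
  err_le : P ^ 4 ≤ N
  meas : ∀ k, Measurable (M k)
  bdd : ∀ k h j, |M k h j| ≤ 1
  base : ∀ h j, M 0 h j = tanh (h j)
  meas_good : ∀ k, MeasurableSet (G k)
  step : ∀ k, k < (U + 1) * N ^ 2 → ∀ h ∈ G (k + 1),
    StepOK (phaseB B N k) (1 / (N : ℝ)) L L P M k h
  bad_side : ∀ i, i < U * N ^ 2 → ∑ x, mu n β (offd d) x
    * (gp (Fin n)).real {g | sideField ((i : ℝ) / (N : ℝ) ^ 2) x g ∉ G ((U + 1) * N ^ 2 - i)}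
      ≤ exp (-(γ * n))
  bad_small : ∀ i, i < N ^ 2 → ∑ x, mu n β (offd d) x
    * ∫ g₁, (gp (Fin n)).real {g₂ | nodeField β d B U N i x g₁ g₂ ∉ G (N ^ 2 - i)} ∂gp (Fin n)
      ≤ exp (-(γ * n))

/-- With high probability the centres exist. -/
def NodeStmt (β : ℝ) : Prop :=
  ∃ (U : ℕ) (L γ κ : ℝ), 0 < L ∧ 0 < γ ∧ 0 < κ ∧ ∀ δ : ℝ, 0 < δ → ∀ᶠ n : ℕ in atTop,
    (disX n).real {d | ¬ ∃ B N P M G, NodeData β L γ κ U d B N P M G} ≤ δ

/-- The exported theorem of M8. -/
def DriftStmt : Prop := ∀ β : ℝ, 0 ≤ β → β < 1 → NodeStmt β → WarmStmt β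

end Vale.Agent.P150.Fast
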