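import Mathlib
import Vale.Agent.P150.Gauss

/-!
The weak law of large numbers for a function of independent standard Gaussians (P150).
-/

open MeasureTheory ProbabilityTheory Real Finset Filter

namespace Vale.Agent.P150.Fast

/-- The centred sum of a square-integrable function of the coordinates has second moment `n Var`. -/
theorem sample_sq (n : ℕ) {f : ℝ → ℝ} (hf : Measurable f)
    (hf2 : MemLp f 2 (gaussianReal 0 1)) :
    Integrable (fun g : Fin n → ℝ => (∑ i, f (g i) - n * ∫ x, f x ∂gaussianReal 0 1) ^ 2) (gp (Fin n)) ∧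
    ∫ g, (∑ i, f (g i) - n * ∫ x, f x ∂gaussianReal 0 1) ^ 2 ∂gp (Fin n)
      = n * variance f (gaussianReal 0 1) := by
  have mp : ∀ i : Fin n, MeasurePreserving (fun g : Fin n → ℝ => g i) (gp (Fin n)) (gaussianReal 0 1) :=
    fun i => measurePreserving_eval _ i
  have hL : ∀ i, MemLp (fun g : Fin n → ℝ => f (g i)) 2 (gp (Fin n)) := fun i =>
    hf2.comp_measurePreserving (mp i)
  have hmean : ∫ g, ∑ i, f (g i) ∂gp (Fin n) = n * ∫ x, f x ∂gaussianReal 0 1 := by
    rw [integral_finsetSum _ fun i _ => (hL i).integrable one_le_two]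
    have e : ∀ i : Fin n, ∫ g, f (g i) ∂gp (Fin n) = ∫ x, f x ∂gaussianReal 0 1 := fun i => by
      conv_rhs => rw [← (mp i).map_eq, integral_map (mp i).measurable.aemeasurable hf.aestronglyMeasurable]
    simp [e]
  have hS : MemLp (fun g : Fin n → ℝ => ∑ i, f (g i)) 2 (gp (Fin n)) :=
    memLp_finsetSum univ fun i _ => hL i
  have hv : variance (fun g : Fin n → ℝ => ∑ i, f (g i)) (gp (Fin n))
      = n * variance f (gaussianReal 0 1) := by
    have h := variance_sum_pi (μ := fun _ : Fin n => gaussianReal 0 1) (X := fun _ => f) fun _ => hf2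
    simp only [Finset.sum_const, card_univ, Fintype.card_fin, nsmul_eq_mul] at h
    rw [← h]
    congr 1
    funext g
    simp
  refine ⟨(hS.sub (memLp_const _)).integrable_sq, ?_⟩
  rw [← hv, variance_eq_integral (hS.aestronglyMeasurable.aemeasurable), hmean]

/-- The weak law of large numbers with a rate. -/
theorem sample_lln_sq {f : ℝ → ℝ} (hf : Measurable f) (hf2 : MemLp f 2 (gaussianReal 0 1)) {ε δ : ℝ}
    (hε : 0 < ε) (hδ : 0 < δ) : ∀ᶠ n : ℕ in atTop,
    (gp (Fin n)).real {g | ε * n < |∑ i, f (g i) - n * ∫ x, f x ∂gaussianReal 0 1|} ≤ δ := by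
  set v := variance f (gaussianReal 0 1)
  obtain ⟨N, hN⟩ := exists_nat_ge (max 1 (v / (ε ^ 2 * δ)))
  filter_upwards [eventually_ge_atTop N] with n hn
  have hn' : (N : ℝ) ≤ n := by exact_mod_cast hn
  have hn1 : (1 : ℝ) ≤ n := ((le_max_left _ _).trans hN).trans hn'
  obtain ⟨hi, he⟩ := sample_sq n hf hf2
  have h := mul_meas_ge_le_integral_of_nonneg (μ := gp (Fin n))
    (ae_of_all _ fun g => sq_nonneg (∑ i, f (g i) - n * ∫ x, f x ∂gaussianReal 0 1)) hi ((ε * n) ^ 2)
  rw [he] at h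
  refine le_trans (measureReal_mono (fun g hg => ?_) (measure_ne_top _ _))
    (le_of_mul_le_mul_left (h.trans ?_) (by positivity))
  · simp only [Set.mem_ofPred_eq] at hg ⊢
    rw [← sq_abs (∑ i, f (g i) - _)]
    exact pow_le_pow_left₀ (by positivity) hg.le 2
  · have h2 : v ≤ ε ^ 2 * δ * n := by
      have := ((le_max_right _ _).trans hN).trans hn'
      rw [div_le_iff₀ (by positivity)] at this
      linarith
    calc (n : ℝ) * v ≤ n * (ε ^ 2 * δ * n) := mul_le_mul_of_nonneg_left h2 (by positivity)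
      _ = (ε * n) ^ 2 * δ := by ring

/-- Markov's inequality for a sum over the sample. -/
theorem sample_markov (n : ℕ) {h : ℝ → ℝ} (hm : Measurable h) (h0 : ∀ x, 0 ≤ h x)
    (hi : Integrable h (gaussianReal 0 1)) {a b : ℝ} (ha : 0 < a)
    (hb : ∫ x, h x ∂gaussianReal 0 1 ≤ a * b) (hn : 0 < n) :
    (gp (Fin n)).real {g | a * n ≤ ∑ i, h (g i)} ≤ b := by
  have mp : ∀ i : Fin n, MeasurePreserving (fun g : Fin n → ℝ => g i) (gp (Fin n)) (gaussianReal 0 1) :=
    fun i => measurePreserving_eval _ i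
  have hS : ∀ i : Fin n, Integrable (fun g : Fin n → ℝ => h (g i)) (gp (Fin n)) := fun i =>
    ((mp i).integrable_comp hm.aestronglyMeasurable).2 hi
  have e : ∫ g, ∑ i, h (g i) ∂gp (Fin n) = n * ∫ x, h x ∂gaussianReal 0 1 := by
    rw [integral_finsetSum _ fun i _ => hS i]
    have e : ∀ i : Fin n, ∫ g, h (g i) ∂gp (Fin n) = ∫ x, h x ∂gaussianReal 0 1 := fun i => by
      conv_rhs => rw [← (mp i).map_eq,
        integral_map (mp i).measurable.aemeasurable hm.aestronglyMeasurable]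
    simp [e]
  have hk := mul_meas_ge_le_integral_of_nonneg (μ := gp (Fin n))
    (ae_of_all _ fun g => sum_nonneg fun i _ => h0 (g i)) (integrable_finsetSum univ fun i _ => hS i) (a * n)
  rw [e] at hk
  refine le_of_mul_le_mul_left (hk.trans ?_) (mul_pos ha (Nat.cast_pos.2 hn))
  calc (n : ℝ) * ∫ x, h x ∂gaussianReal 0 1 ≤ n * (a * b) :=
        mul_le_mul_of_nonneg_left hb (Nat.cast_nonneg n)
    _ = a * n * b := by ring

/-- An integrable function is bounded up to a small mean. -/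
theorem exists_trunc {f : ℝ → ℝ} (hf : Measurable f) (hfi : Integrable f (gaussianReal 0 1)) {η : ℝ}
    (hη : 0 < η) : ∃ t : ℝ → ℝ, Measurable t ∧ MemLp t 2 (gaussianReal 0 1) ∧
      ∫ x, |f x - t x| ∂gaussianReal 0 1 ≤ η := by
  set t : ℕ → ℝ → ℝ := fun k x => if |f x| ≤ k then f x else 0 with ht
  have htm : ∀ k, Measurable (t k) := fun k =>
    Measurable.ite (measurableSet_le hf.abs measurable_const) hf measurable_const
  have hlim : Tendsto (fun k => ∫ x, |f x - t k x| ∂gaussianReal 0 1) atTop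
      (nhds (∫ _x : ℝ, (0 : ℝ) ∂gaussianReal 0 1)) := by
    refine tendsto_integral_of_dominated_convergence (F := fun k x => |f x - t k x|)
      (f := fun _ => (0 : ℝ)) (fun x => |f x|)
      (fun k => (hf.sub (htm k)).abs.aestronglyMeasurable) hfi.abs
      (fun k => ae_of_all _ fun x => ?_) (ae_of_all _ fun x => tendsto_const_nhds.congr' ?_)
    · rw [Real.norm_eq_abs, abs_abs]; simp only [ht]; split <;> simp
    · obtain ⟨k₀, hk₀⟩ := exists_nat_ge |f x|
      filter_upwards [eventually_ge_atTop k₀] with k hk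
      simp only [ht]
      rw [if_pos (hk₀.trans (by exact_mod_cast hk)), sub_self, abs_zero]
  rw [integral_zero] at hlim
  obtain ⟨k, hk⟩ := (hlim.eventually (gt_mem_nhds hη)).exists
  refine ⟨t k, htm k, MemLp.of_bound (htm k).aestronglyMeasurable (k : ℝ) (ae_of_all _ fun x => ?_), hk.le⟩
  simp only [ht]; split
  · assumption
  · simp

/-- The weak law of large numbers for integrable functions. -/
theorem sample_lln {f : ℝ → ℝ} (hf : Measurable f) (hfi : Integrable f (gaussianReal 0 1)) {ε δ : ℝ}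
    (hε : 0 < ε) (hδ : 0 < δ) : ∀ᶠ n : ℕ in atTop,
    (gp (Fin n)).real {g | ε * n < |∑ i, f (g i) - n * ∫ x, f x ∂gaussianReal 0 1|} ≤ δ := by
  obtain ⟨t, htm, htL, hr⟩ := exists_trunc hf hfi (show 0 < ε / 3 * min 1 (δ / 2) by positivity)
  have ha : 0 ≤ ε / 3 := by positivity
  have hr1 := hr.trans (mul_le_of_le_one_right ha (min_le_left _ _))
  have hr2 := hr.trans (mul_le_mul_of_nonneg_left (min_le_right _ _) ha)
  have hti := htL.integrable one_le_two
  have hri : Integrable (fun x => |f x - t x|) (gaussianReal 0 1) := (hfi.sub hti).abs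
  filter_upwards [sample_lln_sq htm htL (show 0 < ε / 3 by positivity) (half_pos hδ),
    eventually_ge_atTop 1] with n hn hn1
  have hmk : (gp (Fin n)).real {g | ε / 3 * n ≤ ∑ i, |f (g i) - t (g i)|} ≤ δ / 2 :=
    sample_markov n (h := fun x => |f x - t x|) (hf.sub htm).abs (fun x => abs_nonneg _) hri
      (show 0 < ε / 3 by positivity) hr2 hn1
  set A : Set (Fin n → ℝ) := {g | ε / 3 * n < |∑ i, t (g i) - n * ∫ x, t x ∂gaussianReal 0 1|} with hA
  set B : Set (Fin n → ℝ) := {g | ε / 3 * n ≤ ∑ i, |f (g i) - t (g i)|} with hB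
  refine le_trans (measureReal_mono (s₂ := A ∪ B) (fun g hg => ?_) (measure_ne_top _ _))
    ((measureReal_union_le A B).trans ((add_le_add hn hmk).trans (add_halves δ).le))
  by_contra hnot
  simp only [hA, hB, Set.mem_union, Set.mem_ofPred_eq, not_or, not_lt, not_le] at hnot hg
  have h1 : |∑ i, f (g i) - ∑ i, t (g i)| ≤ ∑ i, |f (g i) - t (g i)| := by
    rw [← sum_sub_distrib]; exact abs_sum_le_sum_abs _ _
  have h2 : |(n : ℝ) * ∫ x, t x ∂gaussianReal 0 1 - n * ∫ x, f x ∂gaussianReal 0 1| ≤ ε / 3 * n := by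
    rw [← mul_sub, abs_mul, Nat.abs_cast, ← integral_sub hti hfi, mul_comm (ε / 3)]
    refine mul_le_mul_of_nonneg_left ((abs_integral_le_integral_abs.trans_eq ?_).trans hr1)
      (Nat.cast_nonneg n)
    exact integral_congr_ae (ae_of_all _ fun x => abs_sub_comm _ _)
  have h3 := abs_sub_le (∑ i, f (g i)) (∑ i, t (g i)) ((n : ℝ) * ∫ x, f x ∂gaussianReal 0 1)
  have h4 := abs_sub_le (∑ i, t (g i)) ((n : ℝ) * ∫ x, t x ∂gaussianReal 0 1)
    ((n : ℝ) * ∫ x, f x ∂gaussianReal 0 1)
  linarith [hnot.1, hnot.2]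

/-- Finitely many integrable functions at once. -/
theorem sample_lln_fin {m : ℕ} {F : Fin m → ℝ → ℝ} (hF : ∀ j, Measurable (F j))
    (hFi : ∀ j, Integrable (F j) (gaussianReal 0 1)) {ε δ : ℝ} (hε : 0 < ε) (hδ : 0 < δ) :
    ∀ᶠ n : ℕ in atTop, (gp (Fin n)).real {g | ¬ ∀ j,
      |∑ i, F j (g i) - n * ∫ x, F j x ∂gaussianReal 0 1| ≤ ε * n} ≤ δ := by
  have h : ∀ᶠ n : ℕ in atTop, ∀ j : Fin m, (gp (Fin n)).real
      {g | ε * n < |∑ i, F j (g i) - n * ∫ x, F j x ∂gaussianReal 0 1|} ≤ δ / (m + 1) :=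
    eventually_all.2 fun j => sample_lln (hF j) (hFi j) hε (by positivity)
  filter_upwards [h] with n hn
  have e : {g : Fin n → ℝ | ¬ ∀ j, |∑ i, F j (g i) - n * ∫ x, F j x ∂gaussianReal 0 1| ≤ ε * n}
      = ⋃ j ∈ (univ : Finset (Fin m)),
        {g | ε * n < |∑ i, F j (g i) - n * ∫ x, F j x ∂gaussianReal 0 1|} := by
    ext g; simp
  rw [e]
  refine (measureReal_biUnion_finset_le _ _).trans ((sum_le_sum fun j _ => hn j).trans ?_)
  rw [sum_const, card_univ, Fintype.card_fin, nsmul_eq_mul, mul_div_assoc', div_le_iff₀ (by positivity)]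
  nlinarith

end Vale.Agent.P150.Fast
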