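import Vale.Agent.P150.Fast.SFZeroStmt
import Vale.Agent.P150.Fast.SampleLaw

/-!
The one-variable inequality against an empirical Gaussian sample (P150), from a dual certificate:
finitely many integrable functions whose empirical means control the supremum over vectors.
-/

open MeasureTheory ProbabilityTheory Real Finset Filter

namespace Vale.Agent.P150.Fast

/-- A dual certificate of the empirical inequality. -/
def ThreeBCert : Prop :=
  ∃ (k : ℕ) (F : Fin k → ℝ → ℝ) (C : ℝ), 0 ≤ C ∧ (∀ j, Measurable (F j)) ∧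
    (∀ j, Integrable (F j) (gaussianReal 0 1)) ∧
    ∀ (n : ℕ) (g m : Fin n → ℝ) (η : ℝ), (∀ i, |m i| ≤ 1) → 0 ≤ η →
      (∀ j, |∑ i, F j (g i) - n * ∫ x, F j x ∂gaussianReal 0 1| ≤ η * n) →
        2 * √(qn m) * ∑ i, g i * m i ≤ ∑ i, satS (m i) + qn m * (1 - qn m) * n + C * η * n

/-- The empirical inequality from a certificate. -/
theorem empThreeB_of (h : ThreeBCert) : EmpThreeB := by
  obtain ⟨k, F, C, hC, hF, hFi, hcert⟩ := h
  intro ε δ hε hδ
  filter_upwards [sample_lln_fin hF hFi (show 0 < ε / (C + 1) by positivity) hδ] with n hn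
  refine (measureReal_mono (fun g hg => ?_) (measure_ne_top _ _)).trans hn
  simp only [Set.mem_ofPred_eq] at hg ⊢
  intro hall
  refine hg fun m hm => (hcert n g m _ hm (by positivity) hall).trans ?_
  have : C * (ε / (C + 1)) ≤ ε := by
    rw [mul_div_assoc', div_le_iff₀ (by positivity)]
    nlinarith
  linarith [mul_le_mul_of_nonneg_right this (Nat.cast_nonneg n : (0 : ℝ) ≤ n)]

end Vale.Agent.P150.Fast
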