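import Vale.Agent.P150.Fast.Defs

/-!
Exported statements of the module M1 (the Gaussian orthogonal ensemble) for P150: Gaussian
concentration with an exponential tail, the norm and flatness events, orthogonal invariance, and
the two-sided bound on the partition function.
-/

open MeasureTheory Real Finset Filter
open scoped Matrix

namespace Vale.Agent.P150.Fast

/-- Lipschitz functions of independent standard Gaussians have sub-Gaussian upper tails. -/
def GaussTail : Prop :=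
  ∀ (ι : Type) [Fintype ι] (U : (ι → ℝ) → ℝ) (L : ℝ), 0 < L →
    (∀ g h, |U g - U h| ≤ L * √(∑ i, (g i - h i) ^ 2)) → ∀ s : ℝ, 0 ≤ s →
      (gp ι).real {g | ∫ h, U h ∂gp ι + s ≤ U g} ≤ exp (-(2 * s ^ 2 / (π ^ 2 * L ^ 2)))

/-- Lipschitz functions of independent standard Gaussians have sub-Gaussian exponential moments. -/
def GaussMgf : Prop :=
  ∀ (ι : Type) [Fintype ι] (U : (ι → ℝ) → ℝ) (L : ℝ), 0 < L →
    (∀ g h, |U g - U h| ≤ L * √(∑ i, (g i - h i) ^ 2)) → ∀ lam : ℝ,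
      Integrable (fun g => exp (lam * (U g - ∫ h, U h ∂gp ι))) (gp ι) ∧
      ∫ g, exp (lam * (U g - ∫ h, U h ∂gp ι)) ∂gp ι ≤ exp (π ^ 2 * L ^ 2 * lam ^ 2 / 8)

/-- The norm event fails with exponentially small probability. -/
def NormEvent : Prop :=
  ∀ β η : ℝ, 0 ≤ β → 0 < η → ∃ c : ℝ, 0 < c ∧ ∀ᶠ n : ℕ in atTop,
    (disX n).real {d | ¬ ∀ v, |Ent.qform (kmat n β d) v| ≤ (2 * β + η) * ∑ i, v i ^ 2}
      ≤ exp (-(c * n))

/-- On small sets of sites the coupling matrix is small. -/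
def FlatEvent : Prop :=
  ∀ β θ : ℝ, 0 ≤ β → 0 < θ → ∃ ε c : ℝ, 0 < ε ∧ 0 < c ∧ ∀ᶠ n : ℕ in atTop,
    (disX n).real {d | ¬ ∀ v : Fin n → ℝ, (({i | v i ≠ 0} : Finset (Fin n)).card : ℝ) ≤ ε * n →
      |Ent.qform (kmat n β d) v| ≤ θ * ∑ i, v i ^ 2} ≤ exp (-(c * n))

/-- The law of the coupling matrix is invariant under orthogonal conjugation. -/
def ConjInv : Prop :=
  ∀ (n : ℕ) (O : Matrix (Fin n) (Fin n) ℝ), O.transpose * O = 1 →
    ∃ T : Dis n → Dis n, MeasurePreserving T (disX n) (disX n) ∧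
      ∀ β d, kmat n β (T d) = O * kmat n β d * O.transpose

/-- The annealed value of `log Z`. -/
noncomputable def annLogZ (n : ℕ) (β : ℝ) : ℝ := n * log 2 + β ^ 2 * (n - 1) / 4

/-- `Z` is not exponentially below its mean, for `β < 1`. -/
def ZLower : Prop :=
  ∀ β : ℝ, 0 ≤ β → β < 1 → ∀ ε δ : ℝ, 0 < ε → 0 < δ → ∀ᶠ n : ℕ in atTop,
    (disorder n).real {g | log (∑ x, exp (energy n β g x)) ≤ annLogZ n β - ε * n} ≤ δ

/-- `Z` is exponentially above its mean with exponentially small probability. -/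
def ZUpper : Prop :=
  ∀ (n : ℕ) (β ε : ℝ),
    (disorder n).real {g | annLogZ n β + ε * n ≤ log (∑ x, exp (energy n β g x))} ≤ exp (-(ε * n))

end Vale.Agent.P150.Fast
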