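import Mathlib
import Vale.Agent.P150.Fast.GoeStmt

/-!
Statements for the zero-field Sudakov-Fernique step of P150: the finite-sample form of the
one-variable inequality, and the resulting bound on the quadratic form of the coupling matrix.
-/

open MeasureTheory Real Finset Filter

namespace Vale.Agent.P150.Fast

/-- The surrogate of `m * artanh m`. -/
noncomputable def satS (x : ℝ) : ℝ := x ^ 2 + x ^ 4 / 3 + x ^ 6 / 5 + x ^ 8 / 7

/-- The normalised squared length. -/
noncomputable def qn {n : ℕ} (m : Fin n → ℝ) : ℝ := (∑ i, m i ^ 2) / n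

/-- The one-variable inequality against an empirical Gaussian sample, uniformly in the vector. -/
def EmpThreeB : Prop :=
  ∀ ε δ : ℝ, 0 < ε → 0 < δ → ∀ᶠ n : ℕ in atTop,
    (gp (Fin n)).real {g | ¬ ∀ m : Fin n → ℝ, (∀ i, |m i| ≤ 1) →
      2 * √(qn m) * ∑ i, g i * m i
        ≤ ∑ i, satS (m i) + qn m * (1 - qn m) * n + ε * n} ≤ δ

/-- At zero field the quadratic form of the coupling matrix stays strictly below the TAP terms. -/
def SFZero (β : ℝ) : Prop :=
  ∀ θ : ℝ, 0 < θ → ∃ κ c : ℝ, 0 < κ ∧ 0 < c ∧ ∀ᶠ n : ℕ in atTop,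
    (disX n).real {d | ¬ ∀ m : Fin n → ℝ, (∀ i, |m i| ≤ 1) → θ * n ≤ ∑ i, m i ^ 2 →
      Ent.qform (kmat n β d) m + κ * n
        ≤ ∑ i, satS (m i) + β ^ 2 * (1 - qn m) * ∑ i, m i ^ 2} ≤ exp (-(c * n))

end Vale.Agent.P150.Fast
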