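import Mathlib
import Vale.Agent.P150.Fast.SFZeroStmt
import Vale.Agent.P150.Fast.MarginSF
import Vale.Agent.P150.Fast.GaussTail

/-!
The zero-field Sudakov-Fernique step (P150), from the finite-sample one-variable inequality: each
vector is scaled by its own bound on the comparison process, so no slicing is needed.
-/

open MeasureTheory Real Finset Filter

namespace Vale.Agent.P150.Fast

variable {n : ℕ}

theorem sq_le_satS (x : ℝ) : x ^ 2 ≤ satS x := by
  have h4 : 0 ≤ x ^ 4 / 3 := by positivity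
  have h6 : 0 ≤ x ^ 6 / 5 := div_nonneg ((show Even 6 by decide).pow_nonneg x) (by norm_num)
  have h8 : 0 ≤ x ^ 8 / 7 := div_nonneg ((show Even 8 by decide).pow_nonneg x) (by norm_num)
  unfold satS
  linarith

theorem satS_le_two {x : ℝ} (h : |x| ≤ 1) : satS x ≤ 2 := by
  have hp : ∀ k : ℕ, Even k → x ^ k ≤ 1 := fun k hk => by
    rw [← hk.pow_abs]; exact pow_le_one₀ (abs_nonneg x) h
  unfold satS
  linarith [hp 2 even_two, hp 4 (by decide), hp 6 (by decide), hp 8 (by decide)]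

theorem qn_mem {m : Fin n → ℝ} (hn : 0 < n) (hm : ∀ i, |m i| ≤ 1) :
    0 ≤ qn m ∧ qn m ≤ 1 ∧ qn m * n = ∑ i, m i ^ 2 := by
  have hn' : (0 : ℝ) < n := by exact_mod_cast hn
  refine ⟨div_nonneg (sum_nonneg fun i _ => sq_nonneg _) hn'.le, ?_, div_mul_cancel₀ _ hn'.ne'⟩
  rw [qn, div_le_one hn']
  refine (sum_le_sum (g := fun _ => (1 : ℝ)) fun i _ => (sq_le_one_iff_abs_le_one _).2 (hm i)).trans ?_
  simp

/-- The slack between the comparison bound and the TAP terms. -/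
theorem zero_slack {β θ ε q N S F : ℝ} (hβ0 : 0 < β) (hβ : β < 1) (hθ : 0 < θ) (hN : 0 < N)
    (hε : ε = (1 - β) ^ 2 * θ / 20) (hq0 : 0 ≤ q) (hq1 : q ≤ 1) (hθq : θ ≤ q) (hSq : q * N ≤ S)
    (hS2 : S ≤ 2 * N)
    (hF : S + β ^ 2 * (q * (1 - q) * N) < F + (1 - β) ^ 2 * θ / 2 * N) :
    (1 + ε + ε) * (β * (S + q * (1 - q) * N + ε * N)) < F := by
  set a := 1 - β with ha
  have ha0 : 0 < a := sub_pos.2 hβ
  set R := q * (1 - q) * N with hR
  have hR0 : 0 ≤ R := mul_nonneg (mul_nonneg hq0 (sub_nonneg.2 hq1)) hN.le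
  have hR1 : R ≤ q * N := mul_le_mul_of_nonneg_right (by nlinarith) hN.le
  have hγ : a ^ 2 * θ * N = 20 * (ε * N) := by rw [hε]; ring
  have h1 : a * (a * (q * N)) ≤ a * (S - β * R) := by
    refine mul_le_mul_of_nonneg_left ?_ ha0.le
    have := mul_le_mul_of_nonneg_left hR1 hβ0.le
    have e : a * (q * N) = q * N - β * (q * N) := by rw [ha]; ring
    linarith
  have h2 : a ^ 2 * θ * N ≤ a * (a * (q * N)) := by
    have e : a * (a * (q * N)) = a ^ 2 * q * N := by ring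
    rw [e]
    exact mul_le_mul_of_nonneg_right (mul_le_mul_of_nonneg_left hθq (sq_nonneg a)) hN.le
  have hε0 : 0 < ε := by rw [hε]; positivity
  have hε1 : ε ≤ 1 := by
    have h5 : a ^ 2 ≤ 1 := pow_le_one₀ ha0.le (by linarith)
    have := mul_le_mul h5 (hθq.trans hq1) hθ.le zero_le_one
    rw [hε]
    linarith
  have h3 : 2 * ε * (β * (S + R + ε * N)) ≤ 2 * ε * (4 * N) := by
    refine mul_le_mul_of_nonneg_left ?_ (by positivity)
    have h6 : 0 ≤ S + R + ε * N := by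
      have := mul_nonneg hq0 hN.le
      have := mul_pos hε0 hN
      linarith
    have h7 : S + R + ε * N ≤ 4 * N := by
      have := mul_le_mul_of_nonneg_right hq1 hN.le
      have := mul_le_mul_of_nonneg_right hε1 hN.le
      linarith
    exact (mul_le_of_le_one_left h6 hβ.le).trans h7
  have e1 : (1 + ε + ε) * (β * (S + R + ε * N))
      = β * S + β * R + β * (ε * N) + 2 * ε * (β * (S + R + ε * N)) := by ring
  have e2 : a * (S - β * R) = S - β * S - β * R + β ^ 2 * R := by rw [ha]; ring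
  have h4 : β * (ε * N) ≤ ε * N := mul_le_of_le_one_left (by positivity) hβ.le
  rw [e1]
  have h5 : 20 * (ε * N) ≤ a * (S - β * R) := hγ ▸ h2.trans h1
  rw [e2] at h5
  have h6 : a ^ 2 * θ / 2 * N = 10 * (ε * N) := by rw [div_mul_eq_mul_div, hγ]; ring
  have h7 : 0 < ε * N := mul_pos hε0 hN
  have h8 : 2 * ε * (4 * N) = 8 * (ε * N) := by ring
  linarith only [h3, h4, h5, h6, h7, h8, hF]

theorem sfZero_of (hE : EmpThreeB) {β : ℝ} (hβ0 : 0 ≤ β) (hβ : β < 1) : SFZero β := by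
  intro θ hθ
  set γ : ℝ := (1 - β) ^ 2 * θ with hγ
  have hγ0 : 0 < γ := by have : 0 < 1 - β := sub_pos.2 hβ; positivity
  refine ⟨γ / 2, (γ / 20) ^ 4 / π ^ 2, by positivity, by positivity, ?_⟩
  rcases hβ0.eq_or_lt with h | hβpos
  · subst h
    filter_upwards [eventually_gt_atTop 0] with n hn
    refine le_trans (le_of_eq ?_) (exp_pos _).le
    convert measureReal_empty (μ := disX n)
    refine Set.eq_empty_of_forall_notMem fun d hd => hd fun m hm hq => ?_
    have hz : Ent.qform (kmat n 0 d) m = 0 := by simp [Ent.qform, kmat]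
    have hS : ∑ i, m i ^ 2 ≤ ∑ i, satS (m i) := sum_le_sum fun i _ => sq_le_satS _
    have hn' : (0 : ℝ) ≤ θ * n := by positivity
    simp only [hγ, hz]
    norm_num
    linarith
  set ε : ℝ := γ / 20 with hε
  have hε0 : 0 < ε := by positivity
  set δ : ℝ := (ε ^ 2 / 2) ^ 2 with hδ
  filter_upwards [hE ε δ hε0 (by positivity), eventually_gt_atTop 0] with n hGp hn
  have : IsProbabilityMeasure (disX n) := by unfold disX gp; infer_instance
  have hn' : (0 : ℝ) < n := by exact_mod_cast hn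
  set G : Set (Fin n → ℝ) := {g | ∀ m : Fin n → ℝ, (∀ i, |m i| ≤ 1) →
      2 * √(qn m) * ∑ i, g i * m i ≤ ∑ i, satS (m i) + qn m * (1 - qn m) * n + ε * n} with hG
  have hGm : MeasurableSet G := by
    refine IsClosed.measurableSet ?_
    rw [hG, show {g : Fin n → ℝ | ∀ m : Fin n → ℝ, (∀ i, |m i| ≤ 1) →
      2 * √(qn m) * ∑ i, g i * m i ≤ ∑ i, satS (m i) + qn m * (1 - qn m) * n + ε * n}
      = ⋂ m : {m : Fin n → ℝ // ∀ i, |m i| ≤ 1}, {g | 2 * √(qn m.1) * ∑ i, g i * m.1 i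
          ≤ ∑ i, satS (m.1 i) + qn m.1 * (1 - qn m.1) * n + ε * n} by ext g; simp]
    exact isClosed_iInter fun m => isClosed_le (by fun_prop) continuous_const
  set t : (Fin n → ℝ) → ℝ :=
    fun m => β * (∑ i, satS (m i) + qn m * (1 - qn m) * n + ε * n) with ht
  set X : Set (Fin n → ℝ) := {x | ∃ m : Fin n → ℝ, (∀ i, |m i| ≤ 1) ∧ x = (√(t m))⁻¹ • m} with hX
  have htlo : ∀ m : Fin n → ℝ, (∀ i, |m i| ≤ 1) → β * (ε * n) ≤ t m := fun m hm => by
    obtain ⟨q0, q1, -⟩ := qn_mem hn hm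
    refine mul_le_mul_of_nonneg_left ?_ hβpos.le
    have h1 : 0 ≤ qn m * (1 - qn m) * n := mul_nonneg (mul_nonneg q0 (sub_nonneg.2 q1)) hn'.le
    have h2 : 0 ≤ ∑ i, satS (m i) := sum_nonneg fun i _ => le_trans (sq_nonneg _) (sq_le_satS _)
    linarith
  have htp : ∀ m : Fin n → ℝ, (∀ i, |m i| ≤ 1) → 0 < t m := fun m hm =>
    lt_of_lt_of_le (by positivity) (htlo m hm)
  have hsq : ∀ m : Fin n → ℝ, (∀ i, |m i| ≤ 1) →
      ∑ i, ((√(t m))⁻¹ • m) i ^ 2 = qn m * n / t m := fun m hm => by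
    rw [(qn_mem hn hm).2.2]
    simp only [Pi.smul_apply, smul_eq_mul, mul_pow, ← mul_sum, inv_pow, sq_sqrt (htp m hm).le]
    rw [inv_mul_eq_div]
  have hB : ∀ x ∈ X, ∑ i, x i ^ 2 ≤ 1 / (β * ε) := by
    rintro x ⟨m, hm, rfl⟩
    rw [hsq m hm, div_le_div_iff₀ (htp m hm) (by positivity), one_mul]
    obtain ⟨q0, q1, -⟩ := qn_mem hn hm
    calc qn m * n * (β * ε) ≤ 1 * n * (β * ε) := by
          refine mul_le_mul_of_nonneg_right (mul_le_mul_of_nonneg_right q1 hn'.le) (by positivity)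
      _ = β * (ε * n) := by ring
      _ ≤ t m := htlo m hm
  have hgood : ∀ g ∈ G, ∀ x ∈ X,
      β * (2 * √(∑ j, x j ^ 2) / √n) * (∑ i, g i * x i) ≤ 1 := by
    rintro g hg x ⟨m, hm, rfl⟩
    rw [hsq m hm, sqrt_div (mul_nonneg (qn_mem hn hm).1 hn'.le), sqrt_mul (qn_mem hn hm).1]
    rw [sum_congr rfl fun i _ => show g i * ((√(t m))⁻¹ • m) i = (√(t m))⁻¹ * (g i * m i) by
      simp only [Pi.smul_apply, smul_eq_mul]; ring, ← mul_sum]
    have h0 := sqrt_pos.2 (htp m hm)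
    have h1 := mul_le_mul_of_nonneg_left (hg m hm) hβpos.le
    have e : β * (2 * (√(qn m) * √(n : ℝ) / √(t m)) / √(n : ℝ)) * ((√(t m))⁻¹ * ∑ i, g i * m i)
        = β * (2 * √(qn m) * ∑ i, g i * m i) / t m := by
      have hsn : √(n : ℝ) ≠ 0 := (sqrt_pos.2 hn').ne'
      rw [mul_div_assoc' 2, div_div, mul_comm (√(t m)) (√(n : ℝ)), ← div_div, ← mul_assoc 2,
        mul_div_cancel_right₀ _ hsn]
      conv_rhs => rw [← mul_self_sqrt (htp m hm).le, div_mul_eq_div_div]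
      ring
    rw [e, div_le_one (htp m hm)]
    exact h1
  have h2p : 2 * β * (1 / (β * ε)) * √δ = ε := by
    rw [hδ, sqrt_sq (by positivity)]
    field_simp
  have htail := sup_qform_tail gaussTail hn hβpos (B := 1 / (β * ε)) (p := δ) (s := ε)
    (by positivity) hε0.le X hB hGm (by
      refine le_trans (le_of_eq ?_) hGp
      rfl) hgood
  refine le_trans (measureReal_mono ?_ (measure_ne_top _ _)) (htail.trans (le_of_eq ?_))
  · intro d hd
    simp only [Set.mem_ofPred_eq, not_forall] at hd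
    obtain ⟨m, hm, hq, hlt⟩ := hd
    refine ⟨(√(t m))⁻¹ • m, ⟨m, hm, rfl⟩, ?_⟩
    have hsc : Ent.qform (kmat n β d) ((√(t m))⁻¹ • m) = Ent.qform (kmat n β d) m / t m := by
      simp only [Ent.qform, Pi.smul_apply, smul_eq_mul, sum_div]
      refine sum_congr rfl fun i _ => sum_congr rfl fun j _ => ?_
      rw [div_eq_mul_inv, ← mul_self_sqrt (htp m hm).le, mul_inv]
      simp only [sqrt_mul_self (sqrt_nonneg _)]
      ring
    rw [hsc, h2p, lt_div_iff₀ (htp m hm)]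
    obtain ⟨q0, q1, qe⟩ := qn_mem hn hm
    have hS2 : ∑ i, satS (m i) ≤ 2 * n := by
      refine (sum_le_sum fun i _ => satS_le_two (hm i)).trans (le_of_eq ?_)
      simp [mul_comm]
    refine zero_slack hβpos hβ hθ hn' rfl q0 q1 (le_of_mul_le_mul_right (hq.trans qe.ge) hn')
      (qe ▸ sum_le_sum fun i _ => sq_le_satS _) hS2 ?_
    have hRHS : β ^ 2 * (1 - qn m) * ∑ i, m i ^ 2 = β ^ 2 * (qn m * (1 - qn m) * n) := by
      rw [← qe]; ring
    rw [hRHS] at hlt
    exact not_le.1 hlt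
  · congr 1
    rw [hε]
    field_simp

end Vale.Agent.P150.Fast
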