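import Vale.Agent.P150.Fast.ScalarThreeB
import Vale.Agent.P150.Fast.EmpThree

/-!
P150: the empirical form of the scalar inequality (3b).
-/

open MeasureTheory ProbabilityTheory Real Finset Filter

namespace Vale.Agent.P150.Fast

/-- The one-variable inequality against an empirical Gaussian sample. -/
theorem empThreeB : EmpThreeB := by
  obtain ⟨ι, _, F, C, hC, hFi, hcert⟩ := ThreeB.threeB_empirical
  let e := Fintype.equivFin ι
  set G : Fin (Fintype.card ι) → ℝ → ℝ := fun j => (hFi (e.symm j)).1.mk (F (e.symm j)) with hG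
  have hGm : ∀ j, Measurable (G j) := fun j => (hFi (e.symm j)).1.stronglyMeasurable_mk.measurable
  have hGe : ∀ j, F (e.symm j) =ᵐ[gaussianReal 0 1] G j := fun j => (hFi (e.symm j)).1.ae_eq_mk
  have hGi : ∀ j, Integrable (G j) (gaussianReal 0 1) := fun j => (hFi (e.symm j)).congr (hGe j)
  intro ε δ hε hδ
  have hη : 0 < ε / (C + 1) := by positivity
  filter_upwards [sample_lln_fin hGm hGi hη hδ] with n hn
  have hbad : ∀ᵐ g ∂gp (Fin n), ∀ (j : Fin (Fintype.card ι)) (i : Fin n),
      F (e.symm j) (g i) = G j (g i) := by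
    rw [ae_all_iff]
    intro j
    rw [ae_all_iff]
    intro i
    have hp : MeasurePreserving (fun g : Fin n → ℝ => g i) (gp (Fin n)) (gaussianReal 0 1) :=
      measurePreserving_eval _ i
    exact hp.quasiMeasurePreserving.ae_eq_comp (hGe j)
  refine le_trans ?_ hn
  refine ENNReal.toReal_mono (measure_ne_top _ _) (measure_mono_ae ?_)
  filter_upwards [hbad] with g hg hnot hall
  refine hnot fun m hm => ?_
  have h := hcert n g m (ε / (C + 1)) hm hη.le fun i => by
    have h1 := hall (e i)
    have h2 : ∑ l, G (e i) (g l) = ∑ l, F i (g l) := Finset.sum_congr rfl fun l _ => by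
      rw [← hg (e i) l, e.symm_apply_apply]
    have h3 : ∫ x, G (e i) x ∂gaussianReal 0 1 = ∫ x, F i x ∂gaussianReal 0 1 := by
      have h4 := hGe (e i)
      rw [e.symm_apply_apply] at h4
      exact (integral_congr_ae h4).symm
    rw [h2, h3] at h1
    exact h1
  refine h.trans ?_
  have : C * (ε / (C + 1)) ≤ ε := by
    rw [mul_div_assoc', div_le_iff₀ (by positivity)]
    nlinarith
  simp only [ThreeB.Spoly, satS, qn]
  linarith [mul_le_mul_of_nonneg_right this (Nat.cast_nonneg n : (0 : ℝ) ≤ n)]

end Vale.Agent.P150.Fast
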