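import Vale.Agent.P150.Crit.Second
import Vale.Agent.P150.Crit.Glue
import Vale.Agent.P150.Fast.Assembly
import Vale.Agent.P150.Fast.Drift
import Vale.Agent.P150.Fast.SFZero
import Vale.Agent.P150.Fast.ThreeBEmp
import Vale.Agent.P150.Fast.Entropy.Main
import Vale.Agent.P150.Fast.Cavity.Ladder.Main
import Vale.Agent.P150.Fast.Cavity.Core.Thm
import Vale.Agent.P150.Fast.Step.NodeThm

/-!
P150: fast mixing at every `β < 1` from the cavity core and the centres.
-/

open MeasureTheory Real Filter

namespace Vale.Agent.P150.Fast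

/-- Fast mixing at one temperature from the core and the centres. -/
theorem fast_of_joints {β : ℝ} (h0 : 0 ≤ β) (h1 : β < 1) (hCore : CoreStmt β) (hNode : NodeStmt β) :
    FastStmt β :=
  assembly h0
    (Entropy.phaseOne h0 h1 (Ladder.cavityStmt_of_core h0 h1 hCore) (sfZero_of empThreeB h0 h1))
    (driftStmt β h0 h1 hNode)

/-- Fast mixing at every `β < 1`; below `1/2` no joint is needed. -/
theorem fast_all_of_joints (hCore : ∀ β : ℝ, 0 < β → β < 1 → CoreStmt β)
    (hNode : ∀ β : ℝ, 0 < β → β < 1 → NodeStmt β) {β : ℝ} (h0 : 0 ≤ β) (h1 : β < 1) : FastStmt β := by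
  rcases lt_or_ge β (1 / 2) with h | h
  · exact Crit.fast_of_crit Crit.critStmt h0 h
  · exact fast_of_joints h0 h1 (hCore β (by linarith) h1) (hNode β (by linarith) h1)

/-- **Fast mixing at every `β < 1`.** -/
theorem fast_all {β : ℝ} (h0 : 0 ≤ β) (h1 : β < 1) : FastStmt β :=
  fast_all_of_joints (fun _ h h' => Core.coreThm h.le h') (fun _ h h' => nodeStmt h.le h') h0 h1

end Vale.Agent.P150.Fast
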