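import Mathlib

/-!
Averages over the sites, for the local law of P150.
-/

open Real Finset

namespace Vale.Agent.P150.Fast.LL

variable {n : ℕ}

/-- The average over the sites. -/
noncomputable def av (f : Fin n → ℝ) : ℝ := (∑ i, f i) / n

theorem av_mono {f g : Fin n → ℝ} (h : ∀ i, f i ≤ g i) : av f ≤ av g :=
  div_le_div_of_nonneg_right (sum_le_sum fun i _ => h i) (Nat.cast_nonneg n)

theorem av_add (f g : Fin n → ℝ) : av (fun i => f i + g i) = av f + av g := by
  simp [av, sum_add_distrib, add_div]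

theorem av_sub (f g : Fin n → ℝ) : av (fun i => f i - g i) = av f - av g := by simp [av, sub_div]

theorem av_mul (a : ℝ) (f : Fin n → ℝ) : av (fun i => a * f i) = a * av f := by
  simp only [av, ← mul_sum, mul_div_assoc]

theorem av_abs (f : Fin n → ℝ) : |av f| ≤ av fun i => |f i| := by
  rw [av, av, abs_div, Nat.abs_cast]
  exact div_le_div_of_nonneg_right (abs_sum_le_sum_abs _ _) (Nat.cast_nonneg n)

theorem av_sq_le (f : Fin n → ℝ) : av f ^ 2 ≤ av fun i => f i ^ 2 := by
  rcases Nat.eq_zero_or_pos n with h | h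
  · subst h; simp [av]
  have hn : (0 : ℝ) < n := by exact_mod_cast h
  rw [av, av, div_pow, div_le_div_iff₀ (by positivity) hn]
  have h := sq_sum_le_card_mul_sum_sq (s := univ) (f := f)
  rw [card_univ, Fintype.card_fin] at h
  nlinarith

theorem av_mul_sq_le (f g : Fin n → ℝ) :
    av (fun i => f i * g i) ^ 2 ≤ av (fun i => f i ^ 2) * av fun i => g i ^ 2 := by
  simp only [av, div_pow, div_mul_div_comm, ← pow_two]
  exact div_le_div_of_nonneg_right (sum_mul_sq_le_sq_mul_sq univ f g) (sq_nonneg _)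

theorem av_nonneg {f : Fin n → ℝ} (h : ∀ i, 0 ≤ f i) : 0 ≤ av f :=
  div_nonneg (sum_nonneg fun i _ => h i) (Nat.cast_nonneg n)

theorem av_le_const {f : Fin n → ℝ} {a : ℝ} (ha : 0 ≤ a) (h : ∀ i, f i ≤ a) : av f ≤ a := by
  rw [av]
  refine div_le_of_le_mul₀ (Nat.cast_nonneg n) ha ((sum_le_card_nsmul _ _ a fun i _ => h i).trans ?_)
  simp [mul_comm]

end Vale.Agent.P150.Fast.LL
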