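import Vale.Agent.P150.Fast.LLBase

/-!
The dyadic grids of the variances and a net of the unit ball, for the local law of P150.
-/

open Real Finset
open scoped Matrix

namespace Vale.Agent.P150.Fast.LL

variable {n : ℕ}

/-- Rounding down to level `k`. -/
noncomputable def rnd (k : ℕ) (v : Fin n → ℝ) (i : Fin n) : ℝ := (⌊2 ^ k * v i⌋₊ : ℝ) / 2 ^ k

/-- The grid of level `k`. -/
noncomputable def grid (n k : ℕ) : Finset (Fin n → ℝ) :=
  (Fintype.piFinset fun _ => range (2 ^ k + 1)).image fun j i => (j i : ℝ) / 2 ^ k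

theorem grid_mem {k : ℕ} {x : Fin n → ℝ} (hx : x ∈ grid n k) (i : Fin n) : 0 ≤ x i ∧ x i ≤ 1 := by
  simp only [grid, mem_image, Fintype.mem_piFinset, mem_range] at hx
  obtain ⟨j, hj, rfl⟩ := hx
  refine ⟨by positivity, (div_le_one (by positivity)).2 ?_⟩
  exact_mod_cast Nat.lt_succ_iff.1 (hj i)

theorem card_grid (n k : ℕ) : ((grid n k).card : ℝ) ≤ exp ((k + 1) * n) := by
  have h : (grid n k).card ≤ (2 ^ k + 1) ^ n := card_image_le.trans (by simp)
  refine (Nat.cast_le.2 h).trans ?_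
  push_cast
  rw [mul_comm, exp_nat_mul]
  refine pow_le_pow_left₀ (by positivity) ?_ n
  have h2 : (2 : ℝ) ≤ exp 1 := by linarith [add_one_le_exp (1 : ℝ)]
  have h1 : (2 : ℝ) ^ k + 1 ≤ 2 ^ (k + 1) := by
    rw [pow_succ]; linarith [one_le_pow₀ (M₀ := ℝ) one_le_two (n := k)]
  refine h1.trans ((pow_le_pow_left₀ zero_le_two h2 _).trans_eq ?_)
  rw [← exp_nat_mul]; simp

theorem rnd_facts {v : Fin n → ℝ} (hv : ∀ i, 0 ≤ v i ∧ v i ≤ 1) (k : ℕ) :
    rnd k v ∈ grid n k ∧ (∀ i, 0 ≤ rnd k v i) ∧ (∀ i, rnd k v i ≤ v i) ∧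
      (∀ i, v i - rnd k v i ≤ 1 / 2 ^ k) ∧ ∀ i, rnd k v i ≤ rnd (k + 1) v i := by
  have hp : (0 : ℝ) < 2 ^ k := by positivity
  refine ⟨?_, fun i => by unfold rnd; positivity, fun i => ?_, fun i => ?_, fun i => ?_⟩
  · simp only [grid, mem_image, Fintype.mem_piFinset, mem_range]
    refine ⟨fun i => ⌊2 ^ k * v i⌋₊, fun i => Nat.lt_succ_of_le (Nat.floor_le_of_le ?_), rfl⟩
    push_cast
    exact mul_le_of_le_one_right hp.le (hv i).2
  · rw [rnd, div_le_iff₀ hp, mul_comm (v i)]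
    exact Nat.floor_le (mul_nonneg hp.le (hv i).1)
  · rw [rnd, sub_le_iff_le_add, ← add_div, le_div_iff₀ hp, mul_comm (v i)]
    linarith [Nat.lt_floor_add_one (2 ^ k * v i)]
  · rw [rnd, rnd, pow_succ, div_le_div_iff₀ hp (by positivity)]
    have h : 2 * ⌊2 ^ k * v i⌋₊ ≤ ⌊2 ^ k * 2 * v i⌋₊ := Nat.le_floor (by
      push_cast
      nlinarith [Nat.floor_le (mul_nonneg hp.le (hv i).1)])
    have h' : (2 : ℝ) * ⌊2 ^ k * v i⌋₊ ≤ ⌊2 ^ k * 2 * v i⌋₊ := by exact_mod_cast h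
    nlinarith

/-- A net of the unit ball. -/
noncomputable def unet (n : ℕ) : Finset (Fin n → ℝ) :=
  ((Fintype.piFinset fun _ => Icc (-(2 * n + 1 : ℤ)) (2 * n + 1)).filter
    fun j => ∑ i, (j i : ℝ) ^ 2 ≤ 4 * n).image fun j i => (j i : ℝ) / (2 * √n)

theorem unet_norm {u : Fin n → ℝ} (hu : u ∈ unet n) : nrm u ≤ 1 := by
  simp only [unet, mem_image, mem_filter] at hu
  obtain ⟨j, ⟨-, hj⟩, rfl⟩ := hu
  rw [nrm, sqrt_le_one]
  simp only [div_pow, ← sum_div, mul_pow, sq_sqrt (Nat.cast_nonneg n)]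
  exact div_le_one_of_le₀ (hj.trans_eq (by norm_num)) (by positivity)

theorem sum_exp_sq_le (m : ℕ) : ∑ j ∈ Icc (-(m : ℤ)) m, exp (-(j : ℝ) ^ 2) ≤ exp 2 := by
  have hg : ∀ N : ℕ, ∑ l ∈ range N, exp (-(l : ℝ)) ≤ 2 := fun N => by
    have h1 : exp (-1 : ℝ) ≤ 1 / 2 := by
      rw [exp_neg, inv_eq_one_div]
      exact div_le_div_of_nonneg_left zero_le_one two_pos (by linarith [add_one_le_exp (1 : ℝ)])
    refine le_trans (sum_le_sum fun l _ => ?_) (sum_geometric_two_le N)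
    rw [show -(l : ℝ) = (l : ℝ) * -1 by ring, exp_nat_mul]
    exact pow_le_pow_left₀ (exp_pos _).le h1 l
  have hle : ∑ j ∈ Icc (-(m : ℤ)) m, exp (-(j : ℝ) ^ 2)
      ≤ ∑ j ∈ (range (m + 1)).image (fun l : ℕ => (l : ℤ)) ∪ (range (m + 1)).image (fun l : ℕ => -(l : ℤ)),
        exp (-(j : ℝ) ^ 2) := by
    refine sum_le_sum_of_subset_of_nonneg (fun j hj => ?_) fun _ _ _ => (exp_pos _).le
    simp only [mem_Icc] at hj
    simp only [mem_union, mem_image, mem_range]
    rcases le_total 0 j with h | h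
    · exact Or.inl ⟨j.toNat, by omega, by omega⟩
    · exact Or.inr ⟨(-j).toNat, by omega, by omega⟩
  have hpt : ∀ l : ℕ, exp (-((l : ℤ) : ℝ) ^ 2) ≤ exp (-(l : ℝ)) := fun l => by
    refine exp_le_exp.2 ?_
    push_cast
    rcases Nat.eq_zero_or_pos l with h | h
    · subst h; simp
    · have : (1 : ℝ) ≤ l := by exact_mod_cast h
      nlinarith
  refine hle.trans ((le_of_le_of_eq (le_add_of_nonneg_right
    (sum_nonneg fun _ _ => (exp_pos _).le)) sum_union_inter).trans ?_)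
  rw [sum_image fun a _ b _ h => by simpa using h, sum_image fun a _ b _ h => by simpa using h]
  have h2 : (4 : ℝ) ≤ exp 2 := by
    have := add_one_le_exp (1 : ℝ)
    rw [show (2 : ℝ) = 1 + 1 by norm_num, exp_add]
    nlinarith
  refine le_trans (add_le_add ((sum_le_sum fun l _ => hpt l).trans (hg _))
    (((sum_le_sum fun l _ => ?_).trans (hg _)))) (by linarith)
  simpa using hpt l

theorem card_unet (n : ℕ) : ((unet n).card : ℝ) ≤ exp (6 * n) := by
  set P := Fintype.piFinset fun _ : Fin n => Icc (-(2 * n + 1 : ℤ)) (2 * n + 1)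
  set Q := P.filter fun j => ∑ i, (j i : ℝ) ^ 2 ≤ 4 * n
  refine (Nat.cast_le.2 card_image_le).trans ?_
  calc (Q.card : ℝ) = ∑ _j ∈ Q, (1 : ℝ) := by simp
    _ ≤ ∑ j ∈ Q, exp (4 * n) * ∏ i, exp (-(j i : ℝ) ^ 2) := sum_le_sum fun j hj => by
        rw [← exp_sum, ← exp_add, sum_neg_distrib]
        refine one_le_exp ?_
        have := (mem_filter.1 hj).2
        linarith
    _ ≤ ∑ j ∈ P, exp (4 * n) * ∏ i, exp (-(j i : ℝ) ^ 2) :=
        sum_le_sum_of_subset_of_nonneg (filter_subset _ _) fun _ _ _ => by positivity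
    _ ≤ exp (4 * n) * exp 2 ^ n := by
        rw [← mul_sum]
        refine mul_le_mul_of_nonneg_left ?_ (exp_pos _).le
        rw [← prod_univ_sum (fun _ : Fin n => Icc (-(2 * n + 1 : ℤ)) (2 * n + 1))
          fun _ j => exp (-(j : ℝ) ^ 2), prod_const, card_univ, Fintype.card_fin]
        refine pow_le_pow_left₀ (sum_nonneg fun _ _ => (exp_pos _).le) ?_ n
        simpa using sum_exp_sq_le (2 * n + 1)
    _ = exp (6 * n) := by rw [← exp_nat_mul, ← exp_add]; ring_nf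

/-- Every vector is seen by the net up to a factor two. -/
theorem exists_unet (hn : 1 ≤ n) (z : Fin n → ℝ) : ∃ u ∈ unet n, nrm z ≤ 2 * (u ⬝ᵥ z) := by
  have hnn : (0 : ℝ) < n := by exact_mod_cast hn
  rcases (nrm_nonneg z).eq_or_lt with h | h
  · refine ⟨0, ?_, ?_⟩
    · simp only [unet, mem_image, mem_filter, Fintype.mem_piFinset, mem_Icc]
      refine ⟨0, ⟨fun i => ⟨by simp; omega, by simp; omega⟩, by simp⟩, by funext i; simp⟩
    · simp [← h]
  set r := nrm z
  set c := 2 * √(n : ℝ) with hc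
  have hc0 : 0 < c := by positivity
  set x : Fin n → ℝ := fun i => c * (z i / r)
  set j : Fin n → ℤ := fun i => if 0 ≤ x i then ⌊x i⌋ else ⌈x i⌉
  have hj : ∀ i, |(j i : ℝ)| ≤ |x i| ∧ |x i - j i| ≤ 1 := fun i => by
    simp only [j]
    split_ifs with hx
    · have h1 := Int.floor_le (x i)
      have h2 := Int.lt_floor_add_one (x i)
      have h0 : (0 : ℝ) ≤ ⌊x i⌋ := by exact_mod_cast Int.floor_nonneg.2 hx
      rw [abs_of_nonneg h0, abs_of_nonneg hx, abs_of_nonneg (by linarith)]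
      constructor <;> linarith
    · have h1 := Int.le_ceil (x i)
      have h2 := Int.ceil_lt_add_one (x i)
      have h0 : ((⌈x i⌉ : ℤ) : ℝ) ≤ 0 := by exact_mod_cast Int.ceil_le.2 (by push_cast; linarith)
      rw [abs_of_nonpos h0, abs_of_nonpos (by linarith), abs_of_nonpos (by linarith)]
      constructor <;> linarith
  have hxs : ∑ i, x i ^ 2 = 4 * n := by
    simp only [x, mul_pow, div_pow, ← mul_sum, ← sum_div, ← nrm_sq, hc, sq_sqrt hnn.le]
    rw [div_self (pow_ne_zero 2 h.ne')]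
    norm_num
  have hjs : ∑ i, (j i : ℝ) ^ 2 ≤ 4 * n :=
    hxs ▸ sum_le_sum fun i _ => sq_le_sq.2 (hj i).1
  refine ⟨fun i => (j i : ℝ) / c, ?_, ?_⟩
  · simp only [unet, mem_image, mem_filter, Fintype.mem_piFinset, mem_Icc]
    refine ⟨j, ⟨fun i => ?_, hjs⟩, rfl⟩
    have h1 : ((j i : ℤ) : ℝ) ^ 2 ≤ 4 * n :=
      (single_le_sum (f := fun l => (j l : ℝ) ^ 2) (fun l _ => sq_nonneg _) (mem_univ i)).trans hjs
    have h2 : (j i) ^ 2 ≤ 4 * (n : ℤ) := by exact_mod_cast h1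
    constructor <;> nlinarith
  · have e : r = ∑ i, x i / c * z i := by
      have : ∀ i, x i / c * z i = z i ^ 2 / r := fun i => by simp only [x]; field_simp
      simp only [this, ← sum_div, ← nrm_sq]
      field_simp
      rfl
    have hd : |∑ i, (x i - j i) / c * z i| ≤ r / 2 := by
      refine (abs_sum_le_sum_abs _ _).trans ?_
      refine (sum_le_sum fun i _ => (abs_mul _ _).trans_le (mul_le_mul_of_nonneg_right
        (show |(x i - j i) / c| ≤ 1 / c by
          rw [abs_div, abs_of_pos hc0]; exact div_le_div_of_nonneg_right (hj i).2 hc0.le) (abs_nonneg _))).trans ?_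
      rw [← mul_sum, div_mul_eq_mul_div, one_mul, div_le_iff₀ hc0]
      have h1 := sum_mul_le_sqrt_mul_sqrt univ (fun _ : Fin n => (1 : ℝ)) fun i => |z i|
      simp only [one_mul, one_pow, sum_const, card_univ, Fintype.card_fin, nsmul_eq_mul, mul_one,
        sq_abs] at h1
      refine h1.trans_eq ?_
      show √(n : ℝ) * r = r / 2 * c
      rw [hc]; ring
    have e2 : ∑ i, (x i - j i) / c * z i = r - (fun i => (j i : ℝ) / c) ⬝ᵥ z := by
      rw [e, dotProduct, ← sum_sub_distrib]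
      exact sum_congr rfl fun i _ => by ring
    rw [e2] at hd
    linarith [(abs_le.1 hd).2]

end Vale.Agent.P150.Fast.LL
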