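import Vale.Agent.P150.Fast.LLEvents
import Vale.Agent.P150.Fast.LLNet

/-!
The union bound over all grids, for the local law of P150: outside an exponentially small event no
base value and no increment along the grids is large.
-/

open MeasureTheory Real Finset Filter
open scoped Matrix Matrix.Norms.L2Operator

namespace Vale.Agent.P150.Fast.LL

variable {n : ℕ} {β η Λ : ℝ}

theorem eventually_poly (C : ℝ) {c : ℝ} (hc : 0 < c) :
    ∀ᶠ n : ℕ in atTop, C * ((n : ℝ) + 1) ^ 2 * exp (-(c * n)) ≤ exp (-(c / 4 * n)) := by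
  set D := max 1 (8 / c)
  filter_upwards [eventually_le_exp (a := |C| * D ^ 2) (c := c / 4) (by positivity)] with n hn
  have h1 : (n : ℝ) + 1 ≤ D * exp (c / 8 * n) := by
    refine le_trans ?_ (mul_le_mul_of_nonneg_left (add_one_le_exp _) (by positivity))
    have hD : 1 ≤ D * (c / 8) := by
      refine le_trans ?_ (mul_le_mul_of_nonneg_right (le_max_right 1 (8 / c)) (by positivity))
      exact le_of_eq (by field_simp)
    nlinarith [le_max_left 1 (8 / c), (n.cast_nonneg : (0 : ℝ) ≤ n),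
      mul_le_mul_of_nonneg_right hD (n.cast_nonneg : (0 : ℝ) ≤ n)]
  refine le_trans ?_ hn
  have h2 := pow_le_pow_left₀ (by positivity) h1 2
  calc C * ((n : ℝ) + 1) ^ 2 * exp (-(c * n)) ≤ |C| * (D * exp (c / 8 * n)) ^ 2 * exp (-(c * n)) :=
        mul_le_mul_of_nonneg_right (mul_le_mul (le_abs_self C) h2 (sq_nonneg _) (abs_nonneg C))
          (exp_pos _).le
    _ = |C| * D ^ 2 * exp (-(3 * c / 4 * n)) := by
        rw [mul_pow, ← exp_nat_mul, mul_assoc, mul_assoc, ← exp_add, mul_assoc]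
        congr 3
        push_cast; ring
    _ ≤ |C| * D ^ 2 * exp (-(2 * (c / 4) * n)) := by
        refine mul_le_mul_of_nonneg_left (exp_le_exp.2 (neg_le_neg ?_)) (by positivity)
        exact mul_le_mul_of_nonneg_right (by linarith) (Nat.cast_nonneg n)

theorem union_bound {α : Type*} (T : Finset α) {E : α → Set (Dis n)} {b : ℝ}
    (h : ∀ i ∈ T, (disX n).real (E i) ≤ b) : (disX n).real (⋃ i ∈ T, E i) ≤ T.card * b :=
  (measureReal_biUnion_finset_le _ _).trans ((sum_le_card_nsmul _ _ _ h).trans_eq (nsmul_eq_mul _ _))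

/-- The values of the coupling scale on the grid. -/
noncomputable def sval (n j : ℕ) : ℝ := (j : ℝ) / n

theorem sval_mem {j : ℕ} (hn : 1 ≤ n) (hj : j ∈ range (n + 1)) : 0 ≤ sval n j ∧ sval n j ≤ 1 := by
  refine ⟨by unfold sval; positivity, (div_le_one (by exact_mod_cast hn)).2 ?_⟩
  exact_mod_cast Nat.lt_succ_iff.1 (mem_range.1 hj)

/-- The mesh of level `k`. -/
noncomputable def mesh (k : ℕ) : ℝ := 1 / 2 ^ k

/-- The deviation allowed on the base level. -/
noncomputable def chA (β Λ η : ℝ) (k₀ : ℕ) : ℝ := π * lipC β Λ η * (k₀ + 6)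

/-- The deviation allowed on level `k₀ + l`. -/
noncomputable def chStep (β Λ η : ℝ) (k₀ l : ℕ) : ℝ := chA β Λ η k₀ * (l + 1) * mesh (k₀ + l)

/-- The allowance for the complement of the regular event. -/
noncomputable def chEps (n : ℕ) (β Λ η c₀ : ℝ) : ℝ := 6 * (√n * zbd β Λ η * exp (-(c₀ * n)))

/-- A large value on the base level. -/
def badBase (n : ℕ) (β η Λ c₀ : ℝ) (k₀ : ℕ) : Set (Dis n) :=
  ⋃ j ∈ range (n + 1), ⋃ x ∈ grid n k₀, ⋃ u ∈ unet n,
    {d | d ∈ regAt n β η Λ (sval n j) x ∧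
      bfun n β η Λ (sval n j) x u + √n * zbd β Λ η * exp (-(c₀ * n)) + chA β Λ η k₀
        ≤ u ⬝ᵥ zv n β (sval n j) (rv β (sval n j) x) d x}

open Classical in
/-- The neighbours on the next level. -/
noncomputable def nbrs (n k : ℕ) (x : Fin n → ℝ) : Finset (Fin n → ℝ) :=
  (grid n (k + 1)).filter fun y => ∀ i, |y i - x i| ≤ mesh k

/-- A large increment on level `k₀ + l`. -/
def badStep (n : ℕ) (β η Λ c₀ : ℝ) (k₀ l : ℕ) : Set (Dis n) :=
  ⋃ j ∈ range (n + 1), ⋃ x ∈ grid n (k₀ + l), ⋃ y ∈ nbrs n (k₀ + l) x, ⋃ u ∈ unet n,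
    {d | d ∈ regAt n β η Λ (sval n j) x ∧ d ∈ regAt n β η Λ (sval n j) y ∧
      bfun n β η Λ (sval n j) y u - bfun n β η Λ (sval n j) x u + chEps n β Λ η c₀
          + chStep β Λ η k₀ l
        ≤ u ⬝ᵥ zv n β (sval n j) (rv β (sval n j) y) d y
          - u ⬝ᵥ zv n β (sval n j) (rv β (sval n j) x) d x}

theorem prob_base (G : Glob β η Λ) (hn : 1 ≤ n) {c₀ : ℝ} (k₀ : ℕ)
    (hreg : ∀ s x, Pt n s x → (disX n).real (regAt n β η Λ s x)ᶜ ≤ exp (-(c₀ * n))) :
    (disX n).real (badBase n β η Λ c₀ k₀) ≤ (n + 1) * exp (-(3 * n)) := by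
  have hnn : (0 : ℝ) < n := by exact_mod_cast hn
  have hL := lipC_pos (Λ := Λ) (η := η) G.hβ
  have hA : 0 ≤ chA β Λ η k₀ := by unfold chA; positivity
  refine (union_bound (range (n + 1)) fun j hj => union_bound (grid n k₀) fun x hx =>
    union_bound (unet n) (b := exp (-(2 * (k₀ + 6) ^ 2 * n))) fun u hu => ?_).trans ?_
  · have hp : Pt n (sval n j) x := ⟨(sval_mem hn hj).1, (sval_mem hn hj).2, grid_mem hx⟩
    refine (base_tail G hn hp (unet_norm hu) (hreg _ _ hp) hA).trans_eq ?_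
    congr 2
    rw [chA, div_pow, sq_sqrt hnn.le]
    field_simp
  · rw [card_range]
    push_cast
    refine mul_le_mul_of_nonneg_left ?_ (by positivity)
    have h1 := mul_le_mul (card_grid n k₀) (mul_le_mul_of_nonneg_right (card_unet n)
      (exp_pos (-(2 * (k₀ + 6 : ℝ) ^ 2 * n))).le) (by positivity) (exp_pos _).le
    refine h1.trans ?_
    rw [← exp_add, ← exp_add, exp_le_exp]
    have hk : (0 : ℝ) ≤ k₀ := Nat.cast_nonneg _
    nlinarith [mul_nonneg (show 0 ≤ 2 * ((k₀ : ℝ) + 6) ^ 2 - (k₀ + 10) by nlinarith) hnn.le]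

theorem prob_step (G : Glob β η Λ) (hn : 1 ≤ n) {c₀ : ℝ} (k₀ l : ℕ)
    (hreg : ∀ s x, Pt n s x → (disX n).real (regAt n β η Λ s x)ᶜ ≤ exp (-(c₀ * n))) :
    (disX n).real (badStep n β η Λ c₀ k₀ l) ≤ (n + 1) * exp (-(3 * n)) := by
  have hnn : (0 : ℝ) < n := by exact_mod_cast hn
  have hL := lipC_pos (Λ := Λ) (η := η) G.hβ
  have hA : 0 ≤ chStep β Λ η k₀ l := by unfold chStep chA mesh; positivity
  set b := exp (-(2 * (k₀ + 6) ^ 2 * (l + 1) ^ 2 * n))
  have h4 : ∀ j ∈ range (n + 1), (disX n).real (⋃ x ∈ grid n (k₀ + l), ⋃ y ∈ nbrs n (k₀ + l) x,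
      ⋃ u ∈ unet n, {d | d ∈ regAt n β η Λ (sval n j) x ∧ d ∈ regAt n β η Λ (sval n j) y ∧
        bfun n β η Λ (sval n j) y u - bfun n β η Λ (sval n j) x u + chEps n β Λ η c₀
            + chStep β Λ η k₀ l
          ≤ u ⬝ᵥ zv n β (sval n j) (rv β (sval n j) y) d y
            - u ⬝ᵥ zv n β (sval n j) (rv β (sval n j) x) d x})
      ≤ (grid n (k₀ + l)).card * ((grid n (k₀ + l + 1)).card * ((unet n).card * b)) := fun j hj => by
    refine union_bound _ fun x hx => (union_bound (nbrs n (k₀ + l) x) fun y hy =>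
      union_bound (unet n) (b := b) fun u hu => ?_).trans ?_
    · have hy' := mem_filter.1 hy
      have hp : Pt n (sval n j) x := ⟨(sval_mem hn hj).1, (sval_mem hn hj).2, grid_mem hx⟩
      have hq : Pt n (sval n j) y := ⟨(sval_mem hn hj).1, (sval_mem hn hj).2, grid_mem hy'.1⟩
      refine (incr_tail G hn hp hq (unet_norm hu) (by unfold mesh; positivity) hy'.2 (hreg _ _ hp)
        (hreg _ _ hq) hA).trans_eq ?_
      show _ = exp (-(2 * (k₀ + 6) ^ 2 * (l + 1) ^ 2 * n))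
      congr 2
      have hm : mesh (k₀ + l) ≠ 0 := by unfold mesh; positivity
      rw [chStep, chA, mul_pow (lipC β Λ η / √n) (mesh (k₀ + l)), div_pow, sq_sqrt hnn.le]
      field_simp
    · refine mul_le_mul_of_nonneg_right (Nat.cast_le.2 (card_le_card (filter_subset _ _))) ?_
      simp only [b]; positivity
  refine (union_bound _ h4).trans ?_
  rw [card_range]
  push_cast
  refine mul_le_mul_of_nonneg_left ?_ (by positivity)
  have h1 := mul_le_mul (card_grid n (k₀ + l)) (mul_le_mul (card_grid n (k₀ + l + 1))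
    (mul_le_mul_of_nonneg_right (card_unet n) (exp_pos (-(2 * (k₀ + 6 : ℝ) ^ 2 * (l + 1) ^ 2 * n))).le)
    (by positivity) (exp_pos _).le) (by positivity) (exp_pos _).le
  refine h1.trans ?_
  rw [← exp_add, ← exp_add, ← exp_add, exp_le_exp]
  push_cast
  have hk : (0 : ℝ) ≤ k₀ := Nat.cast_nonneg _
  have hl : (0 : ℝ) ≤ l := Nat.cast_nonneg _
  have h5 : (2 * k₀ + 2 * l + 12 : ℝ) ≤ 2 * ((k₀ : ℝ) + 6) ^ 2 * (l + 1) ^ 2 := by
    have h6 : (6 : ℝ) * (l + 1) ≤ ((k₀ : ℝ) + 6) * (l + 1) ^ 2 := by nlinarith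
    nlinarith [mul_le_mul_of_nonneg_left h6 (show (0 : ℝ) ≤ 2 * (k₀ + 6) by linarith)]
  nlinarith [mul_le_mul_of_nonneg_right h5 hnn.le]

/-- Everything that may go wrong. -/
def badAll (n : ℕ) (β η Λ c₀ : ℝ) (k₀ : ℕ) : Set (Dis n) :=
  {d | ¬ ∀ v, |Ent.qform (kmat n β d) v| ≤ Λ * ∑ i, v i ^ 2} ∪
    (badBase n β η Λ c₀ k₀ ∪ ⋃ l ∈ range n, badStep n β η Λ c₀ k₀ l)

theorem prob_all (hβ : 0 ≤ β) (hβ1 : β < 1) (hη0 : 0 < η) (hη : η ≤ η₀ β) (k₀ : ℕ) :
    ∃ c₀ c : ℝ, 0 < c₀ ∧ 0 < c ∧ ∀ᶠ n : ℕ in atTop,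
      (disX n).real (badAll n β η (2 * β + 1) c₀ k₀) ≤ exp (-(c * n)) ∧
        ∀ s x, Pt n s x →
          (disX n).real (regAt n β η (2 * β + 1) s x)ᶜ ≤ exp (-(c₀ * n)) := by
  obtain ⟨c₀, hc₀, hreg⟩ := regAt_compl hβ hβ1 hη
  obtain ⟨c₁, hc₁, hnorm⟩ := normEvent β 1 hβ one_pos
  set c := min c₁ (3 / 4) / 2
  refine ⟨c₀, c, hc₀, by positivity, ?_⟩
  filter_upwards [hreg, hnorm, eventually_poly 1 (c := 3) (by norm_num),
    eventually_le_exp (a := 2) (c := c) (by positivity), eventually_ge_atTop 1]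
    with n hr hN hp h2 hn
  have G : Glob β η (2 * β + 1) := ⟨hβ, hβ1, hη0, by linarith⟩
  refine ⟨(measureReal_union_le _ _).trans ((add_le_add hN ((measureReal_union_le _ _).trans
    (add_le_add (prob_base G hn k₀ hr)
      ((union_bound (range n) fun l _ => prob_step G hn k₀ l hr).trans_eq
        (by rw [card_range]))))).trans ?_), hr⟩
  have e1 : exp (-(c₁ * n)) ≤ exp (-(2 * c * n)) :=
    exp_le_exp.2 (neg_le_neg (mul_le_mul_of_nonneg_right
      (by simp only [c]; linarith [min_le_left c₁ (3 / 4)]) (Nat.cast_nonneg n)))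
  have e2 : exp (-(3 / 4 * n : ℝ)) ≤ exp (-(2 * c * n)) :=
    exp_le_exp.2 (neg_le_neg (mul_le_mul_of_nonneg_right
      (by simp only [c]; linarith [min_le_right c₁ (3 / 4)]) (Nat.cast_nonneg n)))
  linarith

end Vale.Agent.P150.Fast.LL
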