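import Vale.Agent.P150.Fast.LLMean
import Vale.Agent.P150.Fast.GaussTail

/-!
Concentration of a function that is Lipschitz on a closed convex set of large probability, for the
local law of P150.
-/

open MeasureTheory Real Finset Filter
open scoped Matrix Matrix.Norms.L2Operator RealInnerProductSpace

namespace Vale.Agent.P150.Fast.LL

variable {n : ℕ}

/-- The nearest-point map of a closed convex set is nonexpansive. -/
theorem exists_proj {ι : Type} [Fintype ι] {S : Set (ι → ℝ)} (hne : S.Nonempty) (hc : IsClosed S)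
    (hx : Convex ℝ S) : ∃ pr : (ι → ℝ) → ι → ℝ, (∀ g, pr g ∈ S) ∧ (∀ g ∈ S, pr g = g) ∧
      ∀ g h, √(∑ i, (pr g i - pr h i) ^ 2) ≤ √(∑ i, (g i - h i) ^ 2) := by
  set K : Set (EuclideanSpace ℝ ι) := WithLp.ofLp ⁻¹' S with hK
  have hKc : IsClosed K := hc.preimage (PiLp.continuous_ofLp 2 _)
  have hKx : Convex ℝ K := hx.linear_preimage (WithLp.linearEquiv 2 ℝ (ι → ℝ)).toLinearMap
  have hKne : K.Nonempty := ⟨WithLp.toLp 2 hne.some, hne.some_mem⟩
  choose p hp hpmin using exists_norm_eq_iInf_of_complete_convex hKne hKc.isComplete hKx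
  have hineq : ∀ u, ∀ w ∈ K, ⟪u - p u, w - p u⟫ ≤ 0 := fun u =>
    (norm_eq_iInf_iff_real_inner_le_zero hKx (hp u)).1 (hpmin u)
  have hfix : ∀ u ∈ K, p u = u := fun u hu => by
    have h := hineq u u hu
    rw [real_inner_self_eq_norm_sq] at h
    exact (sub_eq_zero.1 (norm_eq_zero.1 (by nlinarith [norm_nonneg (u - p u)]))).symm
  have hlip : ∀ u w, ‖p u - p w‖ ≤ ‖u - w‖ := fun u w => by
    have h1 := hineq u (p w) (hp w)
    have h2 := hineq w (p u) (hp u)
    have e : ‖p u - p w‖ ^ 2 ≤ ⟪u - w, p u - p w⟫ := by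
      rw [← real_inner_self_eq_norm_sq]
      simp only [inner_sub_left, inner_sub_right, real_inner_comm] at h1 h2 ⊢
      linarith
    have h3 := e.trans (real_inner_le_norm _ _)
    rcases (norm_nonneg (p u - p w)).eq_or_lt with h0 | h0
    · rw [← h0]; exact norm_nonneg _
    · exact le_of_mul_le_mul_right (by rw [← pow_two]; exact h3) h0
  refine ⟨fun g => (p (WithLp.toLp 2 g)).ofLp, fun g => hp _, fun g hg => ?_, fun g h => ?_⟩
  · show (p (WithLp.toLp 2 g)).ofLp = g
    rw [hfix (WithLp.toLp 2 g) hg]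
  · have := hlip (WithLp.toLp 2 g) (WithLp.toLp 2 h)
    simpa [EuclideanSpace.norm_eq, sq_abs] using this

/-- Concentration for a function that is Lipschitz on a closed convex set. -/
theorem convex_tail {ι : Type} [Fintype ι] {S : Set (ι → ℝ)} (hc : IsClosed S) (hx : Convex ℝ S)
    {W : (ι → ℝ) → ℝ} {L B a : ℝ} (hL : 0 < L) (ha : 0 ≤ a)
    (hlip : ∀ g ∈ S, ∀ h ∈ S, |W g - W h| ≤ L * √(∑ i, (g i - h i) ^ 2))
    (hB : ∀ g ∈ S, |W g| ≤ B) :
    (gp ι).real {g | g ∈ S ∧ (∫ h, S.indicator W h ∂gp ι) + B * (gp ι).real Sᶜ + a ≤ W g}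
      ≤ exp (-(2 * a ^ 2 / (π ^ 2 * L ^ 2))) := by
  rcases S.eq_empty_or_nonempty with h | hne
  · subst h
    simpa using (exp_pos _).le
  obtain ⟨p, hp, hfix, hpl⟩ := exists_proj hne hc hx
  set Φ := fun g => W (p g) with hΦ
  have hΦl : ∀ g h, |Φ g - Φ h| ≤ L * √(∑ i, (g i - h i) ^ 2) := fun g h =>
    (hlip _ (hp g) _ (hp h)).trans (mul_le_mul_of_nonneg_left (hpl g h) hL.le)
  have hΦc : Continuous Φ := by
    refine continuous_iff_continuousAt.2 fun g => tendsto_iff_dist_tendsto_zero.2
      (squeeze_zero (fun h => dist_nonneg) (fun h => (Real.dist_eq _ _).trans_le (hΦl h g)) ?_)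
    have : Continuous fun h : ι → ℝ => L * √(∑ i, (h i - g i) ^ 2) := by fun_prop
    simpa using this.tendsto g
  have hB0 : 0 ≤ B := (abs_nonneg _).trans (hB _ hne.some_mem)
  have hΦi : Integrable Φ (gp ι) :=
    Integrable.of_bound hΦc.aestronglyMeasurable B (ae_of_all _ fun g => hB _ (hp g))
  have hS : MeasurableSet S := hc.measurableSet
  have e : S.indicator W = S.indicator Φ := by
    funext g
    by_cases hg : g ∈ S
    · simp [hg, hΦ, hfix g hg]
    · simp [hg]
  have hmean : ∫ h, Φ h ∂gp ι ≤ (∫ h, S.indicator W h ∂gp ι) + B * (gp ι).real Sᶜ := by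
    rw [e]
    have h1 : ∀ g, Φ g ≤ S.indicator Φ g + Sᶜ.indicator (fun _ => B) g := fun g => by
      by_cases hg : g ∈ S
      · simp [hg]
      · simp only [Set.indicator_of_notMem hg, Set.indicator_of_mem (show g ∈ Sᶜ from hg), zero_add]
        exact le_of_abs_le (hB _ (hp g))
    refine (integral_mono hΦi ((hΦi.indicator hS).add ((integrable_const B).indicator hS.compl)) h1).trans_eq ?_
    rw [integral_add' (hΦi.indicator hS) ((integrable_const B).indicator hS.compl),
      integral_indicator_const _ hS.compl, smul_eq_mul, mul_comm ((gp ι).real Sᶜ)]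
  refine le_trans (measureReal_mono (fun g hg => ?_) (measure_ne_top _ _))
    (gaussTail ι Φ L hL hΦl a ha)
  obtain ⟨hgS, hga⟩ := hg
  show ∫ h, Φ h ∂gp ι + a ≤ Φ g
  rw [hΦ]
  simp only [hfix g hgS]
  linarith

theorem kmat_combo (β : ℝ) (d d' : Dis n) (a b : ℝ) :
    kmat n β (a • d + b • d') = a • kmat n β d + b • kmat n β d' := by
  rw [kmat_eq, kmat_eq, kmat_eq]
  have e : goe n (a • d + b • d') = a • goe n d + b • goe n d' := by
    funext i j
    simp only [goe, Matrix.add_apply, Matrix.smul_apply, Pi.add_apply, Pi.smul_apply, smul_eq_mul]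
    split_ifs <;> ring
  rw [e, smul_add, smul_comm _ a, smul_comm _ b]

theorem convex_regSet (n : ℕ) (β s R η Λ : ℝ) (v : Fin n → ℝ) :
    Convex ℝ (regSet n β s R η Λ v) := by
  intro d hd d' hd' a b ha hb hab
  refine ⟨?_, fun u => ?_⟩
  · rw [kmat_combo]
    refine (norm_add_le _ _).trans ?_
    rw [norm_smul, norm_smul, Real.norm_eq_abs, Real.norm_eq_abs, abs_of_nonneg ha, abs_of_nonneg hb]
    refine (add_le_add (mul_le_mul_of_nonneg_left hd.1 ha) (mul_le_mul_of_nonneg_left hd'.1 hb)).trans_eq ?_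
    rw [← add_mul, hab, one_mul]
  · have e : xm n β s R (a • d + b • d') = a • xm n β s R d + b • xm n β s R d' := by
      ext i j
      simp only [xm, kmat_combo, Matrix.add_apply, Matrix.sub_apply, Matrix.smul_apply, smul_eq_mul]
      linear_combination -(R * (1 : Matrix (Fin n) (Fin n) ℝ) i j) * hab
    have eq : Ent.qform (xm n β s R (a • d + b • d')) (fun i => v i * u i)
        = a * Ent.qform (xm n β s R d) (fun i => v i * u i)
          + b * Ent.qform (xm n β s R d') (fun i => v i * u i) := by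
      simp only [← dot_mulVec_eq, e, Matrix.add_mulVec, Matrix.smul_mulVec, dotProduct_add,
        dotProduct_smul, smul_eq_mul]
    rw [eq]
    have h1 := mul_le_mul_of_nonneg_left (hd.2 u) ha
    have h2 := mul_le_mul_of_nonneg_left (hd'.2 u) hb
    linear_combination h1 + h2 + (∑ i, v i * u i ^ 2 - η * ∑ i, (v i * u i) ^ 2) * hab

theorem isClosed_regSet (n : ℕ) (β s R η Λ : ℝ) (v : Fin n → ℝ) :
    IsClosed (regSet n β s R η Λ v) := by
  refine (isClosed_le (continuous_kmat' β).norm continuous_const).inter ?_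
  show IsClosed {d | Marg n β s R η d v}
  unfold Marg
  rw [Set.ofPred_forall]
  refine isClosed_iInter fun u => isClosed_le continuous_const ?_
  have : ∀ a b, Continuous fun d : Dis n => xm n β s R d a b := fun a b => by
    simp only [xm, Matrix.sub_apply, Matrix.smul_apply, smul_eq_mul]
    exact continuous_const.sub ((continuous_kmat β a b).const_mul s)
  exact continuous_const.add (continuous_finsetSum _ fun a _ => continuous_finsetSum _ fun b _ =>
    ((this a b).const_mul _).mul_const _)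

end Vale.Agent.P150.Fast.LL
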