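import Vale.Agent.P150.Fast.LLRow
import Vale.Agent.P150.Fast.GoeConj

/-!
Second differences of the resolvent: four matrices at two disorders and two diagonals, with sizes
controlled in operator norm in the diagonal and in Frobenius norm in the disorder. For the local
law of P150.
-/

open MeasureTheory Real Finset Filter
open scoped Matrix Matrix.Norms.L2Operator

namespace Vale.Agent.P150.Fast.LL

variable {n : ℕ}

/-- A square of four matrices: `(a,b)` at one diagonal, `(c,e)` at the other. -/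
structure Quad (B κ δ : ℝ) (a b c e : Matrix (Fin n) (Fin n) ℝ) : Prop where
  ha : ‖a‖ ≤ B
  hb : ‖b‖ ≤ B
  hc : ‖c‖ ≤ B
  he : ‖e‖ ≤ B
  fab : frob (a - b) ≤ B * κ
  fce : frob (c - e) ≤ B * κ
  nac : ‖a - c‖ ≤ B * δ
  nbe : ‖b - e‖ ≤ B * δ
  quad : frob (a - b - c + e) ≤ B * κ * δ

variable {B B' κ δ : ℝ} {a b c e a' b' c' e' : Matrix (Fin n) (Fin n) ℝ}

theorem Quad.B_nonneg (h : Quad B κ δ a b c e) : 0 ≤ B := (norm_nonneg a).trans h.ha

theorem Quad.mono (h : Quad B κ δ a b c e) (hB : B ≤ B') (hκ : 0 ≤ κ) (hδ : 0 ≤ δ) :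
    Quad B' κ δ a b c e :=
  ⟨h.ha.trans hB, h.hb.trans hB, h.hc.trans hB, h.he.trans hB,
    h.fab.trans (mul_le_mul_of_nonneg_right hB hκ), h.fce.trans (mul_le_mul_of_nonneg_right hB hκ),
    h.nac.trans (mul_le_mul_of_nonneg_right hB hδ), h.nbe.trans (mul_le_mul_of_nonneg_right hB hδ),
    h.quad.trans (mul_le_mul_of_nonneg_right (mul_le_mul_of_nonneg_right hB hκ) hδ)⟩

theorem Quad.transpose (h : Quad B κ δ a b c e) :
    Quad B κ δ a.transpose b.transpose c.transpose e.transpose := by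
  obtain ⟨ha, hb, hc, he, fab, fce, nac, nbe, hq⟩ := h
  refine ⟨?_, ?_, ?_, ?_, ?_, ?_, ?_, ?_, ?_⟩ <;>
    simp only [← Matrix.transpose_sub, ← Matrix.transpose_add, norm_transpose, frob_transpose] <;>
    assumption

theorem mul_bound {A M : Matrix (Fin n) (Fin n) ℝ} {x y : ℝ} (hx : 0 ≤ x) (hA : ‖A‖ ≤ x)
    (hM : frob M ≤ y) : frob (A * M) ≤ x * y :=
  (frob_mul_left A M).trans (mul_le_mul hA hM (frob_nonneg _) hx)

theorem mul_bound' {A M : Matrix (Fin n) (Fin n) ℝ} {x y : ℝ} (hy : 0 ≤ y) (hA : frob A ≤ x)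
    (hM : ‖M‖ ≤ y) : frob (A * M) ≤ x * y :=
  (frob_mul_right A M).trans ((mul_le_mul_of_nonneg_left hM (frob_nonneg _)).trans
    (mul_le_mul_of_nonneg_right hA hy))

theorem norm_mul_bound {A M : Matrix (Fin n) (Fin n) ℝ} {x y : ℝ} (hA : ‖A‖ ≤ x)
    (hM : ‖M‖ ≤ y) : ‖A * M‖ ≤ x * y :=
  (norm_mul_le A M).trans (mul_le_mul hA hM (norm_nonneg _) ((norm_nonneg _).trans hA))

theorem Quad.mul (h : Quad B κ δ a b c e) (h' : Quad B' κ δ a' b' c' e') (hκ : 0 ≤ κ) (hδ : 0 ≤ δ) :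
    Quad (4 * (B * B')) κ δ (a * a') (b * b') (c * c') (e * e') := by
  have hB := h.B_nonneg
  have hB' := h'.B_nonneg
  have h0 : 0 ≤ B * B' := mul_nonneg hB hB'
  have hk : 0 ≤ B * B' * κ := mul_nonneg h0 hκ
  have hd : 0 ≤ B * B' * δ := mul_nonneg h0 hδ
  have hkd : 0 ≤ B * B' * κ * δ := mul_nonneg hk hδ
  refine ⟨(norm_mul_bound h.ha h'.ha).trans (by linarith), (norm_mul_bound h.hb h'.hb).trans (by linarith),
    (norm_mul_bound h.hc h'.hc).trans (by linarith), (norm_mul_bound h.he h'.he).trans (by linarith),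
    ?_, ?_, ?_, ?_, ?_⟩
  · rw [show a * a' - b * b' = (a - b) * a' + b * (a' - b') by noncomm_ring]
    linarith [frob_add ((a - b) * a') (b * (a' - b')), mul_bound' hB' h.fab h'.ha,
      mul_bound hB h.hb h'.fab]
  · rw [show c * c' - e * e' = (c - e) * c' + e * (c' - e') by noncomm_ring]
    linarith [frob_add ((c - e) * c') (e * (c' - e')), mul_bound' hB' h.fce h'.hc,
      mul_bound hB h.he h'.fce]
  · rw [show a * a' - c * c' = (a - c) * a' + c * (a' - c') by noncomm_ring]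
    linarith [norm_add_le ((a - c) * a') (c * (a' - c')), norm_mul_bound h.nac h'.ha,
      norm_mul_bound h.hc h'.nac]
  · rw [show b * b' - e * e' = (b - e) * b' + e * (b' - e') by noncomm_ring]
    linarith [norm_add_le ((b - e) * b') (e * (b' - e')), norm_mul_bound h.nbe h'.hb,
      norm_mul_bound h.he h'.nbe]
  · rw [show a * a' - b * b' - c * c' + e * e' = (a - b - c + e) * a' + (c - e) * (a' - c')
      + (b * (a' - b' - c' + e') + (b - e) * (c' - e')) by noncomm_ring]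
    linarith [frob_add ((a - b - c + e) * a' + (c - e) * (a' - c'))
        (b * (a' - b' - c' + e') + (b - e) * (c' - e')),
      frob_add ((a - b - c + e) * a') ((c - e) * (a' - c')),
      frob_add (b * (a' - b' - c' + e')) ((b - e) * (c' - e')),
      mul_bound' hB' h.quad h'.ha, mul_bound' (mul_nonneg hB' hδ) h.fce h'.nac,
      mul_bound hB h.hb h'.quad, mul_bound (mul_nonneg hB hδ) h.nbe h'.fce]

theorem inv_sub {x y P Q : Matrix (Fin n) (Fin n) ℝ} (hP : P * x = 1) (hQ : y * Q = 1) :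
    P - Q = -(P * (x - y) * Q) := by
  calc P - Q = P * (y * Q) - P * x * Q := by rw [hP, hQ, mul_one, one_mul]
    _ = -(P * (x - y) * Q) := by noncomm_ring

theorem Quad.inv {P Q U W : Matrix (Fin n) (Fin n) ℝ} (h : Quad B κ δ a b c e) (hκ : 0 ≤ κ)
    (hδ : 0 ≤ δ) (ha : P * a = 1) (hb : Q * b = 1) (hb2 : b * Q = 1) (hc : U * c = 1)
    (hc2 : c * U = 1) (he2 : e * W = 1) {p : ℝ} (hp : 1 ≤ p) (nP : ‖P‖ ≤ p) (nQ : ‖Q‖ ≤ p)
    (nU : ‖U‖ ≤ p) (nW : ‖W‖ ≤ p) : Quad (3 * p ^ 3 * (1 + B) ^ 2) κ δ P Q U W := by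
  have hB := h.B_nonneg
  have hp0 : 0 ≤ p := by linarith
  set K := 3 * p ^ 3 * (1 + B) ^ 2
  have k1 : p ≤ K := by
    have h1 : p ≤ p ^ 3 := le_self_pow₀ hp (by norm_num)
    have h2 : (1 : ℝ) ≤ (1 + B) ^ 2 := one_le_pow₀ (by linarith)
    nlinarith
  have k2 : p * B * p ≤ K := by
    have h1 : p * p ≤ p ^ 3 := by nlinarith
    have h2 : B ≤ (1 + B) ^ 2 := by nlinarith
    have h3 := mul_le_mul h1 h2 hB (by positivity)
    have h4 : 0 ≤ p ^ 3 * (1 + B) ^ 2 := by positivity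
    simp only [K]
    linarith
  have k3 : (p * B * p) * B * p + p * B * p + p * B * (p * B * p) ≤ K := by
    have h1 : p * p ≤ p ^ 3 := by nlinarith
    simp only [K]
    linarith [mul_le_mul_of_nonneg_right h1 hB, mul_nonneg (pow_nonneg hp0 3) hB,
      mul_nonneg (pow_nonneg hp0 3) (mul_nonneg hB hB), pow_nonneg hp0 3]
  have fPQ : ∀ {x y P Q : Matrix (Fin n) (Fin n) ℝ}, P * x = 1 → y * Q = 1 → ‖P‖ ≤ p → ‖Q‖ ≤ p →
      frob (x - y) ≤ B * κ → frob (P - Q) ≤ p * B * p * κ := fun h1 h2 n1 n2 hf => by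
    rw [inv_sub h1 h2, frob_neg]
    exact (mul_bound' hp0 (mul_bound hp0 n1 hf) n2).trans_eq (by ring)
  have nPU : ∀ {x y P Q : Matrix (Fin n) (Fin n) ℝ}, P * x = 1 → y * Q = 1 → ‖P‖ ≤ p → ‖Q‖ ≤ p →
      ‖x - y‖ ≤ B * δ → ‖P - Q‖ ≤ p * B * p * δ := fun h1 h2 n1 n2 hf => by
    rw [inv_sub h1 h2, norm_neg]
    exact (norm_mul_bound (norm_mul_bound n1 hf) n2).trans_eq (by ring)
  refine ⟨nP.trans k1, nQ.trans k1, nU.trans k1, nW.trans k1,
    (fPQ ha hb2 nP nQ h.fab).trans (mul_le_mul_of_nonneg_right k2 hκ),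
    (fPQ hc he2 nU nW h.fce).trans (mul_le_mul_of_nonneg_right k2 hκ),
    (nPU ha hc2 nP nU h.nac).trans (mul_le_mul_of_nonneg_right k2 hδ),
    (nPU hb he2 nQ nW h.nbe).trans (mul_le_mul_of_nonneg_right k2 hδ), ?_⟩
  have e1 := nPU ha hc2 nP nU h.nac
  have e2 := nPU hb he2 nQ nW h.nbe
  have e : P - Q - U + W = -((P - U) * (a - b) * Q + U * (a - b - c + e) * Q + U * (c - e) * (Q - W)) := by
    have r1 := inv_sub ha hb2
    have r2 := inv_sub hc he2
    rw [show P - Q - U + W = (P - Q) - (U - W) by abel, r1, r2]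
    noncomm_ring
  rw [e, frob_neg]
  have t1 := mul_bound' hp0 (mul_bound (by positivity) e1 h.fab) nQ
  have t2 := mul_bound' hp0 (mul_bound hp0 nU h.quad) nQ
  have t3 := mul_bound' (by positivity) (mul_bound hp0 nU h.fce) e2
  refine (frob_add _ _).trans ((add_le_add (frob_add _ _) le_rfl).trans
    ((add_le_add (add_le_add t1 t2) t3).trans ?_))
  refine le_trans (le_of_eq ?_) (mul_le_mul_of_nonneg_right (mul_le_mul_of_nonneg_right k3 hκ) hδ)
  ring

theorem frob_goe (d : Dis n) : frob (goe n d) = √2 * √(∑ k, d k ^ 2) := by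
  rw [frob, goe_frob, sqrt_mul zero_le_two]

theorem frob_smul (r : ℝ) (M : Matrix (Fin n) (Fin n) ℝ) : frob (r • M) = |r| * frob M := by
  rw [frob, frob, ← sqrt_sq_eq_abs, ← sqrt_mul (sq_nonneg r)]
  simp [mul_pow, mul_sum]

theorem frob_kmat_sub {β : ℝ} (hβ : 0 ≤ β) (d d' : Dis n) :
    frob (kmat n β d - kmat n β d') = β / √n * √2 * √(∑ k, (d k - d' k) ^ 2) := by
  have e : kmat n β d - kmat n β d' = (β / √n) • goe n (d - d') := by
    have h : goe n (d - d') + goe n d' = goe n d := by rw [← goe_add, sub_add_cancel]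
    rw [kmat_eq, kmat_eq, ← smul_sub, ← h, add_sub_cancel_right]
  rw [e, frob_smul, frob_goe, abs_of_nonneg (div_nonneg hβ (sqrt_nonneg _)), mul_assoc]
  rfl

/-- The size constant of `1 + X V`. -/
noncomputable def fB (Λ : ℝ) : ℝ := 2 * Λ + 6

variable {β s η Λ Rx Ry : ℝ} {d d' : Dis n} {x y : Fin n → ℝ}

theorem quad_f (h1 : Reg n β s Ry η Λ d y) (h2 : Reg n β s Ry η Λ d' y) (h3 : Reg n β s Rx η Λ d x)
    (h4 : Reg n β s Rx η Λ d' x) (hδ : 0 ≤ δ) (hκ : frob (kmat n β d - kmat n β d') ≤ κ)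
    (hxy : ∀ i, |y i - x i| ≤ δ) (hR : |Ry - Rx| ≤ δ) :
    Quad (fB Λ) κ δ (1 + xm n β s Ry d * Matrix.diagonal y) (1 + xm n β s Ry d' * Matrix.diagonal y)
      (1 + xm n β s Rx d * Matrix.diagonal x) (1 + xm n β s Rx d' * Matrix.diagonal x) := by
  have hκ0 : 0 ≤ κ := (frob_nonneg _).trans hκ
  have hΛ := h1.hΛ
  have hn : ∀ {d : Dis n} {R : ℝ} {v : Fin n → ℝ}, Reg n β s R η Λ d v →
      ‖(1 : Matrix (Fin n) (Fin n) ℝ) + xm n β s R d * Matrix.diagonal v‖ ≤ fB Λ := fun {d R v} h => by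
    refine (norm_add_le _ _).trans ?_
    have := norm_mul_bound (norm_xm_le h.hK h.hs h.hs1 h.hR) h.norm_v
    linarith [norm_one_le (n := n), show fB Λ = 2 * Λ + 6 from rfl]
  have hdiag : ‖(Matrix.diagonal y - Matrix.diagonal x : Matrix (Fin n) (Fin n) ℝ)‖ ≤ δ := by
    rw [Matrix.diagonal_sub]
    exact norm_diagonal_le hδ hxy
  have hxk : ∀ R, frob (xm n β s R d - xm n β s R d') ≤ κ := fun R => by
    have e : xm n β s R d - xm n β s R d' = -(s • (kmat n β d - kmat n β d')) := by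
      simp [xm, smul_sub]
    rw [e, frob_neg, frob_smul, abs_of_nonneg h1.hs]
    exact (mul_le_of_le_one_left (frob_nonneg _) h1.hs1).trans hκ
  have fd : ∀ {R : ℝ} {v : Fin n → ℝ}, Reg n β s R η Λ d v →
      frob (1 + xm n β s R d * Matrix.diagonal v - (1 + xm n β s R d' * Matrix.diagonal v))
        ≤ fB Λ * κ := fun {R v} h => by
    rw [add_sub_add_left_eq_sub, ← sub_mul]
    refine (mul_bound' zero_le_one (hxk R) h.norm_v).trans ?_
    rw [mul_one, fB]
    nlinarith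
  have nd : ∀ {d : Dis n}, Reg n β s Ry η Λ d y → Reg n β s Rx η Λ d x →
      ‖1 + xm n β s Ry d * Matrix.diagonal y - (1 + xm n β s Rx d * Matrix.diagonal x)‖
        ≤ fB Λ * δ := fun {d} hy hx => by
    rw [show 1 + xm n β s Ry d * Matrix.diagonal y - (1 + xm n β s Rx d * Matrix.diagonal x)
      = (xm n β s Ry d - xm n β s Rx d) * Matrix.diagonal y
        + xm n β s Rx d * (Matrix.diagonal y - Matrix.diagonal x) by noncomm_ring]
    have e : ‖xm n β s Ry d - xm n β s Rx d‖ ≤ δ := by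
      rw [xm, xm, sub_sub_sub_cancel_right, ← sub_smul, norm_smul, Real.norm_eq_abs]
      exact (mul_le_of_le_one_right (abs_nonneg _) norm_one_le).trans hR
    refine (norm_add_le _ _).trans ((add_le_add (norm_mul_bound e hy.norm_v)
      (norm_mul_bound (norm_xm_le hx.hK hx.hs hx.hs1 hx.hR) hdiag)).trans ?_)
    rw [fB]
    nlinarith
  refine ⟨hn h1, hn h2, hn h3, hn h4, fd h1, fd h3, nd h1 h3, nd h2 h4, ?_⟩
  rw [show 1 + xm n β s Ry d * Matrix.diagonal y - (1 + xm n β s Ry d' * Matrix.diagonal y)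
      - (1 + xm n β s Rx d * Matrix.diagonal x) + (1 + xm n β s Rx d' * Matrix.diagonal x)
    = (xm n β s Ry d - xm n β s Ry d') * (Matrix.diagonal y - Matrix.diagonal x)
      + ((xm n β s Ry d - xm n β s Ry d') - (xm n β s Rx d - xm n β s Rx d'))
        * Matrix.diagonal x by noncomm_ring]
  have e : (xm n β s Ry d - xm n β s Ry d') - (xm n β s Rx d - xm n β s Rx d') = 0 := by
    simp [xm]
  rw [e, zero_mul, add_zero]
  refine (mul_bound' hδ (hxk Ry) hdiag).trans (mul_le_mul_of_nonneg_right ?_ hδ)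
  rw [fB]
  nlinarith

/-- The constant of the second difference of the diagonal. -/
noncomputable def zB (β Λ η : ℝ) : ℝ :=
  4 * (4 * (3 * pB Λ η ^ 3 * (1 + fB Λ) ^ 2 * (Λ + shift β + 1)) * (3 * pB Λ η ^ 3 * (1 + fB Λ) ^ 2))

theorem quad_z (h1 : Reg n β s Ry η Λ d y) (h2 : Reg n β s Ry η Λ d' y) (h3 : Reg n β s Rx η Λ d x)
    (h4 : Reg n β s Rx η Λ d' x) (hδ : 0 ≤ δ) (hκ : frob (kmat n β d - kmat n β d') ≤ κ)
    (hxy : ∀ i, |y i - x i| ≤ δ) (hR : |Ry - Rx| ≤ δ) :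
    Quad (zB β Λ η) κ δ
      (pm n β s Ry d y * aop n β d * (pm n β s Ry d y).transpose)
      (pm n β s Ry d' y * aop n β d' * (pm n β s Ry d' y).transpose)
      (pm n β s Rx d x * aop n β d * (pm n β s Rx d x).transpose)
      (pm n β s Rx d' x * aop n β d' * (pm n β s Rx d' x).transpose) := by
  have hκ0 : 0 ≤ κ := (frob_nonneg _).trans hκ
  have hP := (quad_f h1 h2 h3 h4 hδ hκ hxy hR).inv hκ0 hδ h1.pm_mul h2.pm_mul h2.mul_pm h3.pm_mul
    h3.mul_pm h4.mul_pm h1.pB_pos h1.norm_pm h2.norm_pm h3.norm_pm h4.norm_pm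
  have hsh : 1 ≤ shift β := by rw [shift]; linarith [h1.hβ]
  have hL1 : 1 ≤ Λ + shift β + 1 := by linarith [h1.hΛ]
  have hA : Quad (Λ + shift β + 1) κ δ (aop n β d) (aop n β d') (aop n β d) (aop n β d') := by
    have f : frob (aop n β d - aop n β d') ≤ (Λ + shift β + 1) * κ := by
      rw [aop, aop, add_sub_add_right_eq_sub]
      nlinarith
    refine ⟨?_, ?_, ?_, ?_, f, f, ?_, ?_, ?_⟩
    any_goals linarith [norm_aop_le h1.hβ h1.hK, norm_aop_le h2.hβ h2.hK]
    · rw [sub_self, norm_zero]; positivity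
    · rw [sub_self, norm_zero]; positivity
    · rw [show aop n β d - aop n β d' - aop n β d + aop n β d' = 0 by abel,
        show frob (0 : Matrix (Fin n) (Fin n) ℝ) = 0 by simp [frob]]
      positivity
  exact ((hP.mul hA hκ0 hδ).mul hP.transpose hκ0 hδ).mono (le_of_eq (by rw [zB])) hκ0 hδ

/-- The increment of a functional of the diagonal is Lipschitz in the disorder. -/
theorem zv_incr (h1 : Reg n β s Ry η Λ d y) (h2 : Reg n β s Ry η Λ d' y) (h3 : Reg n β s Rx η Λ d x)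
    (h4 : Reg n β s Rx η Λ d' x) (hδ : 0 ≤ δ) (hxy : ∀ i, |y i - x i| ≤ δ) (hR : |Ry - Rx| ≤ δ)
    {u : Fin n → ℝ} (hu : nrm u ≤ 1) :
    |(u ⬝ᵥ zv n β s Ry d y - u ⬝ᵥ zv n β s Rx d x)
      - (u ⬝ᵥ zv n β s Ry d' y - u ⬝ᵥ zv n β s Rx d' x)|
      ≤ zB β Λ η * (β / √n * √2 * √(∑ k, (d k - d' k) ^ 2)) * δ := by
  have h := (quad_z h1 h2 h3 h4 hδ (frob_kmat_sub h1.hβ d d').le hxy hR).quad
  set a := pm n β s Ry d y * aop n β d * (pm n β s Ry d y).transpose
  set b := pm n β s Ry d' y * aop n β d' * (pm n β s Ry d' y).transpose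
  set c := pm n β s Rx d x * aop n β d * (pm n β s Rx d x).transpose
  set e := pm n β s Rx d' x * aop n β d' * (pm n β s Rx d' x).transpose
  have e0 : (u ⬝ᵥ zv n β s Ry d y - u ⬝ᵥ zv n β s Rx d x)
      - (u ⬝ᵥ zv n β s Ry d' y - u ⬝ᵥ zv n β s Rx d' x) = u ⬝ᵥ fun i => (a - b - c + e) i i := by
    simp only [dotProduct, ← sum_sub_distrib]
    refine sum_congr rfl fun i _ => ?_
    show u i * a i i - u i * c i i - (u i * b i i - u i * e i i) = u i * (a i i - b i i - c i i + e i i)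
    ring
  have hd : nrm (fun i => (a - b - c + e) i i) ≤ frob (a - b - c + e) := diag_le_frob _
  rw [e0]
  refine le_trans (abs_le.2 ⟨?_, ?_⟩) (hd.trans h)
  · have := dot_le (-u) fun i => (a - b - c + e) i i
    rw [neg_dotProduct, nrm_neg] at this
    linarith [mul_le_of_le_one_left (nrm_nonneg fun i => (a - b - c + e) i i) hu]
  · exact (dot_le _ _).trans (mul_le_of_le_one_left (nrm_nonneg _) hu)

end Vale.Agent.P150.Fast.LL
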