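import Vale.Agent.P150.Fast.LLMarginWt

/-!
At every fixed point the margin holds outside an exponentially small event, for the local law
of P150.
-/

open MeasureTheory Real Finset Filter
open scoped Matrix Matrix.Norms.L2Operator

namespace Vale.Agent.P150.Fast.LL

variable {n : ℕ}

theorem scale_qform (β r : ℝ) (d : Dis n) (w : Fin n → ℝ) :
    Ent.qform (kmat n β d) (fun i => r * w i) = r ^ 2 * Ent.qform (kmat n β d) w :=
  qform_smul _ r w

variable {β s : ℝ} {v : Fin n → ℝ}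

/-- The threshold gap. -/
noncomputable def mκ (β : ℝ) : ℝ := (1 - mRatio β) / 2

/-- The size of the deviation excluded by `mGood`. -/
noncomputable def mA (β : ℝ) : ℝ := √(mδ β) * (√(1 - mκ β) - √(mRatio β))

/-- The good set of the comparison process. -/
def mGood (β s : ℝ) (v : Fin n → ℝ) : Set (Fin n → ℝ) :=
  {g | √(∑ i, mWt β s v i * g i ^ 2) < √((av v + mδ β) * (1 - mκ β) * n)}

theorem mGood_prob (hn : 0 < n) (hβ : 0 ≤ β) (hβ1 : β < 1) (hs : 0 ≤ s) (hs1 : s ≤ 1)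
    (hv : ∀ i, 0 ≤ v i ∧ v i ≤ 1) :
    0 < mA β ∧ (gp (Fin n)).real (mGood β s v)ᶜ ≤ exp (-(mA β ^ 2 / π ^ 2 * n)) := by
  obtain ⟨hd, hd8⟩ := mδ_mem hβ hβ1
  obtain ⟨hη, hη64⟩ := η₀_mem hβ hβ1
  obtain ⟨hr0, hr1⟩ := mRatio_mem hβ hβ1
  have hnn : (0 : ℝ) < n := by exact_mod_cast hn
  have hv0 : 0 ≤ av v := av_nonneg fun i => (hv i).1
  obtain ⟨hf, hfav⟩ := mWt_facts hβ hβ1 hs hs1 hv
  set f := mWt β s v with hfdef
  set r := mRatio β
  set κ₁ := mκ β with hκ₁'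
  have hκ₁ : κ₁ = (1 - r) / 2 := rfl
  set a := mA β with hadef'
  have hadef : a = √(mδ β) * (√(1 - κ₁) - √r) := rfl
  set lam := av v + mδ β with hlam
  have hlam0 : 0 < lam := by linarith
  have hlt : √r < √(1 - κ₁) := (sqrt_lt_sqrt_iff hr0.le).2 (by rw [hκ₁]; linarith)
  have ha : 0 < a := by rw [hadef]; exact mul_pos (sqrt_pos.2 hd) (sub_pos.2 hlt)
  refine ⟨ha, ?_⟩
  have hsum : ∑ i, f i ≤ √(r * lam * n) ^ 2 := by
    rw [sq_sqrt (by positivity)]
    exact (div_le_iff₀ hnn).1 hfav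
  refine le_trans (measureReal_mono (fun g hg => ?_) (measure_ne_top _ _))
    ((wnorm_tail f hf (sqrt_pos.2 (by positivity)) (show 0 ≤ a * √n by positivity) hsum).trans_eq ?_)
  · simp only [mGood, Set.mem_compl_iff, Set.mem_ofPred_eq, not_lt] at hg ⊢
    refine le_trans ?_ hg
    rw [← hlam, ← hκ₁', sqrt_mul (by positivity), sqrt_mul (by positivity),
      sqrt_mul (mul_nonneg hlam0.le (by linarith)), sqrt_mul hlam0.le, ← add_mul]
    refine mul_le_mul_of_nonneg_right ?_ (sqrt_nonneg _)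
    rw [hadef]
    have h1 := mul_le_mul_of_nonneg_right
      (sqrt_le_sqrt (by linarith : mδ β ≤ lam)) (sub_pos.2 hlt).le
    linarith
  · congr 1
    rw [mul_pow, sq_sqrt hnn.le]
    ring

/-- The constrained directions. -/
def Dir (β s : ℝ) (v : Fin n → ℝ) (w : Fin n → ℝ) : Prop :=
  (∀ i, v i = 0 → w i = 0) ∧ ∑ i, w i ^ 2 * (1 / v i + s ^ 2 * β ^ 2 * av v - η₀ β) ≤ 1

theorem Dir.norm_le (hv : ∀ i, 0 ≤ v i ∧ v i ≤ 1) {w : Fin n → ℝ} (hw : Dir β s v w) :
    (1 + s ^ 2 * β ^ 2 * av v - η₀ β) * ∑ i, w i ^ 2 ≤ 1 := by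
  obtain ⟨hw0, hw1⟩ := hw
  rw [mul_sum]
  refine le_trans (sum_le_sum fun i _ => ?_) hw1
  rcases eq_or_ne (v i) 0 with h0 | h0
  · simp [hw0 i h0]
  · rw [mul_comm]
    refine mul_le_mul_of_nonneg_left ?_ (sq_nonneg _)
    have : 1 ≤ 1 / v i := (one_le_div (lt_of_le_of_ne (hv i).1 (Ne.symm h0))).2 (hv i).2
    linarith

theorem good_bound (hn : 0 < n) (hβ : 0 ≤ β) (hβ1 : β < 1) (hs : 0 ≤ s) (hs1 : s ≤ 1)
    (hv : ∀ i, 0 ≤ v i ∧ v i ≤ 1) {g w : Fin n → ℝ} (hg : g ∈ mGood β s v) (hw : Dir β s v w) :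
    let x := fun i => √(s / (1 - mκ β / 4)) * w i
    β * (2 * √(∑ j, x j ^ 2) / √n) * (∑ i, g i * x i) ≤ 1 := by
  intro x
  simp only [x]
  have hW2 := hw.norm_le hv
  obtain ⟨hw0, hw1⟩ := hw
  obtain ⟨hd, hd8⟩ := mδ_mem hβ hβ1
  obtain ⟨hη, hη64⟩ := η₀_mem hβ hβ1
  obtain ⟨hr0, hr1⟩ := mRatio_mem hβ hβ1
  have hnn : (0 : ℝ) < n := by exact_mod_cast hn
  obtain ⟨hf, -⟩ := mWt_facts hβ hβ1 hs hs1 hv
  set t := s ^ 2 * β ^ 2 with htdef
  have hb2 : β ^ 2 < 1 := by nlinarith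
  have ht0 : 0 ≤ t := by positivity
  have ht1 : t ≤ 1 := (mul_le_of_le_one_left (sq_nonneg _) (pow_le_one₀ hs hs1)).trans hb2.le
  have hv0 : 0 ≤ av v := av_nonneg fun i => (hv i).1
  have hv1 : av v ≤ 1 := av_le_const zero_le_one fun i => (hv i).2
  set R := t * av v
  set f := mWt β s v with hfdef
  set κ₁ := mκ β with hκ₁
  set κ := κ₁ / 4 with hκdef
  have hκ : 0 < κ := by simp only [hκdef, hκ₁, mκ]; linarith
  have hκ8 : κ ≤ 1 / 8 := by simp only [hκdef, hκ₁, mκ]; linarith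
  set lam := av v + mδ β with hlam
  have hlam0 : 0 < lam := by linarith
  set q := s / (1 - κ)
  have hq : 0 ≤ q := div_nonneg hs (by linarith)
  set W := ∑ i, w i ^ 2
  have hW0 : 0 ≤ W := sum_nonneg fun i _ => sq_nonneg _
  set Z := ∑ i, g i * w i
  have e1 : β * (2 * √(∑ j, (√q * w j) ^ 2) / √n) * (∑ i, g i * (√q * w i))
      = q * (β * (2 * √W / √n) * Z) := by
    have h : ∑ i, g i * (√q * w i) = √q * Z := by
      rw [mul_sum]; exact sum_congr rfl fun i _ => by ring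
    simp only [mul_pow, ← mul_sum, sq_sqrt hq]
    rw [h, sqrt_mul hq]
    linear_combination (β * (2 * √W / √n) * Z) * mul_self_sqrt hq
  rw [e1, show q * (β * (2 * √W / √n) * Z) = s * β * (2 * √W / √n) * Z / (1 - κ) by
    simp only [q]; ring, div_le_one (by linarith)]
  have hZ : Z ^ 2 ≤ (∑ i, f i * g i ^ 2) * (1 - t * lam * W) := by
    refine le_trans ?_ (mul_le_mul_of_nonneg_left (le_sub_iff_add_le.2 ?_)
      (sum_nonneg fun i _ => mul_nonneg (hf i).1 (sq_nonneg _)) :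
        (∑ i, f i * g i ^ 2) * (∑ i, w i ^ 2 / f i) ≤ _)
    · refine sum_sq_le_sum_mul_sum_of_sq_le_mul univ (fun i _ => mul_nonneg (hf i).1 (sq_nonneg _))
        (fun i _ => div_nonneg (sq_nonneg _) (hf i).1) fun i _ => ?_
      rcases eq_or_ne (v i) 0 with h0 | h0
      · simp [hw0 i h0]
      · refine le_of_eq ?_
        have : f i ≠ 0 := by
          rw [hfdef, mWt]
          refine div_ne_zero h0 fun h => ?_
          have := (hf i).1
          rw [hfdef, mWt, h, div_zero] at this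
          have he : v i * (η₀ β + s ^ 2 * β ^ 2 * mδ β) ≤ 1 / 2 := by
            refine (mul_le_of_le_one_left (by positivity) (hv i).2).trans ?_
            linarith [mul_le_mul ht1 hd8 hd.le zero_le_one]
          linarith
        field_simp
    · refine le_trans (le_of_eq ?_) hw1
      rw [mul_sum, ← sum_add_distrib]
      refine sum_congr rfl fun i _ => ?_
      rcases eq_or_ne (v i) 0 with h0 | h0
      · simp [hw0 i h0]
      · simp only [hfdef, mWt, R, hlam, ← htdef, div_div_eq_mul_div]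
        field_simp
        ring
  have hS : ∑ i, f i * g i ^ 2 ≤ lam * (1 - κ₁) * n := by
    have h : √(∑ i, f i * g i ^ 2) < √(lam * (1 - κ₁) * n) := hg
    exact ((sqrt_lt_sqrt_iff (sum_nonneg fun i _ => mul_nonneg (hf i).1 (sq_nonneg _))).1 h).le
  have hx : t * lam * W ≤ 3 / 4 := by
    have h1 := hW2
    have h4 : t * mδ β ≤ mδ β := mul_le_of_le_one_left hd.le ht1
    have hR1 : R ≤ 1 := (mul_le_of_le_one_right ht0 hv1).trans ht1
    have h2 : t * lam ≤ 3 / 4 * (1 + R - η₀ β) := by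
      rw [hlam, mul_add, show t * av v = R from rfl]
      linarith
    linarith [mul_le_mul_of_nonneg_right h2 hW0]
  have hAG : s * β * (2 * √W / √n) * Z ≤ t * lam * W + Z ^ 2 / (n * lam) := by
    have e : t * lam * W + Z ^ 2 / (n * lam) - s * β * (2 * √W / √n) * Z
        = (s * β * √lam * √W - Z / (√n * √lam)) ^ 2 := by
      rw [sub_sq, mul_pow, mul_pow, mul_pow, div_pow, mul_pow, sq_sqrt hlam0.le, sq_sqrt hW0,
        sq_sqrt hnn.le, htdef]
      field_simp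
      ring
    linarith [sq_nonneg (s * β * √lam * √W - Z / (√n * √lam))]
  refine hAG.trans ?_
  have h5 : Z ^ 2 / (n * lam) ≤ (1 - κ₁) * (1 - t * lam * W) := by
    rw [div_le_iff₀ (by positivity)]
    refine hZ.trans ((mul_le_mul_of_nonneg_right hS (by linarith)).trans_eq (by ring))
  have h6 : κ₁ * (t * lam * W) ≤ κ₁ * (3 / 4) :=
    mul_le_mul_of_nonneg_left hx (by simp only [hκdef] at hκ; linarith)
  simp only [hκdef]
  linarith

theorem dir_scaled_le (hβ : 0 ≤ β) (hβ1 : β < 1) (hs : 0 ≤ s) (hs1 : s ≤ 1)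
    (hv : ∀ i, 0 ≤ v i ∧ v i ≤ 1) {w : Fin n → ℝ} (hw : Dir β s v w) :
    ∑ i, (√(s / (1 - mκ β / 4)) * w i) ^ 2 ≤ 4 := by
  obtain ⟨hd, hd8⟩ := mδ_mem hβ hβ1
  obtain ⟨hη, hη64⟩ := η₀_mem hβ hβ1
  obtain ⟨hr0, hr1⟩ := mRatio_mem hβ hβ1
  have hκ8 : mκ β / 4 ≤ 1 / 8 := by simp only [mκ]; linarith
  have hR0 : 0 ≤ s ^ 2 * β ^ 2 * av v := mul_nonneg (by positivity) (av_nonneg fun i => (hv i).1)
  have h1 := hw.norm_le hv
  simp only [mul_pow, ← mul_sum, sq_sqrt (div_nonneg hs (by linarith : (0 : ℝ) ≤ 1 - mκ β / 4))]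
  have h2 : ∑ i, w i ^ 2 ≤ 2 := by
    nlinarith [sum_nonneg (s := univ) fun i _ => sq_nonneg (w i)]
  have h3 : s / (1 - mκ β / 4) ≤ 2 := by rw [div_le_iff₀ (by linarith)]; linarith
  exact (mul_le_mul h3 h2 (sum_nonneg fun i _ => sq_nonneg _) zero_le_two).trans_eq (by norm_num)

theorem marg_of_sup (hβ : 0 ≤ β) (hβ1 : β < 1) (hs : 0 ≤ s) (hv : ∀ i, 0 ≤ v i ∧ v i ≤ 1) {d : Dis n}
    (hc : ∀ w, Dir β s v w →
      Ent.qform (kmat n β d) (fun i => √(s / (1 - mκ β / 4)) * w i) ≤ 1 + mκ β / 4) :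
    Marg n β s (s ^ 2 * β ^ 2 * av v) (η₀ β) d v := by
  obtain ⟨hd, hd8⟩ := mδ_mem hβ hβ1
  obtain ⟨hη, hη64⟩ := η₀_mem hβ hβ1
  obtain ⟨hr0, hr1⟩ := mRatio_mem hβ hβ1
  set κ := mκ β / 4 with hκdef
  have hκ : 0 < κ := by simp only [hκdef, mκ]; linarith
  have hκ8 : κ ≤ 1 / 8 := by simp only [hκdef, mκ]; linarith
  set R := s ^ 2 * β ^ 2 * av v
  have hR0 : 0 ≤ R := mul_nonneg (by positivity) (av_nonneg fun i => (hv i).1)
  set D : Fin n → ℝ := fun i => 1 / v i + R - η₀ β with hD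
  intro u
  set w : Fin n → ℝ := fun i => v i * u i with hwdef
  have hqx : Ent.qform (xm n β s R d) w = R * (∑ i, w i ^ 2) - s * Ent.qform (kmat n β d) w := by
    simp only [← dot_mulVec_eq, xm, Matrix.sub_mulVec, Matrix.smul_mulVec, Matrix.one_mulVec,
      dotProduct_sub, dotProduct_smul, smul_eq_mul]
    simp [dotProduct, pow_two]
  rw [hqx]
  have hD' : ∀ i, w i ^ 2 * D i = v i * u i ^ 2 + (R - η₀ β) * w i ^ 2 := fun i => by
    simp only [hwdef, hD]
    rcases eq_or_ne (v i) 0 with h0 | h0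
    · simp [h0]
    · field_simp; ring
  set N := ∑ i, w i ^ 2 * D i
  have hN : N = ∑ i, v i * u i ^ 2 + (R - η₀ β) * ∑ i, w i ^ 2 := by
    simp only [N, hD', sum_add_distrib, mul_sum]
  suffices hsq : s * Ent.qform (kmat n β d) w ≤ N by
    rw [hN] at hsq; linarith
  have hN0 : ∀ i, 0 ≤ w i ^ 2 * D i := fun i => by
    simp only [hwdef, hD]
    rcases eq_or_ne (v i) 0 with h0 | h0
    · simp [h0]
    · refine mul_nonneg (sq_nonneg _) ?_
      have : 1 ≤ 1 / v i := (one_le_div (lt_of_le_of_ne (hv i).1 (Ne.symm h0))).2 (hv i).2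
      linarith
  rcases (sum_nonneg fun i _ => hN0 i : 0 ≤ N).eq_or_lt with h0 | h0
  · have hz : ∀ i, w i = 0 := fun i => by
      have := (sum_eq_zero_iff_of_nonneg fun i _ => hN0 i).1 h0.symm i (mem_univ i)
      rcases eq_or_ne (v i) 0 with hv' | hv'
      · simp [hwdef, hv']
      · rcases mul_eq_zero.1 this with h1 | h1
        · simpa using h1
        · exfalso
          simp only [hD] at h1
          have : 1 ≤ 1 / v i := (one_le_div (lt_of_le_of_ne (hv i).1 (Ne.symm hv'))).2 (hv i).2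
          linarith
    simp [N, Ent.qform, hz]
  · have hN' : 0 < N := h0
    set w' : Fin n → ℝ := fun i => (√N)⁻¹ * w i with hw'
    have e : ∑ i, w' i ^ 2 * D i = 1 := by
      have e' : ∀ i, w' i ^ 2 * D i = N⁻¹ * (w i ^ 2 * D i) := fun i => by
        simp only [hw', mul_pow, inv_pow, sq_sqrt hN'.le]; ring
      simp only [e', ← mul_sum]
      exact inv_mul_cancel₀ hN'.ne'
    have h1 := hc w' ⟨fun i hi => by simp [hw', hwdef, hi], e.le⟩
    rw [scale_qform, hw', scale_qform, sq_sqrt (div_nonneg hs (by linarith : (0 : ℝ) ≤ 1 - κ)),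
      inv_pow, sq_sqrt hN'.le] at h1
    have h2 : s / (1 - κ) * (N⁻¹ * Ent.qform (kmat n β d) w) ≤ 1 + κ :=
      h1
    rw [show s / (1 - κ) * (N⁻¹ * Ent.qform (kmat n β d) w)
      = s * Ent.qform (kmat n β d) w / ((1 - κ) * N) by field_simp,
      div_le_iff₀ (mul_pos (by linarith) hN')] at h2
    linarith [mul_nonneg (sq_nonneg κ) hN'.le]

/-- The margin at a fixed point. -/
theorem margin_fix (β : ℝ) (hβ : 0 ≤ β) (hβ1 : β < 1) :
    ∃ c : ℝ, 0 < c ∧ ∀ᶠ n : ℕ in atTop, ∀ (v : Fin n → ℝ) (s : ℝ),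
      (∀ i, 0 ≤ v i ∧ v i ≤ 1) → 0 ≤ s → s ≤ 1 →
      (disX n).real {d | ¬ Marg n β s (s ^ 2 * β ^ 2 * av v) (η₀ β) d v} ≤ exp (-(c * n)) := by
  obtain ⟨hd, hd8⟩ := mδ_mem hβ hβ1
  obtain ⟨hη, hη64⟩ := η₀_mem hβ hβ1
  obtain ⟨hr0, hr1⟩ := mRatio_mem hβ hβ1
  set κ := mκ β / 4 with hκdef
  have hκ : 0 < κ := by simp only [hκdef, mκ]; linarith
  have hκ8 : κ ≤ 1 / 8 := by simp only [hκdef, mκ]; linarith
  set a := mA β
  refine ⟨(κ / 2) ^ 2 / (π ^ 2 * 16), by positivity, ?_⟩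
  filter_upwards [eventually_ge_atTop 1,
    (show ∀ᶠ n : ℕ in atTop, 0 < a → 2 * 4 * √(exp (-(a ^ 2 / π ^ 2 * n))) ≤ κ / 2 by
      rcases le_or_gt a 0 with ha | ha
      · exact Eventually.of_forall fun n h => absurd h ha.not_gt
      · have h0 : Tendsto (fun n : ℕ => exp (-(a ^ 2 / π ^ 2 * n))) atTop (nhds 0) :=
          tendsto_exp_atBot.comp (tendsto_neg_atTop_atBot.comp
            (Tendsto.const_mul_atTop (by positivity) tendsto_natCast_atTop_atTop))
        have h1 := ((Real.continuous_sqrt.tendsto 0).comp h0).const_mul (2 * 4 : ℝ)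
        rw [sqrt_zero, mul_zero] at h1
        filter_upwards [h1.eventually (eventually_le_nhds (half_pos hκ))] with n hn _
        exact hn)] with n hn1 hp
  intro v s hv hs hs1
  rcases hβ.eq_or_lt with hb0 | hb0
  · subst hb0
    refine le_of_eq_of_le ?_ (exp_pos _).le
    rw [measureReal_eq_zero_iff]
    refine measure_mono_null (fun d hd' => absurd (fun u => ?_) hd') measure_empty
    have hq : Ent.qform (xm n 0 s (s ^ 2 * 0 ^ 2 * av v) d) (fun i => v i * u i) = 0 := by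
      simp [Ent.qform, xm, kmat_apply]
    rw [hq, add_zero, mul_sum]
    refine sum_le_sum fun i _ => ?_
    rw [mul_pow, ← mul_assoc]
    refine mul_le_mul_of_nonneg_right ?_ (sq_nonneg _)
    have := mul_le_mul_of_nonneg_left (hv i).2 (hv i).1
    linarith [mul_le_mul_of_nonneg_right (show η₀ 0 ≤ 1 by linarith) (sq_nonneg (v i)), (hv i).1]
  obtain ⟨ha, hGp⟩ := mGood_prob hn1 hβ hβ1 hs hs1 hv
  have hGm : MeasurableSet (mGood β s v) :=
    measurableSet_lt (Continuous.measurable (by fun_prop)) measurable_const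
  set X : Set (Fin n → ℝ) := {x | ∃ w, Dir β s v w ∧ x = fun i => √(s / (1 - κ)) * w i} with hX
  have h := sup_qform_tail gaussTail hn1 hb0 (B := 4) (by norm_num) (s := κ / 2) (half_pos hκ).le
    X (fun x hx => by obtain ⟨w, hw, rfl⟩ := hx; exact dir_scaled_le hβ hβ1 hs hs1 hv hw) hGm hGp
    fun g hg x hx => by obtain ⟨w, hw, rfl⟩ := hx; exact good_bound hn1 hβ hβ1 hs hs1 hv hg hw
  refine le_trans (measureReal_mono (fun d hd' => ?_) (measure_ne_top _ _)) (h.trans ?_)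
  · by_contra hc
    simp only [Set.mem_ofPred_eq, not_exists, not_and, not_lt] at hc
    refine hd' (marg_of_sup hβ hβ1 hs hv fun w hw => (hc _ ⟨w, hw, rfl⟩).trans ?_)
    have hn' : 2 * β * 4 * √(exp (-(a ^ 2 / π ^ 2 * n))) ≤ κ / 2 := by
      refine le_trans (mul_le_mul_of_nonneg_right ?_ (sqrt_nonneg _)) (hp ha)
      linarith
    linarith
  · refine exp_le_exp.2 (neg_le_neg ?_)
    rw [show (κ / 2) ^ 2 / (π ^ 2 * 16) * (n : ℝ) = (κ / 2) ^ 2 * n / (π ^ 2 * 16) by ring]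
    refine div_le_div_of_nonneg_left (by positivity) (by positivity) ?_
    nlinarith [mul_le_mul_of_nonneg_left (show β ^ 2 ≤ 1 by nlinarith) (sq_nonneg π)]

end Vale.Agent.P150.Fast.LL
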