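import Vale.Agent.P150.Fast.LLPerturb
import Vale.Agent.P150.Fast.LLMeanLaw
import Vale.Agent.P150.Fast.LLDiff
import Vale.Agent.P150.Fast.LLConvex
import Vale.Agent.P150.Fast.LLMargin
import Vale.Agent.P150.Fast.GoeNorm

/-!
Tail bounds for functionals of the diagonal and their increments between two grid points, and the
bound on their means, for the local law of P150.
-/

open MeasureTheory Real Finset Filter
open scoped Matrix Matrix.Norms.L2Operator

namespace Vale.Agent.P150.Fast.LL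

variable {n : ℕ} {β s η Λ δ : ℝ} {x y u : Fin n → ℝ}

/-- The regular disorders of a grid point. -/
def regAt (n : ℕ) (β η Λ s : ℝ) (x : Fin n → ℝ) : Set (Dis n) := regSet n β s (rv β s x) η Λ x

/-- The mean of a functional of the diagonal on the regular event. -/
noncomputable def bfun (n : ℕ) (β η Λ s : ℝ) (x u : Fin n → ℝ) : ℝ :=
  ∫ d, (regAt n β η Λ s x).indicator (fun d => u ⬝ᵥ zv n β s (rv β s x) d x) d ∂disX n

/-- Fixed data of the tail bounds. -/
structure Glob (β η Λ : ℝ) : Prop where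
  hβ : 0 ≤ β
  hβ1 : β < 1
  hη : 0 < η
  hΛ : 0 ≤ Λ

/-- An admissible point of the grid. -/
def Pt (n : ℕ) (s : ℝ) (x : Fin n → ℝ) : Prop := 0 ≤ s ∧ s ≤ 1 ∧ ∀ i, 0 ≤ x i ∧ x i ≤ 1

theorem Glob.par (G : Glob β η Λ) (hx : Pt n s x) : Par n β s (rv β s x) η Λ x :=
  ⟨G.hβ, G.hη, G.hΛ, hx.1, hx.2.1, by
    obtain ⟨h0, h1⟩ := rv_mem G.hβ G.hβ1 hx.1 hx.2.1 hx.2.2
    rw [abs_of_nonneg h0]; linarith, hx.2.2⟩

theorem Glob.reg (G : Glob β η Λ) (hx : Pt n s x) {d : Dis n} (hd : d ∈ regAt n β η Λ s x) :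
    Reg n β s (rv β s x) η Λ d x := (G.par hx).reg hd

theorem abs_dot_le (u z : Fin n → ℝ) (hu : nrm u ≤ 1) : |u ⬝ᵥ z| ≤ nrm z := by
  refine abs_le.2 ⟨?_, (dot_le _ _).trans (mul_le_of_le_one_left (nrm_nonneg _) hu)⟩
  have := dot_le (-u) z
  rw [neg_dotProduct, nrm_neg] at this
  linarith [mul_le_of_le_one_left (nrm_nonneg z) hu]

theorem measurable_dot_zv (β s R : ℝ) (x u : Fin n → ℝ) :
    Measurable fun d : Dis n => u ⬝ᵥ zv n β s R d x := by
  simp only [dotProduct, zv]
  exact Finset.measurable_sum _ fun i _ => (measurable_mul_entry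
    (measurable_mul_entry (measurable_pm β s R x) (measurable_aop β))
    (fun a b => by simpa only [Matrix.transpose_apply] using measurable_pm β s R x b a) i i).const_mul _

theorem Glob.abs_fun_le (G : Glob β η Λ) (hx : Pt n s x) (hu : nrm u ≤ 1) {d : Dis n}
    (hd : d ∈ regAt n β η Λ s x) : |u ⬝ᵥ zv n β s (rv β s x) d x| ≤ √n * zbd β Λ η :=
  (abs_dot_le _ _ hu).trans (nrm_zv_le (G.reg hx hd))

theorem Glob.measurable_regAt (_G : Glob β η Λ) (s : ℝ) (x : Fin n → ℝ) :
    MeasurableSet (regAt n β η Λ s x) :=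
  measurableSet_regSet n β s _ η Λ x

theorem Glob.fun_integrable (G : Glob β η Λ) (hx : Pt n s x) (hu : nrm u ≤ 1) :
    Integrable ((regAt n β η Λ s x).indicator fun d => u ⬝ᵥ zv n β s (rv β s x) d x) (disX n) := by
  refine integrable_bounded (C := √n * zbd β Λ η)
    ((measurable_dot_zv β s _ x u).indicator (G.measurable_regAt s x)) fun d => ?_
  by_cases hd : d ∈ regAt n β η Λ s x
  · simp only [Set.indicator_of_mem hd]; exact G.abs_fun_le hx hu hd
  · simp only [Set.indicator_of_notMem hd, abs_zero]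
    exact mul_nonneg (sqrt_nonneg _) (zbd_nonneg G.hβ G.hΛ)

/-- The Lipschitz constant of the functionals, times `√n`. -/
noncomputable def lipC (β Λ η : ℝ) : ℝ := (|zB β Λ η| + 1) * (β + 1) * √2

theorem lipC_pos (hβ : 0 ≤ β) : 0 < lipC β Λ η := by unfold lipC; positivity

theorem lip_convert (hβ : 0 ≤ β) (hδ : 0 ≤ δ) (d d' : Dis n) :
    zB β Λ η * (β / √n * √2 * √(∑ k, (d k - d' k) ^ 2)) * δ
      ≤ lipC β Λ η / √n * δ * √(∑ k, (d k - d' k) ^ 2) := by
  have e : zB β Λ η * (β / √n * √2 * √(∑ k, (d k - d' k) ^ 2)) * δ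
      = zB β Λ η * β * √2 / √n * δ * √(∑ k, (d k - d' k) ^ 2) := by ring
  rw [e]
  refine mul_le_mul_of_nonneg_right (mul_le_mul_of_nonneg_right (div_le_div_of_nonneg_right ?_
    (sqrt_nonneg _)) hδ) (sqrt_nonneg _)
  unfold lipC
  refine mul_le_mul_of_nonneg_right ?_ (sqrt_nonneg _)
  calc zB β Λ η * β ≤ |zB β Λ η| * β := mul_le_mul_of_nonneg_right (le_abs_self _) hβ
    _ ≤ (|zB β Λ η| + 1) * (β + 1) :=
      mul_le_mul (by linarith) (by linarith) hβ (by positivity)

/-- The tail of a functional at a grid point. -/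
theorem base_tail (G : Glob β η Λ) (hn : 1 ≤ n) (hx : Pt n s x) (hu : nrm u ≤ 1) {e a : ℝ}
    (he : (disX n).real (regAt n β η Λ s x)ᶜ ≤ e) (ha : 0 ≤ a) :
    (disX n).real {d | d ∈ regAt n β η Λ s x ∧
        bfun n β η Λ s x u + √n * zbd β Λ η * e + a ≤ u ⬝ᵥ zv n β s (rv β s x) d x}
      ≤ exp (-(2 * a ^ 2 / (π ^ 2 * (lipC β Λ η / √n) ^ 2))) := by
  have hn' : (0 : ℝ) < √n := sqrt_pos.2 (by exact_mod_cast hn)
  have hlip : ∀ d ∈ regAt n β η Λ s x, ∀ d' ∈ regAt n β η Λ s x,
      |u ⬝ᵥ zv n β s (rv β s x) d x - u ⬝ᵥ zv n β s (rv β s x) d' x|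
        ≤ lipC β Λ η / √n * √(∑ k, (d k - d' k) ^ 2) := fun d hd d' hd' => by
    have h1 := G.reg hx hd
    have h2 := G.reg hx hd'
    have h := (quad_z h1 h2 h1 h2 (δ := 0) le_rfl (frob_kmat_sub G.hβ d d').le (fun i => by simp)
      (by simp)).fab
    refine le_trans ?_ (le_trans h ?_)
    · rw [← dotProduct_sub]
      refine (abs_dot_le _ _ hu).trans ?_
      exact diag_le_frob (pm n β s (rv β s x) d x * aop n β d * (pm n β s (rv β s x) d x).transpose
        - pm n β s (rv β s x) d' x * aop n β d' * (pm n β s (rv β s x) d' x).transpose)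
    · simpa using lip_convert (η := η) (Λ := Λ) G.hβ (zero_le_one (α := ℝ)) d d'
  refine le_trans (measureReal_mono (fun d hd => ?_) (measure_ne_top (gp (Pair n ⊕ Fin n)) _))
    (convex_tail (isClosed_regSet n β s _ η Λ x) (convex_regSet n β s _ η Λ x)
      (div_pos (lipC_pos G.hβ) hn') ha hlip fun d hd => G.abs_fun_le hx hu hd)
  refine ⟨hd.1, le_trans ?_ hd.2⟩
  refine add_le_add (add_le_add le_rfl ?_) le_rfl
  exact mul_le_mul_of_nonneg_left he (mul_nonneg (sqrt_nonneg _) (zbd_nonneg G.hβ G.hΛ))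

/-- The tail of an increment between two grid points. -/
theorem incr_tail (G : Glob β η Λ) (hn : 1 ≤ n) (hx : Pt n s x) (hy : Pt n s y) (hu : nrm u ≤ 1)
    (hδ : 0 < δ) (hxy : ∀ i, |y i - x i| ≤ δ) {e a : ℝ}
    (hex : (disX n).real (regAt n β η Λ s x)ᶜ ≤ e) (hey : (disX n).real (regAt n β η Λ s y)ᶜ ≤ e)
    (ha : 0 ≤ a) :
    (disX n).real {d | d ∈ regAt n β η Λ s x ∧ d ∈ regAt n β η Λ s y ∧
        bfun n β η Λ s y u - bfun n β η Λ s x u + 6 * (√n * zbd β Λ η * e) + a
          ≤ u ⬝ᵥ zv n β s (rv β s y) d y - u ⬝ᵥ zv n β s (rv β s x) d x}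
      ≤ exp (-(2 * a ^ 2 / (π ^ 2 * (lipC β Λ η / √n * δ) ^ 2))) := by
  have hn' : (0 : ℝ) < √n := sqrt_pos.2 (by exact_mod_cast hn)
  set Sx := regAt n β η Λ s x with hSx
  set Sy := regAt n β η Λ s y with hSy
  set fx := fun d => u ⬝ᵥ zv n β s (rv β s x) d x
  set fy := fun d => u ⬝ᵥ zv n β s (rv β s y) d y
  set B := √n * zbd β Λ η with hB
  have hB0 : 0 ≤ B := mul_nonneg (sqrt_nonneg _) (zbd_nonneg G.hβ G.hΛ)
  have hR : |rv β s y - rv β s x| ≤ δ := by
    have := rv_sub_le G.hβ G.hβ1 hx.1 hx.2.1 hx.1 hx.2.1 hδ.le hx.2.2 (v := y) hxy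
    simpa using this
  have hlip : ∀ d ∈ Sx ∩ Sy, ∀ d' ∈ Sx ∩ Sy,
      |(fy d - fx d) - (fy d' - fx d')| ≤ lipC β Λ η / √n * δ * √(∑ k, (d k - d' k) ^ 2) :=
    fun d hd d' hd' => (zv_incr (G.reg hy hd.2) (G.reg hy hd'.2) (G.reg hx hd.1) (G.reg hx hd'.1)
      hδ.le hxy hR hu).trans (lip_convert G.hβ hδ.le d d')
  have hbd : ∀ d ∈ Sx ∩ Sy, |fy d - fx d| ≤ 2 * B := fun d hd => by
    refine (abs_sub _ _).trans ?_
    linarith [G.abs_fun_le hy hu hd.2, G.abs_fun_le hx hu hd.1]
  have hm : MeasurableSet (Sx ∩ Sy) := (G.measurable_regAt s x).inter (G.measurable_regAt s y)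
  have hcx : MeasurableSet Sxᶜ := (G.measurable_regAt s x).compl
  have hcy : MeasurableSet Syᶜ := (G.measurable_regAt s y).compl
  have iy : Integrable (Sy.indicator fy) (disX n) := G.fun_integrable hy hu
  have ix : Integrable (Sx.indicator fx) (disX n) := G.fun_integrable hx hu
  have hmean : ∫ d, (Sx ∩ Sy).indicator (fun d => fy d - fx d) d ∂disX n
      ≤ bfun n β η Λ s y u - bfun n β η Λ s x u + 2 * (B * e) := by
    have hi : Integrable ((Sx ∩ Sy).indicator fun d => fy d - fx d) (disX n) :=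
      integrable_bounded (C := 2 * B)
        (((measurable_dot_zv β s _ y u).sub (measurable_dot_zv β s _ x u)).indicator hm) fun d => by
        by_cases hd : d ∈ Sx ∩ Sy
        · simp only [Set.indicator_of_mem hd]; exact hbd d hd
        · simp only [Set.indicator_of_notMem hd, abs_zero]; linarith
    have c1 : Integrable (Sxᶜ.indicator fun _ => B) (disX n) := (integrable_const B).indicator hcx
    have c2 : Integrable (Syᶜ.indicator fun _ => B) (disX n) := (integrable_const B).indicator hcy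
    have hpt : ∀ d, (Sx ∩ Sy).indicator (fun d => fy d - fx d) d
        ≤ Sy.indicator fy d - Sx.indicator fx d + (Sxᶜ.indicator (fun _ => B) d
          + Syᶜ.indicator (fun _ => B) d) := fun d => by
      by_cases h1 : d ∈ Sx <;> by_cases h2 : d ∈ Sy
      · simp [h1, h2]
      · simp only [Set.indicator_of_notMem (show d ∉ Sx ∩ Sy from fun h => h2 h.2),
          Set.indicator_of_mem h1, Set.indicator_of_notMem h2,
          Set.indicator_of_notMem (show d ∉ Sxᶜ from fun h => h h1),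
          Set.indicator_of_mem (show d ∈ Syᶜ from h2)]
        have hb : fx d ≤ B := (abs_le.1 (G.abs_fun_le hx hu h1)).2
        linarith
      · simp only [Set.indicator_of_notMem (show d ∉ Sx ∩ Sy from fun h => h1 h.1),
          Set.indicator_of_notMem h1, Set.indicator_of_mem h2,
          Set.indicator_of_mem (show d ∈ Sxᶜ from h1),
          Set.indicator_of_notMem (show d ∉ Syᶜ from fun h => h h2)]
        have hb : -B ≤ fy d := (abs_le.1 (G.abs_fun_le hy hu h2)).1
        linarith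
      · simp [h1, h2, hB0]
    refine (integral_mono hi ((iy.sub ix).add (c1.add c2)) hpt).trans ?_
    simp only [Pi.add_apply, Pi.sub_apply]
    have iyx : Integrable (fun d => Sy.indicator fy d - Sx.indicator fx d) (disX n) := iy.sub ix
    rw [integral_add iyx (c1.fun_add c2), integral_add c1 c2]
    rw [integral_sub iy ix, integral_indicator_const _ hcx, integral_indicator_const _ hcy, smul_eq_mul,
      smul_eq_mul]
    have h1 := mul_le_mul_of_nonneg_right hex hB0
    have h2 := mul_le_mul_of_nonneg_right hey hB0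
    simp only [bfun, Sx, Sy, fx, fy] at *
    linarith
  have hcompl : (disX n).real (Sx ∩ Sy)ᶜ ≤ 2 * e := by
    rw [Set.compl_inter]
    exact (measureReal_union_le _ _).trans (by linarith)
  refine le_trans (measureReal_mono (fun d hd => ?_) (measure_ne_top (gp (Pair n ⊕ Fin n)) _))
    (convex_tail ((isClosed_regSet n β s _ η Λ x).inter (isClosed_regSet n β s _ η Λ y))
      ((convex_regSet n β s _ η Λ x).inter (convex_regSet n β s _ η Λ y))
      (mul_pos (div_pos (lipC_pos G.hβ) hn') hδ) ha hlip hbd)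
  obtain ⟨h1, h2, h3⟩ := hd
  refine ⟨⟨h1, h2⟩, le_trans ?_ h3⟩
  refine add_le_add ?_ le_rfl
  have h4 := mul_le_mul_of_nonneg_left hcompl (by linarith : 0 ≤ 2 * B)
  have hmean' : ∫ d, (Sx ∩ Sy).indicator (fun d => fy d - fx d) d ∂gp (Pair n ⊕ Fin n)
      ≤ bfun n β η Λ s y u - bfun n β η Λ s x u + 2 * (B * e) := hmean
  have h5 : 2 * B * (gp (Pair n ⊕ Fin n)).real (Sx ∩ Sy)ᶜ ≤ 2 * B * (2 * e) := h4
  exact le_trans (add_le_add hmean' h5) (by linarith)

/-- The mean against the value. -/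
theorem bias_le (G : Glob β η Λ) (hx : Pt n s x) (hu : nrm u ≤ 1) {e : ℝ}
    (he : (disX n).real (regAt n β η Λ s x)ᶜ ≤ e) :
    bfun n β η Λ s x u - aval β s x * ∑ i, u i
      ≤ 1 / 2 + |sC β (sB β Λ η)| * eB β η Λ / 2 + aB β * √n * e := by
  set S := regAt n β η Λ s x
  set f := fun d => u ⬝ᵥ zv n β s (rv β s x) d x
  set a := aval β s x
  set F := fun d => ∑ i, (zv n β s (rv β s x) d x i - a) ^ 2
  obtain ⟨hFi, hFe⟩ := mean_law G.hβ1 (G.par hx)
  have hm : MeasurableSet S := G.measurable_regAt s x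
  have hU : |a * ∑ i, u i| ≤ aB β * √n := by
    rw [abs_mul]
    refine mul_le_mul (abs_aval_le G.hβ G.hβ1 hx.1 hx.2.1 hx.2.2) ?_ (abs_nonneg _)
      (div_nonneg (by have := G.hβ; unfold shift; linarith) (by nlinarith [G.hβ, G.hβ1]))
    have := abs_dot_le u (fun _ => (1 : ℝ)) hu
    simpa [dotProduct, nrm] using this
  have hpt : ∀ d, S.indicator f d - a * ∑ i, u i
      ≤ 1 / 2 + S.indicator F d / 2 + Sᶜ.indicator (fun _ => aB β * √n) d := fun d => by
    by_cases hd : d ∈ S
    · simp only [Set.indicator_of_mem hd, Set.indicator_of_notMem (show d ∉ Sᶜ from fun h => h hd)]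
      have e : f d - a * ∑ i, u i = u ⬝ᵥ fun i => zv n β s (rv β s x) d x i - a := by
        simp only [f, dotProduct, mul_sub, sum_sub_distrib, mul_sum]
        congr 1
        exact sum_congr rfl fun i _ => mul_comm _ _
      rw [e]
      have h := (le_abs_self _).trans (abs_dot_le u (fun i => zv n β s (rv β s x) d x i - a) hu)
      have h2 : nrm (fun i => zv n β s (rv β s x) d x i - a) ^ 2 = F d := nrm_sq _
      nlinarith [sq_nonneg (nrm (fun i => zv n β s (rv β s x) d x i - a) - 1)]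
    · simp only [Set.indicator_of_notMem hd, Set.indicator_of_mem (show d ∈ Sᶜ from hd)]
      linarith [(abs_le.1 hU).1]
  have i0 : Integrable (S.indicator f) (disX n) := G.fun_integrable hx hu
  have i1 : Integrable (S.indicator F) (disX n) := hFi
  have i2 : Integrable (Sᶜ.indicator fun _ => aB β * √n) (disX n) :=
    (integrable_const _).indicator hm.compl
  have i3 : Integrable (fun d => 1 / 2 + S.indicator F d / 2) (disX n) :=
    (integrable_const _).add (i1.div_const 2)
  have h := integral_mono (i0.sub (integrable_const (a * ∑ i, u i))) (i3.add i2) hpt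
  simp only [Pi.add_apply, Pi.sub_apply] at h
  rw [integral_sub i0 (integrable_const _), integral_add i3 i2,
    integral_add (integrable_const _) (i1.div_const 2),
    integral_indicator_const _ hm.compl, smul_eq_mul] at h
  simp only [integral_div, integral_const, probReal_univ, one_smul] at h
  have hF : ∫ d, S.indicator F d ∂disX n ≤ |sC β (sB β Λ η)| * eB β η Λ := hFe
  have h2 := mul_le_mul_of_nonneg_right he ((abs_nonneg _).trans hU)
  show (∫ d, S.indicator f d ∂disX n) - a * ∑ i, u i ≤ _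
  linarith

/-- The regular event of every grid point fails with exponentially small probability. -/
theorem regAt_compl (hβ : 0 ≤ β) (hβ1 : β < 1) (hη : η ≤ η₀ β) :
    ∃ c : ℝ, 0 < c ∧ ∀ᶠ n : ℕ in atTop, ∀ (s : ℝ) (x : Fin n → ℝ), Pt n s x →
      (disX n).real (regAt n β η (2 * β + 1) s x)ᶜ ≤ exp (-(c * n)) := by
  obtain ⟨c₁, hc₁, h1⟩ := normEvent β 1 hβ one_pos
  obtain ⟨c₂, hc₂, h2⟩ := margin_fix β hβ hβ1
  refine ⟨min c₁ c₂ / 2, by positivity, ?_⟩
  filter_upwards [h1, h2, eventually_le_exp (a := 2) (c := min c₁ c₂ / 2) (by positivity)]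
    with n hn1 hn2 hn3
  intro s x hx
  have hsub : (regAt n β η (2 * β + 1) s x)ᶜ
      ⊆ {d | ¬ ∀ v, |Ent.qform (kmat n β d) v| ≤ (2 * β + 1) * ∑ i, v i ^ 2}
        ∪ {d | ¬ Marg n β s (s ^ 2 * β ^ 2 * av x) (η₀ β) d x} := fun d hd => by
    by_contra hc
    simp only [Set.mem_union, Set.mem_ofPred_eq, not_or, not_not] at hc
    exact hd ⟨norm_kmat_le (by linarith) hc.1, fun w =>
      (mul_le_mul_of_nonneg_right hη (sum_nonneg fun i _ => sq_nonneg _)).trans (hc.2 w)⟩
  refine (measureReal_mono hsub (measure_ne_top _ _)).trans ((measureReal_union_le _ _).trans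
    ((add_le_add hn1 (hn2 x s hx.2.2 hx.1 hx.2.1)).trans (le_trans ?_ hn3)))
  have e1 : exp (-(c₁ * n)) ≤ exp (-(2 * (min c₁ c₂ / 2) * n)) :=
    exp_le_exp.2 (neg_le_neg (mul_le_mul_of_nonneg_right (by linarith [min_le_left c₁ c₂])
      (Nat.cast_nonneg n)))
  have e2 : exp (-(c₂ * n)) ≤ exp (-(2 * (min c₁ c₂ / 2) * n)) :=
    exp_le_exp.2 (neg_le_neg (mul_le_mul_of_nonneg_right (by linarith [min_le_right c₁ c₂])
      (Nat.cast_nonneg n)))
  linarith

end Vale.Agent.P150.Fast.LL
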