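import Vale.Agent.P150.Fast.LLSchur
import Vale.Agent.P150.Fast.MarginSF
import Vale.Agent.P150.Fast.GaussTail

/-!
Comparison weights for the margin at a fixed point, and the concentration of their weighted
norm, for the local law of P150.
-/

open MeasureTheory Real Finset Filter
open scoped Matrix Matrix.Norms.L2Operator

namespace Vale.Agent.P150.Fast.LL

variable {n : ℕ}

/-- The step of the comparison parameter. -/
noncomputable def mδ (β : ℝ) : ℝ := (1 - β ^ 2) / 8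

/-- The margin that holds at every fixed point. -/
noncomputable def η₀ (β : ℝ) : ℝ := mδ β * ((1 - β ^ 2) / 8)

/-- The ratio of the mean of the comparison weights to its threshold. -/
noncomputable def mRatio (β : ℝ) : ℝ := (1 + (1 + β ^ 2) / 2 * mδ β) / (1 + mδ β)

theorem mδ_mem {β : ℝ} (hβ : 0 ≤ β) (hβ1 : β < 1) : 0 < mδ β ∧ mδ β ≤ 1 / 8 := by
  have h : β ^ 2 < 1 := by nlinarith
  unfold mδ
  constructor <;> linarith [sq_nonneg β]

theorem η₀_mem {β : ℝ} (hβ : 0 ≤ β) (hβ1 : β < 1) : 0 < η₀ β ∧ η₀ β ≤ 1 / 64 := by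
  obtain ⟨h1, h2⟩ := mδ_mem hβ hβ1
  have e : η₀ β = mδ β * mδ β := rfl
  rw [e]
  constructor <;> nlinarith

theorem mRatio_mem {β : ℝ} (hβ : 0 ≤ β) (hβ1 : β < 1) : 0 < mRatio β ∧ mRatio β < 1 := by
  obtain ⟨h1, -⟩ := mδ_mem hβ hβ1
  have hb : β ^ 2 < 1 := by nlinarith
  refine ⟨by unfold mRatio; positivity, ?_⟩
  rw [mRatio, div_lt_one (by linarith)]
  nlinarith

/-- The comparison weights. -/
noncomputable def mWt (β s : ℝ) (v : Fin n → ℝ) (i : Fin n) : ℝ :=
  v i / (1 - v i * (η₀ β + s ^ 2 * β ^ 2 * mδ β))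

theorem mWt_facts {β s : ℝ} (hβ : 0 ≤ β) (hβ1 : β < 1) (hs : 0 ≤ s) (hs1 : s ≤ 1) {v : Fin n → ℝ}
    (hv : ∀ i, 0 ≤ v i ∧ v i ≤ 1) :
    (∀ i, 0 ≤ mWt β s v i ∧ mWt β s v i ≤ 2) ∧
      av (mWt β s v) ≤ mRatio β * (av v + mδ β) := by
  obtain ⟨hd, hd8⟩ := mδ_mem hβ hβ1
  obtain ⟨he, he64⟩ := η₀_mem hβ hβ1
  set e := η₀ β + s ^ 2 * β ^ 2 * mδ β with hedef
  have hb : β ^ 2 < 1 := by nlinarith
  have hs2 : s ^ 2 ≤ 1 := pow_le_one₀ hs hs1
  have he0 : 0 ≤ e := by positivity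
  have hle : e ≤ mδ β * (β ^ 2 + (1 - β ^ 2) / 8) := by
    rw [hedef, η₀]
    linarith [mul_le_mul_of_nonneg_right hs2 (mul_nonneg (sq_nonneg β) hd.le)]
  have he1 : e ≤ 1 / 4 := by nlinarith
  have hθ : e ≤ (1 + β ^ 2) / 2 * mδ β * (1 - e) := by
    have h1 : e * ((1 + β ^ 2) / 2) ≤ mδ β := by
      refine le_trans (mul_le_of_le_one_right he0 (by linarith)) ?_
      refine hle.trans (mul_le_of_le_one_right hd.le ?_)
      linarith [sq_nonneg β]
    have h2 : mδ β * mδ β ≤ mδ β * ((1 - β ^ 2) / 8) := le_rfl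
    nlinarith [mul_le_mul_of_nonneg_left h1 hd.le]
  have hden : ∀ i, 0 < 1 - v i * e ∧ 1 / 2 ≤ 1 - v i * e := fun i => by
    have := mul_le_mul (hv i).2 he1 he0 zero_le_one
    constructor <;> linarith
  refine ⟨fun i => ⟨div_nonneg (hv i).1 (hden i).1.le, ?_⟩, ?_⟩
  · rw [mWt, div_le_iff₀ (hden i).1]
    linarith [(hv i).2, (hden i).2]
  have hstep : ∀ i, mWt β s v i ≤ v i + (1 + β ^ 2) / 2 * mδ β := fun i => by
    rw [mWt, div_le_iff₀ (hden i).1]
    have h1 : v i * v i * e ≤ (1 + β ^ 2) / 2 * mδ β * (1 - e) :=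
      (mul_le_of_le_one_left he0 (by nlinarith [(hv i).1, (hv i).2])).trans hθ
    have h2 : v i * e ≤ e := mul_le_of_le_one_left he0 (hv i).2
    linarith [mul_le_mul_of_nonneg_left h2 (show 0 ≤ (1 + β ^ 2) / 2 * mδ β by positivity)]
  refine ((av_mono hstep).trans_eq (av_add _ _)).trans ?_
  have hc : av (fun _ : Fin n => (1 + β ^ 2) / 2 * mδ β) ≤ (1 + β ^ 2) / 2 * mδ β :=
    av_le_const (by positivity) fun _ => le_rfl
  have hv1 : av v ≤ 1 := av_le_const zero_le_one fun i => (hv i).2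
  refine (add_le_add le_rfl hc).trans ?_
  rw [mRatio, div_mul_eq_mul_div (1 + (1 + β ^ 2) / 2 * mδ β), le_div_iff₀ (by linarith)]
  linarith [mul_nonneg (mul_nonneg hd.le (sub_nonneg.2 hv1)) (sub_nonneg.2 (by linarith : (1 + β ^ 2) / 2 ≤ 1))]

/-- A weighted norm of standard Gaussians rarely exceeds its mean square root. -/
theorem wnorm_tail (f : Fin n → ℝ) (hf : ∀ i, 0 ≤ f i ∧ f i ≤ 2) {q u : ℝ} (hq : 0 < q)
    (hu : 0 ≤ u) (hsum : ∑ i, f i ≤ q ^ 2) :
    (gp (Fin n)).real {g | q + u ≤ √(∑ i, f i * g i ^ 2)} ≤ exp (-(u ^ 2 / π ^ 2)) := by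
  set U : (Fin n → ℝ) → ℝ := fun g => √(∑ i, f i * g i ^ 2) with hU
  have hUe : ∀ g, U g = nrm fun i => √(f i) * g i := fun g => by
    simp only [hU, nrm, mul_pow, sq_sqrt (hf _).1]
  have hUl : ∀ g h, |U g - U h| ≤ √2 * √(∑ i, (g i - h i) ^ 2) := fun g h => by
    rw [hUe, hUe]
    simp only [nrm_eq]
    refine (abs_norm_sub_norm_le _ _).trans ?_
    rw [EuclideanSpace.norm_eq, ← sqrt_mul zero_le_two, mul_sum]
    refine sqrt_le_sqrt (sum_le_sum fun i _ => ?_)
    simp only [WithLp.ofLp_sub, Pi.sub_apply, Real.norm_eq_abs, sq_abs, ← mul_sub, mul_pow,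
      sq_sqrt (hf i).1]
    exact mul_le_mul_of_nonneg_right (hf i).2 (sq_nonneg _)
  have hUm : ∫ g, U g ∂gp (Fin n) ≤ q := by
    have hi : ∀ i, Integrable (fun g : Fin n → ℝ => f i * g i ^ 2) (gp (Fin n)) :=
      fun i => (Edge.sq_coord i).1.const_mul _
    have hS : Integrable (fun g : Fin n → ℝ => ∑ i, f i * g i ^ 2) (gp (Fin n)) :=
      integrable_finsetSum _ fun i _ => hi i
    have hR : Integrable (fun g : Fin n → ℝ => (∑ i, f i * g i ^ 2) / (2 * q) + q / 2) (gp (Fin n)) :=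
      (hS.div_const _).add (integrable_const _)
    have hpt : ∀ g, U g ≤ (∑ i, f i * g i ^ 2) / (2 * q) + q / 2 := fun g => by
      have hS0 : 0 ≤ ∑ i, f i * g i ^ 2 := sum_nonneg fun i _ => mul_nonneg (hf i).1 (sq_nonneg _)
      rw [show (∑ i, f i * g i ^ 2) / (2 * q) + q / 2
          = ((∑ i, f i * g i ^ 2) + q ^ 2) / (2 * q) by field_simp, le_div_iff₀ (by positivity)]
      linarith [sq_sqrt hS0, sq_nonneg (U g - q)]
    have hUi : Integrable U (gp (Fin n)) := hR.mono' (Continuous.aestronglyMeasurable (by fun_prop))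
      (ae_of_all _ fun g => by rw [Real.norm_eq_abs, abs_of_nonneg (sqrt_nonneg _)]; exact hpt g)
    refine (integral_mono hUi hR hpt).trans ?_
    rw [integral_add (hS.div_const _) (integrable_const _), integral_div,
      integral_finsetSum _ fun i _ => hi i]
    simp only [integral_const_mul, (Edge.sq_coord _).2, mul_one, integral_const, probReal_univ,
      one_smul]
    rw [div_add' _ _ _ (by positivity), div_le_iff₀ (by positivity)]
    linarith
  have h := gaussTail (Fin n) U √2 (by positivity) hUl u hu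
  refine le_trans (measureReal_mono (fun g hg => ?_) (measure_ne_top _ _)) (h.trans_eq ?_)
  · exact le_trans (add_le_add hUm le_rfl) hg
  · rw [sq_sqrt zero_le_two]; congr 1; field_simp

end Vale.Agent.P150.Fast.LL
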