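import Vale.Agent.P150.Fast.LLRow

/-!
At a fixed point the squared errors of the Schur identities have bounded mean on the regular
event, hence so does the squared distance of the diagonal from its value. For the local law of
P150.
-/

open MeasureTheory Real Finset Filter
open scoped Matrix Matrix.Norms.L2Operator

namespace Vale.Agent.P150.Fast.LL

variable {n : ℕ} {β s R η Λ : ℝ} {d : Dis n} {v : Fin n → ℝ}

/-- The regular disorders. -/
def regSet (n : ℕ) (β s R η Λ : ℝ) (v : Fin n → ℝ) : Set (Dis n) :=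
  {d | ‖kmat n β d‖ ≤ Λ ∧ Marg n β s R η d v}

/-- Admissible parameters. -/
structure Par (n : ℕ) (β s R η Λ : ℝ) (v : Fin n → ℝ) : Prop where
  hβ : 0 ≤ β
  hη : 0 < η
  hΛ : 0 ≤ Λ
  hs : 0 ≤ s
  hs1 : s ≤ 1
  hR : |R| ≤ 2
  hv : ∀ i, 0 ≤ v i ∧ v i ≤ 1

theorem Par.reg (h : Par n β s R η Λ v) (hd : d ∈ regSet n β s R η Λ v) : Reg n β s R η Λ d v :=
  ⟨h.hβ, h.hη, h.hΛ, h.hs, h.hs1, h.hR, hd.1, h.hv, hd.2⟩

theorem measurableSet_regSet (n : ℕ) (β s R η Λ : ℝ) (v : Fin n → ℝ) :
    MeasurableSet (regSet n β s R η Λ v) := by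
  refine IsClosed.measurableSet ?_
  refine (isClosed_le (continuous_kmat' β).norm continuous_const).inter ?_
  show IsClosed {d | Marg n β s R η d v}
  unfold Marg
  rw [Set.ofPred_forall]
  refine isClosed_iInter fun u => isClosed_le continuous_const ?_
  have : ∀ a b, Continuous fun d : Dis n => xm n β s R d a b := fun a b => by
    simp only [xm, Matrix.sub_apply, Matrix.smul_apply, smul_eq_mul]
    exact continuous_const.sub ((continuous_kmat β a b).const_mul s)
  exact continuous_const.add (continuous_finsetSum _ fun a _ => continuous_finsetSum _ fun b _ =>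
    ((this a b).const_mul _).mul_const _)

theorem measurable_mul_entry {f g : Dis n → Matrix (Fin n) (Fin n) ℝ}
    (hf : ∀ a b, Measurable fun d => f d a b) (hg : ∀ a b, Measurable fun d => g d a b) (a b : Fin n) :
    Measurable fun d => (f d * g d) a b := by
  simp only [Matrix.mul_apply]
  exact Finset.measurable_sum _ fun l _ => (hf a l).mul (hg l b)

theorem measurable_kmat (β : ℝ) (a b : Fin n) : Measurable fun d : Dis n => kmat n β d a b :=
  (continuous_kmat β a b).measurable

theorem measurable_aop (β : ℝ) (a b : Fin n) : Measurable fun d : Dis n => aop n β d a b := by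
  simp only [aop, Matrix.add_apply, Matrix.smul_apply]
  exact (measurable_kmat β a b).add measurable_const

theorem measurable_gm (β s R : ℝ) (v : Fin n → ℝ) (a b : Fin n) :
    Measurable fun d : Dis n => gm n β s R d v a b := by
  simp only [gm, Matrix.diagonal_mul]
  exact (measurable_pm β s R v a b).const_mul _

theorem measurable_gav {f : Dis n → Matrix (Fin n) (Fin n) ℝ}
    (hf : ∀ a b, Measurable fun d => f d a b) : Measurable fun d => gav (f d) := by
  simp only [gav, av]
  exact (Finset.measurable_sum _ fun i _ => hf i i).div_const _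

theorem integrable_bounded {f : Dis n → ℝ} (hm : Measurable f) {C : ℝ} (hC : ∀ d, |f d| ≤ C) :
    Integrable f (disX n) :=
  Integrable.of_bound hm.aestronglyMeasurable C (ae_of_all _ hC)

theorem row_quad (β : ℝ) (i : Fin n) (d : Dis n) (g : Fin n → ℝ) {N : Matrix (Fin n) (Fin n) ℝ}
    (hr : ∀ j, N i j = 0) (hc : ∀ j, N j i = 0) :
    (kmat n β (rowUpd i d g) * N * kmat n β (rowUpd i d g)) i i
      = β ^ 2 / n * (g ⬝ᵥ (N *ᵥ g)) := by
  simp only [Matrix.mul_apply, dotProduct, Matrix.mulVec, sum_mul, mul_sum]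
  rw [sum_comm]
  refine sum_congr rfl fun a _ => sum_congr rfl fun b _ => ?_
  by_cases ha : a = i
  · simp [ha, hr]
  · by_cases hb : b = i
    · simp [hb, hc]
    · rw [kmat_rowUpd_row β i d g ha, kmat_symm β _ b i, kmat_rowUpd_row β i d g hb,
        show β ^ 2 / (n : ℝ) = (β / √n) ^ 2 by rw [div_pow, sq_sqrt (Nat.cast_nonneg n)]]
      ring

/-- A quadratic form of an erased row fluctuates by `n^{-1/2}`. -/
theorem fluct_le (β : ℝ) (i : Fin n) {S T : Set (Dis n)} (hS : MeasurableSet S)
    {M N : Dis n → Matrix (Fin n) (Fin n) ℝ} (hMm : ∀ a b, Measurable fun d => M d a b)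
    (hST : ∀ d ∈ S, rowZero i d ∈ T ∧ M d = N (rowZero i d))
    (hN : ∀ d ∈ T, (N d).transpose = N d ∧ (∀ j, N d i j = 0) ∧ ∑ a, ∑ b, N d a b ^ 2 ≤ n * Λ)
    (hB : ∃ B, ∀ d ∈ S, |(kmat n β d * M d * kmat n β d) i i - β ^ 2 * gav (M d)| ≤ B)
    (hΛ : 0 ≤ Λ) :
    ∫ d, S.indicator (fun d => ((kmat n β d * M d * kmat n β d) i i - β ^ 2 * gav (M d)) ^ 2) d
      ∂disX n ≤ 2 * β ^ 4 * Λ / n := by
  obtain ⟨B, hB⟩ := hB
  set F := S.indicator fun d => ((kmat n β d * M d * kmat n β d) i i - β ^ 2 * gav (M d)) ^ 2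
  have hm : Measurable F :=
    (((measurable_mul_entry (measurable_mul_entry (measurable_kmat β) hMm) (measurable_kmat β) i i).sub
      ((measurable_gav hMm).const_mul _)).pow_const 2).indicator hS
  have hFi : Integrable F (disX n) := integrable_bounded hm (C := B ^ 2) fun d => by
    by_cases hd : d ∈ S
    · simp only [F, Set.indicator_of_mem hd, abs_pow]
      exact pow_le_pow_left₀ (abs_nonneg _) (hB d hd) 2
    · simp [F, Set.indicator_of_notMem hd, sq_nonneg]
  obtain ⟨hpi, he⟩ := integral_rowUpd i hFi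
  rw [← he]
  have hb : ∀ d : Dis n, ∫ g, F (rowUpd i d g) ∂gp (Fin n) ≤ 2 * β ^ 4 * Λ / n := fun d => by
    by_cases hT : rowZero i d ∈ T
    · obtain ⟨hsym, hrow, hfr⟩ := hN _ hT
      have hcol : ∀ j, N (rowZero i d) j i = 0 := fun j => by
        rw [← hsym]; exact hrow j
      obtain ⟨hqi, hqe⟩ := quad_var _ hsym
      refine (integral_mono_of_nonneg (ae_of_all _ fun g => Set.indicator_nonneg
        (fun _ _ => sq_nonneg _) _) (hqi.const_mul ((β ^ 2 / n) ^ 2)) (ae_of_all _ fun g => ?_)).trans ?_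
      · by_cases hd : rowUpd i d g ∈ S
        · have hM : M (rowUpd i d g) = N (rowZero i d) := by
            rw [(hST _ hd).2, rowZero_rowUpd]
          simp only [F, Set.indicator_of_mem hd, hM, row_quad β i d g hrow hcol, gav_eq]
          refine le_of_eq ?_
          ring
        · simp only [F, Set.indicator_of_notMem hd]
          positivity
      · rw [integral_const_mul, hqe]
        rcases Nat.eq_zero_or_pos n with h | h
        · subst h; simp
        have hn : (0 : ℝ) < n := by exact_mod_cast h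
        calc (β ^ 2 / n) ^ 2 * (2 * ∑ a, ∑ b, N (rowZero i d) a b ^ 2)
            ≤ (β ^ 2 / n) ^ 2 * (2 * (n * Λ)) := by gcongr
          _ = 2 * β ^ 4 * Λ / n := by field_simp
    · have : ∀ g, F (rowUpd i d g) = 0 := fun g => Set.indicator_of_notMem (fun hd => hT (by
        rw [← rowZero_rowUpd i d g]; exact (hST _ hd).1)) _
      simp only [this, integral_zero]
      positivity
  refine (integral_mono hpi.integral_prod_left (integrable_const _) hb).trans_eq ?_
  simp

theorem err_le (h : Par n β s R η Λ v) (i : Fin n) {M G : Dis n → Matrix (Fin n) (Fin n) ℝ}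
    {N : Dis n → Matrix (Fin n) (Fin n) ℝ} {L E : ℝ} (hL : 0 ≤ L)
    (hMm : ∀ a b, Measurable fun d => M d a b) (hGm : ∀ a b, Measurable fun d => G d a b)
    (hMN : ∀ d, Reg n β s R η Λ d v → M d = N (rowZero i d) ∧ ‖M d‖ ≤ L ∧
      |(G d).trace - (M d).trace| ≤ E)
    (hN : ∀ d0, Reg n β s R η (2 * Λ) d0 (vz v i) →
      (N d0).transpose = N d0 ∧ (∀ j, N d0 i j = 0) ∧ ‖N d0‖ ≤ L) :
    Integrable ((regSet n β s R η Λ v).indicator fun d => err β d (M d) (G d) i ^ 2) (disX n) ∧
    ∫ d, (regSet n β s R η Λ v).indicator (fun d => err β d (M d) (G d) i ^ 2) d ∂disX n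
      ≤ 4 * β ^ 4 * L ^ 2 / n + 2 * (β ^ 2 * E / n) ^ 2 := by
  set S := regSet n β s R η Λ v
  have hS := measurableSet_regSet n β s R η Λ v
  have hbd : ∀ d ∈ S, |(kmat n β d * M d * kmat n β d) i i| ≤ Λ * L * Λ := fun d hd =>
    (abs_entry_le _ _ _).trans ((norm_mul_le _ _).trans (mul_le_mul ((norm_mul_le _ _).trans
      (mul_le_mul hd.1 (hMN d (h.reg hd)).2.1 (norm_nonneg _) h.hΛ)) hd.1 (norm_nonneg _)
        (mul_nonneg h.hΛ hL)))
  have hgav : ∀ d ∈ S, |gav (M d)| ≤ L := fun d hd =>
    (av_abs _).trans (av_le_const hL fun j => (abs_entry_le _ _ _).trans (hMN d (h.reg hd)).2.1)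
  have hfl := fluct_le (Λ := L ^ 2) β i (S := S) (T := {d0 | Reg n β s R η (2 * Λ) d0 (vz v i)}) hS hMm
    (fun d hd => ⟨reg_rowZero (h.reg hd) i, (hMN d (h.reg hd)).1⟩)
    (fun d0 hd0 => ⟨(hN d0 hd0).1, (hN d0 hd0).2.1, by
      have h0 : frob (N d0) ^ 2 = ∑ a, ∑ b, N d0 a b ^ 2 := sq_sqrt (by positivity)
      rw [← h0]
      refine (frob_le_norm (N d0)).trans ?_
      rw [mul_comm]
      exact mul_le_mul_of_nonneg_left (pow_le_pow_left₀ (norm_nonneg _) (hN d0 hd0).2.2 2)
        (Nat.cast_nonneg n)⟩)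
    ⟨Λ * L * Λ + β ^ 2 * L, fun d hd => (abs_sub _ _).trans (add_le_add (hbd d hd) (by
      rw [abs_mul, abs_of_nonneg (sq_nonneg β)]
      exact mul_le_mul_of_nonneg_left (hgav d hd) (sq_nonneg β)))⟩ (sq_nonneg L)
  set f := fun d => ((kmat n β d * M d * kmat n β d) i i - β ^ 2 * gav (M d)) ^ 2 with hf
  have hfi : Integrable (S.indicator f) (disX n) := by
    refine integrable_bounded (C := (Λ * L * Λ + β ^ 2 * L) ^ 2)
      ((((measurable_mul_entry (measurable_mul_entry (measurable_kmat β) hMm) (measurable_kmat β) i i).sub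
        ((measurable_gav hMm).const_mul _)).pow_const 2).indicator hS) fun d => ?_
    by_cases hd : d ∈ S
    · simp only [Set.indicator_of_mem hd, hf, abs_pow]
      refine pow_le_pow_left₀ (abs_nonneg _) ((abs_sub _ _).trans (add_le_add (hbd d hd) ?_)) 2
      rw [abs_mul, abs_of_nonneg (sq_nonneg β)]
      exact mul_le_mul_of_nonneg_left (hgav d hd) (sq_nonneg β)
    · simp [Set.indicator_of_notMem hd, sq_nonneg]
  have hem : Measurable fun d => err β d (M d) (G d) i := by
    simp only [err]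
    exact (measurable_mul_entry (measurable_mul_entry (measurable_kmat β) hMm)
      (measurable_kmat β) i i).sub ((measurable_gav hGm).const_mul _)
  have hpt : ∀ d, S.indicator (fun d => err β d (M d) (G d) i ^ 2) d
      ≤ 2 * S.indicator f d + 2 * (β ^ 2 * E / n) ^ 2 := fun d => by
    by_cases hd : d ∈ S
    · simp only [Set.indicator_of_mem hd, hf, err]
      have hdiff : |β ^ 2 * gav (M d) - β ^ 2 * gav (G d)| ≤ β ^ 2 * E / n := by
        rw [← mul_sub, abs_mul, abs_of_nonneg (sq_nonneg β), gav_eq, gav_eq, ← sub_div, abs_div,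
          Nat.abs_cast, abs_sub_comm, mul_div_assoc]
        exact mul_le_mul_of_nonneg_left (div_le_div_of_nonneg_right (hMN d (h.reg hd)).2.2
          (Nat.cast_nonneg n)) (sq_nonneg β)
      have h2 := pow_le_pow_left₀ (abs_nonneg _) hdiff 2
      rw [sq_abs] at h2
      nlinarith [sq_nonneg ((kmat n β d * M d * kmat n β d) i i - β ^ 2 * gav (M d)
        - (β ^ 2 * gav (M d) - β ^ 2 * gav (G d)))]
    · simp only [Set.indicator_of_notMem hd]
      positivity
  have hi2 : Integrable (S.indicator fun d => err β d (M d) (G d) i ^ 2) (disX n) :=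
    Integrable.mono' ((hfi.const_mul 2).add (integrable_const _))
      ((hem.pow_const 2).indicator hS).aestronglyMeasurable (ae_of_all _ fun d => by
        rw [Real.norm_eq_abs, abs_of_nonneg (Set.indicator_nonneg (fun _ _ => sq_nonneg _) _)]
        exact hpt d)
  refine ⟨hi2, (integral_mono hi2 ((hfi.const_mul 2).add (integrable_const _)) hpt).trans ?_⟩
  simp only [Pi.add_apply]
  rw [integral_add (hfi.const_mul 2) (integrable_const _), integral_const_mul]
  simp only [integral_const, probReal_univ, one_smul]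
  have : 2 * (∫ d, S.indicator f d ∂disX n) ≤ 2 * (2 * β ^ 4 * L ^ 2 / n) :=
    mul_le_mul_of_nonneg_left hfl zero_le_two
  refine (add_le_add this le_rfl).trans_eq ?_
  ring

end Vale.Agent.P150.Fast.LL
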