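import Vale.Agent.P150.Fast.LLMean

/-!
Elementary perturbation bounds at a regular point and the passage to the form of the TAP Hessian,
for the local law of P150.
-/

open MeasureTheory Real Finset Filter
open scoped Matrix Matrix.Norms.L2Operator

namespace Vale.Agent.P150.Fast.LL

variable {n : ℕ} {β s s' η Λ δ : ℝ} {d : Dis n} {v v' : Fin n → ℝ}

/-- The Onsager coefficient at the point `(s, v)`. -/
noncomputable def rv (β s : ℝ) (v : Fin n → ℝ) : ℝ := s ^ 2 * β ^ 2 * av v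

/-- The value at the point `(s, v)`. -/
noncomputable def aval (β s : ℝ) (v : Fin n → ℝ) : ℝ :=
  (shift β + 2 * s * β ^ 2 * av v) / (1 - s ^ 2 * β ^ 2 * av fun i => v i ^ 2)

theorem rv_mem (hβ : 0 ≤ β) (hβ1 : β < 1) (hs : 0 ≤ s) (hs1 : s ≤ 1)
    (hv : ∀ i, 0 ≤ v i ∧ v i ≤ 1) : 0 ≤ rv β s v ∧ rv β s v ≤ 1 := by
  have hs2 : s ^ 2 ≤ 1 := pow_le_one₀ hs hs1
  have hb : β ^ 2 ≤ 1 := pow_le_one₀ hβ hβ1.le
  have h0 : 0 ≤ av v := av_nonneg fun i => (hv i).1
  have h1 : av v ≤ 1 := av_le_const zero_le_one fun i => (hv i).2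
  refine ⟨by unfold rv; positivity, ?_⟩
  calc rv β s v ≤ 1 * 1 * 1 := mul_le_mul (mul_le_mul hs2 hb (sq_nonneg _) zero_le_one) h1 h0 (by norm_num)
    _ = 1 := by norm_num

theorem sq_sub_sq_le (hs : 0 ≤ s) (hs1 : s ≤ 1) (hs' : 0 ≤ s') (hs1' : s' ≤ 1) :
    |s ^ 2 - s' ^ 2| ≤ 2 * |s - s'| := by
  rw [show s ^ 2 - s' ^ 2 = (s + s') * (s - s') by ring, abs_mul, abs_of_nonneg (by linarith : 0 ≤ s + s')]
  exact mul_le_mul_of_nonneg_right (by linarith) (abs_nonneg _)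

theorem coef_sub_le (hβ : 0 ≤ β) (hβ1 : β < 1) (hs : 0 ≤ s) (hs1 : s ≤ 1) (hs' : 0 ≤ s')
    (hs1' : s' ≤ 1) {x y : ℝ} (hy : |y| ≤ 1) {r : ℝ} (hxy : |x - y| ≤ r) :
    |s ^ 2 * β ^ 2 * x - s' ^ 2 * β ^ 2 * y| ≤ 2 * |s - s'| + r := by
  have hb : β ^ 2 ≤ 1 := pow_le_one₀ hβ hβ1.le
  rw [show s ^ 2 * β ^ 2 * x - s' ^ 2 * β ^ 2 * y
    = β ^ 2 * ((s ^ 2 - s' ^ 2) * y + s ^ 2 * (x - y)) by ring, abs_mul, abs_of_nonneg (sq_nonneg β)]
  refine (mul_le_of_le_one_left (abs_nonneg _) hb).trans ((abs_add_le _ _).trans (add_le_add ?_ ?_))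
  · rw [abs_mul]
    exact (mul_le_of_le_one_right (abs_nonneg _) hy).trans (sq_sub_sq_le hs hs1 hs' hs1')
  · rw [abs_mul, abs_of_nonneg (sq_nonneg s)]
    exact (mul_le_of_le_one_left (abs_nonneg _) (pow_le_one₀ hs hs1)).trans hxy

theorem av_sub_le (hδ : 0 ≤ δ) {f g : Fin n → ℝ} (h : ∀ i, |f i - g i| ≤ δ) : |av f - av g| ≤ δ := by
  rw [← av_sub]
  exact (av_abs _).trans (av_le_const hδ h)

theorem rv_sub_le (hβ : 0 ≤ β) (hβ1 : β < 1) (hs : 0 ≤ s) (hs1 : s ≤ 1) (hs' : 0 ≤ s')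
    (hs1' : s' ≤ 1) (hδ : 0 ≤ δ) (hv' : ∀ i, 0 ≤ v' i ∧ v' i ≤ 1) (h : ∀ i, |v i - v' i| ≤ δ) :
    |rv β s v - rv β s' v'| ≤ 2 * |s - s'| + δ :=
  coef_sub_le hβ hβ1 hs hs1 hs' hs1' ((av_abs _).trans (av_le_const zero_le_one fun i => by
    rw [abs_of_nonneg (hv' i).1]; exact (hv' i).2)) (av_sub_le hδ h)

theorem aval_den (hs : 0 ≤ s) (hs1 : s ≤ 1) (hv : ∀ i, 0 ≤ v i ∧ v i ≤ 1) :
    1 - β ^ 2 ≤ 1 - s ^ 2 * β ^ 2 * av fun i => v i ^ 2 := by
  have h0 : 0 ≤ av fun i => v i ^ 2 := av_nonneg fun i => sq_nonneg _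
  have h1 : (av fun i => v i ^ 2) ≤ 1 :=
    av_le_const zero_le_one fun i => pow_le_one₀ (hv i).1 (hv i).2
  have := mul_le_mul (mul_le_of_le_one_left (sq_nonneg β) (pow_le_one₀ (n := 2) hs hs1)) h1 h0 (sq_nonneg β)
  linarith

/-- The bound on the value. -/
noncomputable def aB (β : ℝ) : ℝ := (shift β + 2) / (1 - β ^ 2)

theorem abs_aval_le (hβ : 0 ≤ β) (hβ1 : β < 1) (hs : 0 ≤ s) (hs1 : s ≤ 1)
    (hv : ∀ i, 0 ≤ v i ∧ v i ≤ 1) : |aval β s v| ≤ aB β := by
  have hb : 0 < 1 - β ^ 2 := by nlinarith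
  have hd := aval_den (β := β) hs hs1 hv
  have h0 : 0 ≤ av v := av_nonneg fun i => (hv i).1
  have h1 : av v ≤ 1 := av_le_const zero_le_one fun i => (hv i).2
  have hsh : 0 ≤ shift β := by unfold shift; linarith
  have hn : 0 ≤ shift β + 2 * s * β ^ 2 * av v := by positivity
  rw [aval, abs_div, abs_of_nonneg hn, abs_of_pos (lt_of_lt_of_le hb hd)]
  refine div_le_div₀ (by linarith) (add_le_add le_rfl ?_) hb hd
  calc 2 * s * β ^ 2 * av v ≤ 2 * 1 * 1 * 1 :=
        mul_le_mul (mul_le_mul (by linarith) (pow_le_one₀ hβ hβ1.le) (sq_nonneg _) (by norm_num)) h1 h0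
          (by norm_num)
    _ = 2 := by norm_num

theorem aval_sub_le (hβ : 0 ≤ β) (hβ1 : β < 1) (hs : 0 ≤ s) (hs1 : s ≤ 1) (hs' : 0 ≤ s')
    (hs1' : s' ≤ 1) (hδ : 0 ≤ δ) (hv : ∀ i, 0 ≤ v i ∧ v i ≤ 1) (hv' : ∀ i, 0 ≤ v' i ∧ v' i ≤ 1)
    (h : ∀ i, |v i - v' i| ≤ δ) :
    |aval β s v - aval β s' v'| ≤ 2 * (1 + aB β) / (1 - β ^ 2) * (|s - s'| + δ) := by
  have hb : 0 < 1 - β ^ 2 := by nlinarith
  have hd := aval_den (β := β) hs hs1 hv
  have hd' := aval_den (β := β) hs' hs1' hv'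
  set D := 1 - s ^ 2 * β ^ 2 * av fun i => v i ^ 2
  set D' := 1 - s' ^ 2 * β ^ 2 * av fun i => v' i ^ 2
  set a' := aval β s' v'
  have hD : 0 < D := lt_of_lt_of_le hb hd
  have hD' : 0 < D' := lt_of_lt_of_le hb hd'
  have hN : |2 * s * β ^ 2 * av v - 2 * s' * β ^ 2 * av v'| ≤ 2 * (|s - s'| + δ) := by
    rw [show 2 * s * β ^ 2 * av v - 2 * s' * β ^ 2 * av v'
      = 2 * β ^ 2 * ((s - s') * av v' + s * (av v - av v')) by ring, abs_mul,
      abs_of_nonneg (by positivity : 0 ≤ 2 * β ^ 2)]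
    refine mul_le_mul (by linarith [pow_le_one₀ (n := 2) hβ hβ1.le]) ((abs_add_le _ _).trans
      (add_le_add ?_ ?_)) (abs_nonneg _) zero_le_two
    · rw [abs_mul]
      exact mul_le_of_le_one_right (abs_nonneg _) ((av_abs _).trans (av_le_const zero_le_one fun i => by
        rw [abs_of_nonneg (hv' i).1]; exact (hv' i).2))
    · rw [abs_mul, abs_of_nonneg hs]
      exact (mul_le_of_le_one_left (abs_nonneg _) hs1).trans (av_sub_le hδ h)
  have hE : |D' - D| ≤ 2 * (|s - s'| + δ) := by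
    rw [show D' - D = s ^ 2 * β ^ 2 * (av fun i => v i ^ 2) - s' ^ 2 * β ^ 2 * av fun i => v' i ^ 2 by
      simp only [D, D']; ring]
    refine (coef_sub_le hβ hβ1 hs hs1 hs' hs1' ((av_abs _).trans (av_le_const zero_le_one fun i => by
      rw [abs_of_nonneg (sq_nonneg _)]; exact pow_le_one₀ (hv' i).1 (hv' i).2))
      (av_sub_le (δ := 2 * δ) (by linarith) fun i => ?_)).trans_eq (by ring)
    exact (sq_sub_sq_le (hv i).1 (hv i).2 (hv' i).1 (hv' i).2).trans (by linarith [h i])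
  have e : (aval β s v - a') * D
      = (2 * s * β ^ 2 * av v - 2 * s' * β ^ 2 * av v') + a' * (D' - D) := by
    have e1 : aval β s v * D = shift β + 2 * s * β ^ 2 * av v := div_mul_cancel₀ _ hD.ne'
    have e2 : a' * D' = shift β + 2 * s' * β ^ 2 * av v' := div_mul_cancel₀ _ hD'.ne'
    linear_combination e1 - e2
  rw [div_mul_eq_mul_div, le_div_iff₀ hb]
  calc |aval β s v - a'| * (1 - β ^ 2) ≤ |aval β s v - a'| * |D| := by
        rw [abs_of_pos hD]; exact mul_le_mul_of_nonneg_left hd (abs_nonneg _)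
    _ ≤ 2 * (|s - s'| + δ) + aB β * (2 * (|s - s'| + δ)) := by
        rw [← abs_mul, e]
        refine (abs_add_le _ _).trans (add_le_add hN ?_)
        rw [abs_mul]
        exact mul_le_mul (abs_aval_le hβ hβ1 hs' hs1' hv') hE (abs_nonneg _)
          (div_nonneg (by unfold shift; linarith) hb.le)
    _ = 2 * (1 + aB β) * (|s - s'| + δ) := by ring

theorem abs_qform_le (K : Matrix (Fin n) (Fin n) ℝ) (w : Fin n → ℝ) :
    |Ent.qform K w| ≤ ‖K‖ * ∑ i, w i ^ 2 := by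
  rw [← dot_mulVec_eq, ← nrm_sq, pow_two, ← mul_assoc, mul_comm _ (nrm w)]
  refine abs_le.2 ⟨?_, (dot_le _ _).trans (mul_le_mul_of_nonneg_left (nrm_mulVec K w) (nrm_nonneg w))⟩
  have h := dot_le (-w) (K *ᵥ w)
  rw [nrm_neg, neg_dotProduct] at h
  linarith [mul_le_mul_of_nonneg_left (nrm_mulVec K w) (nrm_nonneg w)]

theorem qform_xm (R : ℝ) (w : Fin n → ℝ) :
    Ent.qform (xm n β s R d) w = R * ∑ i, w i ^ 2 - s * Ent.qform (kmat n β d) w := by
  simp only [← dot_mulVec_eq, xm, Matrix.sub_mulVec, Matrix.smul_mulVec, Matrix.one_mulVec,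
    dotProduct_sub, dotProduct_smul, smul_eq_mul]
  simp [dotProduct, pow_two]

/-- Moving the parameters costs margin. -/
theorem marg_move {R R' η' : ℝ} (hK : ‖kmat n β d‖ ≤ Λ)
    (hle : η' + |R - R'| + |s - s'| * Λ ≤ η) (h0 : ∀ i, 0 ≤ v' i) (hv : ∀ i, v' i ≤ v i)
    (h : Marg n β s R η d v) : Marg n β s' R' η' d v' := by
  intro u
  have h' := (marg_mono h0 hv h) u
  rw [qform_xm] at h' ⊢
  set W := ∑ i, (v' i * u i) ^ 2
  have hW : 0 ≤ W := sum_nonneg fun i _ => sq_nonneg _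
  set q := Ent.qform (kmat n β d) fun i => v' i * u i
  have hq : |(s - s') * q| ≤ |s - s'| * Λ * W := by
    rw [abs_mul, mul_assoc]
    exact mul_le_mul_of_nonneg_left ((abs_qform_le _ _).trans (mul_le_mul_of_nonneg_right hK hW))
      (abs_nonneg _)
  have := (abs_le.1 hq).1
  nlinarith [mul_le_mul_of_nonneg_right (le_abs_self (R - R')) hW, mul_le_mul_of_nonneg_right hle hW]

/-- The bound on the diagonal. -/
noncomputable def zbd (β Λ η : ℝ) : ℝ := pB Λ η ^ 2 * (Λ + shift β)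

theorem nrm_diag_le (M : Matrix (Fin n) (Fin n) ℝ) : nrm (fun i => M i i) ≤ √n * ‖M‖ := by
  refine (diag_le_frob M).trans (le_of_pow_le_pow_left₀ two_ne_zero (by positivity) ?_)
  rw [mul_pow, sq_sqrt (Nat.cast_nonneg n), mul_comm]
  exact frob_le_norm M

theorem zbd_nonneg (hβ : 0 ≤ β) (hΛ : 0 ≤ Λ) : 0 ≤ zbd β Λ η :=
  mul_nonneg (sq_nonneg _) (by unfold shift; linarith)

theorem nrm_zv_le {R : ℝ} (h : Reg n β s R η Λ d v) : nrm (zv n β s R d v) ≤ √n * zbd β Λ η := by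
  refine (nrm_diag_le (pm n β s R d v * aop n β d * (pm n β s R d v).transpose)).trans
    (mul_le_mul_of_nonneg_left ?_ (sqrt_nonneg _))
  refine (norm_mul_le _ _).trans ?_
  rw [norm_transpose]
  calc ‖pm n β s R d v * aop n β d‖ * ‖pm n β s R d v‖ ≤ pB Λ η * (Λ + shift β) * pB Λ η :=
        mul_le_mul ((norm_mul_le _ _).trans (mul_le_mul h.norm_pm (norm_aop_le h.hβ h.hK)
          (norm_nonneg _) (by linarith [h.pB_pos]))) h.norm_pm (norm_nonneg _)
          (mul_nonneg (by linarith [h.pB_pos]) (by have := h.hΛ; have := h.hβ; unfold shift; linarith))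
    _ = zbd β Λ η := by rw [zbd]; ring

/-- The Lipschitz constant in the parameters. -/
noncomputable def zlip (β Λ η : ℝ) : ℝ :=
  2 * pB Λ η ^ 3 * (Λ + shift β) * (2 * Λ + 5)

theorem zlip_nonneg (hβ : 0 ≤ β) (hη : 0 < η) (hΛ : 0 ≤ Λ) : 0 ≤ zlip β Λ η := by
  unfold zlip pB shift; positivity

theorem zv_move (h : Reg n β s (rv β s v) η Λ d v) (h' : Reg n β s' (rv β s' v') η Λ d v')
    (hβ1 : β < 1) (hδ : 0 ≤ δ) (hd : ∀ i, |v i - v' i| ≤ δ) :
    nrm (fun i => zv n β s (rv β s v) d v i - zv n β s' (rv β s' v') d v' i)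
      ≤ √n * (zlip β Λ η * (|s - s'| + δ)) := by
  set P := pm n β s (rv β s v) d v
  set Q := pm n β s' (rv β s' v') d v'
  set A := aop n β d
  set X := xm n β s (rv β s v) d
  set X' := xm n β s' (rv β s' v') d
  have hΛ := h.hΛ
  have hA : ‖A‖ ≤ Λ + shift β := norm_aop_le h.hβ h.hK
  have hp : 1 ≤ pB Λ η := h.pB_pos
  set Δ := |s - s'| + δ
  have hΔ : 0 ≤ Δ := by positivity
  have hX : ‖X - X'‖ ≤ (Λ + 2) * Δ := by
    have e : X - X' = (rv β s v - rv β s' v') • (1 : Matrix (Fin n) (Fin n) ℝ)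
        - (s - s') • kmat n β d := by
      simp only [X, X', xm, sub_smul]; abel
    rw [e]
    refine (norm_sub_le _ _).trans ?_
    rw [norm_smul, norm_smul, Real.norm_eq_abs, Real.norm_eq_abs]
    have h1 := (mul_le_of_le_one_right (abs_nonneg (rv β s v - rv β s' v')) (norm_one_le (n := n))).trans
      (rv_sub_le h.hβ hβ1 h.hs h.hs1 h'.hs h'.hs1 hδ h'.hv hd)
    have h2 := mul_le_mul_of_nonneg_left h.hK (abs_nonneg (s - s'))
    simp only [Δ]
    nlinarith [abs_nonneg (s - s')]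
  have hF : ‖(1 + X * Matrix.diagonal v) - (1 + X' * Matrix.diagonal v')‖ ≤ (2 * Λ + 5) * Δ := by
    rw [show (1 + X * Matrix.diagonal v) - (1 + X' * Matrix.diagonal v')
      = (X - X') * Matrix.diagonal v + X' * (Matrix.diagonal v - Matrix.diagonal v') by noncomm_ring,
      Matrix.diagonal_sub]
    have t1 : ‖(X - X') * Matrix.diagonal v‖ ≤ (Λ + 2) * Δ * 1 :=
      (norm_mul_le _ _).trans (mul_le_mul hX h.norm_v (norm_nonneg _) (by positivity))
    have t2 : ‖X' * Matrix.diagonal fun i => v i - v' i‖ ≤ (Λ + 2) * δ :=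
      (norm_mul_le _ _).trans (mul_le_mul (norm_xm_le h'.hK h'.hs h'.hs1 h'.hR) (norm_diagonal_le hδ hd)
        (norm_nonneg _) (by linarith))
    refine (norm_add_le _ _).trans ?_
    simp only [Δ] at t1 ⊢
    nlinarith [mul_nonneg (show 0 ≤ Λ + 3 by linarith) (abs_nonneg (s - s'))]
  have hPQ : ‖P - Q‖ ≤ pB Λ η * ((2 * Λ + 5) * Δ) * pB Λ η := by
    have e : P - Q = -(P * ((1 + X * Matrix.diagonal v) - (1 + X' * Matrix.diagonal v')) * Q) := by
      calc P - Q = P * ((1 + X' * Matrix.diagonal v') * Q) - P * (1 + X * Matrix.diagonal v) * Q := by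
            rw [h'.mul_pm, h.pm_mul, mul_one, one_mul]
        _ = _ := by noncomm_ring
    rw [e, norm_neg]
    exact (norm_mul_le _ _).trans (mul_le_mul ((norm_mul_le _ _).trans
      (mul_le_mul h.norm_pm hF (norm_nonneg _) (by linarith))) h'.norm_pm (norm_nonneg _) (by positivity))
  have hZ : ‖P * A * P.transpose - Q * A * Q.transpose‖ ≤ zlip β Λ η * Δ := by
    rw [show P * A * P.transpose - Q * A * Q.transpose
      = (P - Q) * A * P.transpose + Q * A * (P.transpose - Q.transpose) by noncomm_ring,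
      ← Matrix.transpose_sub]
    have hL0 : 0 ≤ Λ + shift β := (norm_nonneg A).trans hA
    have hP0 : 0 ≤ pB Λ η * ((2 * Λ + 5) * Δ) * pB Λ η := (norm_nonneg _).trans hPQ
    have t1 : ‖(P - Q) * A * P.transpose‖
        ≤ pB Λ η * ((2 * Λ + 5) * Δ) * pB Λ η * (Λ + shift β) * pB Λ η := by
      refine (norm_mul_le _ _).trans (mul_le_mul ((norm_mul_le _ _).trans
        (mul_le_mul hPQ hA (norm_nonneg _) hP0)) ?_ (norm_nonneg _) (mul_nonneg hP0 hL0))
      rw [norm_transpose]; exact h.norm_pm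
    have t2 : ‖Q * A * (P - Q).transpose‖
        ≤ pB Λ η * (Λ + shift β) * (pB Λ η * ((2 * Λ + 5) * Δ) * pB Λ η) := by
      refine (norm_mul_le _ _).trans (mul_le_mul ((norm_mul_le _ _).trans
        (mul_le_mul h'.norm_pm hA (norm_nonneg _) (by linarith))) ?_ (norm_nonneg _)
        (mul_nonneg (by linarith) hL0))
      rw [norm_transpose]; exact hPQ
    refine ((norm_add_le _ _).trans (add_le_add t1 t2)).trans_eq ?_
    rw [zlip]; ring
  exact (nrm_diag_le (P * A * P.transpose - Q * A * Q.transpose)).trans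
    (mul_le_mul_of_nonneg_left hZ (sqrt_nonneg _))

theorem marg_of_tap (hv : ∀ i, 0 < v i) {η : ℝ}
    (h : ∀ u, η * ∑ i, u i ^ 2 ≤ Ent.qform (tapH n β s d v) u) :
    Marg n β s (rv β s v) η d v := by
  intro u
  refine (h fun i => v i * u i).trans_eq ?_
  set w : Fin n → ℝ := fun i => v i * u i
  have e : Ent.qform (tapH n β s d v) w
      = (∑ i, w i * (1 / v i * w i)) + Ent.qform (xm n β s (rv β s v) d) w := by
    have e' : tapH n β s d v = Matrix.diagonal (fun i => 1 / v i) + xm n β s (rv β s v) d := by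
      unfold tapH xm; rw [← add_sub_assoc]; rfl
    rw [e', ← dot_mulVec_eq, Matrix.add_mulVec, dotProduct_add, dot_mulVec_eq (xm n β s (rv β s v) d)]
    congr 1
    simp [dotProduct, Matrix.mulVec_diagonal]
  rw [e]
  congr 1
  refine sum_congr rfl fun i _ => ?_
  have := (hv i).ne'
  simp only [w]; field_simp

theorem tap_inv (h : Reg n β s (rv β s v) η Λ d v) (hv : ∀ i, 0 < v i) (i : Fin n) :
    ((tapH n β s d v)⁻¹ * aop n β d * (tapH n β s d v)⁻¹) i i / v i ^ 2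
      = zv n β s (rv β s v) d v i := by
  have hd : (Matrix.diagonal (fun i => 1 / v i) : Matrix (Fin n) (Fin n) ℝ) * Matrix.diagonal v = 1 := by
    rw [Matrix.diagonal_mul_diagonal, ← Matrix.diagonal_one]
    congr 1
    funext j
    exact one_div_mul_cancel (hv j).ne'
  have e : tapH n β s d v * gm n β s (rv β s v) d v = 1 := by
    have e' : tapH n β s d v = Matrix.diagonal (fun i => 1 / v i) + xm n β s (rv β s v) d := by
      unfold tapH xm; rw [← add_sub_assoc]; rfl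
    rw [e', gm, ← mul_assoc, add_mul, hd]
    exact h.mul_pm
  rw [Matrix.inv_eq_right_inv e, gm_sandwich h, zv]
  have := (hv i).ne'
  field_simp

end Vale.Agent.P150.Fast.LL
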