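import Vale.Agent.P150.Fast.LLSchur
import Vale.Agent.P150.Fast.LLQuad

/-!
Removing one site: the resolvent with a site removed does not see the row of that site, its traces
differ by a bounded amount, and it is measurable. For the local law of P150.
-/

open MeasureTheory Real Finset Filter
open scoped Matrix Matrix.Norms.L2Operator

namespace Vale.Agent.P150.Fast.LL

variable {n : ℕ} {β s R η Λ : ℝ} {d : Dis n} {v : Fin n → ℝ}

/-- The disorder with the row of site `i` erased. -/
def rowZero (i : Fin n) (d : Dis n) : Dis n := rowUpd i d 0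

theorem rowZero_rowUpd (i : Fin n) (d : Dis n) (g : Fin n → ℝ) :
    rowZero i (rowUpd i d g) = rowZero i d := by
  funext k
  rcases k with p | j
  · simp only [rowZero, rowUpd, rowSrc]
    split_ifs with h1 h2 <;> simp [rowUpd, rowSrc, *]
  · rfl

theorem kmat_rowZero_diag (β : ℝ) (i : Fin n) (d : Dis n) (a : Fin n) :
    kmat n β (rowZero i d) a a = kmat n β d a a := by
  simp [kmat_apply, goe, rowZero, rowUpd, rowSrc]

theorem kmat_rowZero_off (β : ℝ) (i : Fin n) (d : Dis n) {a b : Fin n} (ha : a ≠ i) (hb : b ≠ i) :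
    kmat n β (rowZero i d) a b = kmat n β d a b :=
  kmat_rowUpd_rest β i d 0 ha hb

theorem kmat_rowZero_row (β : ℝ) (i : Fin n) (d : Dis n) {b : Fin n} (hb : b ≠ i) :
    kmat n β (rowZero i d) i b = 0 := by
  rw [rowZero, kmat_rowUpd_row β i d 0 hb]; simp

theorem norm_kmat_rowZero (h : Reg n β s R η Λ d v) (i : Fin n) :
    ‖kmat n β (rowZero i d)‖ ≤ 2 * Λ := by
  set K := kmat n β d
  set E : Matrix (Fin n) (Fin n) ℝ := Matrix.diagonal fun a => if a = i then 0 else 1
  set F : Matrix (Fin n) (Fin n) ℝ := Matrix.diagonal fun a => if a = i then K i i else 0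
  have e : kmat n β (rowZero i d) = E * K * E + F := by
    ext a b
    simp only [E, F, Matrix.add_apply, Matrix.mul_diagonal, Matrix.diagonal_mul, Matrix.diagonal_apply]
    by_cases hab : a = b
    · subst hab
      rw [kmat_rowZero_diag]
      by_cases ha : a = i <;> simp [K, ha]
    · by_cases ha : a = i
      · subst ha
        simp [hab, kmat_rowZero_row β a d (Ne.symm hab)]
      · by_cases hb : b = i
        · subst hb
          simp [hab, kmat_symm β (rowZero b d) a b, kmat_rowZero_row β b d ha]
        · simp [hab, ha, hb, K, kmat_rowZero_off β i d ha hb]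
  have hE : ‖E‖ ≤ 1 := norm_diagonal_le zero_le_one fun a => by split <;> simp
  have hF : ‖F‖ ≤ Λ := norm_diagonal_le h.hΛ fun a => by
    split
    · exact (abs_entry_le _ _ _).trans h.hK
    · simpa using h.hΛ
  rw [e]
  have h1 : ‖E * K‖ ≤ 1 * Λ :=
    (norm_mul_le _ _).trans (mul_le_mul hE h.hK (norm_nonneg _) zero_le_one)
  have h2 : ‖E * K * E‖ ≤ 1 * Λ * 1 :=
    (norm_mul_le _ _).trans (mul_le_mul h1 hE (norm_nonneg _) (by linarith [h.hΛ]))
  linarith [norm_add_le (E * K * E) F]

theorem diag_zero_sandwich {M : Matrix (Fin n) (Fin n) ℝ} {i : Fin n}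
    (hM : ∀ a b, a ≠ i → b ≠ i → M a b = 0) :
    Matrix.diagonal (vz v i) * M * Matrix.diagonal (vz v i) = 0 := by
  ext a b
  rw [Matrix.mul_diagonal, Matrix.diagonal_mul, Matrix.zero_apply]
  by_cases ha : a = i
  · simp [vz, ha]
  · by_cases hb : b = i
    · simp [vz, hb]
    · simp [hM a b ha hb]

theorem reg_rowZero (h : Reg n β s R η Λ d v) (i : Fin n) :
    Reg n β s R η (2 * Λ) (rowZero i d) (vz v i) := by
  obtain ⟨hb, hη, hΛ, hs, hs1, hR, hK, hv, hm⟩ := h.vzero i
  refine ⟨hb, hη, by linarith, hs, hs1, hR, norm_kmat_rowZero h i, hv, fun u => ?_⟩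
  refine (hm u).trans_eq ?_
  congr 1
  simp only [Ent.qform]
  refine sum_congr rfl fun a _ => sum_congr rfl fun b _ => ?_
  by_cases ha : a = i
  · simp [vz, ha]
  · by_cases hb : b = i
    · simp [vz, hb]
    · simp only [xm, Matrix.sub_apply, Matrix.smul_apply, kmat_rowZero_off β i d ha hb]

theorem g0_rowZero (h : Reg n β s R η Λ d v) (i : Fin n) :
    g0 n β s R d v i = g0 n β s R (rowZero i d) v i := by
  have h1 := h.vzero i
  have h2 := reg_rowZero h i
  set V := (Matrix.diagonal (vz v i) : Matrix (Fin n) (Fin n) ℝ) with hV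
  set X := xm n β s R d
  set X' := xm n β s R (rowZero i d)
  set P := pm n β s R d (vz v i)
  set P' := pm n β s R (rowZero i d) (vz v i)
  have h0 : V * (X' - X) * V = 0 := diag_zero_sandwich fun a b ha hb => by
    simp only [X, X', xm, Matrix.sub_apply, Matrix.smul_apply, kmat_rowZero_off β i d ha hb, sub_self]
  have hs : P.transpose * V = V * P := by
    have := h1.gm_symm
    rwa [gm, Matrix.transpose_mul, Matrix.diagonal_transpose] at this
  have hP : P * (1 + X * V) = 1 := h1.pm_mul
  have hP' : (1 + X' * V) * P' = 1 := h2.mul_pm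
  show V * P = V * P'
  calc V * P = P.transpose * V * ((1 + X' * V) * P') := by rw [hP', mul_one, hs]
    _ = P.transpose * V * (1 + X * V) * P' + P.transpose * (V * (X' - X) * V) * P' := by
        noncomm_ring
    _ = V * P' := by rw [h0, hs, mul_assoc V P, hP]; simp

theorem sandwich_eq {S : Type*} [Ring S] {V P Q A B : S} (hs : Q * V = V * P)
    (h0 : V * (A - B) * V = 0) : V * P * A * (V * P) = V * P * B * (V * P) := by
  rw [← sub_eq_zero]
  calc V * P * A * (V * P) - V * P * B * (V * P) = Q * V * (A - B) * (V * P) := by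
        rw [hs]; noncomm_ring
    _ = Q * (V * (A - B) * V) * P := by noncomm_ring
    _ = 0 := by rw [h0]; simp

theorem g0_aop_g0 (h : Reg n β s R η Λ d v) (i : Fin n) :
    g0 n β s R d v i * aop n β d * g0 n β s R d v i
      = g0 n β s R d v i * aop n β (rowZero i d) * g0 n β s R d v i := by
  have hs := (h.vzero i).gm_symm
  rw [gm, Matrix.transpose_mul, Matrix.diagonal_transpose] at hs
  exact sandwich_eq hs (diag_zero_sandwich fun a b ha hb => by
    simp only [aop, Matrix.sub_apply, Matrix.add_apply, kmat_rowZero_off β i d ha hb, sub_self])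

theorem gm_diff (h : Reg n β s R η Λ d v) (i : Fin n) :
    gm n β s R d v - g0 n β s R d v i = (pm n β s R d (vz v i)).transpose *
      Matrix.diagonal (Pi.single i (v i)) * pm n β s R d v := by
  have h1 := h.vzero i
  set X := xm n β s R d
  set P := pm n β s R d v
  set P0 := pm n β s R d (vz v i)
  have hd : (Matrix.diagonal (Pi.single i (v i)) : Matrix (Fin n) (Fin n) ℝ)
      = Matrix.diagonal v - Matrix.diagonal (vz v i) := by
    rw [Matrix.diagonal_sub]
    congr 1
    funext j
    rcases eq_or_ne j i with hj | hj <;> simp [vz, hj]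
  have hP : (1 + X * Matrix.diagonal v) * P = 1 := h.mul_pm
  have hs : P0.transpose * Matrix.diagonal (vz v i) = Matrix.diagonal (vz v i) * P0 := by
    have := h1.gm_symm
    rwa [gm, Matrix.transpose_mul, Matrix.diagonal_transpose] at this
  have hT : P0.transpose * (1 + Matrix.diagonal (vz v i) * X) = 1 := by
    have h2 : ((1 + X * Matrix.diagonal (vz v i)) * P0).transpose = 1 := by
      rw [h1.mul_pm, Matrix.transpose_one]
    rwa [Matrix.transpose_mul, Matrix.transpose_add, Matrix.transpose_one, Matrix.transpose_mul,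
      Matrix.diagonal_transpose, xm_transpose] at h2
  show Matrix.diagonal v * P - Matrix.diagonal (vz v i) * P0 = _
  rw [hd]
  calc Matrix.diagonal v * P - Matrix.diagonal (vz v i) * P0
      = P0.transpose * (1 + Matrix.diagonal (vz v i) * X) * (Matrix.diagonal v * P)
        - P0.transpose * Matrix.diagonal (vz v i) * ((1 + X * Matrix.diagonal v) * P) := by
        rw [hT, hP, hs, one_mul, mul_one]
    _ = P0.transpose * (Matrix.diagonal v - Matrix.diagonal (vz v i)) * P := by noncomm_ring

theorem trace_single (A B : Matrix (Fin n) (Fin n) ℝ) (i : Fin n) (x : ℝ) :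
    (A * Matrix.diagonal (Pi.single i x) * B).trace = x * (B * A) i i := by
  rw [Matrix.trace_mul_comm, ← mul_assoc]
  simp [Matrix.trace, Matrix.mul_diagonal, Pi.single_apply, mul_comm]

/-- The difference of the resolvents with and without site `i`. -/
theorem trace_diff (h : Reg n β s R η Λ d v) (i : Fin n) (M : Matrix (Fin n) (Fin n) ℝ) :
    |((gm n β s R d v - g0 n β s R d v i) * M).trace| ≤ pB Λ η ^ 2 * ‖M‖ := by
  have hp : 0 ≤ pB Λ η := zero_le_one.trans h.pB_pos
  rw [gm_diff h i, mul_assoc (Matrix.transpose _ * _), trace_single, abs_mul,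
    abs_of_nonneg (h.hv i).1]
  refine (mul_le_of_le_one_left (abs_nonneg _) (h.hv i).2).trans ((abs_entry_le _ _ _).trans ?_)
  refine (norm_mul_le _ _).trans ?_
  rw [norm_transpose]
  calc ‖pm n β s R d v * M‖ * ‖pm n β s R d (vz v i)‖ ≤ pB Λ η * ‖M‖ * pB Λ η :=
        mul_le_mul ((norm_mul_le _ _).trans (mul_le_mul_of_nonneg_right h.norm_pm (norm_nonneg _)))
          (h.vzero i).norm_pm (norm_nonneg _) (mul_nonneg hp (norm_nonneg _))
    _ = pB Λ η ^ 2 * ‖M‖ := by ring

theorem gav_eq (M : Matrix (Fin n) (Fin n) ℝ) : gav M = M.trace / n := rfl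

theorem continuous_kmat (β : ℝ) (a b : Fin n) : Continuous fun d : Dis n => kmat n β d a b := by
  simp only [kmat_apply, goe]
  split_ifs <;> fun_prop

theorem continuous_kmat' (β : ℝ) : Continuous fun d : Dis n => kmat n β d :=
  continuous_matrix fun a b => continuous_kmat β a b

theorem measurable_pm (β s R : ℝ) (v : Fin n → ℝ) (a b : Fin n) :
    Measurable fun d : Dis n => pm n β s R d v a b := by
  have hK := continuous_kmat' (n := n) β
  have hF : Continuous fun d : Dis n => 1 + xm n β s R d * Matrix.diagonal v := by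
    unfold xm; fun_prop
  simp only [pm, Matrix.inv_def, Matrix.smul_apply, Ring.inverse_eq_inv', smul_eq_mul]
  exact (hF.matrix_det.measurable.inv).mul
    (((continuous_apply b).comp ((continuous_apply a).comp hF.matrix_adjugate)).measurable)

end Vale.Agent.P150.Fast.LL
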