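import Vale.Agent.P150.Fast.LLAv

/-!
The scalar fixed-point lemma behind the local law of P150: if the Schur identities hold up to
errors `e`, the diagonal of `P A Pᵀ` is at its deterministic value up to `O(|e|₂)`.
-/

open Real Finset

namespace Vale.Agent.P150.Fast.LL

variable {n : ℕ}

/-- The data of the Schur identities. -/
structure Schur (n : ℕ) (β s B : ℝ) (v p Z k e1 e2 e3 : Fin n → ℝ) (g g2 gA c : ℝ) : Prop where
  hβ : 0 ≤ β
  hβ1 : β < 1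
  hs : 0 ≤ s
  hs1 : s ≤ 1
  hB : 1 ≤ B
  hv : ∀ i, 0 ≤ v i ∧ v i ≤ 1
  hp : ∀ i, |p i| ≤ B
  hpe : ∀ i, p i * (1 + v i * (s ^ 2 * β ^ 2 * av v - s * k i - s ^ 2 * (e1 i + β ^ 2 * g))) = 1
  hZ : ∀ i, Z i = p i ^ 2 * (c + k i + 2 * s * (e1 i + β ^ 2 * g) + s ^ 2 * (e3 i + β ^ 2 * gA))
  hW : ∀ i, |c + k i + 2 * s * (e1 i + β ^ 2 * g) + s ^ 2 * (e3 i + β ^ 2 * gA)| ≤ B
  hg : g = av fun i => v i * p i
  hg2 : g2 = av fun i => v i ^ 2 * (p i ^ 2 * (1 + s ^ 2 * (e2 i + β ^ 2 * g2)))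
  hg20 : 0 ≤ g2
  hgA : gA = av fun i => v i ^ 2 * Z i

/-- Total squared error. -/
def eSq (k e1 e2 e3 : Fin n → ℝ) : ℝ := ∑ i, (k i ^ 2 + e1 i ^ 2 + e2 i ^ 2 + e3 i ^ 2)

/-- The constant of the scalar lemma. -/
noncomputable def sC (β B : ℝ) : ℝ :=
  let κ := (1 - β) / 2
  let D := 4 * B / κ + 8 * B ^ 3 / κ
  let F := 2 * B * (B + 1) ^ 2 * (D + 3)
  8 * (F * 4 / (1 - β ^ 2) + F) ^ 2

variable {β s B g g2 gA c : ℝ} {v p Z k e1 e2 e3 : Fin n → ℝ}

/-- The averaged size of the errors. -/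
noncomputable def eAv (k e1 e2 e3 : Fin n → ℝ) : ℝ := √(eSq k e1 e2 e3 / n)

theorem err_av (k e1 e2 e3 : Fin n → ℝ) :
    av (fun i => |k i|) ≤ eAv k e1 e2 e3 ∧ av (fun i => |e1 i|) ≤ eAv k e1 e2 e3 ∧
      av (fun i => |e2 i|) ≤ eAv k e1 e2 e3 ∧ av (fun i => |e3 i|) ≤ eAv k e1 e2 e3 := by
  set ε := eAv k e1 e2 e3 with hε
  have hes : ∀ f : Fin n → ℝ, (∀ i, f i ^ 2 ≤ k i ^ 2 + e1 i ^ 2 + e2 i ^ 2 + e3 i ^ 2) →
      av (fun i => |f i|) ≤ ε := fun f hf => by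
    rw [hε, eAv]
    refine le_sqrt_of_sq_le ((av_sq_le _).trans ?_)
    simp only [sq_abs]
    exact av_mono hf
  have ek := hes k fun i => by linarith [sq_nonneg (e1 i), sq_nonneg (e2 i), sq_nonneg (e3 i)]
  have ee1 := hes e1 fun i => by linarith [sq_nonneg (k i), sq_nonneg (e2 i), sq_nonneg (e3 i)]
  have ee2 := hes e2 fun i => by linarith [sq_nonneg (e1 i), sq_nonneg (k i), sq_nonneg (e3 i)]
  have ee3 := hes e3 fun i => by linarith [sq_nonneg (e1 i), sq_nonneg (e2 i), sq_nonneg (k i)]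
  exact ⟨ek, ee1, ee2, ee3⟩

/-- The mean of the squared diagonal is at most the critical one. -/
theorem mean_sq_le (h : Schur n β s B v p Z k e1 e2 e3 g g2 gA c) :
    s ^ 2 * β ^ 2 * av (fun i => (v i * p i) ^ 2) ≤ 1 + B ^ 2 * eAv k e1 e2 e3 := by
  obtain ⟨hβ, hβ1, hs, hs1, hB, hv, hp, hpe, hZ, hW, hg, hg2, hg20, hgA⟩ := h
  set t := s ^ 2 * β ^ 2 with ht
  have hs2 : s ^ 2 ≤ 1 := pow_le_one₀ hs hs1
  have ht0 : 0 ≤ t := by positivity
  have htb : t ≤ β ^ 2 := mul_le_of_le_one_left (sq_nonneg _) hs2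
  have hb2 : β ^ 2 < 1 := pow_lt_one₀ hβ hβ1 two_ne_zero
  have hvs : ∀ i, 0 ≤ v i ^ 2 ∧ v i ^ 2 ≤ 1 :=
    fun i => ⟨sq_nonneg _, pow_le_one₀ (hv i).1 (hv i).2⟩
  obtain ⟨ek, ee1, ee2, ee3⟩ := err_av k e1 e2 e3
  set ε := eAv k e1 e2 e3
  have hε0 : 0 ≤ ε := sqrt_nonneg _
  set S := av fun i => (v i * p i) ^ 2
  have hS0 : 0 ≤ S := av_nonneg fun i => sq_nonneg _
  have e : g2 = S * (1 + t * g2) + av fun i => s ^ 2 * (v i * p i) ^ 2 * e2 i := by
    rw [mul_comm S, ← av_mul, ← av_add]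
    conv_lhs => rw [hg2]
    congr 1
    funext i
    simp only [ht]; ring
  have e' : |av fun i => s ^ 2 * (v i * p i) ^ 2 * e2 i| ≤ B ^ 2 * ε := by
    refine (av_abs _).trans ((av_mono fun i => ?_).trans
      ((av_mul (B ^ 2) fun i => |e2 i|).trans_le (mul_le_mul_of_nonneg_left ee2 (sq_nonneg B))))
    rw [abs_mul, abs_of_nonneg (by positivity : 0 ≤ s ^ 2 * (v i * p i) ^ 2)]
    refine mul_le_mul_of_nonneg_right ?_ (abs_nonneg _)
    refine (mul_le_of_le_one_left (sq_nonneg _) hs2).trans ?_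
    rw [mul_pow, ← sq_abs (p i)]
    exact (mul_le_of_le_one_left (sq_nonneg _) (hvs i).2).trans
      (pow_le_pow_left₀ (abs_nonneg _) (hp i) 2)
  have h1 := (abs_le.1 e').1
  have ht1 : t ≤ 1 := htb.trans hb2.le
  have h2 : t * (B ^ 2 * ε) ≤ B ^ 2 * ε := mul_le_of_le_one_left (by positivity) ht1
  refine le_of_mul_le_mul_right (a := 1 + t * g2) ?_ (by positivity)
  have h3 : 0 ≤ t * g2 * (B ^ 2 * ε) := by positivity
  nlinarith [mul_le_mul_of_nonneg_left h1 ht0]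

/-- The mean of the variances against the trace of the resolvent. -/
theorem mean_dev_le (h : Schur n β s B v p Z k e1 e2 e3 g g2 gA c) :
    |av v - g| ≤ (4 * B / ((1 - β) / 2) + 8 * B ^ 3 / ((1 - β) / 2)) * eAv k e1 e2 e3 := by
  have hS := mean_sq_le h
  obtain ⟨hβ, hβ1, hs, hs1, hB, hv, hp, hpe, hZ, hW, hg, hg2, hg20, hgA⟩ := h
  set t := s ^ 2 * β ^ 2 with ht
  have hs2 : s ^ 2 ≤ 1 := pow_le_one₀ hs hs1
  have ht0 : 0 ≤ t := by positivity
  have htb : t ≤ β ^ 2 := mul_le_of_le_one_left (sq_nonneg _) hs2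
  have hb2 : β ^ 2 < 1 := pow_lt_one₀ hβ hβ1 two_ne_zero
  have hvs : ∀ i, 0 ≤ v i ^ 2 ∧ v i ^ 2 ≤ 1 :=
    fun i => ⟨sq_nonneg _, pow_le_one₀ (hv i).1 (hv i).2⟩
  obtain ⟨ek, ee1, ee2, ee3⟩ := err_av k e1 e2 e3
  set ε := eAv k e1 e2 e3
  have hε0 : 0 ≤ ε := sqrt_nonneg _
  set S := av fun i => (v i * p i) ^ 2
  have hS0 : 0 ≤ S := av_nonneg fun i => sq_nonneg _
  set Δ := av v - g with hΔ
  set M := av fun i => v i * (v i * p i)
  have hres : ∀ i, 1 - p i = p i * v i * (t * Δ - s * k i - s ^ 2 * e1 i) := fun i => by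
    simp only [hΔ, ht]; linear_combination -(hpe i)
  have hid : Δ * (1 - t * M) = av fun i => v i ^ 2 * p i * (-(s * k i) - s ^ 2 * e1 i) := by
    have e : Δ = t * Δ * M + av fun i => v i ^ 2 * p i * (-(s * k i) - s ^ 2 * e1 i) := by
      rw [← av_mul, ← av_add]
      conv_lhs => rw [hΔ, hg, ← av_sub]
      congr 1
      funext i
      linear_combination v i * hres i
    linear_combination e
  have hrhs : |av fun i => v i ^ 2 * p i * (-(s * k i) - s ^ 2 * e1 i)| ≤ 2 * B * ε := by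
    refine (av_abs _).trans ((av_mono fun i => ?_).trans
      ((av_mul B fun i => |k i| + |e1 i|).trans_le ?_))
    · rw [abs_mul, abs_mul, abs_of_nonneg (hvs i).1]
      refine mul_le_mul ((mul_le_of_le_one_left (abs_nonneg _) (hvs i).2).trans (hp i)) ?_
        (abs_nonneg _) (by linarith)
      refine (abs_sub _ _).trans (add_le_add ?_ ?_)
      · rw [abs_neg, abs_mul, abs_of_nonneg hs]; exact mul_le_of_le_one_left (abs_nonneg _) hs1
      · rw [abs_mul, abs_of_nonneg (sq_nonneg s)]; exact mul_le_of_le_one_left (abs_nonneg _) hs2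
    · rw [av_add]; nlinarith
  set κ := (1 - β) / 2 with hκ
  set D := 4 * B / κ + 8 * B ^ 3 / κ with hD
  have hκ0 : 0 < κ := by simp only [hκ]; linarith
  have hκ1 : κ ≤ 1 / 2 := by simp only [hκ]; linarith
  by_cases hbig : β * (B ^ 2 * ε) ≤ κ
  · have hM : t * M ≤ 1 - κ := by
      refine le_trans (le_abs_self _) (abs_le_of_sq_le_sq ?_ (by linarith))
      have hMM : M ^ 2 ≤ S := (av_mul_sq_le v fun i => v i * p i).trans
        (mul_le_of_le_one_left hS0 (av_le_const zero_le_one fun i => (hvs i).2))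
      have h1 : (t * M) ^ 2 ≤ β ^ 2 * (1 + B ^ 2 * ε) := by
        rw [mul_pow]
        linarith [mul_le_mul_of_nonneg_left hMM (sq_nonneg t),
          mul_le_mul htb hS (by positivity) (sq_nonneg β)]
      refine h1.trans ?_
      rw [show 1 - κ = β + κ by simp only [hκ]; ring]
      linarith [mul_le_mul_of_nonneg_left hbig hβ, sq_nonneg κ, mul_nonneg hβ hκ0.le]
    have h2 : κ * |Δ| ≤ 2 * B * ε := by
      refine le_trans ?_ ((le_of_eq (abs_mul _ _).symm).trans ((congrArg abs hid).trans_le hrhs))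
      rw [mul_comm, abs_of_nonneg (by linarith : 0 ≤ 1 - t * M)]
      exact mul_le_mul_of_nonneg_left (by linarith) (abs_nonneg _)
    rw [mul_comm κ, ← le_div_iff₀ hκ0] at h2
    refine h2.trans_eq (by ring) |>.trans (mul_le_mul_of_nonneg_right ?_ hε0 : 2 * B / κ * ε ≤ _)
    rw [hD]
    have : 0 ≤ 8 * B ^ 3 / κ := by positivity
    have : 2 * B / κ ≤ 4 * B / κ := div_le_div_of_nonneg_right (by linarith) hκ0.le
    linarith
  · have h1 : |Δ| ≤ 2 * B := by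
      have hv1 : |av v| ≤ 1 := (av_abs v).trans (av_le_const zero_le_one fun i => by
        rw [abs_of_nonneg (hv i).1]; exact (hv i).2)
      have hg1 : |g| ≤ B := by
        rw [hg]
        refine (av_abs _).trans (av_le_const (by linarith) fun i => ?_)
        rw [abs_mul, abs_of_nonneg (hv i).1]
        exact (mul_le_of_le_one_left (abs_nonneg _) (hv i).2).trans (hp i)
      rw [hΔ]
      linarith [abs_sub (av v) g]
    refine h1.trans ?_
    have h2 : κ ≤ B ^ 2 * ε := by nlinarith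
    have : 2 * B ≤ 8 * B ^ 3 / κ * ε := by
      rw [div_mul_eq_mul_div, le_div_iff₀ hκ0]
      nlinarith
    rw [hD, add_mul]
    have : 0 ≤ 4 * B / κ * ε := by positivity
    linarith

/-- A single squared diagonal entry. -/
theorem sq_dev_le (h : Schur n β s B v p Z k e1 e2 e3 g g2 gA c) (i : Fin n) :
    |p i ^ 2 - 1| ≤ B * (B + 1) * (|av v - g| + |k i| + |e1 i|) := by
  obtain ⟨hβ, hβ1, hs, hs1, hB, hv, hp, hpe, hZ, hW, hg, hg2, hg20, hgA⟩ := h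
  set t := s ^ 2 * β ^ 2 with ht
  have hs2 : s ^ 2 ≤ 1 := pow_le_one₀ hs hs1
  have ht0 : 0 ≤ t := by positivity
  have htb : t ≤ β ^ 2 := mul_le_of_le_one_left (sq_nonneg _) hs2
  have hb2 : β ^ 2 < 1 := pow_lt_one₀ hβ hβ1 two_ne_zero
  have hvs : ∀ i, 0 ≤ v i ^ 2 ∧ v i ^ 2 ≤ 1 :=
    fun i => ⟨sq_nonneg _, pow_le_one₀ (hv i).1 (hv i).2⟩
  set Δ := av v - g with hΔ
  have hres : 1 - p i = p i * v i * (t * Δ - s * k i - s ^ 2 * e1 i) := by
    simp only [hΔ, ht]; linear_combination -(hpe i)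
  have e : p i ^ 2 - 1 = -((1 - p i) * (p i + 1)) := by ring
  rw [e, abs_neg, abs_mul, hres, abs_mul, abs_mul, abs_of_nonneg (hv i).1]
  have h1 : |t * Δ - s * k i - s ^ 2 * e1 i| ≤ |Δ| + |k i| + |e1 i| := by
    refine (abs_sub _ _).trans (add_le_add ((abs_sub _ _).trans (add_le_add ?_ ?_)) ?_)
    · rw [abs_mul, abs_of_nonneg ht0]
      exact mul_le_of_le_one_left (abs_nonneg _) (htb.trans hb2.le)
    · rw [abs_mul, abs_of_nonneg hs]; exact mul_le_of_le_one_left (abs_nonneg _) hs1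
    · rw [abs_mul, abs_of_nonneg (sq_nonneg s)]; exact mul_le_of_le_one_left (abs_nonneg _) hs2
  have h2 : |p i| * v i ≤ B :=
    (mul_le_of_le_one_right (abs_nonneg _) (hv i).2).trans (hp i)
  have h3 : |p i + 1| ≤ B + 1 := (abs_add_le _ _).trans (by rw [abs_one]; linarith [hp i])
  have h0 : 0 ≤ |p i| * v i := mul_nonneg (abs_nonneg _) (hv i).1
  calc |p i| * v i * |t * Δ - s * k i - s ^ 2 * e1 i| * |p i + 1|
      ≤ B * (|Δ| + |k i| + |e1 i|) * (B + 1) :=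
        mul_le_mul (mul_le_mul h2 h1 (abs_nonneg _) (by linarith)) h3 (abs_nonneg _)
          (mul_nonneg (by linarith) (by positivity))
    _ = B * (B + 1) * (|Δ| + |k i| + |e1 i|) := by ring

/-- A single diagonal entry against the common value. -/
theorem diag_dev_le (h : Schur n β s B v p Z k e1 e2 e3 g g2 gA c) {D ε : ℝ} (hD0 : 0 ≤ D)
    (hε0 : 0 ≤ ε) (hΔb : |av v - g| ≤ D * ε) (i : Fin n) :
    |Z i - (c + 2 * s * β ^ 2 * av v + s ^ 2 * β ^ 2 * gA)|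
      ≤ 2 * B * (B + 1) ^ 2 * (D + 3) * (ε + |k i| + |e1 i| + |e3 i|) := by
  have hW0 := sq_dev_le h i
  obtain ⟨hβ, hβ1, hs, hs1, hB, hv, hp, hpe, hZ, hW, hg, hg2, hg20, hgA⟩ := h
  set t := s ^ 2 * β ^ 2 with ht
  have hs2 : s ^ 2 ≤ 1 := pow_le_one₀ hs hs1
  have ht0 : 0 ≤ t := by positivity
  have htb : t ≤ β ^ 2 := mul_le_of_le_one_left (sq_nonneg _) hs2
  have hb2 : β ^ 2 < 1 := pow_lt_one₀ hβ hβ1 two_ne_zero
  have hvs : ∀ i, 0 ≤ v i ^ 2 ∧ v i ^ 2 ≤ 1 :=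
    fun i => ⟨sq_nonneg _, pow_le_one₀ (hv i).1 (hv i).2⟩
  set Δ := av v - g with hΔ
  set L := c + 2 * s * β ^ 2 * av v + t * gA with hL
  set F := 2 * B * (B + 1) ^ 2 * (D + 3) with hF
  have e : Z i - L
      = (p i ^ 2 - 1) * (c + k i + 2 * s * (e1 i + β ^ 2 * g) + s ^ 2 * (e3 i + β ^ 2 * gA))
        + (k i + 2 * s * e1 i + s ^ 2 * e3 i - 2 * s * β ^ 2 * Δ) := by
    rw [hZ i, hL, hΔ, ht]; ring
  rw [e]
  have h1 := mul_le_mul hW0 (hW i) (abs_nonneg _) (by positivity)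
  rw [← abs_mul] at h1
  have h2 : |k i + 2 * s * e1 i + s ^ 2 * e3 i - 2 * s * β ^ 2 * Δ|
      ≤ |k i| + 2 * |e1 i| + |e3 i| + 2 * |Δ| := by
    refine (abs_sub _ _).trans (add_le_add ((abs_add_le _ _).trans (add_le_add
      ((abs_add_le _ _).trans (add_le_add le_rfl ?_)) ?_)) ?_)
    · rw [abs_mul, abs_of_nonneg (by positivity : 0 ≤ 2 * s)]
      exact mul_le_mul_of_nonneg_right (by linarith) (abs_nonneg _)
    · rw [abs_mul, abs_of_nonneg (sq_nonneg s)]; exact mul_le_of_le_one_left (abs_nonneg _) hs2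
    · rw [abs_mul, abs_of_nonneg (by positivity : 0 ≤ 2 * s * β ^ 2)]
      exact mul_le_mul_of_nonneg_right (by nlinarith) (abs_nonneg _)
  refine (abs_add_le _ _).trans ((add_le_add h1 h2).trans ?_)
  set K := B * (B + 1) * B
  have hK : K + 2 ≤ 2 * B * (B + 1) ^ 2 := by simp only [K]; nlinarith
  have hK0 : 0 ≤ K := by positivity
  have step : B * (B + 1) * (|Δ| + |k i| + |e1 i|) * B
      + (|k i| + 2 * |e1 i| + |e3 i| + 2 * |Δ|)
      ≤ (K + 2) * (D + 1) * (ε + |k i| + |e1 i| + |e3 i|) := by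
    have ha : (K + 2) * |Δ| ≤ (K + 2) * (D * ε) := mul_le_mul_of_nonneg_left hΔb (by linarith)
    have hb : ∀ x : ℝ, 0 ≤ x → 0 ≤ (K + 2) * D * x := fun x hx => by positivity
    simp only [K] at *
    linarith [hb _ (abs_nonneg (k i)), hb _ (abs_nonneg (e1 i)), hb _ (abs_nonneg (e3 i)),
      abs_nonneg (k i), abs_nonneg (e3 i), mul_nonneg hK0 (abs_nonneg (e3 i)),
      mul_nonneg hK0 hε0]
  refine step.trans (mul_le_mul_of_nonneg_right ?_ (by positivity))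
  rw [hF]
  exact mul_le_mul hK (by linarith) (by linarith) (by positivity)

/-- The common value against its self-consistent solution. -/
theorem value_dev_le (h : Schur n β s B v p Z k e1 e2 e3 g g2 gA c) {F : ℝ} (hF0 : 0 ≤ F)
    (hZL : ∀ i, |Z i - (c + 2 * s * β ^ 2 * av v + s ^ 2 * β ^ 2 * gA)|
      ≤ F * (eAv k e1 e2 e3 + |k i| + |e1 i| + |e3 i|)) :
    |c + 2 * s * β ^ 2 * av v + s ^ 2 * β ^ 2 * gA
      - (c + 2 * s * β ^ 2 * av v) / (1 - s ^ 2 * β ^ 2 * av fun i => v i ^ 2)|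
      ≤ F * 4 * eAv k e1 e2 e3 / (1 - β ^ 2) := by
  obtain ⟨hβ, hβ1, hs, hs1, hB, hv, hp, hpe, hZ, hW, hg, hg2, hg20, hgA⟩ := h
  obtain ⟨ek, ee1, ee2, ee3⟩ := err_av k e1 e2 e3
  set ε := eAv k e1 e2 e3
  have hε0 : 0 ≤ ε := sqrt_nonneg _
  set t := s ^ 2 * β ^ 2 with ht
  have hs2 : s ^ 2 ≤ 1 := pow_le_one₀ hs hs1
  have ht0 : 0 ≤ t := by positivity
  have htb : t ≤ β ^ 2 := mul_le_of_le_one_left (sq_nonneg _) hs2
  have hb2 : β ^ 2 < 1 := pow_lt_one₀ hβ hβ1 two_ne_zero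
  have hvs : ∀ i, 0 ≤ v i ^ 2 ∧ v i ^ 2 ≤ 1 :=
    fun i => ⟨sq_nonneg _, pow_le_one₀ (hv i).1 (hv i).2⟩
  set L := c + 2 * s * β ^ 2 * av v + t * gA with hL
  set E2 := av fun i => v i ^ 2
  have hE2 : t * E2 ≤ β ^ 2 :=
    (mul_le_of_le_one_right ht0 (av_le_const zero_le_one fun i => (hvs i).2)).trans htb
  set a := (c + 2 * s * β ^ 2 * av v) / (1 - t * E2)
  have hpos : 0 < 1 - β ^ 2 := by linarith
  have hd : 0 < 1 - t * E2 := by linarith
  have e : (L - a) * (1 - t * E2) = t * av fun i => v i ^ 2 * (Z i - L) := by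
    have e1 : (av fun i => v i ^ 2 * (Z i - L)) = gA - L * E2 := by
      rw [hgA, ← av_mul, ← av_sub]; congr 1; funext i; ring
    have e2 : a * (1 - t * E2) = c + 2 * s * β ^ 2 * av v := div_mul_cancel₀ _ hd.ne'
    rw [e1, sub_mul, e2, hL]; ring
  have h1 : |av fun i => v i ^ 2 * (Z i - L)| ≤ F * 4 * ε := by
    refine (av_abs _).trans ((av_mono fun i => ?_).trans
      ((av_mul F fun i => ε + |k i| + |e1 i| + |e3 i|).trans_le ?_))
    · rw [abs_mul, abs_of_nonneg (hvs i).1]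
      exact (mul_le_of_le_one_left (abs_nonneg _) (hvs i).2).trans (hZL i)
    · have h3 : av (fun i => ε + |k i| + |e1 i| + |e3 i|) ≤ 4 * ε := by
        rw [av_add, av_add, av_add]
        linarith [av_le_const (n := n) (f := fun _ => ε) hε0 fun _ => le_rfl]
      exact (mul_le_mul_of_nonneg_left h3 hF0).trans_eq (by ring)
  rw [le_div_iff₀ hpos]
  calc |L - a| * (1 - β ^ 2) ≤ |L - a| * |1 - t * E2| := by
        rw [abs_of_pos hd]; exact mul_le_mul_of_nonneg_left (by linarith) (abs_nonneg _)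
    _ = |t * av fun i => v i ^ 2 * (Z i - L)| := by rw [← abs_mul, e]
    _ ≤ F * 4 * ε := by
        rw [abs_mul, abs_of_nonneg ht0]
        exact (mul_le_of_le_one_left (abs_nonneg _) (htb.trans hb2.le)).trans h1

theorem sum_sq_le_of_abs {F G ε a : ℝ} (f k e1 e2 e3 : Fin n → ℝ)
    (hEn : (n : ℝ) * ε ^ 2 ≤ eSq k e1 e2 e3) (hF : F = 8 * G ^ 2)
    (h : ∀ i, |f i - a| ≤ G * (ε + |k i| + |e1 i| + |e3 i|)) :
    ∑ i, (f i - a) ^ 2 ≤ F * eSq k e1 e2 e3 := by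
  have hfin : ∀ i, (f i - a) ^ 2 ≤ 4 * G ^ 2 * (ε ^ 2 + (k i ^ 2 + e1 i ^ 2 + e2 i ^ 2 + e3 i ^ 2)) :=
    fun i => by
    have h2 := pow_le_pow_left₀ (abs_nonneg _) (h i) 2
    rw [sq_abs, mul_pow] at h2
    refine h2.trans ?_
    rw [mul_comm 4 (G ^ 2), mul_assoc]
    refine mul_le_mul_of_nonneg_left ?_ (sq_nonneg G)
    linarith [sq_nonneg (ε - |k i|), sq_nonneg (ε - |e1 i|), sq_nonneg (ε - |e3 i|),
      sq_nonneg (|k i| - |e1 i|), sq_nonneg (|k i| - |e3 i|), sq_nonneg (|e1 i| - |e3 i|),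
      sq_abs (k i), sq_abs (e1 i), sq_abs (e3 i), sq_nonneg (e2 i)]
  refine (sum_le_sum fun i _ => hfin i).trans ?_
  rw [← mul_sum, sum_add_distrib, sum_const, card_univ, Fintype.card_fin, nsmul_eq_mul, hF]
  change 4 * G ^ 2 * (n * ε ^ 2 + eSq k e1 e2 e3) ≤ _
  linarith [mul_le_mul_of_nonneg_left hEn (sq_nonneg G)]

/-- The scalar lemma. -/
theorem scalar_fix (h : Schur n β s B v p Z k e1 e2 e3 g g2 gA c) :
    ∑ i, (Z i - (c + 2 * s * β ^ 2 * av v) / (1 - s ^ 2 * β ^ 2 * av fun i => v i ^ 2)) ^ 2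
      ≤ sC β B * eSq k e1 e2 e3 := by
  have hB := h.hB
  have hκ : (0 : ℝ) < (1 - β) / 2 := by linarith [h.hβ1]
  have hb2 : 0 < 1 - β ^ 2 := sub_pos.2 (pow_lt_one₀ h.hβ h.hβ1 two_ne_zero)
  set D := 4 * B / ((1 - β) / 2) + 8 * B ^ 3 / ((1 - β) / 2) with hD
  have hD0 : 0 ≤ D := by positivity
  set F := 2 * B * (B + 1) ^ 2 * (D + 3) with hF
  have hF0 : 0 ≤ F := by positivity
  set ε := eAv k e1 e2 e3 with hε
  have hε0 : 0 ≤ ε := sqrt_nonneg _
  have hZL := diag_dev_le h hD0 hε0 (mean_dev_le h)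
  rw [← hF] at hZL
  have hLa := value_dev_le h hF0 hZL
  rw [← hε] at hLa
  have hEn : (n : ℝ) * ε ^ 2 ≤ eSq k e1 e2 e3 := by
    have h0 : 0 ≤ eSq k e1 e2 e3 := sum_nonneg fun i _ => by positivity
    rw [hε, eAv, sq_sqrt (div_nonneg h0 (Nat.cast_nonneg n))]
    rcases Nat.eq_zero_or_pos n with h | h
    · subst h; simpa using h0
    · rw [mul_div_cancel₀]; exact_mod_cast h.ne'
  refine sum_sq_le_of_abs (G := F * 4 / (1 - β ^ 2) + F) Z k e1 e2 e3 hEn rfl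
    fun i => (abs_sub_le _ (c + 2 * s * β ^ 2 * av v + s ^ 2 * β ^ 2 * gA) _).trans
      ((add_le_add (hZL i) hLa).trans ?_)
  have h0 : 0 ≤ F * 4 / (1 - β ^ 2) * (|k i| + |e1 i| + |e3 i|) := by positivity
  rw [show F * 4 * ε / (1 - β ^ 2) = F * 4 / (1 - β ^ 2) * ε by ring]
  linarith

end Vale.Agent.P150.Fast.LL
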