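import Vale.Agent.P150.Fast.LLBase
import Vale.Agent.P150.Fast.LLScalar

/-!
Schur identities for the rows of `P = (1 + X V)⁻¹`, and the deterministic local law of P150: the
diagonal of `P A Pᵀ` is close to its value when three quadratic forms in the rows are.
-/

open MeasureTheory Real Finset Filter
open scoped Matrix Matrix.Norms.L2Operator

namespace Vale.Agent.P150.Fast.LL

variable {n : ℕ} {β s R η Λ : ℝ} {d : Dis n} {v : Fin n → ℝ}

/-- The variances with one site removed. -/
def vz (v : Fin n → ℝ) (i : Fin n) : Fin n → ℝ := Function.update v i 0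

/-- The resolvent with one site removed. -/
noncomputable def g0 (n : ℕ) (β s R : ℝ) (d : Dis n) (v : Fin n → ℝ) (i : Fin n) :
    Matrix (Fin n) (Fin n) ℝ := gm n β s R d (vz v i)

theorem vz_bounds (h : ∀ j, 0 ≤ v j ∧ v j ≤ 1) (i : Fin n) :
    (∀ j, 0 ≤ vz v i j) ∧ ∀ j, vz v i j ≤ v j := by
  constructor <;> intro j <;> rcases eq_or_ne j i with hj | hj
  · simp [vz, hj]
  · simp [vz, hj, (h j).1]
  · simp [vz, hj, (h i).1]
  · simp [vz, hj]

theorem Reg.vzero (h : Reg n β s R η Λ d v) (i : Fin n) : Reg n β s R η Λ d (vz v i) :=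
  h.lower (vz_bounds h.hv i).1 (vz_bounds h.hv i).2

theorem g0_row (i j : Fin n) : g0 n β s R d v i i j = 0 := by
  simp [g0, gm, Matrix.diagonal_mul, vz]

theorem g0_col (h : Reg n β s R η Λ d v) (i j : Fin n) : g0 n β s R d v i j i = 0 := by
  rw [← Matrix.transpose_apply (g0 n β s R d v i) i j, g0, (h.vzero i).gm_symm]
  exact g0_row i j

theorem kg0_diag (h : Reg n β s R η Λ d v) (i : Fin n) :
    (kmat n β d * g0 n β s R d v i) i i = 0 := by
  rw [Matrix.mul_apply]
  exact sum_eq_zero fun j _ => by rw [g0_col h, mul_zero]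

/-- The row of `P⁰`. -/
noncomputable def qm (n : ℕ) (β s R : ℝ) (d : Dis n) (v : Fin n → ℝ) (i : Fin n) :
    Matrix (Fin n) (Fin n) ℝ := 1 + s • (kmat n β d * g0 n β s R d v i)

theorem pm0_row (h : Reg n β s R η Λ d v) (i j : Fin n) :
    pm n β s R d (vz v i) i j = qm n β s R d v i i j := by
  rw [(h.vzero i).pm_eq, qm]
  simp only [Matrix.sub_apply, Matrix.add_apply, Matrix.smul_apply, smul_eq_mul, xm, sub_mul,
    Matrix.smul_mul, one_mul]
  have := g0_row (β := β) (s := s) (R := R) (d := d) (v := v) i j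
  simp only [g0] at this ⊢
  rw [this]
  ring

theorem pm_row_aux (h : Reg n β s R η Λ d v) (i j : Fin n) :
    pm n β s R d v i j
      = (1 - v i * (pm n β s R d v * xm n β s R d) i i) * qm n β s R d v i i j := by
  set X := xm n β s R d
  set P := pm n β s R d v
  set P0 := pm n β s R d (vz v i)
  have e : P = P0 + P * (X * Matrix.diagonal (vz v i) - X * Matrix.diagonal v) * P0 := by
    have h1 : P * (1 + X * Matrix.diagonal v) = 1 := h.pm_mul
    have h0 : (1 + X * Matrix.diagonal (vz v i)) * P0 = 1 := (h.vzero i).mul_pm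
    calc P = P * ((1 + X * Matrix.diagonal (vz v i)) * P0) := by rw [h0, mul_one]
      _ = P * (1 + X * Matrix.diagonal v) * P0
            + P * (X * Matrix.diagonal (vz v i) - X * Matrix.diagonal v) * P0 := by
          rw [← mul_assoc, ← add_mul, ← mul_add]; congr 2; abel
      _ = _ := by rw [h1, one_mul]
  have hd : Matrix.diagonal (vz v i) - Matrix.diagonal v
      = (Matrix.diagonal (Pi.single i (-v i)) : Matrix (Fin n) (Fin n) ℝ) := by
    rw [Matrix.diagonal_sub]
    congr 1
    funext j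
    rcases eq_or_ne j i with hj | hj <;> simp [vz, hj]
  rw [← mul_sub, hd, ← mul_assoc] at e
  have e2 : (P * X * Matrix.diagonal (Pi.single i (-v i)) * P0) i j
      = (P * X) i i * (-v i) * P0 i j := by
    rw [Matrix.mul_apply, sum_eq_single i (fun l _ hl => by
      rw [Matrix.mul_diagonal, Pi.single_eq_of_ne hl, mul_zero, zero_mul]) (by simp),
      Matrix.mul_diagonal, Pi.single_eq_same]
  conv_lhs => rw [e]
  rw [Matrix.add_apply, e2]
  simp only [P0, pm0_row h]
  ring

theorem qm_diag (h : Reg n β s R η Λ d v) (i : Fin n) : qm n β s R d v i i i = 1 := by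
  simp [qm, kg0_diag h]

theorem pm_row (h : Reg n β s R η Λ d v) (i j : Fin n) :
    pm n β s R d v i j = pm n β s R d v i i * qm n β s R d v i i j := by
  rw [pm_row_aux h i j, pm_row_aux h i i, qm_diag h, mul_one]

theorem sandwich (h : Reg n β s R η Λ d v) (M : Matrix (Fin n) (Fin n) ℝ) (hM : M.transpose = M)
    (i : Fin n) :
    (pm n β s R d v * M * (pm n β s R d v).transpose) i i = pm n β s R d v i i ^ 2 *
      (M i i + 2 * s * (kmat n β d * g0 n β s R d v i * M) i i
        + s ^ 2 * (kmat n β d * (g0 n β s R d v i * M * g0 n β s R d v i) * kmat n β d) i i) := by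
  set Q := qm n β s R d v i
  set T := kmat n β d * g0 n β s R d v i with hT
  have e1 : (pm n β s R d v * M * (pm n β s R d v).transpose) i i
      = pm n β s R d v i i ^ 2 * (Q * M * Q.transpose) i i := by
    simp only [Matrix.mul_apply, Matrix.transpose_apply, sum_mul, mul_sum]
    refine sum_congr rfl fun j _ => sum_congr rfl fun l _ => ?_
    rw [pm_row h i l, pm_row h i j]
    ring
  have e3 : T.transpose = g0 n β s R d v i * kmat n β d := by
    rw [hT, Matrix.transpose_mul, kmat_transpose, g0, (h.vzero i).gm_symm]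
  have e4 : (M * T.transpose) i i = (T * M) i i := by
    have e : (T * M.transpose).transpose = M * T.transpose :=
      (Matrix.transpose_mul T M.transpose).trans (by rw [Matrix.transpose_transpose])
    calc (M * T.transpose) i i = (T * M.transpose).transpose i i := by rw [e]
      _ = (T * M) i i := by rw [hM]; rfl
  rw [e1]
  congr 1
  simp only [Q, qm, ← hT, Matrix.transpose_add, Matrix.transpose_one, Matrix.transpose_smul,
    mul_add, add_mul, mul_one, one_mul, Matrix.smul_mul, Matrix.mul_smul, smul_smul,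
    Matrix.add_apply, Matrix.smul_apply, smul_eq_mul, e4]
  have e5 : T * M * T.transpose
      = kmat n β d * (g0 n β s R d v i * M * g0 n β s R d v i) * kmat n β d := by
    rw [e3, hT]; simp only [mul_assoc]
  rw [e5]
  ring

theorem pm_den (h : Reg n β s R η Λ d v) (i : Fin n) :
    pm n β s R d v i i * (1 + v i * (R - s * kmat n β d i i
      - s ^ 2 * (kmat n β d * g0 n β s R d v i * kmat n β d) i i)) = 1 := by
  have h1 := pm_row_aux h i i
  rw [qm_diag h, mul_one] at h1
  have h2 : (pm n β s R d v * xm n β s R d) i i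
      = pm n β s R d v i i * (qm n β s R d v i * xm n β s R d) i i := by
    simp only [Matrix.mul_apply, mul_sum]
    exact sum_congr rfl fun j _ => by rw [pm_row h i j, mul_assoc]
  rw [h2] at h1
  simp only [qm, xm, add_mul, one_mul, mul_sub, Matrix.smul_mul, Matrix.mul_smul, mul_one,
    Matrix.sub_apply, Matrix.add_apply, Matrix.smul_apply, Matrix.one_apply_eq, smul_eq_mul,
    kg0_diag h] at h1
  linear_combination h1

/-- The trace averages. -/
noncomputable def gav (M : Matrix (Fin n) (Fin n) ℝ) : ℝ := av fun i => M i i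

/-- Fluctuation of a quadratic form of the row of site `i`. -/
noncomputable def err (β : ℝ) (d : Dis n) (M0 M : Matrix (Fin n) (Fin n) ℝ) (i : Fin n) : ℝ :=
  (kmat n β d * M0 * kmat n β d) i i - β ^ 2 * gav M

/-- The first error. -/
noncomputable def e1v (n : ℕ) (β s R : ℝ) (d : Dis n) (v : Fin n → ℝ) (i : Fin n) : ℝ :=
  err β d (g0 n β s R d v i) (gm n β s R d v) i

/-- The second error. -/
noncomputable def e2v (n : ℕ) (β s R : ℝ) (d : Dis n) (v : Fin n → ℝ) (i : Fin n) : ℝ :=
  err β d (g0 n β s R d v i * g0 n β s R d v i) (gm n β s R d v * gm n β s R d v) i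

/-- The third error. -/
noncomputable def e3v (n : ℕ) (β s R : ℝ) (d : Dis n) (v : Fin n → ℝ) (i : Fin n) : ℝ :=
  err β d (g0 n β s R d v i * aop n β d * g0 n β s R d v i)
    (gm n β s R d v * aop n β d * gm n β s R d v) i

/-- The total error. -/
noncomputable def eTot (n : ℕ) (β s R : ℝ) (d : Dis n) (v : Fin n → ℝ) : ℝ :=
  eSq (fun i => kmat n β d i i) (e1v n β s R d v) (e2v n β s R d v) (e3v n β s R d v)

/-- The bound on all quantities of the scalar lemma. -/
noncomputable def sB (β Λ η : ℝ) : ℝ :=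
  (1 + shift β + Λ + Λ ^ 2) * (1 + pB Λ η) ^ 2 * (1 + (Λ + shift β)) * 4

theorem gm_sandwich (h : Reg n β s R η Λ d v) (M : Matrix (Fin n) (Fin n) ℝ) (i : Fin n) :
    (gm n β s R d v * M * gm n β s R d v) i i
      = v i ^ 2 * (pm n β s R d v * M * (pm n β s R d v).transpose) i i := by
  have e : gm n β s R d v * M * gm n β s R d v
      = gm n β s R d v * M * (gm n β s R d v).transpose := by rw [h.gm_symm]
  rw [e]
  rw [gm, Matrix.transpose_mul, Matrix.diagonal_transpose, ← mul_assoc, mul_assoc _ _ M,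
    Matrix.mul_diagonal, mul_assoc, Matrix.diagonal_mul]
  ring

/-- The deterministic local law. -/
theorem det_law (hv : ∀ i, 0 ≤ v i ∧ v i ≤ 1) (hβ1 : β < 1)
    (h : Reg n β s (s ^ 2 * β ^ 2 * av v) η Λ d v) :
    ∑ i, (zv n β s (s ^ 2 * β ^ 2 * av v) d v i
      - (shift β + 2 * s * β ^ 2 * av v) / (1 - s ^ 2 * β ^ 2 * av fun i => v i ^ 2)) ^ 2
      ≤ sC β (sB β Λ η) * eTot n β s (s ^ 2 * β ^ 2 * av v) d v := by
  set R := s ^ 2 * β ^ 2 * av v
  set G := gm n β s R d v
  set K := kmat n β d with hKdef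
  set A := aop n β d with hA
  set P := pm n β s R d v
  set p := pB Λ η with hp
  have hsh : (1 : ℝ) ≤ shift β := by rw [shift]; linarith [h.hβ]
  have hp1 : 1 ≤ p := h.pB_pos
  have hΛ := h.hΛ
  have hAn : ‖A‖ ≤ Λ + shift β := norm_aop_le h.hβ h.hK
  refine scalar_fix (B := sB β Λ η) (g := gav G) (g2 := gav (G * G)) (gA := gav (G * A * G))
    (p := fun i => P i i) ⟨h.hβ, hβ1, h.hs, h.hs1, ?_, hv, fun i => ?_, fun i => ?_, fun i => ?_,
      fun i => ?_, ?_, ?_, ?_, ?_⟩
  · rw [sB, ← hp]
    have h1 : (1 : ℝ) ≤ 1 + shift β + Λ + Λ ^ 2 := by nlinarith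
    have h2 : (1 : ℝ) ≤ (1 + p) ^ 2 := one_le_pow₀ (by linarith)
    have h3 : (1 : ℝ) ≤ 1 + (Λ + shift β) := by linarith
    nlinarith [mul_le_mul (mul_le_mul h1 h2 zero_le_one (by linarith)) h3 zero_le_one (by positivity)]
  · refine (abs_entry_le _ _ _).trans (h.norm_pm.trans ?_)
    rw [sB, ← hp]
    have h1 : (1 : ℝ) ≤ 1 + shift β + Λ + Λ ^ 2 := by nlinarith
    have h2 : p ≤ (1 + p) ^ 2 := by nlinarith
    have h3 : (1 : ℝ) ≤ 1 + (Λ + shift β) := by linarith
    nlinarith [mul_le_mul (mul_le_mul h1 h2 (by linarith) (by linarith)) h3 zero_le_one (by positivity)]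
  · simp only [e1v, err, G, sub_add_cancel]
    exact pm_den h i
  · simp only [e1v, e3v, err, G, A, sub_add_cancel]
    rw [zv, sandwich h _ (aop_transpose β d) i]
    congr 1
    have e : (kmat n β d * g0 n β s R d v i * aop n β d) i i
        = (kmat n β d * g0 n β s R d v i * kmat n β d) i i := by
      rw [aop, mul_add, Matrix.mul_smul, mul_one, Matrix.add_apply, Matrix.smul_apply, kg0_diag h,
        smul_zero, add_zero]
    rw [e, aop]
    simp only [Matrix.add_apply, Matrix.smul_apply, Matrix.one_apply_eq, smul_eq_mul, mul_one]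
    ring
  · simp only [e1v, e3v, err, G, A, sub_add_cancel]
    have hg : ‖g0 n β s R d v i‖ ≤ p := (h.vzero i).norm_gm
    have hKn : ‖K‖ ≤ Λ := h.hK
    have b1 : |(K * g0 n β s R d v i * K) i i| ≤ Λ * p * Λ :=
      (abs_entry_le _ _ _).trans ((norm_mul_le _ _).trans (mul_le_mul ((norm_mul_le _ _).trans
        (mul_le_mul hKn hg (norm_nonneg _) hΛ)) hKn (norm_nonneg _) (by positivity)))
    have b2 : |(K * (g0 n β s R d v i * A * g0 n β s R d v i) * K) i i|
        ≤ Λ * (p * (Λ + shift β) * p) * Λ :=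
      (abs_entry_le _ _ _).trans ((norm_mul_le _ _).trans (mul_le_mul ((norm_mul_le _ _).trans
        (mul_le_mul hKn ((norm_mul_le _ _).trans (mul_le_mul ((norm_mul_le _ _).trans
          (mul_le_mul hg hAn (norm_nonneg _) (by linarith))) hg (norm_nonneg _) (by positivity)))
          (norm_nonneg _) hΛ)) hKn (norm_nonneg _) (by positivity)))
    have b0 : |K i i| ≤ Λ := (abs_entry_le _ _ _).trans hKn
    have b3 : |2 * s * (K * g0 n β s R d v i * K) i i| ≤ 2 * (Λ * p * Λ) := by
      rw [abs_mul, abs_of_nonneg (by linarith [h.hs] : 0 ≤ 2 * s)]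
      exact mul_le_mul (by linarith [h.hs1]) b1 (abs_nonneg _) zero_le_two
    have b4 : |s ^ 2 * (K * (g0 n β s R d v i * A * g0 n β s R d v i) * K) i i|
        ≤ Λ * (p * (Λ + shift β) * p) * Λ := by
      rw [abs_mul, abs_of_nonneg (sq_nonneg s)]
      exact (mul_le_of_le_one_left (abs_nonneg _) (pow_le_one₀ h.hs h.hs1)).trans b2
    refine (abs_add_le _ _).trans ((add_le_add ((abs_add_le _ _).trans (add_le_add
      (abs_add_le _ _) b3)) b4).trans ?_)
    rw [abs_of_nonneg (by linarith : 0 ≤ shift β), sB, ← hp]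
    have hΛ2 : 0 ≤ Λ ^ 2 := sq_nonneg _
    have h2 : 1 + 2 * p + p ^ 2 = (1 + p) ^ 2 := by ring
    rw [← h2]
    have t1 : 0 ≤ Λ + shift β := by linarith
    have t2 : 0 ≤ shift β + Λ + Λ ^ 2 := by linarith
    nlinarith [mul_nonneg t2 t1, mul_nonneg hΛ2 (mul_nonneg t1 (sq_nonneg p)),
      mul_nonneg hΛ2 (by linarith : (0 : ℝ) ≤ p), mul_nonneg (mul_nonneg t2 t1) (by linarith : (0:ℝ) ≤ p),
      mul_nonneg (mul_nonneg t2 t1) (sq_nonneg p), mul_nonneg t2 (sq_nonneg p),
      mul_nonneg t2 (by linarith : (0 : ℝ) ≤ p)]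
  · simp only [gav, G, gm, Matrix.diagonal_mul, P]
  · simp only [gav, e2v, err, G, sub_add_cancel]
    congr 1
    funext i
    have := gm_sandwich h 1 i
    rw [mul_one, mul_one] at this
    rw [this]
    have hs := sandwich h 1 Matrix.transpose_one i
    simp only [mul_one, kg0_diag h, Matrix.one_apply_eq, mul_zero, add_zero] at hs
    rw [hs]
  · refine av_nonneg fun i => ?_
    rw [Matrix.mul_apply]
    exact sum_nonneg fun j _ => by
      rw [← Matrix.transpose_apply G i j, h.gm_symm]; exact mul_self_nonneg _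
  · simp only [gav]
    congr 1
    funext i
    exact gm_sandwich h A i

end Vale.Agent.P150.Fast.LL
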