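import Vale.Agent.P150.Fast.LLChain

/-!
The local law at a TAP point, uniformly over the coupling scale and the diagonal, for P150.
-/

open MeasureTheory Real Finset Filter
open scoped Matrix Matrix.Norms.L2Operator

namespace Vale.Agent.P150.Fast

open LL

variable {n : ℕ} {β η Λ : ℝ}

theorem LL.sum_geom (n : ℕ) : ∑ l ∈ range n, ((l : ℝ) + 1) / 2 ^ l = 4 - (2 * n + 4) / 2 ^ n := by
  induction n with
  | zero => norm_num
  | succ n ih =>
    rw [sum_range_succ, ih, pow_succ]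
    push_cast
    field_simp
    ring

theorem LL.sum_step_le (β Λ η : ℝ) (k₀ n : ℕ) (hA : 0 ≤ chA β Λ η k₀) :
    ∑ l ∈ range n, chStep β Λ η k₀ l ≤ 4 * chA β Λ η k₀ := by
  have h : ∀ l, chStep β Λ η k₀ l ≤ chA β Λ η k₀ * (((l : ℝ) + 1) / 2 ^ l) := fun l => by
    rw [chStep, mesh, mul_one_div, ← mul_div_assoc]
    exact div_le_div_of_nonneg_left (by positivity) (by positivity)
      (pow_le_pow_right₀ one_le_two (Nat.le_add_left l k₀))
  refine (sum_le_sum fun l _ => h l).trans ?_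
  rw [← mul_sum, sum_geom, mul_comm]
  have : (0 : ℝ) ≤ (2 * n + 4) / 2 ^ n := by positivity
  exact mul_le_mul_of_nonneg_right (by linarith) hA

/-- The bound at a grid point at the end of the chain. -/
theorem LL.chain_le (G : Glob β η Λ) {c₀ : ℝ} {k₀ : ℕ} {d : Dis n}
    (hd : d ∉ badBase n β η Λ c₀ k₀ ∪ ⋃ l ∈ range n, badStep n β η Λ c₀ k₀ l) {j : ℕ}
    (hj : j ∈ range (n + 1)) {v : Fin n → ℝ} (hv : ∀ i, 0 ≤ v i ∧ v i ≤ 1)
    (hreg : ∀ l ≤ n, d ∈ regAt n β η Λ (sval n j) (rnd (k₀ + l) v)) {u : Fin n → ℝ}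
    (hu : u ∈ unet n) :
    u ⬝ᵥ zv n β (sval n j) (rv β (sval n j) (rnd (k₀ + n) v)) d (rnd (k₀ + n) v)
      - bfun n β η Λ (sval n j) (rnd (k₀ + n) v) u
      ≤ (n + 1) * chEps n β Λ η c₀ + chA β Λ η k₀ + ∑ l ∈ range n, chStep β Λ η k₀ l := by
  set s := sval n j
  set X : ℕ → ℝ := fun l => u ⬝ᵥ zv n β s (rv β s (rnd (k₀ + l) v)) d (rnd (k₀ + l) v)
    - bfun n β η Λ s (rnd (k₀ + l) v) u
  have hB : 0 ≤ √(n : ℝ) * zbd β Λ η * exp (-(c₀ * n)) :=
    mul_nonneg (mul_nonneg (sqrt_nonneg _) (zbd_nonneg G.hβ G.hΛ)) (exp_pos _).le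
  simp only [Set.mem_union, not_or] at hd
  have h0 : X 0 ≤ chEps n β Λ η c₀ + chA β Λ η k₀ := by
    by_contra hc
    refine hd.1 ?_
    simp only [badBase, Set.mem_iUnion, exists_prop]
    refine ⟨j, hj, rnd (k₀ + 0) v, (rnd_facts hv _).1, u, hu, hreg 0 n.zero_le, ?_⟩
    simp only [X, chEps] at hc
    linarith
  have hs : ∀ l < n, X (l + 1) ≤ X l + chEps n β Λ η c₀ + chStep β Λ η k₀ l := fun l hl => by
    by_contra hc
    refine hd.2 ?_
    simp only [badStep, Set.mem_iUnion, exists_prop]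
    obtain ⟨hg, -, hle, hgap, hmono⟩ := rnd_facts hv (k₀ + l)
    obtain ⟨hg', -, hle', -, -⟩ := rnd_facts hv (k₀ + l + 1)
    refine ⟨l, mem_range.2 hl, j, hj, rnd (k₀ + l) v, hg, rnd (k₀ + l + 1) v,
      mem_filter.2 ⟨hg', fun i => ?_⟩, u, hu, hreg l hl.le, hreg (l + 1) hl, ?_⟩
    · rw [abs_of_nonneg (sub_nonneg.2 (hmono i)), mesh]
      linarith [hgap i, hle' i]
    · simp only [X, ← Nat.add_assoc] at hc
      linarith
  have key : ∀ l ≤ n, X l ≤ (l + 1) * chEps n β Λ η c₀ + chA β Λ η k₀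
      + ∑ m ∈ range l, chStep β Λ η k₀ m := by
    intro l
    induction l with
    | zero => intro; simpa using h0
    | succ l ih =>
      intro hl
      have h1 := ih (by omega)
      have h2 := hs l (by omega)
      rw [sum_range_succ]
      push_cast
      linarith
  exact key n le_rfl

theorem LL.reg_all (hβ : 0 ≤ β) (hβ1 : β < 1) {η' : ℝ} {d : Dis n} (hn : 1 ≤ n)
    (hK : ‖kmat n β d‖ ≤ 2 * β + 1) {k₀ : ℕ} (hk : mesh k₀ ≤ η' / 2)
    (hn2 : (2 * β + 3) / (n : ℝ) ≤ η' / 4) {s : ℝ} (hs : 0 ≤ s) (hs1 : s ≤ 1) {v : Fin n → ℝ}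
    (hv : ∀ i, 0 ≤ v i ∧ v i ≤ 1) (hm : Marg n β s (rv β s v) η' d v) :
    |s - sval n ⌊s * n⌋₊| ≤ 1 / n ∧ ⌊s * n⌋₊ ∈ range (n + 1) ∧
      ∀ l, d ∈ regAt n β (η' / 4) (2 * β + 1) (sval n ⌊s * n⌋₊) (rnd (k₀ + l) v) := by
  have hnn : (0 : ℝ) < n := by exact_mod_cast hn
  set s' := sval n ⌊s * n⌋₊
  have hj : ⌊s * n⌋₊ ∈ range (n + 1) :=
    mem_range.2 (Nat.lt_succ_of_le (Nat.floor_le_of_le (mul_le_of_le_one_left hnn.le hs1)))
  have hds : |s - s'| ≤ 1 / n := by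
    have h1 := Nat.floor_le (mul_nonneg hs hnn.le)
    have h2 := Nat.lt_floor_add_one (s * n)
    rw [show s - s' = (s * n - ⌊s * n⌋₊) / n by simp only [s', sval]; field_simp, abs_div,
      abs_of_nonneg (sub_nonneg.2 h1), abs_of_pos hnn]
    exact div_le_div_of_nonneg_right (by linarith) hnn.le
  refine ⟨hds, hj, fun l => ?_⟩
  obtain ⟨-, h0, hle, hgap, -⟩ := rnd_facts hv (k₀ + l)
  obtain ⟨hs', hs1'⟩ := sval_mem hn hj
  have hδ : mesh (k₀ + l) ≤ η' / 2 :=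
    le_trans (one_div_le_one_div_of_le (by positivity) (pow_le_pow_right₀ one_le_two (Nat.le_add_right k₀ l))) hk
  have hdR : |rv β s v - rv β s' (rnd (k₀ + l) v)| ≤ 2 * |s - s'| + mesh (k₀ + l) :=
    rv_sub_le hβ hβ1 hs hs1 hs' hs1' (by unfold mesh; positivity)
      (fun i => ⟨h0 i, (hle i).trans (hv i).2⟩) fun i => by
        rw [abs_of_nonneg (sub_nonneg.2 (hle i))]; exact hgap i
  refine ⟨hK, marg_move hK ?_ h0 hle hm⟩
  have h2 : |s - s'| * (2 * β + 3) ≤ η' / 4 := by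
    refine (mul_le_mul_of_nonneg_right hds (by linarith)).trans ?_
    rwa [one_div, inv_mul_eq_div]
  linarith [show |s - s'| * (2 * β + 3) = |s - s'| * (2 * β + 1) + 2 * |s - s'| by ring]

theorem LL.nrm_const_le (c : ℝ) : nrm (fun _ : Fin n => c) ≤ √n * |c| := by
  rw [nrm, sum_const, card_univ, Fintype.card_fin, nsmul_eq_mul, sqrt_mul (Nat.cast_nonneg n),
    sqrt_sq_eq_abs]

/-- The bound of the local law. -/
noncomputable def llC (β η : ℝ) (k₀ : ℕ) : ℝ :=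
  2 * (zlip β (2 * β + 1) η + 2 * (1 + aB β) / (1 - β ^ 2))
    + 2 * (5 * chA β (2 * β + 1) η k₀
      + |sC β (sB β (2 * β + 1) η)| * eB β η (2 * β + 1) / 2 + 3)

theorem LL.local_point (hβ : 0 ≤ β) (hβ1 : β < 1) {η' : ℝ} (hη' : 0 < η') {d : Dis n} (hn : 1 ≤ n)
    {c₀ : ℝ} {k₀ : ℕ} (hk : mesh k₀ ≤ η' / 2) (hn2 : (2 * β + 3) / (n : ℝ) ≤ η' / 4)
    (hd : d ∉ badAll n β (η' / 4) (2 * β + 1) c₀ k₀)
    (hreg : ∀ s x, Pt n s x →
      (disX n).real (regAt n β (η' / 4) (2 * β + 1) s x)ᶜ ≤ exp (-(c₀ * n)))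
    (hsmall : (n + 1) * chEps n β (2 * β + 1) (η' / 4) c₀ ≤ 1)
    (hsmall' : aB β * √n * exp (-(c₀ * n)) ≤ 1)
    {s : ℝ} (hs : 0 ≤ s) (hs1 : s ≤ 1) {v : Fin n → ℝ} (hv : ∀ i, 0 ≤ v i ∧ v i ≤ 1)
    (hm : Marg n β s (rv β s v) η' d v) :
    nrm (fun i => zv n β s (rv β s v) d v i - aval β s v) ≤ llC β (η' / 4) k₀ := by
  rw [badAll, Set.mem_union, not_or] at hd
  have hnorm : ∀ w, |Ent.qform (kmat n β d) w| ≤ (2 * β + 1) * ∑ i, w i ^ 2 := by
    simpa using hd.1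
  have hK := norm_kmat_le (by linarith) hnorm
  obtain ⟨hds, hj, hall⟩ := reg_all hβ hβ1 hn hK hk hn2 hs hs1 hv hm
  have G : Glob β (η' / 4) (2 * β + 1) := ⟨hβ, hβ1, by linarith, by linarith⟩
  set η₁ := η' / 4
  set Λ := 2 * β + 1
  set s' := sval n ⌊s * n⌋₊
  obtain ⟨hs', hs1'⟩ := sval_mem hn hj
  set x := rnd (k₀ + n) v
  obtain ⟨-, hx0, hxle, hxgap, -⟩ := rnd_facts hv (k₀ + n)
  have hp : Pt n s' x := ⟨hs', hs1', fun i => ⟨hx0 i, (hxle i).trans (hv i).2⟩⟩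
  have hnn : (0 : ℝ) < n := by exact_mod_cast hn
  have hpw : mesh (k₀ + n) ≤ 1 / n := one_div_le_one_div_of_le hnn (by
    refine le_trans ?_ (pow_le_pow_right₀ one_le_two (Nat.le_add_left n k₀))
    exact_mod_cast Nat.lt_two_pow_self.le)
  have hdv : ∀ i, |v i - x i| ≤ mesh (k₀ + n) := fun i => by
    rw [abs_of_nonneg (sub_nonneg.2 (hxle i))]; exact hxgap i
  have hregv : Reg n β s (rv β s v) η₁ Λ d v := by
    refine G.reg ⟨hs, hs1, hv⟩ ⟨hK, marg_move hK ?_ (fun i => (hv i).1) (fun i => le_rfl) hm⟩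
    simp only [sub_self, abs_zero, zero_mul, η₁]; linarith
  have hregx : Reg n β s' (rv β s' x) η₁ Λ d x := G.reg hp (hall n)
  have hδ : |s - s'| + mesh (k₀ + n) ≤ 2 / n := by
    linarith [show (2 : ℝ) / n = 1 / n + 1 / n by ring]
  have hm0 : (0 : ℝ) ≤ mesh (k₀ + n) := by unfold mesh; positivity
  have hsn : √(n : ℝ) * (2 / n) ≤ 2 := by
    rw [← mul_div_assoc, div_le_iff₀ hnn, mul_comm]
    exact mul_le_mul_of_nonneg_left (by
      rw [sqrt_le_left hnn.le]; exact le_self_pow₀ (by exact_mod_cast hn) two_ne_zero) zero_le_two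
  set z0 := fun i => zv n β s (rv β s v) d v i - zv n β s' (rv β s' x) d x i
  set z1 := fun i => zv n β s' (rv β s' x) d x i - aval β s' x
  have h0 : nrm z0 ≤ 2 * zlip β Λ η₁ := by
    refine (zv_move hregv hregx hβ1 hm0 hdv).trans ?_
    have h := mul_le_mul_of_nonneg_left hδ (zlip_nonneg hβ G.hη G.hΛ)
    refine (mul_le_mul_of_nonneg_left h (sqrt_nonneg _)).trans ?_
    calc √(n : ℝ) * (zlip β Λ η₁ * (2 / n)) = zlip β Λ η₁ * (√n * (2 / n)) := by ring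
      _ ≤ zlip β Λ η₁ * 2 := mul_le_mul_of_nonneg_left hsn (zlip_nonneg hβ G.hη G.hΛ)
      _ = 2 * zlip β Λ η₁ := by ring
  have hb : 0 < 1 - β ^ 2 := by nlinarith
  have hcz : (0 : ℝ) ≤ 2 * (1 + aB β) / (1 - β ^ 2) := by
    have : 0 ≤ aB β := div_nonneg (by unfold shift; linarith) hb.le
    positivity
  have h2 : nrm (fun _ : Fin n => aval β s' x - aval β s v) ≤ 2 * (2 * (1 + aB β) / (1 - β ^ 2)) := by
    refine (nrm_const_le _).trans ?_
    rw [abs_sub_comm]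
    refine (mul_le_mul_of_nonneg_left ((aval_sub_le hβ hβ1 hs hs1 hs' hs1' hm0 hv hp.2.2 hdv).trans
      (mul_le_mul_of_nonneg_left hδ hcz)) (sqrt_nonneg _)).trans ?_
    calc √(n : ℝ) * (2 * (1 + aB β) / (1 - β ^ 2) * (2 / n))
        = 2 * (1 + aB β) / (1 - β ^ 2) * (√n * (2 / n)) := by ring
      _ ≤ 2 * (1 + aB β) / (1 - β ^ 2) * 2 := mul_le_mul_of_nonneg_left hsn hcz
      _ = 2 * (2 * (1 + aB β) / (1 - β ^ 2)) := by ring
  have h1 : nrm z1 ≤ 2 * (5 * chA β Λ η₁ k₀ + |sC β (sB β Λ η₁)| * eB β η₁ Λ / 2 + 3) := by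
    obtain ⟨u, hu, hz⟩ := exists_unet hn z1
    refine hz.trans (mul_le_mul_of_nonneg_left ?_ zero_le_two)
    have e : u ⬝ᵥ z1 = u ⬝ᵥ zv n β s' (rv β s' x) d x - aval β s' x * ∑ i, u i := by
      simp only [z1, dotProduct, mul_sub, sum_sub_distrib, mul_sum]
      congr 1
      exact sum_congr rfl fun i _ => mul_comm _ _
    have hA : 0 ≤ chA β Λ η₁ k₀ := by
      have := lipC_pos (Λ := Λ) (η := η₁) hβ
      unfold chA; positivity
    have hc := chain_le G hd.2 hj hv (fun l _ => hall l) hu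
    have hbias := bias_le G hp (unet_norm hu) (hreg _ _ hp)
    have hsum := sum_step_le β Λ η₁ k₀ n hA
    rw [e]
    linarith
  have e : (fun i => zv n β s (rv β s v) d v i - aval β s v)
      = z0 + z1 + fun _ => aval β s' x - aval β s v := by
    funext i; simp only [z0, z1, Pi.add_apply]; ring
  rw [e]
  refine (nrm_add _ _).trans ((add_le_add ((nrm_add _ _).trans (add_le_add h0 h1)) h2).trans ?_)
  rw [llC]
  linarith

/-- The local law at a TAP point. -/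
theorem localLaw : LocalLawStmt := by
  intro β η hβ hβ1 hη
  set η' := min η (η₀ β)
  have hη' : 0 < η' := lt_min hη (η₀_mem hβ hβ1).1
  obtain ⟨k₀, hk₀⟩ : ∃ k : ℕ, mesh k ≤ η' / 2 := by
    obtain ⟨k, hk⟩ := exists_pow_lt_of_lt_one (half_pos hη') (by norm_num : (1 / 2 : ℝ) < 1)
    refine ⟨k, le_trans (le_of_eq ?_) hk.le⟩
    rw [mesh, one_div_pow]
  have hη1 : η' / 4 ≤ η₀ β := by linarith [min_le_right η (η₀ β)]
  obtain ⟨c₀'', c'', hc₀'', hc'', hbad'⟩ := prob_all hβ hβ1 (by linarith : 0 < η' / 4) hη1 k₀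
  refine ⟨(llC β (η' / 4) k₀) ^ 2 + 1, c'', by positivity, hc'', ?_⟩
  set D := max (6 * zbd β (2 * β + 1) (η' / 4)) (aB β)
  obtain ⟨N, hN⟩ := exists_nat_ge ((2 * β + 3) / (η' / 4))
  filter_upwards [hbad', eventually_poly D (c := c₀'') hc₀'', eventually_ge_atTop 1,
    eventually_ge_atTop N] with n hb hD hn hnN
  refine le_trans (measureReal_mono (fun d hd => ?_) (measure_ne_top _ _)) hb.1
  by_contra hg
  refine hd fun s hs hs1 v hv hm => ?_
  have hnn : (0 : ℝ) < n := by exact_mod_cast hn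
  have hv' : ∀ i, 0 ≤ v i ∧ v i ≤ 1 := fun i => ⟨(hv i).1.le, (hv i).2⟩
  have hm' : Marg n β s (rv β s v) η' d v := marg_of_tap (fun i => (hv i).1) fun u =>
    (mul_le_mul_of_nonneg_right (min_le_left η (η₀ β)) (sum_nonneg fun i _ => sq_nonneg _)).trans (hm u)
  have hn2 : (2 * β + 3) / (n : ℝ) ≤ η' / 4 := by
    rw [div_le_iff₀ hnn]
    have := (div_le_iff₀ (by linarith : 0 < η' / 4)).1 (hN.trans (Nat.cast_le.2 hnN))
    linarith
  have h1 : √(n : ℝ) ≤ n + 1 := by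
    rw [sqrt_le_left (by positivity)]
    nlinarith
  have hle : exp (-(c₀'' / 4 * n)) ≤ 1 := exp_le_one_iff.2 (by nlinarith)
  have hd0 : (6 * zbd β (2 * β + 1) (η' / 4)) * ((n : ℝ) + 1) ^ 2 * exp (-(c₀'' * n)) ≤ 1 :=
    le_trans (mul_le_mul_of_nonneg_right (mul_le_mul_of_nonneg_right (le_max_left _ _) (sq_nonneg _))
      (exp_pos _).le) (hD.trans hle)
  have hd1 : aB β * ((n : ℝ) + 1) ^ 2 * exp (-(c₀'' * n)) ≤ 1 :=
    le_trans (mul_le_mul_of_nonneg_right (mul_le_mul_of_nonneg_right (le_max_right _ _) (sq_nonneg _))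
      (exp_pos _).le) (hD.trans hle)
  have hz := zbd_nonneg (η := η' / 4) hβ (show (0 : ℝ) ≤ 2 * β + 1 by linarith)
  have ha : 0 ≤ aB β := div_nonneg (by unfold shift; linarith) (by nlinarith)
  have hs2 : √(n : ℝ) ≤ ((n : ℝ) + 1) ^ 2 := h1.trans (le_self_pow₀ (by linarith) two_ne_zero)
  have hp := LL.local_point hβ hβ1 hη' hn hk₀ hn2 hg hb.2
    (le_trans (by
      rw [chEps]
      have := mul_le_mul_of_nonneg_left h1 (show 0 ≤ 6 * zbd β (2 * β + 1) (η' / 4) * exp (-(c₀'' * n))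
        * ((n : ℝ) + 1) by positivity)
      linarith) hd0)
    (le_trans (mul_le_mul_of_nonneg_right (mul_le_mul_of_nonneg_left hs2 ha) (exp_pos _).le) hd1)
    hs hs1 hv' hm'
  have hreg' : Reg n β s (rv β s v) η' (max (2 * β + 1) ‖kmat n β d‖) d v :=
    ⟨hβ, hη', le_max_of_le_left (by linarith), hs, hs1, by
      obtain ⟨r0, r1⟩ := rv_mem hβ hβ1 hs hs1 hv'
      rw [abs_of_nonneg r0]; linarith, le_max_right _ _, hv', hm'⟩
  have e : ∀ i, ((tapH n β s d v)⁻¹ * aop n β d * (tapH n β s d v)⁻¹) i i / v i ^ 2 - llVal β s v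
      = zv n β s (rv β s v) d v i - aval β s v := fun i => by
    rw [tap_inv hreg' (fun i => (hv i).1) i]; rfl
  simp only [e, ← nrm_sq]
  linarith [pow_le_pow_left₀ (nrm_nonneg _) hp 2]

end Vale.Agent.P150.Fast
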