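import Vale.Agent.P150.Fast.LogDetTools

/-!
The expected logarithm of the determinant of the bulk TAP Hessian (P150) is at most its universal
value `t U² / 2` per site, by splitting the Gaussian coupling into finitely many independent
increments.
-/

open MeasureTheory Real Finset Matrix

namespace Vale.Agent.P150.Fast

variable {n : ℕ}

/-- The bulk Hessian at coupling `τ`. -/
noncomputable def bulkX (v : Fin n → ℝ) (U τ : ℝ) (d : Dis n) : Matrix (Fin n) (Fin n) ℝ :=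
  diagonal (fun i => 1 / v i) + (τ * U) • (1 : Matrix (Fin n) (Fin n) ℝ) - kmat n √τ d

/-- The bulk margin and a norm bound. -/
def goodBulk (v : Fin n → ℝ) (U η R τ : ℝ) : Set (Dis n) :=
  {d | ∀ u : Fin n → ℝ, Ent.qform (kmat n √τ d) u ≤ ∑ i, u i ^ 2 * (1 / v i + τ * U - η)
    ∧ |Ent.qform (kmat n √τ d) u| ≤ R * ∑ i, u i ^ 2}

theorem continuous_qform_kmat (β : ℝ) (u : Fin n → ℝ) :
    Continuous fun d : Dis n => Ent.qform (kmat n β d) u := by
  simp only [← lin_qcoef]; exact continuous_lin _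

theorem measurableSet_goodBulk (v : Fin n → ℝ) (U η R τ : ℝ) :
    MeasurableSet (goodBulk v U η R τ) := by
  have : goodBulk v U η R τ = ⋂ u : Fin n → ℝ,
      ({d | Ent.qform (kmat n √τ d) u ≤ ∑ i, u i ^ 2 * (1 / v i + τ * U - η)}
        ∩ {d | |Ent.qform (kmat n √τ d) u| ≤ R * ∑ i, u i ^ 2}) := by
    ext d; simp [goodBulk, forall_and, Set.mem_iInter]
  rw [this]
  exact (isClosed_iInter fun u => (isClosed_le (continuous_qform_kmat _ u) continuous_const).inter
    (isClosed_le (continuous_qform_kmat _ u).abs continuous_const)).measurableSet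

theorem bulkX_isSymm (v : Fin n → ℝ) (U τ : ℝ) (d : Dis n) : (bulkX v U τ d).IsSymm := by
  refine Matrix.IsSymm.ext fun i j => ?_
  simp only [bulkX, Matrix.sub_apply, Matrix.add_apply, Matrix.smul_apply, diagonal_apply,
    Matrix.one_apply, kmat_symm (√τ) d i j]
  rcases eq_or_ne i j with rfl | h
  · rfl
  · simp [h, h.symm]

theorem bulkX_qform (v : Fin n → ℝ) (U τ : ℝ) (d : Dis n) (u : Fin n → ℝ) :
    u ⬝ᵥ (bulkX v U τ d *ᵥ u)
      = ∑ i, u i ^ 2 * (1 / v i + τ * U) - Ent.qform (kmat n √τ d) u := by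
  rw [bulkX, sub_mulVec, dotProduct_sub, ← cond_qform_eq_dot (kmat n √τ d), add_mulVec, smul_mulVec,
    one_mulVec]
  simp only [dotProduct, Pi.add_apply, Pi.smul_apply, smul_eq_mul, mulVec_diagonal]
  congr 1
  exact sum_congr rfl fun i _ => by ring

theorem good_lower {v : Fin n → ℝ} {U η R τ : ℝ} {d : Dis n} (h : d ∈ goodBulk v U η R τ)
    (u : Fin n → ℝ) : η * ∑ i, u i ^ 2 ≤ u ⬝ᵥ (bulkX v U τ d *ᵥ u) := by
  rw [bulkX_qform]
  have h1 := (h u).1
  have e : ∑ i, u i ^ 2 * (1 / v i + τ * U)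
      = ∑ i, u i ^ 2 * (1 / v i + τ * U - η) + η * ∑ i, u i ^ 2 := by
    rw [mul_sum, ← sum_add_distrib]
    exact sum_congr rfl fun i _ => by ring
  linarith

/-- The logarithm of the determinant relative to the diagonal, on a set where it is positive. -/
noncomputable def relDet (v : Fin n → ℝ) (X : Matrix (Fin n) (Fin n) ℝ) : ℝ :=
  log X.det - ∑ i, log (1 / v i)

theorem relDet_bounds {v : Fin n → ℝ} (hv : ∀ i, 0 < v i) (hv1 : ∀ i, v i ≤ 1)
    {X : Matrix (Fin n) (Fin n) ℝ} (hX : X.IsSymm) {η R : ℝ} (hη : 0 < η)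
    (hlo : ∀ u, η * ∑ i, u i ^ 2 ≤ u ⬝ᵥ (X *ᵥ u))
    (hR : ∀ u, |u ⬝ᵥ ((X - diagonal fun i => 1 / v i) *ᵥ u)| ≤ R * ∑ i, u i ^ 2) :
    |relDet v X| ≤ R * n * (1 + 1 / η) := by
  set D : Matrix (Fin n) (Fin n) ℝ := diagonal fun i => 1 / v i
  have hD : D.PosDef := PosDef.diagonal fun i => by have := hv i; positivity
  have hXp := posDef_of_qform hX hη hlo
  have hlogD : log D.det = ∑ i, log (1 / v i) := by
    rw [det_diagonal, log_prod fun i _ => (by have := hv i; positivity : (1 : ℝ) / v i ≠ 0)]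
  have hdiag : ∀ i, |(X - D) i i| ≤ R := fun i => by
    simpa [dotProduct, Pi.single_apply, Matrix.mulVec_single_one, ite_pow] using hR (Pi.single i 1)
  have hn0 : (0 : ℝ) ≤ n := Nat.cast_nonneg _
  rcases Nat.eq_zero_or_pos n with rfl | hn
  · simp [relDet, Matrix.det_isEmpty]
  have hR0 : 0 ≤ R := (abs_nonneg _).trans (hdiag ⟨0, hn⟩)
  have hup : (D⁻¹ * (X - D)).trace ≤ R * n := by
    have hDi : D⁻¹ = diagonal v := by
      refine Matrix.inv_eq_right_inv ?_
      rw [diagonal_mul_diagonal, ← diagonal_one]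
      congr 1
      funext i
      have := (hv i).ne'
      field_simp
    rw [hDi]
    refine (sum_le_sum fun i _ => ?_).trans_eq (show ∑ _i : Fin n, R = R * n by simp [mul_comm])
    rw [Matrix.diag_apply, diagonal_mul]
    refine (le_abs_self _).trans ?_
    rw [abs_mul, abs_of_pos (hv i)]
    exact (mul_le_of_le_one_left (abs_nonneg _) (hv1 i)).trans (hdiag i)
  have hlow : (X⁻¹ * (D - X)).trace ≤ R * (n / η) := by
    obtain ⟨C, hCs, hCC, hC0⟩ := exists_sqrt_root hXp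
    have hGG : X⁻¹ = C⁻¹ * C⁻¹ := by rw [← hCC, Matrix.mul_inv_rev]
    have hGs : C⁻¹.transpose = C⁻¹ := by rw [transpose_nonsing_inv, hCs.eq]
    have hb := (inv_bounds hX hη hlo).2.2.2
    have e1 : (X⁻¹ * (D - X)).trace
        = ∑ j, (fun i => C⁻¹ i j) ⬝ᵥ ((D - X) *ᵥ fun i => C⁻¹ i j) := by
      rw [hGG, Matrix.mul_assoc, Matrix.trace_mul_comm]
      simp only [Matrix.trace, Matrix.diag, Matrix.mul_apply, dotProduct, Matrix.mulVec, sum_mul, mul_sum]
      have hG2 : ∀ a b, C⁻¹ a b = C⁻¹ b a := fun a b => congrFun (congrFun hGs b) a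
      refine sum_congr rfl fun j _ => ?_
      rw [Finset.sum_comm]
      refine sum_congr rfl fun i _ => sum_congr rfl fun k _ => ?_
      rw [hG2 j i]
      ring
    have e2 : X⁻¹.trace = ∑ j, ∑ i, C⁻¹ i j ^ 2 := by
      rw [hGG]
      simp only [Matrix.trace, Matrix.diag, Matrix.mul_apply]
      refine sum_congr rfl fun j _ => sum_congr rfl fun i _ => ?_
      rw [← congrFun (congrFun hGs i) j, transpose_apply, pow_two]
    rw [e1]
    refine le_trans (sum_le_sum fun j _ => ?_)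
      ((le_of_eq (mul_sum univ (fun j => ∑ i, C⁻¹ i j ^ 2) R).symm).trans
        (mul_le_mul_of_nonneg_left (e2 ▸ hb) hR0))
    have h := hR fun i => C⁻¹ i j
    rw [← neg_sub X D, neg_mulVec, dotProduct_neg]
    exact (neg_le_abs _).trans h
  have h1 := logdet_tangent hXp hD
  have h2 := logdet_tangent hD hXp
  rw [hlogD] at h1 h2
  have h3 : 0 ≤ R * n * (1 / η) := by positivity
  have h4 : R * n * (1 / η) = R * (n / η) := by ring
  rw [relDet, abs_le, mul_add, mul_one]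
  have h5 : 0 ≤ R * (n : ℝ) := mul_nonneg hR0 hn0
  constructor <;> linarith

theorem kmat_scale (β c : ℝ) (d : Dis n) : kmat n (c * β) d = c • kmat n β d := by
  ext i j
  simp only [Matrix.smul_apply, smul_eq_mul, kmat_apply]
  ring

theorem fsq_kmat (hn : 0 < n) (β : ℝ) (d : Dis n) :
    fsq (kmat n β d) = β ^ 2 / n * (2 * ∑ k, d k ^ 2) := by
  have hs : (goe n d).IsSymm := Matrix.IsSymm.ext fun i j => goe_symm d j i
  have hb : (β / √n) ^ 2 = β ^ 2 / n := by
    rw [div_pow, sq_sqrt (Nat.cast_nonneg n)]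
  rw [sq_eq_trace, fsq, kmat_eq, transpose_smul, hs.eq, Matrix.smul_mul, Matrix.mul_smul, trace_smul,
    trace_smul, smul_eq_mul, smul_eq_mul, ← hb]
  ring

/-- One increment of the coupling, on the event that the current Hessian has the margin. -/
theorem increment (hn : 0 < n) {v : Fin n → ℝ} (hv : ∀ i, 0 < v i) (hv1 : ∀ i, v i ≤ 1)
    {U η R h τ : ℝ} (hη : 0 < η) (hh : 0 ≤ h) (hU : 0 ≤ U) (hU1 : U ≤ 1) (hτ : 0 ≤ τ) (hτ1 : τ + h ≤ 1)
    (hR : 0 ≤ R) (hsmall : √h * 3 / η ≤ 1 / 2) {d d' : Dis n} (hd : d ∈ goodBulk v U η R τ)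
    (hd' : ∀ u, |Ent.qform (kmat n 1 d') u| ≤ 3 * ∑ i, u i ^ 2) :
    let X' := bulkX v U τ d + (h * U) • (1 : Matrix (Fin n) (Fin n) ℝ) - √h • kmat n 1 d'
    let G := (bulkX v U τ d + (h * U) • (1 : Matrix (Fin n) (Fin n) ℝ))⁻¹
    relDet v X' ≤ relDet v (bulkX v U τ d) + h * U * G.trace - √h * (G * kmat n 1 d').trace
        - h / 2 * (G * kmat n 1 d' * (G * kmat n 1 d')).trace
        + n * ((h / η) ^ 2 + 2 * (√h * 3 / η) ^ 3)
      ∧ |relDet v X'| ≤ (R + 5) * n * (1 + 2 / η)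
      ∧ |relDet v (bulkX v U τ d)| ≤ (R + 5) * n * (1 + 2 / η) := by
  intro X' G
  set X := bulkX v U τ d
  set Y := X + (h * U) • (1 : Matrix (Fin n) (Fin n) ℝ)
  have hn0 : (0 : ℝ) ≤ n := Nat.cast_nonneg _
  have hhU : 0 ≤ h * U := mul_nonneg hh hU
  have hXs := bulkX_isSymm v U τ d
  have hYs : Y.IsSymm := hXs.add (Matrix.isSymm_one.smul _)
  have hXl := good_lower hd
  have hYq : ∀ u, u ⬝ᵥ (Y *ᵥ u) = u ⬝ᵥ (X *ᵥ u) + h * U * ∑ i, u i ^ 2 := fun u => by
    rw [show Y = X + (h * U) • (1 : Matrix (Fin n) (Fin n) ℝ) from rfl, add_mulVec, smul_mulVec,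
      one_mulVec, dotProduct_add, dotProduct_smul, smul_eq_mul]
    simp [dotProduct, pow_two]
  have hYl : ∀ u, η * ∑ i, u i ^ 2 ≤ u ⬝ᵥ (Y *ᵥ u) := fun u => by
    rw [hYq]
    have : 0 ≤ h * U * ∑ i, u i ^ 2 := mul_nonneg hhU (sum_nonneg fun i _ => sq_nonneg _)
    linarith [hXl u]
  have hW : ∀ u, |u ⬝ᵥ (kmat n 1 d' *ᵥ u)| ≤ 3 * ∑ i, u i ^ 2 := fun u => by
    rw [← cond_qform_eq_dot]; exact hd' u
  have hT := logdet_taylor hYs (kmat_isSymm 1 d') hη (sqrt_nonneg h) (by norm_num) hYl hW hsmall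
  rw [sq_sqrt hh] at hT
  have hXp := posDef_of_qform hXs hη hXl
  have hYp := posDef_of_qform hYs hη hYl
  have hXY := logdet_tangent hYp hXp
  simp only [Y, X, add_sub_cancel_left] at hXY
  rw [Matrix.mul_smul, Matrix.mul_one, trace_smul, smul_eq_mul] at hXY
  -- the two traces differ by `h U n / η²`
  have hdiff : X⁻¹.trace - Y⁻¹.trace ≤ h * n / η ^ 2 := by
    have hu := isUnit_iff_ne_zero.2 hXp.det_pos.ne'
    have hu' := isUnit_iff_ne_zero.2 hYp.det_pos.ne'
    have e : X⁻¹ - Y⁻¹ = (h * U) • (X⁻¹ * Y⁻¹) := by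
      have e1 : X⁻¹ * (Y - X) * Y⁻¹ = X⁻¹ - Y⁻¹ := by
        rw [Matrix.mul_sub, Matrix.sub_mul, Matrix.mul_assoc X⁻¹ Y, Matrix.mul_nonsing_inv _ hu',
          Matrix.mul_one, Matrix.nonsing_inv_mul _ hu, Matrix.one_mul]
      rw [← e1]
      simp [Y, Matrix.mul_smul, Matrix.smul_mul]
    have h1 := congrArg Matrix.trace e
    rw [trace_sub, trace_smul, smul_eq_mul] at h1
    rw [h1]
    have h2 := trace_mul_abs_le X⁻¹ Y⁻¹
    rw [transpose_nonsing_inv, hXs.eq] at h2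
    have hb : √(fsq X⁻¹) * √(fsq Y⁻¹) ≤ n / η ^ 2 := by
      refine (mul_le_mul (sqrt_le_sqrt (inv_bounds hXs hη hXl).2.1)
        (sqrt_le_sqrt (inv_bounds hYs hη hYl).2.1) (sqrt_nonneg _) (sqrt_nonneg _)).trans_eq ?_
      exact mul_self_sqrt (by positivity)
    calc h * U * (X⁻¹ * Y⁻¹).trace ≤ h * U * (n / η ^ 2) :=
          mul_le_mul_of_nonneg_left ((le_abs_self _).trans (h2.trans hb)) hhU
      _ ≤ h * 1 * (n / η ^ 2) := by gcongr
      _ = h * n / η ^ 2 := by ring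
  have hdiff' : h * U * X⁻¹.trace ≤ h * U * Y⁻¹.trace + n * (h / η) ^ 2 := by
    have h1 : h * U * (X⁻¹.trace - Y⁻¹.trace) ≤ h * (h * n / η ^ 2) :=
      (mul_le_mul_of_nonneg_left hdiff hhU).trans
        (mul_le_mul_of_nonneg_right (mul_le_of_le_one_right hh hU1) (by positivity))
    have e : h * (h * n / η ^ 2) = n * (h / η) ^ 2 := by ring
    linarith
  have hKq : ∀ u, |Ent.qform (kmat n √τ d) u| ≤ R * ∑ i, u i ^ 2 := fun u => (hd u).2
  have hdX : ∀ u, u ⬝ᵥ ((X - diagonal fun i => 1 / v i) *ᵥ u)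
      = τ * U * ∑ i, u i ^ 2 - Ent.qform (kmat n √τ d) u := fun u => by
    rw [sub_mulVec, dotProduct_sub, show u ⬝ᵥ (X *ᵥ u) = _ from bulkX_qform v U τ d u]
    simp only [dotProduct, mulVec_diagonal, mul_sum]
    rw [sub_right_comm, ← sum_sub_distrib]
    congr 1
    exact sum_congr rfl fun i _ => by ring
  have hτU : τ * U ≤ 1 := mul_le_one₀ (by linarith) hU hU1
  have hwide : ∀ c S : ℝ, 0 ≤ S → |c| ≤ (R + 5) * S → |c| ≤ (R + 5) * S := fun _ _ _ hc => hc
  refine ⟨?_, ?_, ?_⟩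
  · simp only [relDet]
    have e : n * ((h / η) ^ 2 + 2 * (√h * 3 / η) ^ 3)
        = n * (h / η) ^ 2 + 2 * n * (√h * 3 / η) ^ 3 := by ring
    linarith
  · have hs3 : √h * 3 ≤ η / 2 := by rw [div_le_iff₀ hη] at hsmall; linarith
    have h5 : √h ≤ 1 := sqrt_le_one.2 (by linarith)
    refine (relDet_bounds hv hv1 (η := η / 2) (R := R + 5)
      (hYs.sub ((kmat_isSymm 1 d').smul _)) (half_pos hη) (fun u => ?_) fun u => ?_).trans
        (le_of_eq (by field_simp))
    · have e : u ⬝ᵥ (X' *ᵥ u) = u ⬝ᵥ (Y *ᵥ u) - √h * (u ⬝ᵥ (kmat n 1 d' *ᵥ u)) := by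
        simp [X', Y, X, sub_mulVec, smul_mulVec, dotProduct_sub]
      rw [e]
      have h1 := mul_le_mul_of_nonneg_left ((le_abs_self _).trans (hW u)) (sqrt_nonneg h)
      have h2 := mul_le_mul_of_nonneg_right hs3 (sum_nonneg fun i _ => sq_nonneg (u i) : 0 ≤ ∑ i, u i ^ 2)
      linarith [hYl u]
    · have e : u ⬝ᵥ ((X' - diagonal fun i => 1 / v i) *ᵥ u)
          = u ⬝ᵥ ((X - diagonal fun i => 1 / v i) *ᵥ u) + h * U * ∑ i, u i ^ 2
            - √h * (u ⬝ᵥ (kmat n 1 d' *ᵥ u)) := by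
        rw [hdX]
        have h1 : u ⬝ᵥ (X' *ᵥ u) = u ⬝ᵥ (Y *ᵥ u) - √h * (u ⬝ᵥ (kmat n 1 d' *ᵥ u)) := by
          simp [X', Y, X, sub_mulVec, smul_mulVec, dotProduct_sub]
        have h2 : u ⬝ᵥ ((X' - diagonal fun i => 1 / v i) *ᵥ u)
            = u ⬝ᵥ (X' *ᵥ u) - u ⬝ᵥ (diagonal (fun i => 1 / v i) *ᵥ u) :=
          (congrArg (u ⬝ᵥ ·) (sub_mulVec _ _ _)).trans (dotProduct_sub _ _ _)
        have h3 := hdX u
        rw [sub_mulVec, dotProduct_sub] at h3
        rw [h2, h1, hYq, ← h3]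
        ring
      rw [e, hdX]
      have hS : 0 ≤ ∑ i, u i ^ 2 := sum_nonneg fun i _ => sq_nonneg _
      have h1 := abs_le.1 (hKq u)
      have h2 := abs_le.1 (hW u)
      have h3 := mul_le_mul_of_nonneg_left h2.2 (sqrt_nonneg h)
      have h4 := mul_le_mul_of_nonneg_left h2.1 (sqrt_nonneg h)
      have h6 := mul_le_mul_of_nonneg_right hτU hS
      have h7 := mul_le_mul_of_nonneg_right (mul_le_one₀ (show h ≤ 1 by linarith) hU hU1) hS
      have h8 := mul_le_mul_of_nonneg_right h5 hS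
      have h9 : 0 ≤ τ * U * ∑ i, u i ^ 2 := by positivity
      have h10 : 0 ≤ h * U * ∑ i, u i ^ 2 := by positivity
      rw [abs_le]
      constructor <;> linarith
  · refine (relDet_bounds hv hv1 hXs hη (R := R + 5) hXl fun u => ?_).trans ?_
    · rw [hdX]
      have hS : 0 ≤ ∑ i, u i ^ 2 := sum_nonneg fun i _ => sq_nonneg _
      have h1 := abs_le.1 (hKq u)
      have h6 := mul_le_mul_of_nonneg_right hτU hS
      have h9 : 0 ≤ τ * U * ∑ i, u i ^ 2 := by positivity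
      rw [abs_le]
      constructor <;> linarith
    · refine mul_le_mul_of_nonneg_left ?_ (by positivity)
      gcongr
      norm_num

/-- The part of the relative log determinant carried by the good set. -/
noncomputable def psiBulk (v : Fin n → ℝ) (U η R τ : ℝ) (d : Dis n) : ℝ :=
  (goodBulk v U η R τ).indicator (fun d => relDet v (bulkX v U τ d)) d

theorem measurable_psiBulk (v : Fin n → ℝ) (U η R τ : ℝ) : Measurable (psiBulk v U η R τ) := by
  refine Measurable.indicator ?_ (measurableSet_goodBulk v U η R τ)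
  refine ((Continuous.measurable ?_).log).sub_const _
  refine Continuous.matrix_det (continuous_pi fun i => continuous_pi fun j => ?_)
  simp only [bulkX, Matrix.sub_apply, Matrix.add_apply, Matrix.smul_apply, kmat_apply]
  exact continuous_const.sub ((continuous_goe i j).const_mul _)

theorem abs_psiBulk_le {v : Fin n → ℝ} (hv : ∀ i, 0 < v i) (hv1 : ∀ i, v i ≤ 1) {U η R τ : ℝ}
    (hη : 0 < η) (hR : 0 ≤ R) (hU : 0 ≤ U) (hU1 : U ≤ 1) (hτ : 0 ≤ τ) (hτ1 : τ ≤ 1) (d : Dis n) :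
    |psiBulk v U η R τ d| ≤ (R + 5) * n * (1 + 2 / η) := by
  by_cases hd : d ∈ goodBulk v U η R τ
  · rw [psiBulk, Set.indicator_of_mem hd]
    rcases Nat.eq_zero_or_pos n with rfl | hn
    · simp [relDet, Matrix.det_isEmpty]
    exact (increment hn hv hv1 hη le_rfl hU hU1 hτ (by linarith) hR (by simp) hd
      (d' := fun _ => 0) (fun u => by
        have : kmat n 1 (fun _ => (0 : ℝ)) = 0 := by ext i j; simp [kmat]
        simp only [this, Ent.qform, Matrix.zero_apply, mul_zero, zero_mul, sum_const_zero, abs_zero]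
        exact mul_nonneg (by norm_num) (sum_nonneg fun i _ => sq_nonneg _))).2.2
  · rw [psiBulk, Set.indicator_of_notMem hd, abs_zero]
    positivity

end Vale.Agent.P150.Fast
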