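import Vale.Agent.P150.Fast.LogDetStep

/-!
The universal upper bound on the log determinant of the bulk TAP Hessian (P150): the regularised
log determinant exceeds `n (T U² / 2 + ε)` with probability at most `exp (-c n²)`, provided the
margin holds with high probability along the interpolation in the coupling strength.
-/

open MeasureTheory Real Finset Matrix

namespace Vale.Agent.P150.Fast.LogDet

variable {n : ℕ}

theorem card_dis_le (n : ℕ) : (Fintype.card (Pair n ⊕ Fin n) : ℝ) ≤ 2 * (n : ℝ) ^ 2 := by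
  have h1 : Fintype.card (Pair n) ≤ Fintype.card (Fin n × Fin n) :=
    Fintype.card_le_of_injective (fun p => (p.1 : Fin n × Fin n)) fun a b h => Subtype.ext h
  rw [Fintype.card_prod, Fintype.card_fin] at h1
  have h2 : n ≤ n * n := Nat.le_mul_self n
  rw [Fintype.card_sum, Fintype.card_fin]
  have h : Fintype.card (Pair n) + n ≤ 2 * (n * n) := by omega
  have h' : ((Fintype.card (Pair n) + n : ℕ) : ℝ) ≤ ((2 * (n * n) : ℕ) : ℝ) := by exact_mod_cast h
  push_cast at h' ⊢
  linarith

theorem psi_zero {v : Fin n → ℝ} (hv : ∀ i, 0 < v i) {U η R : ℝ} (d : Dis n) :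
    psiBulk v U η R 0 d = 0 := by
  by_cases hd : d ∈ goodBulk v U η R 0
  · rw [psiBulk, Set.indicator_of_mem hd, relDet, bulkX, sqrt_zero]
    have h0 : kmat n 0 d = 0 := by ext i j; simp [kmat_apply]
    rw [h0, zero_mul, zero_smul, add_zero, sub_zero, det_diagonal,
      log_prod fun i _ => (by have := hv i; positivity : (1 : ℝ) / v i ≠ 0), sub_self]
  · rw [psiBulk, Set.indicator_of_notMem hd]

/-- The mean of the relative log determinant on the good event, after `N` steps. -/
theorem psi_mean (hn : 0 < n) {v : Fin n → ℝ} (hv : ∀ i, 0 < v i) (hv1 : ∀ i, v i ≤ 1)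
    {U η R T p : ℝ} {N : ℕ} (hN : 0 < N) (hη : 0 < η) (hU : 0 ≤ U) (hU1 : U ≤ 1) (hT : 0 ≤ T)
    (hT1 : T ≤ 1) (hR : 0 ≤ R) (hp : 0 < p) (hsmall : √(T / N) * 3 / η ≤ 1 / 2)
    (hgood : ∀ τ, 0 ≤ τ → τ ≤ T → (disX n).real (goodBulk v U η R τ)ᶜ ≤ p)
    (hpW : (disX n).real {d | ¬ ∀ u, |Ent.qform (kmat n 1 d) u| ≤ 3 * ∑ i, u i ^ 2} ≤ p) :
    ∫ d, psiBulk v U η R T d ∂disX n
      ≤ n * (T * U ^ 2 / 2) + (n : ℝ) * N * ((T / N / η) ^ 2 + 2 * (√(T / N) * 3 / η) ^ 3
        + 4 * ((R + 5) * (1 + 2 / η)) * p) + n * (4 * T * √p / η ^ 2) := by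
  have hN' : (0 : ℝ) < N := by exact_mod_cast hN
  have hn' : (0 : ℝ) < n := by exact_mod_cast hn
  set h := T / N with hh
  have h0 : 0 ≤ h := div_nonneg hT hN'.le
  set inc := n * (h * U ^ 2 / 2) + n * ((h / η) ^ 2 + 2 * (√h * 3 / η) ^ 3)
    + 4 * ((R + 5) * n * (1 + 2 / η)) * p + n * (4 * h * √p / η ^ 2) with hinc
  have key : ∀ k : ℕ, k ≤ N → ∫ d, psiBulk v U η R (k * h) d ∂disX n ≤ k * inc := by
    intro k
    induction k with
    | zero => intro _; simp [psi_zero hv]
    | succ k ih =>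
      intro hk
      have hk' : ((k : ℝ) + 1) * h ≤ T := by
        have hkN : (k : ℝ) + 1 ≤ N := by exact_mod_cast hk
        calc ((k : ℝ) + 1) * h ≤ N * h := mul_le_mul_of_nonneg_right hkN h0
          _ = T := by rw [hh]; field_simp
      have hk0 : (k : ℝ) * h ≤ T := by linarith
      have hs := psi_step (h := h) (τ := (k : ℝ) * h) (M := 1 / √p) hn hv hv1 hη h0 hU hU1
        (by positivity) (by linarith) hR (by positivity) hsmall (hgood _ (by positivity) hk0)
        (hgood _ (by positivity) (by linarith)) hpW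
      have hlast : h / 2 * (1 / η ^ 2 / n * (2 * ((Fintype.card (Pair n ⊕ Fin n) : ℝ)
          * (3 / (2 * (1 / √p)) + 1 / √p / 2 * p)))) ≤ n * (4 * h * √p / η ^ 2) := by
        have e : 3 / (2 * (1 / √p)) + 1 / √p / 2 * p = 2 * √p := by
          rw [show 3 / (2 * (1 / √p)) = 3 / 2 * √p by field_simp,
            show 1 / √p / 2 * p = p / √p / 2 by ring, div_sqrt]
          ring
        rw [e]
        calc h / 2 * (1 / η ^ 2 / n * (2 * ((Fintype.card (Pair n ⊕ Fin n) : ℝ) * (2 * √p))))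
            ≤ h / 2 * (1 / η ^ 2 / n * (2 * (2 * (n : ℝ) ^ 2 * (2 * √p)))) := by
              gcongr; exact card_dis_le n
          _ = n * (4 * h * √p / η ^ 2) := by field_simp; ring
      have hrec := ih (Nat.le_of_succ_le hk)
      push_cast
      rw [add_mul (k : ℝ) 1 h, one_mul]
      linarith
  have hfin := key N le_rfl
  have hNh : (N : ℝ) * h = T := by rw [hh]; field_simp
  rw [hNh] at hfin
  refine hfin.trans (le_of_eq ?_)
  rw [hinc]
  linear_combination (n : ℝ) * (U ^ 2 / 2 + 4 * √p / η ^ 2) * hNh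

/-- The regularised log determinant of the bulk Hessian. -/
noncomputable def regBulk (v : Fin n → ℝ) (U κ T : ℝ) (d : Dis n) : ℝ :=
  regDet κ (1 + ((T * U) • (1 : Matrix (Fin n) (Fin n) ℝ) - kmat n √T d) * diagonal v)

theorem regBulk_lip (hn : 0 < n) {v : Fin n → ℝ} (hv : ∀ i, 0 < v i) (hv1 : ∀ i, v i ≤ 1)
    {U κ T : ℝ} (hκ : 0 < κ) (hT : 0 ≤ T) (d d' : Dis n) :
    |regBulk v U κ T d - regBulk v U κ T d'| ≤ √(2 * T / κ) * √(∑ k, (d k - d' k) ^ 2) := by
  have key : ∀ d d' : Dis n, regBulk v U κ T d - regBulk v U κ T d'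
      ≤ √(2 * T / κ) * √(∑ k, (d k - d' k) ^ 2) := fun d d' => by
    refine (regDet_lip hκ _ _).trans ?_
    have e : kmat n √T d' - kmat n √T d = kmat n √T (d' - d) := by
      have : kmat n √T (d' + (-1 : ℝ) • d) = kmat n √T d' - kmat n √T d := by
        ext i j
        simp only [kmat_apply, cond_goe_add, cond_goe_smul, Matrix.add_apply, Matrix.sub_apply,
          Matrix.smul_apply, smul_eq_mul]
        ring
      rwa [neg_one_smul, ← sub_eq_add_neg, eq_comm] at this
    have hfs : fsq ((1 + ((T * U) • (1 : Matrix (Fin n) (Fin n) ℝ) - kmat n √T d) * diagonal v)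
        - (1 + ((T * U) • (1 : Matrix (Fin n) (Fin n) ℝ) - kmat n √T d') * diagonal v))
        ≤ T / n * (2 * ∑ k, (d k - d' k) ^ 2) := by
      rw [add_sub_add_left_eq_sub, ← Matrix.sub_mul, sub_sub_sub_cancel_left, e, fsq_eq]
      refine (sum_le_sum fun i _ => sum_le_sum fun j _ => ?_).trans (le_of_eq
        ((fsq_eq _).symm.trans ((fsq_kmat hn √T (d' - d)).trans ?_)))
      · rw [Matrix.mul_diagonal, mul_pow]
        exact mul_le_of_le_one_right (sq_nonneg _)
          (pow_le_one₀ (hv j).le (hv1 j))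
      · rw [sq_sqrt hT]
        congr 2
        exact sum_congr rfl fun k _ => by simp only [Pi.sub_apply]; ring
    refine (mul_le_mul_of_nonneg_left (sqrt_le_sqrt hfs) (sqrt_nonneg _)).trans (le_of_eq ?_)
    rw [← sqrt_mul (by positivity), ← sqrt_mul (by positivity)]
    congr 1
    have : (n : ℝ) ≠ 0 := by exact_mod_cast hn.ne'
    field_simp
  rw [abs_le]
  refine ⟨?_, key d d'⟩
  have := key d' d
  have e : ∑ k, (d' k - d k) ^ 2 = ∑ k, (d k - d' k) ^ 2 := sum_congr rfl fun k _ => by ring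
  rw [e] at this
  linarith

/-- On the good event the regularisation costs little. -/
theorem regBulk_le {v : Fin n → ℝ} (hv : ∀ i, 0 < v i) {U η R κ T : ℝ}
    (hη : 0 < η) (hR : 0 ≤ R) (hU : 0 ≤ U) (hU1 : U ≤ 1) (hκ : 0 < κ) (hT : 0 ≤ T) (hT1 : T ≤ 1)
    {d : Dis n} (hd : d ∈ goodBulk v U η R T) :
    regBulk v U κ T d ≤ psiBulk v U η R T d + n * (κ * (1 + (R + 1) ^ 2 / η ^ 2)) := by
  set Y := (T * U) • (1 : Matrix (Fin n) (Fin n) ℝ) - kmat n √T d with hY
  set X := bulkX v U T d with hX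
  set A := 1 + Y * diagonal v with hA
  have hXA : X * diagonal v = A := by
    rw [hX, hA, hY, bulkX, add_sub_assoc, Matrix.add_mul, diagonal_mul_diagonal]
    congr 1
    rw [← diagonal_one]
    congr 1; funext i
    rw [one_div_mul_cancel (hv i).ne']
  have hXs := bulkX_isSymm v U T d
  have hlo := good_lower hd
  have hXp : X.PosDef := posDef_of_qform hXs hη hlo
  have hXu : IsUnit X.det := Ne.isUnit hXp.det_pos.ne'
  have hDdet : 0 < (diagonal v).det := by rw [det_diagonal]; exact prod_pos fun i _ => hv i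
  have hAdet : A.det = X.det * (diagonal v).det := by rw [← hXA, det_mul]
  have hA0 : 0 < A.det := hAdet ▸ mul_pos hXp.det_pos hDdet
  set B := (diagonal fun i => 1 / v i) * X⁻¹ with hB
  have hAB : A * B = 1 := by
    rw [← hXA, hB, Matrix.mul_assoc, ← Matrix.mul_assoc (diagonal v), diagonal_mul_diagonal]
    have : (fun i => v i * (1 / v i)) = fun _ => (1 : ℝ) :=
      funext fun i => mul_one_div_cancel (hv i).ne'
    rw [this, diagonal_one, Matrix.one_mul, Matrix.mul_nonsing_inv _ hXu]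
  set P := B.transpose * B with hP
  have h1 : A.transpose * A + κ • (1 : Matrix (Fin n) (Fin n) ℝ)
      = A.transpose * (1 + κ • P) * A := by
    have hBA : B * A = 1 := mul_eq_one_comm.1 hAB
    clear_value A
    rw [Matrix.mul_add, Matrix.mul_one, Matrix.add_mul, Matrix.mul_smul, Matrix.smul_mul, hP,
      Matrix.mul_assoc, Matrix.mul_assoc B.transpose, hBA, Matrix.mul_one, ← transpose_mul, hBA,
      transpose_one]
  have hPs : (1 + κ • P).IsSymm := by simp [Matrix.IsSymm, hP, transpose_mul]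
  have hPp : (1 + κ • P).PosDef := by
    refine posDef_of_qform hPs one_pos fun u => ?_
    rw [one_mul, add_mulVec, one_mulVec, dotProduct_add, smul_mulVec, dotProduct_smul, smul_eq_mul,
      hP, ← mulVec_mulVec, dotProduct_mulVec u B.transpose, vecMul_transpose]
    simp only [dotProduct, ← pow_two]
    exact le_add_of_nonneg_right (mul_nonneg hκ.le (sum_nonneg fun i _ => sq_nonneg _))
  have hlogP : log (1 + κ • P).det ≤ κ * fsq B := by
    have := logdet_tangent hPp (PosDef.one (n := Fin n) (R := ℝ))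
    rw [det_one, log_one, inv_one, add_sub_cancel_left, Matrix.one_mul, trace_smul, smul_eq_mul,
      zero_add] at this
    exact this
  have hfB : fsq B ≤ 2 * n * (1 + (R + 1) ^ 2 / η ^ 2) := by
    obtain ⟨-, hG2, -, -⟩ := inv_bounds hXs hη hlo
    have hBe : B = 1 - Y * X⁻¹ := by
      have : X * X⁻¹ = 1 := Matrix.mul_nonsing_inv _ hXu
      have e : (diagonal fun i => 1 / v i) = X - Y := by rw [hX, bulkX, hY]; abel
      rw [hB, e, Matrix.sub_mul, this]
    have hYop : ∀ u, ∑ i, (Y *ᵥ u) i ^ 2 ≤ (R + 1) ^ 2 * ∑ i, u i ^ 2 := by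
      refine op_of_qform ?_ (by linarith) fun u => ?_
      · exact (Matrix.isSymm_one.smul _).sub (kmat_isSymm √T d)
      · rw [hY, sub_mulVec, dotProduct_sub, smul_mulVec, one_mulVec, dotProduct_smul, smul_eq_mul,
          ← cond_qform_eq_dot]
        have hs : 0 ≤ ∑ i, u i ^ 2 := sum_nonneg fun i _ => sq_nonneg _
        have e : u ⬝ᵥ u = ∑ i, u i ^ 2 := by simp [dotProduct, pow_two]
        have hTU : T * U ≤ 1 := mul_le_one₀ hT1 hU hU1
        have hk := abs_le.1 (hd u).2
        rw [e, abs_le]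
        constructor <;> linarith [mul_le_mul_of_nonneg_right hTU hs,
          mul_nonneg (mul_nonneg hT hU) hs]
    have hYG : fsq (Y * X⁻¹) ≤ (R + 1) ^ 2 * (n / η ^ 2) :=
      (fsq_mul_le hYop _).trans (mul_le_mul_of_nonneg_left hG2 (sq_nonneg _))
    have h2 : fsq B ≤ 2 * fsq (1 : Matrix (Fin n) (Fin n) ℝ) + 2 * fsq (Y * X⁻¹) := by
      rw [hBe, fsq_eq, fsq_eq, fsq_eq, mul_sum, mul_sum, ← sum_add_distrib]
      refine sum_le_sum fun i _ => ?_
      rw [mul_sum, mul_sum, ← sum_add_distrib]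
      refine sum_le_sum fun j _ => ?_
      simp only [Matrix.sub_apply]
      linarith [sq_nonneg ((1 : Matrix (Fin n) (Fin n) ℝ) i j + (Y * X⁻¹) i j)]
    have h3 : fsq (1 : Matrix (Fin n) (Fin n) ℝ) = n := by simp [fsq]
    refine h2.trans ?_
    rw [h3]
    calc 2 * (n : ℝ) + 2 * fsq (Y * X⁻¹) ≤ 2 * (n : ℝ) + 2 * ((R + 1) ^ 2 * (n / η ^ 2)) := by linarith
      _ = _ := by ring
  have hreg : regBulk v U κ T d = log A.det + log (1 + κ • P).det / 2 := by
    rw [regBulk, regDet, ← hY, ← hA, h1, det_mul, det_mul, det_transpose,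
      log_mul (mul_pos hA0 hPp.det_pos).ne' hA0.ne', log_mul hA0.ne' hPp.det_pos.ne']
    ring
  have hlogA : log A.det = psiBulk v U η R T d := by
    rw [psiBulk, Set.indicator_of_mem hd, relDet, hAdet, log_mul hXp.det_pos.ne' hDdet.ne',
      det_diagonal, log_prod fun i _ => (hv i).ne', hX, sub_eq_add_neg, ← sum_neg_distrib]
    congr 1
    exact sum_congr rfl fun i _ => by rw [one_div, log_inv, neg_neg]
  rw [hreg, hlogA]
  have := hlogP.trans (mul_le_mul_of_nonneg_left hfB hκ.le)
  linarith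

/-- The regularised log determinant concentrates below the bound for the mean on the good event. -/
theorem regBulk_tail (hG : GaussTail) (hn : 0 < n) {v : Fin n → ℝ} (hv : ∀ i, 0 < v i)
    (hv1 : ∀ i, v i ≤ 1) {U η R κ T p a ε : ℝ} (hη : 0 < η) (hR : 0 ≤ R) (hU : 0 ≤ U) (hU1 : U ≤ 1)
    (hκ : 0 < κ) (hT : 0 < T) (hT1 : T ≤ 1) (hε : 0 < ε) (ha : 0 ≤ a)
    (hmean : ∫ d, psiBulk v U η R T d ∂disX n ≤ n * a)
    (hgood : (disX n).real (goodBulk v U η R T)ᶜ ≤ p)
    (hp : p < ε / (a + ε + (R + 5) * (1 + 2 / η)) / 2)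
    (hbig : exp (-(2 * (ε * n) ^ 2 / (π ^ 2 * (2 * T / κ))))
      < ε / (a + ε + (R + 5) * (1 + 2 / η)) / 2) :
    (disX n).real {d | n * (a + 3 * ε + κ * (1 + (R + 1) ^ 2 / η ^ 2)) ≤ regBulk v U κ T d}
      ≤ exp (-(2 * (ε * n) ^ 2 / (π ^ 2 * (2 * T / κ)))) := by
  have hn' : (0 : ℝ) < n := by exact_mod_cast hn
  have : IsProbabilityMeasure (disX n) := by unfold disX gp; infer_instance
  set C0 := (R + 5) * (1 + 2 / η)
  have hC0 : 0 ≤ C0 := by positivity
  set C := (R + 5) * n * (1 + 2 / η)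
  set L := √(2 * T / κ) with hLd
  have hL : 0 < L := sqrt_pos.2 (by positivity)
  have hL2 : L ^ 2 = 2 * T / κ := sq_sqrt (by positivity)
  set c := κ * (1 + (R + 1) ^ 2 / η ^ 2)
  set f := regBulk v U κ T
  have hlip : ∀ g h, |f g - f h| ≤ L * √(∑ i, (g i - h i) ^ 2) :=
    regBulk_lip hn hv hv1 hκ hT.le
  set μ := ∫ d, f d ∂disX n with hμ
  -- with constant probability the regularised value is below the bound
  set ψ := psiBulk v U η R T
  have hψb : ∀ d, |ψ d| ≤ C := abs_psiBulk_le hv hv1 hη hR hU hU1 hT.le hT1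
  have hψi : Integrable ψ (disX n) :=
    (integrable_const C).mono' (measurable_psiBulk v U η R T).aestronglyMeasurable (ae_of_all _ hψb)
  set S := {d | n * (a + ε) + C ≤ ψ d + C}
  have hS : MeasurableSet S :=
    measurableSet_le measurable_const ((measurable_psiBulk v U η R T).add_const _)
  have hmk := mul_meas_ge_le_integral_of_nonneg (μ := disX n)
    (ae_of_all _ fun d => show 0 ≤ ψ d + C by linarith [(abs_le.1 (hψb d)).1])
    (hψi.add (integrable_const C)) (n * (a + ε) + C)
  rw [integral_add hψi (integrable_const C), integral_const, probReal_univ, one_smul] at hmk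
  have hden : (n : ℝ) * (a + ε) + C = n * (a + ε + C0) := by simp only [C, C0]; ring
  have hSp : (disX n).real S ≤ 1 - ε / (a + ε + C0) := by
    have h1 : (n : ℝ) * (a + ε + C0) * (disX n).real S ≤ n * (a + C0) := by
      have e : (n : ℝ) * (a + C0) = n * a + C := by simp only [C, C0]; ring
      rw [← hden, e]
      exact hmk.trans (by linarith)
    have h2 : (a + ε + C0) * (disX n).real S ≤ a + C0 :=
      le_of_mul_le_mul_left (by linarith [mul_assoc (n : ℝ) (a + ε + C0) ((disX n).real S)]) hn'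
    rw [one_sub_div (by positivity), le_div_iff₀ (by positivity)]
    linarith
  set δ := ε / (a + ε + C0)
  have hlow : δ / 2 ≤ (disX n).real {d | f d ≤ n * (a + ε) + n * c} := by
    have hsub : (Set.univ : Set (Dis n)) ⊆ {d | f d ≤ n * (a + ε) + n * c}
        ∪ (S ∪ (goodBulk v U η R T)ᶜ) := fun d _ => by
      by_cases hd : d ∈ goodBulk v U η R T
      · by_cases hs : d ∈ S
        · exact Or.inr (Or.inl hs)
        · refine Or.inl ?_
          have h1 := regBulk_le hv hη hR hU hU1 hκ hT.le hT1 hd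
          simp only [S, Set.mem_ofPred_eq, not_le] at hs
          show f d ≤ _
          linarith
      · exact Or.inr (Or.inr hd)
    have h := (measureReal_mono (μ := disX n) hsub).trans
      ((measureReal_union_le _ _).trans (add_le_add le_rfl (measureReal_union_le _ _)))
    rw [probReal_univ] at h
    linarith
  have hneg := hG _ (fun d => -f d) L hL (fun g h => by
    rw [neg_sub_neg, abs_sub_comm]; exact hlip g h) (ε * n) (by positivity)
  have hgp : gp (Pair n ⊕ Fin n) = disX n := rfl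
  rw [integral_neg, hgp, ← hμ] at hneg
  have hμle : μ ≤ n * (a + ε) + n * c + ε * n := by
    by_contra hlt
    have : (disX n).real {d | f d ≤ n * (a + ε) + n * c}
        ≤ exp (-(2 * (ε * n) ^ 2 / (π ^ 2 * L ^ 2))) := by
      refine (measureReal_mono fun d hd => ?_).trans hneg
      simp only [Set.mem_ofPred_eq] at hd ⊢
      linarith
    rw [hL2] at this
    linarith
  have hpos := hG _ f L hL hlip (ε * n) (by positivity)
  rw [hL2, hgp, ← hμ] at hpos
  refine (measureReal_mono fun d hd => ?_).trans hpos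
  simp only [Set.mem_ofPred_eq] at hd ⊢
  linarith

end Vale.Agent.P150.Fast.LogDet
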