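import Vale.Agent.P150.Fast.LogDetBound

/-!
One step of the recursion for the expected relative log determinant of the bulk TAP Hessian
(P150): an independent increment of the coupling raises it by at most `h U² / 2` per site.
-/

open MeasureTheory Real Finset Matrix

namespace Vale.Agent.P150.Fast

variable {n : ℕ}

/-- The law of a combination of two independent disorders. -/
theorem comb_law (a b c : ℝ) (habc : a ^ 2 + b ^ 2 = c ^ 2) :
    ((disX n).prod (disX n)).map (fun p => a • p.1 + b • p.2) = (disX n).map (c • ·) := by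
  set ι := Pair n ⊕ Fin n
  have mp : MeasurePreserving (fun g : ι ⊕ ι → ℝ => ((fun k => g (Sum.inl k)), fun k => g (Sum.inr k)))
      (gp (ι ⊕ ι)) ((disX n).prod (disX n)) :=
    measurePreserving_sumPiEquivProdPi (fun _ : ι ⊕ ι => ProbabilityTheory.gaussianReal 0 1)
  rw [← mp.map_eq, Measure.map_map (by fun_prop) mp.measurable]
  classical
  have hpick : ∀ (f : ι → ℝ) (k : ι), ∑ l, (if l = k then f l else 0) = f k := fun f k => by
    rw [Finset.sum_eq_single k (fun l _ hl => if_neg hl) (fun h => absurd (mem_univ k) h), if_pos rfl]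
  refine lin_image_eq (κ := ι) _ _
    (fun k => Sum.elim (fun l => if l = k then a else 0) fun l => if l = k then b else 0)
    (fun k l => if l = k then c else 0) (fun g k => ?_) (fun g k => ?_) fun ξ => ?_
  · rw [lin, Fintype.sum_sum_type]
    simp only [Sum.elim_inl, Sum.elim_inr, mul_ite, mul_zero]
    rw [hpick (fun l => g (Sum.inl l) * a), hpick (fun l => g (Sum.inr l) * b)]
    simp only [Function.comp_apply, Pi.add_apply, Pi.smul_apply, smul_eq_mul]
    ring
  · simp only [lin, mul_ite, mul_zero]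
    rw [hpick (fun l => g l * c)]
    simp only [Pi.smul_apply, smul_eq_mul]
    ring
  · rw [Fintype.sum_sum_type (α₁ := ι) (α₂ := ι)]
    simp only [Sum.elim_inl, Sum.elim_inr, mul_ite, mul_zero]
    simp only [Finset.sum_ite_eq, mem_univ, if_true]
    rw [← sum_add_distrib]
    refine sum_congr rfl fun k _ => ?_
    linear_combination ξ k ^ 2 * habc

theorem kmat_one_smul (c : ℝ) (d : Dis n) : kmat n 1 (c • d) = kmat n c d := by
  ext i j
  simp only [kmat_apply, cond_goe_smul, Matrix.smul_apply, smul_eq_mul]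
  ring

theorem kmat_one_comb (a b : ℝ) (d d' : Dis n) :
    kmat n 1 (a • d + b • d') = kmat n a d + b • kmat n 1 d' := by
  ext i j
  simp only [kmat_apply, cond_goe_add, cond_goe_smul, Matrix.add_apply, Matrix.smul_apply, smul_eq_mul]
  ring

/-- The relative log determinant on the good set, as a function of the scaled disorder. -/
noncomputable def psiTot (v : Fin n → ℝ) (U η R T : ℝ) (e : Dis n) : ℝ :=
  Set.indicator {e : Dis n | ∀ u : Fin n → ℝ,
      Ent.qform (kmat n 1 e) u ≤ ∑ i, u i ^ 2 * (1 / v i + T * U - η)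
      ∧ |Ent.qform (kmat n 1 e) u| ≤ R * ∑ i, u i ^ 2}
    (fun e => relDet v (diagonal (fun i => 1 / v i) + (T * U) • (1 : Matrix (Fin n) (Fin n) ℝ)
      - kmat n 1 e)) e

theorem psiBulk_eq (v : Fin n → ℝ) (U η R T : ℝ) (d : Dis n) :
    psiBulk v U η R T d = psiTot v U η R T (√T • d) := by
  have hiff : d ∈ goodBulk v U η R T ↔ √T • d ∈ {e : Dis n | ∀ u : Fin n → ℝ,
      Ent.qform (kmat n 1 e) u ≤ ∑ i, u i ^ 2 * (1 / v i + T * U - η)
      ∧ |Ent.qform (kmat n 1 e) u| ≤ R * ∑ i, u i ^ 2} := by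
    simp only [goodBulk, Set.mem_ofPred_eq, kmat_one_smul]
  by_cases hd : d ∈ goodBulk v U η R T
  · rw [psiBulk, psiTot, Set.indicator_of_mem hd, Set.indicator_of_mem (hiff.1 hd), bulkX, kmat_one_smul]
  · rw [psiBulk, psiTot, Set.indicator_of_notMem hd, Set.indicator_of_notMem (mt hiff.2 hd)]

theorem measurableSet_totGood (v : Fin n → ℝ) (U η R T : ℝ) :
    MeasurableSet {e : Dis n | ∀ u : Fin n → ℝ,
      Ent.qform (kmat n 1 e) u ≤ ∑ i, u i ^ 2 * (1 / v i + T * U - η)
      ∧ |Ent.qform (kmat n 1 e) u| ≤ R * ∑ i, u i ^ 2} := by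
  have : {e : Dis n | ∀ u : Fin n → ℝ, Ent.qform (kmat n 1 e) u ≤ ∑ i, u i ^ 2 * (1 / v i + T * U - η)
      ∧ |Ent.qform (kmat n 1 e) u| ≤ R * ∑ i, u i ^ 2} = ⋂ u : Fin n → ℝ,
      ({e | Ent.qform (kmat n 1 e) u ≤ ∑ i, u i ^ 2 * (1 / v i + T * U - η)}
        ∩ {e | |Ent.qform (kmat n 1 e) u| ≤ R * ∑ i, u i ^ 2}) := by
    ext d; simp [forall_and, Set.mem_iInter]
  rw [this]
  exact (isClosed_iInter fun u => (isClosed_le (continuous_qform_kmat _ u) continuous_const).inter
    (isClosed_le (continuous_qform_kmat _ u).abs continuous_const)).measurableSet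

theorem measurable_psiTot (v : Fin n → ℝ) (U η R T : ℝ) : Measurable (psiTot v U η R T) := by
  refine Measurable.indicator ?_ (measurableSet_totGood v U η R T)
  refine ((Continuous.measurable ?_).log).sub_const _
  refine Continuous.matrix_det (continuous_pi fun i => continuous_pi fun j => ?_)
  simp only [Matrix.sub_apply, Matrix.add_apply, Matrix.smul_apply, kmat_apply]
  exact continuous_const.sub ((continuous_goe i j).const_mul _)

theorem fsq_mul_le {G : Matrix (Fin n) (Fin n) ℝ} {C : ℝ}
    (h : ∀ u, ∑ i, (G *ᵥ u) i ^ 2 ≤ C * ∑ i, u i ^ 2) (W : Matrix (Fin n) (Fin n) ℝ) :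
    fsq (G * W) ≤ C * fsq W := by
  rw [fsq_eq, fsq_eq, Finset.sum_comm (f := fun i j => W i j ^ 2), mul_sum, Finset.sum_comm]
  refine sum_le_sum fun j _ => le_trans (le_of_eq ?_) (h fun i => W i j)
  simp [Matrix.mul_apply, Matrix.mulVec, dotProduct]

/-- The inverse appearing in a step, as a measurable function. -/
noncomputable def stepInv (v : Fin n → ℝ) (U τ h : ℝ) (d : Dis n) : Matrix (Fin n) (Fin n) ℝ :=
  (bulkX v U τ d + (h * U) • (1 : Matrix (Fin n) (Fin n) ℝ))⁻¹

theorem measurable_stepInv (v : Fin n → ℝ) (U τ h : ℝ) (i j : Fin n) :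
    Measurable fun d : Dis n => stepInv v U τ h d i j := by
  have hc : Continuous fun d : Dis n => bulkX v U τ d + (h * U) • (1 : Matrix (Fin n) (Fin n) ℝ) := by
    refine Continuous.add (continuous_pi fun i => continuous_pi fun j => ?_) continuous_const
    simp only [bulkX, Matrix.sub_apply, Matrix.add_apply, Matrix.smul_apply, kmat_apply]
    exact continuous_const.sub ((continuous_goe i j).const_mul _)
  simp only [stepInv, Matrix.inv_def, Matrix.smul_apply, smul_eq_mul, Ring.inverse_eq_inv']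
  exact (hc.matrix_det.measurable.inv).mul
    ((hc.matrix_adjugate.matrix_elem i j).measurable)

/-- The conditional mean of one increment, given the current coupling. -/
theorem inner_bound (hn : 0 < n) {U η h p M C e r0 : ℝ} (hη : 0 < η) (hh : 0 ≤ h) (hU : 0 ≤ U)
    (hM : 0 < M) {G : Matrix (Fin n) (Fin n) ℝ}
    (hWm : MeasurableSet {d : Dis n | ∀ u, |Ent.qform (kmat n 1 d) u| ≤ 3 * ∑ i, u i ^ 2})
    (hs : G.IsSymm) (hf : fsq G ≤ n / η ^ 2) (ht0 : 0 ≤ G.trace)
    (hopv : ∀ u, ∑ i, (G *ᵥ u) i ^ 2 ≤ (∑ i, u i ^ 2) / η ^ 2) (hrel : |r0| ≤ C)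
    (hpW : (disX n).real {d | ¬ ∀ u, |Ent.qform (kmat n 1 d) u| ≤ 3 * ∑ i, u i ^ 2} ≤ p) (he0 : 0 ≤ e) :
    ∫ d', {d : Dis n | ∀ u, |Ent.qform (kmat n 1 d) u| ≤ 3 * ∑ i, u i ^ 2}.indicator
        (fun d' => r0 + h * U * G.trace - √h * (G * kmat n 1 d').trace
          - h / 2 * (G * kmat n 1 d' * (G * kmat n 1 d')).trace + e) d' ∂disX n
      ≤ r0 + (n * (h * U ^ 2 / 2) + e + C * p
        + h / 2 * (1 / η ^ 2 / n * (2 * ((Fintype.card (Pair n ⊕ Fin n) : ℝ) * (3 / (2 * M) + M / 2 * p))))) := by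
  set W : Set (Dis n) := {d : Dis n | ∀ u, |Ent.qform (kmat n 1 d) u| ≤ 3 * ∑ i, u i ^ 2}
  have hn' : (0 : ℝ) < n := by exact_mod_cast hn
  have hC0 : 0 ≤ C := (abs_nonneg _).trans hrel
  have hpW : (disX n).real Wᶜ ≤ p := hpW
  have hop : ∀ K : Matrix (Fin n) (Fin n) ℝ, fsq (G * K) ≤ 1 / η ^ 2 * fsq K :=
    fun K => fsq_mul_le (fun u => (hopv u).trans (le_of_eq (by ring))) K
  have hquad : ∀ K : Matrix (Fin n) (Fin n) ℝ, |(K * K).trace| ≤ fsq K := fun K => by
    have := trace_mul_abs_le K.transpose K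
    rw [transpose_transpose] at this
    refine this.trans (le_of_eq ?_)
    have : fsq K.transpose = fsq K := by rw [fsq, fsq, transpose_transpose, Matrix.trace_mul_comm]
    rw [this, mul_self_sqrt (fsq_nonneg _)]
  have hfW : ∀ d' ∈ W, fsq (kmat n 1 d') ≤ 9 * n := fun d' hd' => by
    have := fsq_mul_le (C := 9) (fun u => by
      have := op_of_qform (kmat_isSymm 1 d') (R := 3) (by norm_num) (fun u => by
        rw [← cond_qform_eq_dot]; exact hd' u) u
      linarith) (1 : Matrix (Fin n) (Fin n) ℝ)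
    simpa [fsq] using this
  set E := 1 / η ^ 2 / n * (2 * ((Fintype.card (Pair n ⊕ Fin n) : ℝ) * (3 / (2 * M) + M / 2 * p)))
  set Bf : Dis n → ℝ := fun d' => r0 + h * U * G.trace - √h * (G * kmat n 1 d').trace
    - h / 2 * (G * kmat n 1 d' * (G * kmat n 1 d')).trace + e
  set c := r0 + h * U * G.trace + e
  set L : Dis n → ℝ := fun d' => (G * kmat n 1 d').trace
  set Q : Dis n → ℝ := fun d' => (G * kmat n 1 d' * (G * kmat n 1 d')).trace
  have hQe : ∀ d', Q d' = (1 / n) * (G * goe n d' * (G * goe n d')).trace := fun d' => by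
    simp only [Q, kmat_eq, Matrix.mul_smul, Matrix.smul_mul, trace_smul, smul_eq_mul, ← mul_assoc,
      div_mul_div_comm, one_mul, mul_self_sqrt hn'.le]
  have hQi : Integrable Q (disX n) := by
    rw [funext hQe]; exact (trace_sq_mean hs).1.const_mul _
  have hQint : ∫ d', Q d' ∂disX n = (G.trace ^ 2 + fsq G) / n := by
    simp only [hQe]; rw [integral_const_mul, (trace_sq_mean hs).2]; ring
  have hLi : Integrable (W.indicator L) (disX n) := by
    refine (integrable_const (3 * n / η)).mono' ?_ (ae_of_all _ fun d' => ?_)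
    · refine (Measurable.indicator ?_ hWm).aestronglyMeasurable
      refine Continuous.measurable (continuous_finsetSum _ fun i _ => ?_)
      simp only [Matrix.diag_apply, Matrix.mul_apply, kmat_apply]
      exact continuous_finsetSum _ fun k _ => ((continuous_goe k i).const_mul _).const_mul _
    · by_cases hw : d' ∈ W
      · rw [Set.indicator_of_mem hw, Real.norm_eq_abs]
        have := trace_mul_abs_le G (kmat n 1 d')
        rw [hs.eq] at this
        refine this.trans ((mul_le_mul (sqrt_le_sqrt hf) (sqrt_le_sqrt (hfW d' hw)) (sqrt_nonneg _)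
          (sqrt_nonneg _)).trans_eq ?_)
        rw [← sqrt_mul (by positivity), show (n : ℝ) / η ^ 2 * (9 * n) = (3 * n / η) ^ 2 by ring,
          sqrt_sq (by positivity)]
      · rw [Set.indicator_of_notMem hw, norm_zero]; positivity
  have hodd : ∫ d', W.indicator L d' ∂disX n = 0 := by
    have mneg : MeasurePreserving (fun d : Dis n => -d) (disX n) (disX n) :=
      gp_rot (-LinearMap.id : Dis n →ₗ[ℝ] Dis n) fun g => by simp
    have hme := mneg.integral_comp (MeasurableEquiv.neg (Dis n)).measurableEmbedding (W.indicator L)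
    have hk : ∀ d' : Dis n, kmat n 1 (-d') = -kmat n 1 d' := fun d' => by
      ext i j
      simp only [kmat_apply, Matrix.neg_apply, ← neg_one_smul ℝ d', cond_goe_smul, Matrix.smul_apply,
        smul_eq_mul]
      ring
    have hsym : ∀ d', W.indicator L (-d') = -W.indicator L d' := fun d' => by
      have hmem : -d' ∈ W ↔ d' ∈ W := by
        simp only [W, Set.mem_ofPred_eq, hk, cond_qform_eq_dot, neg_mulVec, dotProduct_neg, abs_neg]
      by_cases hw : d' ∈ W
      · rw [Set.indicator_of_mem hw, Set.indicator_of_mem (hmem.2 hw)]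
        simp [L, hk]
      · rw [Set.indicator_of_notMem hw, Set.indicator_of_notMem (mt hmem.1 hw), neg_zero]
    simp only [hsym, integral_neg] at hme
    linarith
  have hsplit : ∀ d', W.indicator Bf d'
      = W.indicator (fun _ => c) d' - √h * W.indicator L d' - h / 2 * Q d'
        + h / 2 * Wᶜ.indicator Q d' := fun d' => by
    by_cases hw : d' ∈ W
    · simp only [Set.indicator_of_mem hw, Set.indicator_of_notMem (Set.notMem_compl_iff.2 hw), Bf, c, L, Q]
      ring
    · simp only [Set.indicator_of_notMem hw, Set.indicator_of_mem (Set.mem_compl hw)]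
      ring
  simp only [hsplit]
  have i1 : Integrable (W.indicator fun _ => c) (disX n) := (integrable_const c).indicator hWm
  have i4 : Integrable (fun d' => h / 2 * Wᶜ.indicator Q d') (disX n) :=
    (hQi.indicator hWm.compl).const_mul _
  rw [integral_add (f := fun d' => W.indicator (fun _ => c) d' - √h * W.indicator L d' - h / 2 * Q d')
      ((i1.sub (hLi.const_mul _)).sub (hQi.const_mul _)) i4,
    integral_sub (f := fun d' => W.indicator (fun _ => c) d' - √h * W.indicator L d')
      (i1.sub (hLi.const_mul _)) (hQi.const_mul _),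
    integral_sub i1 (hLi.const_mul _), integral_const_mul, integral_const_mul, integral_const_mul,
    hodd, hQint, integral_indicator_const _ hWm, smul_eq_mul]
  have herr : ∫ d', Wᶜ.indicator Q d' ∂disX n ≤ E := by
    have hbd : ∀ d', Wᶜ.indicator Q d'
        ≤ 1 / η ^ 2 / n * (2 * Wᶜ.indicator (fun g => ∑ i, g i ^ 2) d') := fun d' => by
      by_cases hw : d' ∈ Wᶜ
      · rw [Set.indicator_of_mem hw, Set.indicator_of_mem hw]
        refine (le_abs_self _).trans ((hquad _).trans ((hop _).trans (le_of_eq ?_)))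
        rw [fsq_kmat hn]; ring
      · rw [Set.indicator_of_notMem hw, Set.indicator_of_notMem hw, mul_zero, mul_zero]
    have hSi : Integrable (Wᶜ.indicator fun g : Dis n => ∑ i, g i ^ 2) (disX n) :=
      (integrable_finsetSum _ fun i _ => (Edge.sq_coord i).1).indicator hWm.compl
    refine (integral_mono (hQi.indicator hWm.compl) ((hSi.const_mul 2).const_mul _) hbd).trans ?_
    rw [integral_const_mul, integral_const_mul]
    refine mul_le_mul_of_nonneg_left (mul_le_mul_of_nonneg_left ((sq_sum_indicator hWm.compl hM).trans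
      (mul_le_mul_of_nonneg_left (add_le_add le_rfl (mul_le_mul_of_nonneg_left hpW (by positivity)))
        (Nat.cast_nonneg _))) zero_le_two) (by positivity)
  have hW1 : (disX n).real W ≤ 1 := measureReal_le_one
  have hW0 : 1 - p ≤ (disX n).real W := by
    have : (disX n).real Wᶜ = 1 - (disX n).real W := probReal_compl_eq_one_sub hWm
    linarith
  have k1 : (disX n).real W * r0 ≤ r0 + C * p := by
    have h1 : (1 - (disX n).real W) * -r0 ≤ p * C :=
      (mul_le_mul_of_nonneg_left ((neg_le_abs _).trans hrel) (by linarith)).trans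
        (mul_le_mul_of_nonneg_right (by linarith) hC0)
    linarith
  have k2 : (disX n).real W * (h * U * G.trace + e) ≤ h * U * G.trace + e :=
    mul_le_of_le_one_left (by positivity) hW1
  have k3 : h * U * G.trace ≤ n * (h * U ^ 2 / 2) + h / 2 * ((G.trace ^ 2 + fsq G) / n) := by
    have h1 : 2 * U * n * G.trace ≤ (n : ℝ) ^ 2 * U ^ 2 + G.trace ^ 2 := by
      linarith [sq_nonneg (U * n - G.trace)]
    have h2 : 2 * U * G.trace ≤ n * U ^ 2 + (G.trace ^ 2 + fsq G) / n := by
      rw [← sub_le_iff_le_add', le_div_iff₀ hn']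
      linarith [fsq_nonneg G]
    have h3 := mul_le_mul_of_nonneg_left h2 (show 0 ≤ h / 2 by positivity)
    linarith
  have k4 := mul_le_mul_of_nonneg_left herr (show 0 ≤ h / 2 by positivity)
  simp only [c, mul_zero, sub_zero]
  linarith

/-- One step of the recursion. -/
theorem psi_step (hn : 0 < n) {v : Fin n → ℝ} (hv : ∀ i, 0 < v i) (hv1 : ∀ i, v i ≤ 1)
    {U η R h τ p M : ℝ} (hη : 0 < η) (hh : 0 ≤ h) (hU : 0 ≤ U) (hU1 : U ≤ 1) (hτ : 0 ≤ τ)
    (hτ1 : τ + h ≤ 1) (hR : 0 ≤ R) (hM : 0 < M) (hsmall : √h * 3 / η ≤ 1 / 2)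
    (hp0 : (disX n).real (goodBulk v U η R τ)ᶜ ≤ p)
    (hp1 : (disX n).real (goodBulk v U η R (τ + h))ᶜ ≤ p)
    (hpW : (disX n).real {d | ¬ ∀ u, |Ent.qform (kmat n 1 d) u| ≤ 3 * ∑ i, u i ^ 2} ≤ p) :
    ∫ d, psiBulk v U η R (τ + h) d ∂disX n ≤ ∫ d, psiBulk v U η R τ d ∂disX n
      + n * (h * U ^ 2 / 2) + n * ((h / η) ^ 2 + 2 * (√h * 3 / η) ^ 3)
      + 4 * ((R + 5) * n * (1 + 2 / η)) * p
      + h / 2 * (1 / η ^ 2 / n * (2 * ((Fintype.card (Pair n ⊕ Fin n) : ℝ) * (3 / (2 * M) + M / 2 * p)))) := by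
  set C := (R + 5) * n * (1 + 2 / η)
  have hn' : (0 : ℝ) < n := by exact_mod_cast hn
  have hC0 : 0 ≤ C := by positivity
  set e := n * ((h / η) ^ 2 + 2 * (√h * 3 / η) ^ 3)
  have he0 : 0 ≤ e := by
    have : 0 ≤ √h * 3 / η := div_nonneg (by positivity) hη.le
    positivity
  set W : Set (Dis n) := {d | ∀ u, |Ent.qform (kmat n 1 d) u| ≤ 3 * ∑ i, u i ^ 2}
  have hWm : MeasurableSet W := by
    have : W = ⋂ u : Fin n → ℝ, {d | |Ent.qform (kmat n 1 d) u| ≤ 3 * ∑ i, u i ^ 2} := by
      ext d; simp [W, Set.mem_iInter]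
    rw [this]
    exact (isClosed_iInter fun u => isClosed_le (continuous_qform_kmat _ u).abs continuous_const).measurableSet
  have hpW' : (disX n).real Wᶜ ≤ p := hpW
  set Gd := goodBulk v U η R τ
  have hGm : MeasurableSet Gd := measurableSet_goodBulk v U η R τ
  set T := τ + h
  set comb : Dis n × Dis n → Dis n := fun q => √τ • q.1 + √h • q.2
  have hcomb : Measurable comb := by fun_prop
  set Gt : Set (Dis n) := {e : Dis n | ∀ u : Fin n → ℝ,
      Ent.qform (kmat n 1 e) u ≤ ∑ i, u i ^ 2 * (1 / v i + T * U - η)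
      ∧ |Ent.qform (kmat n 1 e) u| ≤ R * ∑ i, u i ^ 2}
  have hGtm : MeasurableSet Gt := measurableSet_totGood v U η R T
  have hlaw := comb_law (n := n) √τ √h √T
    (by rw [sq_sqrt hτ, sq_sqrt hh, sq_sqrt (by positivity)])
  have hsmul : Measurable fun d : Dis n => √T • d := by fun_prop
  have hF : ∫ d, psiBulk v U η R T d ∂disX n
      = ∫ q, psiTot v U η R T (comb q) ∂(disX n).prod (disX n) := by
    simp only [psiBulk_eq]
    rw [← integral_map hsmul.aemeasurable (measurable_psiTot v U η R T).aestronglyMeasurable, ← hlaw,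
      integral_map hcomb.aemeasurable (measurable_psiTot v U η R T).aestronglyMeasurable]
  have hGtp : ((disX n).prod (disX n)).real (comb ⁻¹' Gtᶜ) ≤ p := by
    rw [← map_measureReal_apply hcomb hGtm.compl, hlaw, map_measureReal_apply hsmul hGtm.compl]
    refine le_of_eq_of_le ?_ hp1
    congr 1
    ext d
    simp [Gt, goodBulk, kmat_one_smul, T]
  set G := stepInv v U τ h
  set B : Dis n → Dis n → ℝ := fun d d' => relDet v (bulkX v U τ d) + h * U * (G d).trace
    - √h * (G d * kmat n 1 d').trace - h / 2 * (G d * kmat n 1 d' * (G d * kmat n 1 d')).trace + e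
  set rhs : Dis n × Dis n → ℝ := fun q => (Gd ×ˢ W).indicator (fun q => B q.1 q.2) q
    + C * ((Gd ×ˢ W)ᶜ.indicator (fun _ => (1 : ℝ)) q + (comb ⁻¹' Gtᶜ).indicator (fun _ => (1 : ℝ)) q)
  have hkey : ∀ q, psiTot v U η R T (comb q) ≤ rhs q := fun q => by
    obtain ⟨d, d'⟩ := q
    have habs : |psiTot v U η R T (comb (d, d'))| ≤ C := by
      rcases (add_nonneg hτ hh).eq_or_lt with h0 | h0
      · by_cases hm : comb (d, d') ∈ Gt
        · have hT0 : T = 0 := h0.symm
          have ha : τ = 0 := by linarith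
          have hb : h = 0 := by linarith
          have hc : comb (d, d') = √T • d := by simp [comb, ha, hb, hT0]
          rw [hc, ← psiBulk_eq]
          exact abs_psiBulk_le hv hv1 hη hR hU hU1 (add_nonneg hτ hh) hτ1 d
        · rw [psiTot, Set.indicator_of_notMem hm, abs_zero]; exact hC0
      · have hc : comb (d, d') = √T • ((√T)⁻¹ • comb (d, d')) := by
          rw [smul_smul, mul_inv_cancel₀ (sqrt_pos.2 h0).ne', one_smul]
        rw [hc, ← psiBulk_eq]
        exact abs_psiBulk_le hv hv1 hη hR hU hU1 h0.le hτ1 _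
    by_cases hq : (d, d') ∈ Gd ×ˢ W
    · obtain ⟨hd, hd'⟩ := hq
      have hinc := increment hn hv hv1 hη hh hU hU1 hτ hτ1 hR hsmall hd hd'
      simp only at hinc
      set X' := bulkX v U τ d + (h * U) • (1 : Matrix (Fin n) (Fin n) ℝ) - √h • kmat n 1 d'
      have hX : diagonal (fun i => 1 / v i) + (T * U) • (1 : Matrix (Fin n) (Fin n) ℝ)
          - kmat n 1 (comb (d, d')) = X' := by
        simp only [X', comb, kmat_one_comb, bulkX, T, add_mul, add_smul]
        abel
      have hB : relDet v X' ≤ B d d' := hinc.1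
      simp only [rhs, Set.indicator_of_mem (Set.mk_mem_prod hd hd'),
        Set.indicator_of_notMem (Set.notMem_compl_iff.2 (Set.mk_mem_prod hd hd')), zero_add]
      by_cases hm : comb (d, d') ∈ Gt
      · rw [Set.indicator_of_notMem (show (d, d') ∉ comb ⁻¹' Gtᶜ from fun h => h hm), mul_zero,
          add_zero, psiTot, Set.indicator_of_mem hm, hX]
        exact hB
      · rw [Set.indicator_of_mem (show (d, d') ∈ comb ⁻¹' Gtᶜ from hm), mul_one, psiTot,
          Set.indicator_of_notMem hm]
        linarith [(abs_le.1 hinc.2.1).1]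
    · simp only [rhs, Set.indicator_of_notMem hq, Set.indicator_of_mem (Set.mem_compl hq), zero_add]
      refine (le_abs_self _).trans (habs.trans (le_mul_of_one_le_right hC0 ?_))
      exact le_add_of_nonneg_right (Set.indicator_nonneg (fun _ _ => zero_le_one) _)
  have hfW : ∀ d' ∈ W, fsq (kmat n 1 d') ≤ 9 * n := fun d' hd' => by
    have := fsq_mul_le (C := 9) (fun u => by
      have := op_of_qform (kmat_isSymm 1 d') (R := 3) (by norm_num) (fun u => by
        rw [← cond_qform_eq_dot]; exact hd' u) u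
      linarith) (1 : Matrix (Fin n) (Fin n) ℝ)
    simpa [fsq] using this
  have hGb : ∀ d ∈ Gd, (∀ u, ∑ i, (G d *ᵥ u) i ^ 2 ≤ (∑ i, u i ^ 2) / η ^ 2) ∧ fsq (G d) ≤ n / η ^ 2
      ∧ 0 ≤ (G d).trace ∧ (G d).trace ≤ n / η ∧ (G d).IsSymm := fun d hd => by
    have hs : (bulkX v U τ d + (h * U) • (1 : Matrix (Fin n) (Fin n) ℝ)).IsSymm :=
      (bulkX_isSymm v U τ d).add (Matrix.isSymm_one.smul _)
    have hl : ∀ u, η * ∑ i, u i ^ 2
        ≤ u ⬝ᵥ ((bulkX v U τ d + (h * U) • (1 : Matrix (Fin n) (Fin n) ℝ)) *ᵥ u) := fun u => by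
      have e : u ⬝ᵥ ((bulkX v U τ d + (h * U) • (1 : Matrix (Fin n) (Fin n) ℝ)) *ᵥ u)
          = u ⬝ᵥ (bulkX v U τ d *ᵥ u) + h * U * ∑ i, u i ^ 2 := by
        rw [add_mulVec, smul_mulVec, one_mulVec, dotProduct_add, dotProduct_smul, smul_eq_mul]
        simp [dotProduct, pow_two]
      have : 0 ≤ h * U * ∑ i, u i ^ 2 := by positivity
      linarith [good_lower hd u]
    obtain ⟨a, b, c, f⟩ := inv_bounds hs hη hl
    exact ⟨a, b, c, f, (transpose_nonsing_inv _).trans (congrArg _ hs.eq)⟩
  have hop : ∀ d ∈ Gd, ∀ K : Matrix (Fin n) (Fin n) ℝ, fsq (G d * K) ≤ 1 / η ^ 2 * fsq K :=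
    fun d hd K => fsq_mul_le (fun u => le_trans ((hGb d hd).1 u) (le_of_eq (by ring))) K
  have hquad : ∀ K : Matrix (Fin n) (Fin n) ℝ, |(K * K).trace| ≤ fsq K := fun K => by
    have := trace_mul_abs_le K.transpose K
    rw [transpose_transpose] at this
    refine this.trans (le_of_eq ?_)
    have : fsq K.transpose = fsq K := by rw [fsq, fsq, transpose_transpose, Matrix.trace_mul_comm]
    rw [this, mul_self_sqrt (fsq_nonneg _)]
  set CB := C + h * U * (n / η) + √h * (3 * n / η) + h / 2 * (1 / η ^ 2 * (9 * n)) + e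
  have hBb : ∀ d ∈ Gd, ∀ d' ∈ W, |B d d'| ≤ CB := fun d hd d' hd' => by
    obtain ⟨-, hf, ht0, ht1, hs⟩ := hGb d hd
    have h1 : |relDet v (bulkX v U τ d)| ≤ C :=
      (increment hn hv hv1 hη hh hU hU1 hτ hτ1 hR hsmall hd hd').2.2
    have h2 : |(G d * kmat n 1 d').trace| ≤ 3 * n / η := by
      have := trace_mul_abs_le (G d) (kmat n 1 d')
      rw [hs.eq] at this
      refine this.trans ((mul_le_mul (sqrt_le_sqrt hf) (sqrt_le_sqrt (hfW d' hd')) (sqrt_nonneg _)
        (sqrt_nonneg _)).trans_eq ?_)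
      rw [← sqrt_mul (by positivity), show (n : ℝ) / η ^ 2 * (9 * n) = (3 * n / η) ^ 2 by ring,
        sqrt_sq (by positivity)]
    have h3 : |(G d * kmat n 1 d' * (G d * kmat n 1 d')).trace| ≤ 1 / η ^ 2 * (9 * n) :=
      (hquad _).trans ((hop d hd _).trans (mul_le_mul_of_nonneg_left (hfW d' hd') (by positivity)))
    have h4 := mul_le_mul_of_nonneg_left ht1 (show 0 ≤ h * U by positivity)
    have h5 : 0 ≤ h * U * (G d).trace := by positivity
    have h6 := mul_le_mul_of_nonneg_left (abs_le.1 h2).1 (sqrt_nonneg h)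
    have h7 := mul_le_mul_of_nonneg_left (abs_le.1 h2).2 (sqrt_nonneg h)
    have h8 := mul_le_mul_of_nonneg_left (abs_le.1 h3).1 (show 0 ≤ h / 2 by positivity)
    have h9 := mul_le_mul_of_nonneg_left (abs_le.1 h3).2 (show 0 ≤ h / 2 by positivity)
    simp only [B, CB, abs_le]
    have := abs_le.1 h1
    constructor <;> linarith
  have hGK : ∀ i j, Measurable fun q : Dis n × Dis n => (G q.1 * kmat n 1 q.2) i j := fun i j => by
    simp only [Matrix.mul_apply, kmat_apply]
    exact Finset.measurable_sum _ fun k _ => ((measurable_stepInv v U τ h i k).comp measurable_fst).mul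
      ((((continuous_goe k j).measurable).comp measurable_snd).const_mul _)
  have hBm : Measurable fun q : Dis n × Dis n => B q.1 q.2 := by
    have hr : Measurable fun d : Dis n => relDet v (bulkX v U τ d) := by
      refine ((Continuous.measurable ?_).log).sub_const _
      refine Continuous.matrix_det (continuous_pi fun i => continuous_pi fun j => ?_)
      simp only [bulkX, Matrix.sub_apply, Matrix.add_apply, Matrix.smul_apply, kmat_apply]
      exact continuous_const.sub ((continuous_goe i j).const_mul _)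
    refine (((hr.comp measurable_fst).add (Measurable.const_mul ?_ _)).sub
      (Measurable.const_mul ?_ _)).sub (Measurable.const_mul ?_ _) |>.add_const _
    · exact Finset.measurable_sum _ fun i _ => (measurable_stepInv v U τ h i i).comp measurable_fst
    · exact Finset.measurable_sum _ fun i _ => hGK i i
    · refine Finset.measurable_sum _ fun i _ => ?_
      simp only [Matrix.diag_apply, Matrix.mul_apply (M := G _ * kmat n 1 _)]
      exact Finset.measurable_sum _ fun k _ => (hGK i k).mul (hGK k i)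
  have hI1 : Integrable ((Gd ×ˢ W).indicator fun q => B q.1 q.2) ((disX n).prod (disX n)) := by
    refine (integrable_const CB).mono' (hBm.indicator (hGm.prod hWm)).aestronglyMeasurable
      (ae_of_all _ fun q => ?_)
    by_cases hq : q ∈ Gd ×ˢ W
    · rw [Set.indicator_of_mem hq, Real.norm_eq_abs]; exact hBb _ hq.1 _ hq.2
    · rw [Set.indicator_of_notMem hq, norm_zero]
      positivity
  have hc1 : Integrable ((Gd ×ˢ W)ᶜ.indicator fun _ => (1 : ℝ)) ((disX n).prod (disX n)) :=
    (integrable_const _).indicator (hGm.prod hWm).compl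
  have hc2 : Integrable ((comb ⁻¹' Gtᶜ).indicator fun _ => (1 : ℝ)) ((disX n).prod (disX n)) :=
    (integrable_const _).indicator (hcomb hGtm.compl)
  have hI2 : Integrable (fun q => C * ((Gd ×ˢ W)ᶜ.indicator (fun _ => (1 : ℝ)) q
      + (comb ⁻¹' Gtᶜ).indicator (fun _ => (1 : ℝ)) q)) ((disX n).prod (disX n)) :=
    (hc1.add hc2).const_mul C
  have hlhs : Integrable (fun q => psiTot v U η R T (comb q)) ((disX n).prod (disX n)) := by
    have hg : Integrable (psiTot v U η R T) ((disX n).map (√T • ·)) := by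
      rw [integrable_map_measure (measurable_psiTot v U η R T).aestronglyMeasurable hsmul.aemeasurable]
      refine (integrable_const C).mono'
        ((measurable_psiTot v U η R T).comp hsmul).aestronglyMeasurable (ae_of_all _ fun d => ?_)
      rw [Real.norm_eq_abs, Function.comp_apply, ← psiBulk_eq]
      exact abs_psiBulk_le hv hv1 hη hR hU hU1 (add_nonneg hτ hh) hτ1 d
    rw [← hlaw] at hg
    exact (integrable_map_measure (measurable_psiTot v U η R T).aestronglyMeasurable
      hcomb.aemeasurable).1 hg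
  rw [hF]
  refine (integral_mono hlhs (hI1.add hI2) hkey).trans ?_
  simp only [Pi.add_apply]
  rw [integral_add hI1 hI2, integral_const_mul, integral_add hc1 hc2,
    integral_indicator_const _ (hGm.prod hWm).compl, integral_indicator_const _ (hcomb hGtm.compl)]
  simp only [smul_eq_mul, mul_one]
  have hbad : ((disX n).prod (disX n)).real (Gd ×ˢ W)ᶜ ≤ 2 * p := by
    have hsub : (Gd ×ˢ W)ᶜ ⊆ Gdᶜ ×ˢ Set.univ ∪ Set.univ ×ˢ Wᶜ := fun q hq => by
      simp only [Set.mem_compl_iff, Set.mem_prod, not_and_or] at hq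
      simpa using hq
    refine (measureReal_mono hsub (measure_ne_top _ _)).trans ((measureReal_union_le _ _).trans ?_)
    simp only [measureReal_prod_prod, probReal_univ, mul_one, one_mul]
    linarith
  -- the main term
  set E := 1 / η ^ 2 / n * (2 * ((Fintype.card (Pair n ⊕ Fin n) : ℝ) * (3 / (2 * M) + M / 2 * p)))
  have hmain : ∫ q, (Gd ×ˢ W).indicator (fun q => B q.1 q.2) q ∂(disX n).prod (disX n)
      ≤ ∫ d, psiBulk v U η R τ d ∂disX n + n * (h * U ^ 2 / 2) + e + C * p + h / 2 * E := by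
    rw [integral_prod _ hI1]
    have hψi : Integrable (psiBulk v U η R τ) (disX n) :=
      (integrable_const C).mono' (measurable_psiBulk v U η R τ).aestronglyMeasurable
        (ae_of_all _ fun d => abs_psiBulk_le hv hv1 hη hR hU hU1 hτ (by linarith) d)
    have hp : 0 ≤ p := measureReal_nonneg.trans hp0
    have hK0 : 0 ≤ n * (h * U ^ 2 / 2) + e + C * p + h / 2 * E := by positivity
    refine (integral_mono hI1.integral_prod_left (hψi.add (integrable_const
      (n * (h * U ^ 2 / 2) + e + C * p + h / 2 * E))) fun d => ?_).trans (le_of_eq ?_)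
    swap
    · simp only [Pi.add_apply]
      rw [integral_add hψi (integrable_const _)]
      simp
      ring
    simp only [Pi.add_apply]
    by_cases hd : d ∈ Gd
    swap
    · have : ∀ d', (Gd ×ˢ W).indicator (fun q => B q.1 q.2) (d, d') = 0 := fun d' =>
        Set.indicator_of_notMem (fun h => hd h.1) _
      simp only [this, integral_zero, psiBulk, show d ∉ goodBulk v U η R τ from hd, not_false_eq_true,
        Set.indicator_of_notMem, zero_add]
      exact hK0
    obtain ⟨-, hf, ht0, ht1, hs⟩ := hGb d hd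
    have hind : ∀ d', (Gd ×ˢ W).indicator (fun q => B q.1 q.2) (d, d') = W.indicator (B d) d' :=
      fun d' => by
        by_cases hw : d' ∈ W
        · rw [Set.indicator_of_mem hw, Set.indicator_of_mem (Set.mk_mem_prod hd hw)]
        · rw [Set.indicator_of_notMem hw, Set.indicator_of_notMem (fun h => hw h.2)]
    simp only [hind]
    have hrel : |relDet v (bulkX v U τ d)| ≤ C := by
      have := abs_psiBulk_le (U := U) hv hv1 hη hR hU hU1 hτ (show τ ≤ 1 by linarith) d
      rwa [psiBulk, Set.indicator_of_mem hd] at this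
    rw [psiBulk, Set.indicator_of_mem hd]
    exact inner_bound hn hη hh hU hM hWm hs hf ht0 ((hGb d hd).1) hrel hpW he0
  have h1 := mul_le_mul_of_nonneg_left (add_le_add hbad hGtp) hC0
  linarith

end Vale.Agent.P150.Fast
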