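import Vale.Agent.P150.Fast.Cavity.Ladder.Main
import Vale.Agent.P150.Fast.Entropy.Main
import Vale.Agent.P150.Fast.SFZero
import Vale.Agent.P150.Fast.ThreeBEmp

/-!
The first half of fast mixing below the transition from the core of the cavity picture (P150).
-/

namespace Vale.Agent.P150.Fast

theorem phaseOne_of_core {β : ℝ} (hβ0 : 0 ≤ β) (hβ1 : β < 1) (hC : CoreStmt β) : PhaseOne β :=
  Entropy.phaseOne hβ0 hβ1 (Ladder.cavityStmt_of_core hβ0 hβ1 hC) (sfZero_of empThreeB hβ0 hβ1)

end Vale.Agent.P150.Fast
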