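import Vale.Agent.P150.Fast.ThreeB.Certs

/-!
P150 (3b): the scalar inequality
`2 √q E[g m] - E[m artanh m] ≤ q (1 - q)`, `q = E m²`, `g` standard Gaussian,
in probability and in empirical form.
-/

open MeasureTheory ProbabilityTheory Finset

namespace Vale.Agent.P150.Fast.ThreeB

/-- The first four terms of the series of `m artanh m`. -/
noncomputable def Spoly (m : ℝ) : ℝ := m ^ 2 + m ^ 4 / 3 + m ^ 6 / 5 + m ^ 8 / 7

theorem Spoly_nonneg (m : ℝ) : 0 ≤ Spoly m := by unfold Spoly; positivity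

theorem Spoly_le_artanh {m : ℝ} (hm : |m| < 1) : Spoly m ≤ m * Real.artanh m := by
  have hl : Real.artanh m = 1 / 2 * (Real.log (1 + m) - Real.log (1 - m)) := by
    rw [Real.artanh_eq_half_log ⟨(abs_lt.1 hm).1.le, (abs_lt.1 hm).2.le⟩,
      Real.log_div (by linarith [(abs_lt.1 hm).1]) (by linarith [(abs_lt.1 hm).2])]
  have h := (Real.hasSum_log_sub_log_of_abs_lt_one hm).mul_left (m / 2)
  rw [show m / 2 * (Real.log (1 + m) - Real.log (1 - m)) = m * Real.artanh m by
    rw [hl]; ring] at h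
  refine le_of_eq_of_le ?_ (sum_le_hasSum (range 4) (fun k _ => ?_) h)
  · simp only [Spoly, Finset.sum_range_succ, Finset.sum_range_zero]
    push_cast
    ring
  · have e : m / 2 * (2 * (1 / (2 * (k : ℝ) + 1)) * m ^ (2 * k + 1)) =
        1 / (2 * (k : ℝ) + 1) * (m ^ (k + 1)) ^ 2 := by ring
    rw [e]
    positivity

/-- Finitely many functions give dual certificates for every `q ∈ (0, 1]`. -/
theorem covers_all : Covers 0 1 := covers_range

/-- (3b) on an arbitrary probability space. -/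
theorem threeB {Ω : Type*} [MeasurableSpace Ω] {P : Measure Ω} [IsProbabilityMeasure P]
    {g m : Ω → ℝ} (hg : Measurable g) (law : P.map g = gaussianReal 0 1) (hm : Measurable m)
    (hb : ∀ ω, |m ω| ≤ 1) :
    2 * Real.sqrt (∫ ω, m ω ^ 2 ∂P) * (∫ ω, g ω * m ω ∂P) - (∫ ω, Spoly (m ω) ∂P) ≤
      (∫ ω, m ω ^ 2 ∂P) * (1 - ∫ ω, m ω ^ 2 ∂P) := by
  have i : ∀ j : ℕ, Integrable (fun ω => m ω ^ j) P := integrable_bdd hm hb
  have hsq : ∀ ω, m ω ^ 2 ≤ 1 := fun ω => by
    rw [← sq_abs]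
    have := pow_le_pow_left₀ (abs_nonneg (m ω)) (hb ω) 2
    simpa using this
  set q := ∫ ω, m ω ^ 2 ∂P with hq
  have hq0 : 0 ≤ q := integral_nonneg fun ω => sq_nonneg _
  have hq1 : q ≤ 1 := by
    refine (integral_mono (i 2) (integrable_const 1) hsq).trans ?_
    simp
  rcases hq0.eq_or_lt with h0 | h0
  · rw [← h0]
    have : 0 ≤ ∫ ω, Spoly (m ω) ∂P := integral_nonneg fun ω => Spoly_nonneg _
    simp
    linarith
  obtain ⟨ι, _, F, W, -, hcov⟩ := covers_all
  obtain ⟨k, w, -, hd⟩ := hcov q h0 hq1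
  have hr : 0 < Real.sqrt q := Real.sqrt_pos.2 h0
  have hr2 : Real.sqrt q ^ 2 = q := Real.sq_sqrt hq0
  set y : Ω → ℝ := fun ω => m ω / Real.sqrt q with hy
  have H : Coupled P g y := by
    refine ⟨hg, law, hm.div_const _, ⟨1 / Real.sqrt q, fun ω => ?_⟩, ?_⟩
    · simp only [hy, abs_div, abs_of_pos hr]
      exact div_le_div_of_nonneg_right (hb ω) hr.le
    · simp only [hy, div_pow, integral_div, hr2, ← hq]
      exact div_self h0.ne'
  have h := (H.of_minorant k _ _ _ hd.int hd.le)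
  have hv := hd.value.trans h
  have p4 : Real.sqrt q ^ 4 = q ^ 2 := by rw [show 4 = 2 * 2 by norm_num, pow_mul, hr2]
  have p6 : Real.sqrt q ^ 6 = q ^ 3 := by rw [show 6 = 2 * 3 by norm_num, pow_mul, hr2]
  have p8 : Real.sqrt q ^ 8 = q ^ 4 := by rw [show 8 = 2 * 4 by norm_num, pow_mul, hr2]
  simp only [Phi, hy, div_pow, integral_div, p4, p6, p8, ← mul_div_assoc] at hv
  have hS : ∫ ω, Spoly (m ω) ∂P = q + (∫ ω, m ω ^ 4 ∂P) / 3 + (∫ ω, m ω ^ 6 ∂P) / 5 +
      (∫ ω, m ω ^ 8 ∂P) / 7 := by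
    simp only [Spoly]
    rw [integral_add (((i 2).fun_add ((i 4).div_const 3)).fun_add ((i 6).div_const 5))
        ((i 8).div_const 7),
      integral_add ((i 2).fun_add ((i 4).div_const 3)) ((i 6).div_const 5),
      integral_add (i 2) ((i 4).div_const 3), integral_div, integral_div, integral_div]
  rw [hS]
  have h2 := mul_le_mul_of_nonneg_left hv hq0
  have e1 : q * (2 * (∫ ω, g ω * m ω ∂P) / Real.sqrt q) =
      2 * Real.sqrt q * ∫ ω, g ω * m ω ∂P := by
    nth_rewrite 1 [← hr2]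
    field_simp
  field_simp at h2 e1 ⊢
  nlinarith

/-- (3b) with `artanh`, for `|m| < 1`. -/
theorem threeB_artanh {Ω : Type*} [MeasurableSpace Ω] {P : Measure Ω} [IsProbabilityMeasure P]
    {g m : Ω → ℝ} (hg : Measurable g) (law : P.map g = gaussianReal 0 1) (hm : Measurable m)
    (hb : ∀ ω, |m ω| < 1) (hi : Integrable (fun ω => m ω * Real.artanh (m ω)) P) :
    2 * Real.sqrt (∫ ω, m ω ^ 2 ∂P) * (∫ ω, g ω * m ω ∂P) -
        (∫ ω, m ω * Real.artanh (m ω) ∂P) ≤
      (∫ ω, m ω ^ 2 ∂P) * (1 - ∫ ω, m ω ^ 2 ∂P) := by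
  have h := threeB hg law hm fun ω => (hb ω).le
  have i : ∀ j : ℕ, Integrable (fun ω => m ω ^ j) P := integrable_bdd hm fun ω => (hb ω).le
  have hs : Integrable (fun ω => Spoly (m ω)) P :=
    (((i 2).fun_add ((i 4).div_const 3)).fun_add ((i 6).div_const 5)).fun_add ((i 8).div_const 7)
  have h2 := integral_mono hs hi fun ω => Spoly_le_artanh (hb ω)
  linarith

/-- (3b) for empirical laws: it follows from a law of large numbers for finitely many
functions, uniformly in `m` and in `q`. -/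
theorem threeB_empirical : ∃ (ι : Type) (_ : Fintype ι) (F : ι → ℝ → ℝ) (C : ℝ), 0 ≤ C ∧
    (∀ i, Integrable (F i) (gaussianReal 0 1)) ∧ ∀ (n : ℕ) (g m : Fin n → ℝ) (η : ℝ),
      (∀ j, |m j| ≤ 1) → 0 ≤ η →
      (∀ i, |(∑ j, F i (g j)) - n * ∫ x, F i x ∂gaussianReal 0 1| ≤ η * n) →
      2 * Real.sqrt ((∑ j, m j ^ 2) / n) * ∑ j, g j * m j ≤
        (∑ j, Spoly (m j)) + (∑ j, m j ^ 2) / n * (1 - (∑ j, m j ^ 2) / n) * n + C * η * n := by
  obtain ⟨ι, hι, F, W, hF, hcov⟩ := covers_all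
  refine ⟨ι, hι, F, Fintype.card ι * max W 0, by positivity, hF, fun n g m η hm hη hlln => ?_⟩
  set q := (∑ j, m j ^ 2) / n with hq
  have hS : 0 ≤ ∑ j, Spoly (m j) := Finset.sum_nonneg fun j _ => Spoly_nonneg _
  have hC : 0 ≤ (Fintype.card ι : ℝ) * max W 0 * η * n := by positivity
  have hq0 : 0 ≤ q := by positivity
  rcases hq0.eq_or_lt with h0 | h0
  · rw [← h0]; simp; linarith
  have hn : (0 : ℝ) < n := by
    rcases Nat.eq_zero_or_pos n with h | h
    · subst h; simp [hq] at h0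
    · exact_mod_cast h
  have hq1 : q ≤ 1 := by
    rw [hq, div_le_one hn]
    calc ∑ j, m j ^ 2 ≤ ∑ _j : Fin n, (1 : ℝ) := Finset.sum_le_sum fun j _ => by
          rw [← sq_abs]; simpa using pow_le_pow_left₀ (abs_nonneg (m j)) (hm j) 2
      _ = n := by simp
  obtain ⟨k, w, hw, hd⟩ := hcov q h0 hq1
  have hr : 0 < Real.sqrt q := Real.sqrt_pos.2 h0
  have hr2 : Real.sqrt q ^ 2 = q := Real.sq_sqrt hq0
  have hp : ∀ (z : ℝ) (j : ℕ), (z / Real.sqrt q) ^ (2 * j) = z ^ (2 * j) / q ^ j := fun z j => by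
    rw [div_pow, pow_mul (Real.sqrt q), hr2]
  have hj : ∀ j, q * ∑ i, w i * F i (g j) ≤
      (k - 1) * m j ^ 2 + Spoly (m j) - 2 * Real.sqrt q * (g j * m j) := by
    intro j
    refine (mul_le_mul_of_nonneg_left (hd.le (g j) (m j / Real.sqrt q)) hq0).trans_eq ?_
    have h4 := hp (m j) 2
    have h6 := hp (m j) 3
    have h8 := hp (m j) 4
    have h2 := hp (m j) 1
    norm_num at h2 h4 h6 h8
    simp only [hP, h2, h4, h6, h8, Spoly]
    have e : q / Real.sqrt q = Real.sqrt q := Real.div_sqrt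
    rw [mul_sub, show q * (2 * g j * (m j / Real.sqrt q)) =
      2 * (g j * m j) * (q / Real.sqrt q) by ring, e]
    field_simp
    ring
  have hsum := Finset.sum_le_sum fun j (_ : j ∈ Finset.univ) => hj j
  simp only [Finset.sum_sub_distrib, Finset.sum_add_distrib, ← Finset.mul_sum] at hsum
  rw [Finset.sum_comm] at hsum
  simp only [← Finset.mul_sum] at hsum
  have hlow : n * (∫ x, ∑ i, w i * F i x ∂gaussianReal 0 1) -
      Fintype.card ι * max W 0 * η * n ≤ ∑ i, w i * ∑ j, F i (g j) := by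
    rw [integral_finsetSum _ fun i _ => (hF i).const_mul _]
    simp only [integral_const_mul]
    have hi : ∀ i, w i * (n * ∫ x, F i x ∂gaussianReal 0 1) - max W 0 * (η * n) ≤
        w i * ∑ j, F i (g j) := by
      intro i
      have h1 : |w i * ((∑ j, F i (g j)) - n * ∫ x, F i x ∂gaussianReal 0 1)| ≤
          max W 0 * (η * n) := by
        rw [abs_mul]
        exact mul_le_mul ((hw i).trans (le_max_left _ _)) (hlln i) (abs_nonneg _) (le_max_right _ _)
      linarith [(abs_le.1 h1).1]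
    have h := Finset.sum_le_sum fun i (_ : i ∈ Finset.univ) => hi i
    simp only [Finset.sum_sub_distrib, Finset.sum_const, Finset.card_univ, nsmul_eq_mul] at h
    rw [Finset.mul_sum]
    calc ∑ i, (n : ℝ) * (w i * ∫ x, F i x ∂gaussianReal 0 1) -
          Fintype.card ι * max W 0 * η * n
        = ∑ i, w i * (n * ∫ x, F i x ∂gaussianReal 0 1) -
            Fintype.card ι * (max W 0 * (η * n)) := by
          congr 1
          · exact Finset.sum_congr rfl fun i _ => by ring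
          · ring
      _ ≤ _ := h
  have hm2 : ∑ j, m j ^ 2 = q * n := by rw [hq]; field_simp
  have h1 := mul_le_mul_of_nonneg_left hlow hq0
  have hv := mul_le_mul_of_nonneg_left hd.value (mul_nonneg hq0 hn.le)
  have hCq : q * (Fintype.card ι * max W 0 * η * n) ≤ Fintype.card ι * max W 0 * η * n :=
    mul_le_of_le_one_left hC hq1
  rw [hm2] at hsum
  linarith

end Vale.Agent.P150.Fast.ThreeB
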