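import Vale.Agent.P150.Fast.Margin

/-!
The deterministic step from the margin to an exact TAP point (P150): the margin at nearby weights
makes the gradient of the TAP functional strongly monotone in a ball, hence an approximate
critical point has an exact one next to it, unique in the ball and stable in the field.
-/

open Real Finset Set

namespace Vale.Agent.P150.Fast

variable {n : ℕ}

/-- The TAP gradient in the coordinates of the means. -/
noncomputable def tapGrad (K : Matrix (Fin n) (Fin n) ℝ) (h : Fin n → ℝ) (τ : ℝ) (m : Fin n → ℝ)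
    (i : Fin n) : ℝ :=
  artanh (m i) - h i - (∑ j, K i j * m j) + τ * (1 - (∑ j, m j ^ 2) / n) * m i

/-- The TAP functional. -/
noncomputable def tapFun (K : Matrix (Fin n) (Fin n) ℝ) (h : Fin n → ℝ) (τ : ℝ) (m : Fin n → ℝ) : ℝ :=
  ∑ i, -binEntropy ((1 + m i) / 2) - ∑ i, h i * m i - Ent.qform K m / 2
    - τ * n / 4 * (1 - (∑ j, m j ^ 2) / n) ^ 2

/-- The weights for the secant slopes: raised by `θ`, and `1` on an exceptional set. -/
noncomputable def vsec (θ : ℝ) (m : Fin n → ℝ) (S : Finset (Fin n)) (i : Fin n) : ℝ :=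
  if i ∈ S then 1 else min 1 (1 - m i ^ 2 + 2 * θ)

/-- The margin at `m`, uniformly over sparse exceptional sets. -/
def BallMargin (K : Matrix (Fin n) (Fin n) ℝ) (τ η θ σ : ℝ) (m : Fin n → ℝ) : Prop :=
  ∀ S : Finset (Fin n), (S.card : ℝ) ≤ σ * n → ∀ u : Fin n → ℝ,
    Ent.qform K u + 2 * τ / n * (∑ i, u i * m i) ^ 2 + η * ∑ i, u i ^ 2
      ≤ ∑ i, u i ^ 2 / vsec θ m S i + τ * (1 - (∑ j, m j ^ 2) / n) * ∑ i, u i ^ 2

theorem hasDerivAt_artanh {z : ℝ} (hz : z ∈ Ioo (-1 : ℝ) 1) :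
    HasDerivAt artanh (1 / (1 - z ^ 2)) z := by
  have h1 : 0 < 1 + z := by linarith [hz.1]
  have h2 : 0 < 1 - z := by linarith [hz.2]
  have hd := ((((hasDerivAt_id' z).const_add 1).log h1.ne').sub
    (((hasDerivAt_id' z).const_sub 1).log h2.ne')).div_const 2
  refine (hd.congr_deriv ?_).congr_of_eventuallyEq ?_
  · have h3 : (1 - z ^ 2) = (1 + z) * (1 - z) := by ring
    rw [h3]
    field_simp
    ring
  · filter_upwards [Ioo_mem_nhds hz.1 hz.2] with y hy
    rw [artanh_eq_half_log ⟨hy.1.le, hy.2.le⟩, log_div (by linarith [hy.1]) (by linarith [hy.2])]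
    simp only [Pi.sub_apply]
    ring

theorem secant_ge {x y w : ℝ} (hx : x ∈ Ioo (-1 : ℝ) 1) (hy : y ∈ Ioo (-1 : ℝ) 1)
    (hw : ∀ z ∈ uIcc x y, 1 - z ^ 2 ≤ w) : (y - x) ^ 2 / w ≤ (artanh y - artanh x) * (y - x) := by
  rcases eq_or_ne x y with rfl | hne
  · simp
  have hsub : uIcc x y ⊆ Ioo (-1 : ℝ) 1 := (convex_Ioo (-1 : ℝ) 1).ordConnected.uIcc_subset hx hy
  have key : ∀ a b : ℝ, a < b → Icc a b ⊆ Ioo (-1 : ℝ) 1 → (∀ z ∈ Icc a b, 1 - z ^ 2 ≤ w) →
      (b - a) ^ 2 / w ≤ (artanh b - artanh a) * (b - a) := fun a b hab hs hwz => by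
    obtain ⟨c, hc, he⟩ := exists_hasDerivAt_eq_slope artanh (fun z => 1 / (1 - z ^ 2)) hab
      (fun z hz => (hasDerivAt_artanh (hs hz)).continuousAt.continuousWithinAt)
      (fun z hz => hasDerivAt_artanh (hs (Ioo_subset_Icc_self hz)))
    have hc' := hs (Ioo_subset_Icc_self hc)
    have h0 : 0 < 1 - c ^ 2 := by nlinarith [hc'.1, hc'.2]
    have hcw := hwz c (Ioo_subset_Icc_self hc)
    have e : (artanh b - artanh a) * (b - a) = (b - a) ^ 2 / (1 - c ^ 2) := by
      have hba : b - a ≠ 0 := by linarith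
      rw [eq_div_iff hba] at he
      rw [← he]
      field_simp
    rw [e]
    exact div_le_div_of_nonneg_left (sq_nonneg _) h0 hcw
  rcases hne.lt_or_gt with h | h
  · rw [uIcc_of_le h.le] at hsub hw
    exact key x y h hsub hw
  · rw [uIcc_of_ge h.le] at hsub hw
    have e1 : (y - x) ^ 2 = (x - y) ^ 2 := by ring
    have e2 : (artanh y - artanh x) * (y - x) = (artanh x - artanh y) * (x - y) := by ring
    rw [e1, e2]
    exact key y x h hsub hw

theorem sum_qform (K : Matrix (Fin n) (Fin n) ℝ) (u : Fin n → ℝ) :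
    ∑ i, (∑ j, K i j * u j) * u i = Ent.qform K u := by
  simp only [Ent.qform, sum_mul]
  exact sum_congr rfl fun i _ => sum_congr rfl fun j _ => by ring

/-- Strong monotonicity of the TAP gradient around a point with the margin. -/
theorem tapGrad_mono (hn : 0 < n) {K : Matrix (Fin n) (Fin n) ℝ} {h : Fin n → ℝ}
    {τ η θ σ δ : ℝ} (hτ : 0 ≤ τ) (hδ1 : δ ≤ 1) (hθ : 0 < θ) (hδ : 0 ≤ δ) (hσ : δ ^ 2 ≤ σ * θ ^ 2)
    {m m' : Fin n → ℝ} (hm : ∀ i, m i ∈ Ioo (-1 : ℝ) 1) (hm' : ∀ i, m' i ∈ Ioo (-1 : ℝ) 1)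
    (hM : BallMargin K τ η θ σ m) (hd : ∑ i, (m' i - m i) ^ 2 ≤ δ ^ 2 * n) :
    (η - 4 * δ * τ) * ∑ i, (m' i - m i) ^ 2
      ≤ ∑ i, (tapGrad K h τ m' i - tapGrad K h τ m i) * (m' i - m i) := by
  have hn' : (0 : ℝ) < n := by exact_mod_cast hn
  set Δ : Fin n → ℝ := fun i => m' i - m i with hΔ
  set S := univ.filter fun i => θ < |Δ i| with hS
  have hcard : (S.card : ℝ) ≤ σ * n := by
    have h1 : (S.card : ℝ) * θ ^ 2 ≤ ∑ i, Δ i ^ 2 := by
      have e : (S.card : ℝ) * θ ^ 2 = ∑ _i ∈ S, θ ^ 2 := by simp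
      rw [e]
      refine (Finset.sum_le_sum fun i hi => ?_).trans
        (Finset.sum_le_univ_sum_of_nonneg fun i => sq_nonneg (Δ i))
      rw [hS, Finset.mem_filter] at hi
      rw [← sq_abs (Δ i)]
      exact pow_le_pow_left₀ hθ.le hi.2.le 2
    refine le_of_mul_le_mul_right ?_ (pow_pos hθ 2)
    linarith [mul_le_mul_of_nonneg_right hσ hn'.le]
  have hsec : ∀ i, Δ i ^ 2 / vsec θ m S i ≤ (artanh (m' i) - artanh (m i)) * Δ i := fun i => by
    refine secant_ge (hm i) (hm' i) fun z hz => ?_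
    unfold vsec
    split_ifs with hi
    · linarith [sq_nonneg z]
    · refine le_min (by linarith [sq_nonneg z]) ?_
      have hle : |Δ i| ≤ θ := by simpa [hS] using hi
      have hzd : |z - m i| ≤ θ := (abs_sub_left_of_mem_uIcc hz).trans hle
      have hz1 : |z| ≤ 1 := by
        have := (convex_Ioo (-1 : ℝ) 1).ordConnected.uIcc_subset (hm i) (hm' i) hz
        exact abs_le.2 ⟨this.1.le, this.2.le⟩
      have hm1 : |m i| ≤ 1 := abs_le.2 ⟨(hm i).1.le, (hm i).2.le⟩
      have : |(z - m i) * (z + m i)| ≤ θ * 2 := by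
        rw [abs_mul]
        exact mul_le_mul hzd ((abs_add_le _ _).trans (by linarith)) (abs_nonneg _) hθ.le
      linarith [neg_abs_le ((z - m i) * (z + m i))]
  set a := ∑ i, Δ i * m i with ha
  set D := ∑ i, Δ i ^ 2 with hD
  set Q := ∑ j, m j ^ 2 with hQ
  have hD0 : 0 ≤ D := sum_nonneg fun i _ => sq_nonneg _
  have hQ' : ∑ j, m' j ^ 2 = Q + 2 * a + D := by
    simp only [hQ, ha, hD, mul_sum, ← sum_add_distrib]
    exact sum_congr rfl fun i _ => by simp only [hΔ]; ring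
  have hmD : ∑ i, m' i * Δ i = a + D := by
    simp only [ha, hD, ← sum_add_distrib]
    exact sum_congr rfl fun i _ => by simp only [hΔ]; ring
  have e : ∑ i, (tapGrad K h τ m' i - tapGrad K h τ m i) * Δ i
      = ∑ i, (artanh (m' i) - artanh (m i)) * Δ i - Ent.qform K Δ + τ * (1 - Q / n) * D
        - τ * (2 * a + D) * (a + D) / n := by
    rw [← sum_qform]
    have e1 : ∀ i, (tapGrad K h τ m' i - tapGrad K h τ m i) * Δ i
        = (artanh (m' i) - artanh (m i)) * Δ i - (∑ j, K i j * Δ j) * Δ i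
          + τ * (1 - Q / n) * Δ i ^ 2 - τ * (2 * a + D) / n * (m' i * Δ i) := fun i => by
      simp only [tapGrad, hQ', ← hQ, hΔ, mul_sub, sum_sub_distrib]
      ring
    simp only [e1, sum_sub_distrib, sum_add_distrib, ← mul_sum, hmD, hD]
    ring
  have hM' := hM S hcard Δ
  rw [← ha, ← hQ, ← hD] at hM'
  have hs := sum_le_sum fun i (_ : i ∈ Finset.univ) => hsec i
  have haD : |a| ≤ δ * n := by
    refine abs_le_of_sq_le_sq ?_ (by positivity)
    have h1 := sum_mul_sq_le_sq_mul_sq univ Δ m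
    have h2 : ∑ i, m i ^ 2 ≤ n := by
      refine (sum_le_sum fun i _ => ?_).trans_eq (show ∑ _i : Fin n, (1 : ℝ) = n by simp)
      exact (sq_le_one_iff_abs_le_one _).2 (abs_le.2 ⟨(hm i).1.le, (hm i).2.le⟩)
    rw [← ha, ← hD] at h1
    have h3 : D * ∑ i, m i ^ 2 ≤ δ ^ 2 * n * n :=
      mul_le_mul hd h2 (sum_nonneg fun i _ => sq_nonneg _) (by positivity)
    rw [mul_pow]
    linarith
  have hA : τ * (2 * a + D) * (a + D) / n ≤ 2 * τ / n * a ^ 2 + 4 * δ * τ * D := by
    have h1 : 3 * a * D + D ^ 2 ≤ 4 * δ * n * D := by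
      have h4 : δ ^ 2 * (n : ℝ) ≤ δ * n := mul_le_mul_of_nonneg_right (by nlinarith) hn'.le
      have h5 : 3 * a + D ≤ 4 * δ * n := by linarith [le_abs_self a]
      linarith [mul_le_mul_of_nonneg_right h5 hD0]
    rw [div_le_iff₀ hn', add_mul, div_mul_eq_mul_div, div_mul_cancel₀ _ hn'.ne']
    linarith [mul_le_mul_of_nonneg_left h1 hτ]
  rw [e]
  simp only [← hD] at *
  linarith

theorem continuous_tapFun (K : Matrix (Fin n) (Fin n) ℝ) (h : Fin n → ℝ) (τ : ℝ) :
    Continuous (tapFun K h τ) := by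
  unfold tapFun Ent.qform
  fun_prop

theorem hasDerivAt_negBinEnt {y : ℝ} (hy : y ∈ Ioo (-1 : ℝ) 1) :
    HasDerivAt (fun y => -binEntropy ((1 + y) / 2)) (artanh y) y := by
  have h1 : (1 + y) / 2 ≠ 0 := by linarith [hy.1]
  have h2 : (1 + y) / 2 ≠ 1 := by linarith [hy.2]
  have hd := ((hasDerivAt_binEntropy h1 h2).comp y (((hasDerivAt_id' y).const_add 1).div_const 2)).neg
  refine hd.congr_deriv ?_
  have a1 : 1 + y ≠ 0 := by linarith [hy.1]
  have a2 : 1 - y ≠ 0 := by linarith [hy.2]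
  rw [artanh_eq_half_log ⟨hy.1.le, hy.2.le⟩, show (1 - (1 + y) / 2) = (1 - y) / 2 by ring,
    log_div a2 two_ne_zero, log_div a1 two_ne_zero, log_div a1 a2]
  ring

theorem hasDerivAt_tap_line (hn : 0 < n) (K : Matrix (Fin n) (Fin n) ℝ) (hK : ∀ i j, K i j = K j i)
    (h : Fin n → ℝ) (τ : ℝ) (m Δ : Fin n → ℝ) (s : ℝ)
    (hs : ∀ i, m i + s * Δ i ∈ Ioo (-1 : ℝ) 1) :
    HasDerivAt (fun s => tapFun K h τ fun i => m i + s * Δ i)
      (∑ i, tapGrad K h τ (fun i => m i + s * Δ i) i * Δ i) s := by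
  have hn' : (0 : ℝ) < n := by exact_mod_cast hn
  have hl : ∀ i, HasDerivAt (fun s => m i + s * Δ i) (Δ i) s := fun i => by
    simpa using ((hasDerivAt_id' s).mul_const (Δ i)).const_add (m i)
  set x : Fin n → ℝ := fun i => m i + s * Δ i with hx
  have d1 : HasDerivAt (fun s => ∑ i, -binEntropy ((1 + (m i + s * Δ i)) / 2))
      (∑ i, artanh (x i) * Δ i) s :=
    HasDerivAt.fun_sum fun i _ =>
      HasDerivAt.comp (h₂ := fun y => -binEntropy ((1 + y) / 2)) s (hasDerivAt_negBinEnt (hs i)) (hl i)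
  have d2 : HasDerivAt (fun s => ∑ i, h i * (m i + s * Δ i)) (∑ i, h i * Δ i) s :=
    HasDerivAt.fun_sum fun i _ => (hl i).const_mul _
  have d3 : HasDerivAt (fun s => Ent.qform K fun i => m i + s * Δ i)
      (∑ i, ∑ j, (Δ i * K i j * x j + x i * K i j * Δ j)) s :=
    HasDerivAt.fun_sum fun i _ => HasDerivAt.fun_sum fun j _ =>
      (((hl i).mul_const (K i j)).mul (hl j))
  have d4 : HasDerivAt (fun s => ∑ j, (m j + s * Δ j) ^ 2) (2 * ∑ j, x j * Δ j) s := by
    refine (HasDerivAt.fun_sum fun j _ => (hl j).pow 2).congr_deriv ?_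
    rw [mul_sum]
    exact sum_congr rfl fun j _ => by simp only [hx]; push_cast; ring
  have d5 := ((((d4.div_const (n : ℝ)).const_sub 1).pow 2).const_mul (τ * n / 4))
  have hd := ((d1.sub d2).sub (d3.div_const 2)).sub d5
  unfold tapFun
  refine hd.congr_deriv ?_
  have e3 : ∑ i, ∑ j, (Δ i * K i j * x j + x i * K i j * Δ j)
      = 2 * ∑ i, (∑ j, K i j * x j) * Δ i := by
    simp only [sum_add_distrib]
    have : ∑ i, ∑ j, x i * K i j * Δ j = ∑ i, ∑ j, Δ i * K i j * x j := by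
      rw [sum_comm]
      exact sum_congr rfl fun i _ => sum_congr rfl fun j _ => by rw [hK]; ring
    rw [this, ← two_mul]
    congr 1
    simp only [sum_mul]
    exact sum_congr rfl fun i _ => sum_congr rfl fun j _ => by ring
  have e4 : ∑ i, tapGrad K h τ x i * Δ i = ∑ i, artanh (x i) * Δ i - ∑ i, h i * Δ i
      - ∑ i, (∑ j, K i j * x j) * Δ i + τ * (1 - (∑ j, x j ^ 2) / n) * ∑ j, x j * Δ j := by
    rw [mul_sum, ← sum_sub_distrib, ← sum_sub_distrib, ← sum_add_distrib]
    exact sum_congr rfl fun i _ => by simp only [tapGrad]; ring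
  rw [e3, e4]
  simp only [hx]
  push_cast
  field_simp
  ring

/-- An exact TAP point next to an approximate one. -/
theorem exists_tap_root (hn : 0 < n) {K : Matrix (Fin n) (Fin n) ℝ} (hK : ∀ i j, K i j = K j i)
    {h : Fin n → ℝ} {τ η θ σ δ : ℝ} (hτ : 0 ≤ τ) (hδ1 : δ ≤ 1) (hθ : 0 < θ) (hδ : 0 < δ)
    (hσ : δ ^ 2 ≤ σ * θ ^ 2) {m : Fin n → ℝ} (hm : ∀ i, m i ∈ Ioo (-1 : ℝ) 1)
    (hM : BallMargin K τ η θ σ m) (hη : 4 * δ * τ < η)
    (hres : √(∑ i, tapGrad K h τ m i ^ 2) < (η - 4 * δ * τ) / 2 * (δ * √n)) :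
    ∃ M : Fin n → ℝ, (∀ i, M i ∈ Ioo (-1 : ℝ) 1) ∧ ∑ i, (M i - m i) ^ 2 < δ ^ 2 * n ∧
      ∀ i, tapGrad K h τ M i = 0 := by
  have hn' : (0 : ℝ) < n := by exact_mod_cast hn
  set c := η - 4 * δ * τ
  set B : Set (Fin n → ℝ) := {x | (∀ i, x i ∈ Icc (-1 : ℝ) 1) ∧ ∑ i, (x i - m i) ^ 2 ≤ δ ^ 2 * n}
  have hBc : IsCompact B := by
    refine IsCompact.of_isClosed_subset (isCompact_univ_pi fun _ : Fin n => isCompact_Icc (a := (-1 : ℝ))
      (b := 1)) ?_ fun x hx i _ => hx.1 i
    have h2 : IsClosed {x : Fin n → ℝ | ∑ i, (x i - m i) ^ 2 ≤ δ ^ 2 * n} :=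
      isClosed_le (by fun_prop) continuous_const
    have h1 : IsClosed {x : Fin n → ℝ | ∀ i, x i ∈ Icc (-1 : ℝ) 1} := by
      simp only [ofPred_forall]
      exact isClosed_iInter fun i => isClosed_Icc.preimage (continuous_apply i)
    exact h1.inter h2
  have hne : B.Nonempty := ⟨m, fun i => ⟨(hm i).1.le, (hm i).2.le⟩, by simp; positivity⟩
  obtain ⟨M, hMB, hmin⟩ := hBc.exists_isMinOn hne (continuous_tapFun K h τ).continuousOn
  have hmin' : ∀ x ∈ B, tapFun K h τ M ≤ tapFun K h τ x := fun x hx => hmin hx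
  -- growth along the segment from `m`
  have hgrow : ∑ i, (M i - m i) ^ 2 < δ ^ 2 * n := by
    by_contra hge
    set Δ : Fin n → ℝ := fun i => M i - m i with hΔ
    set D := ∑ i, Δ i ^ 2 with hDd
    have hDe : D = δ ^ 2 * n := le_antisymm hMB.2 (not_lt.1 hge)
    set g0 := ∑ i, tapGrad K h τ m i * Δ i with hg0
    set φ : ℝ → ℝ := fun s => tapFun K h τ fun i => m i + s * Δ i
    set ψ : ℝ → ℝ := fun s => φ s - s * g0 - c * D * s ^ 2 / 2
    have hin : ∀ s ∈ Ioo (0 : ℝ) 1, ∀ i, m i + s * Δ i ∈ Ioo (-1 : ℝ) 1 := fun s hs i => by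
      have h1 := hMB.1 i
      have h2 := hm i
      simp only [hΔ]
      constructor <;> nlinarith [h1.1, h1.2, h2.1, h2.2, hs.1, hs.2]
    have hψd : ∀ s ∈ Ioo (0 : ℝ) 1, ∃ d, HasDerivAt ψ d s ∧ 0 ≤ d := fun s hs => by
      refine ⟨_, ((hasDerivAt_tap_line hn K hK h τ m Δ s (hin s hs)).sub
        ((hasDerivAt_id' s).mul_const g0)).sub
          (((hasDerivAt_pow 2 s).const_mul (c * D)).div_const 2), ?_⟩
      have hmono := tapGrad_mono (h := h) hn hτ hδ1 hθ hδ.le hσ hm (hin s hs) hM (by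
        refine le_trans (le_of_eq ?_) (mul_le_of_le_one_left (by positivity : (0 : ℝ) ≤ δ ^ 2 * n)
          (pow_le_one₀ (n := 2) hs.1.le hs.2.le))
        rw [← hDe, hDd, mul_sum]
        exact sum_congr rfl fun i _ => by ring)
      have e1 : ∑ i, (m i + s * Δ i - m i) ^ 2 = s ^ 2 * D := by
        rw [hDd, mul_sum]; exact sum_congr rfl fun i _ => by ring
      have e2 : ∑ i, (tapGrad K h τ (fun i => m i + s * Δ i) i - tapGrad K h τ m i)
          * (m i + s * Δ i - m i)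
          = s * (∑ i, tapGrad K h τ (fun i => m i + s * Δ i) i * Δ i - g0) := by
        rw [hg0, ← sum_sub_distrib, mul_sum]
        exact sum_congr rfl fun i _ => by ring
      rw [e1, e2] at hmono
      have h3 : s * (c * D * s) ≤ s * (∑ i, tapGrad K h τ (fun i => m i + s * Δ i) i * Δ i - g0) :=
        le_trans (le_of_eq (by ring)) hmono
      have h4 := le_of_mul_le_mul_left h3 hs.1
      push_cast
      linarith
    have hψm : MonotoneOn ψ (Icc 0 1) := by
      refine monotoneOn_of_deriv_nonneg (convex_Icc 0 1) ?_ ?_ ?_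
      · refine Continuous.continuousOn ?_
        have := continuous_tapFun K h τ
        simp only [ψ, φ]
        fun_prop
      · rw [interior_Icc]
        intro s hs
        obtain ⟨d, hd, -⟩ := hψd s hs
        exact hd.differentiableAt.differentiableWithinAt
      · rw [interior_Icc]
        intro s hs
        obtain ⟨d, hd, h0⟩ := hψd s hs
        rwa [hd.deriv]
    have h01 := hψm (left_mem_Icc.2 zero_le_one) (right_mem_Icc.2 zero_le_one) zero_le_one
    have eM : (fun i => m i + 1 * Δ i) = M := by funext i; simp [hΔ]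
    have e0 : (fun i => m i + 0 * Δ i) = m := by funext i; simp
    simp only [ψ, φ, eM, e0] at h01
    have hle := hmin' m ⟨fun i => ⟨(hm i).1.le, (hm i).2.le⟩, by simp; positivity⟩
    have hcs := Real.sum_mul_le_sqrt_mul_sqrt univ (fun i => -tapGrad K h τ m i) Δ
    simp only [neg_mul, sum_neg_distrib, neg_sq, ← hg0] at hcs
    rw [← hDd, hDe, sqrt_mul (sq_nonneg δ), sqrt_sq hδ.le] at hcs
    have hp : 0 < δ * √n := mul_pos hδ (sqrt_pos.2 hn')
    have := mul_lt_mul_of_pos_right hres hp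
    have e3 : c / 2 * (δ * √n) * (δ * √n) = c * D / 2 := by
      rw [hDe]
      linear_combination (c / 2 * δ ^ 2) * mul_self_sqrt hn'.le
    rw [e3] at this
    norm_num at h01
    linarith
  -- the minimiser is interior in every coordinate
  have hint : ∀ i, M i ∈ Ioo (-1 : ℝ) 1 := by
    intro i
    by_contra hi
    have hsgn : M i = 1 ∨ M i = -1 := by
      have := hMB.1 i
      rcases this.1.eq_or_lt with h1 | h1
      · exact Or.inr h1.symm
      · rcases this.2.eq_or_lt with h2 | h2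
        · exact Or.inl h2
        · exact absurd ⟨h1, h2⟩ hi
    set Γ : ℝ → Fin n → ℝ := fun ε => Function.update M i (M i * (1 - ε))
    set R : ℝ → ℝ := fun ε => -(∑ j, h j * Γ ε j) - Ent.qform K (Γ ε) / 2
      - τ * n / 4 * (1 - (∑ j, Γ ε j ^ 2) / n) ^ 2 with hR
    have hΓd : ∀ j, Differentiable ℝ fun ε => Γ ε j := fun j => by
      rcases eq_or_ne j i with rfl | hj
      · simp only [Γ, Function.update_self]; fun_prop
      · simp only [Γ, ne_eq, hj, not_false_eq_true, Function.update_of_ne]; fun_prop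
    have hRd : DifferentiableAt ℝ R 0 := by
      simp only [hR, Ent.qform]
      fun_prop
    obtain ⟨L, hL⟩ : ∃ L : ℝ, ∀ᶠ ε in nhds (0 : ℝ), |R ε - R 0| ≤ L * |ε| := by
      obtain ⟨L, hL⟩ := hRd.hasDerivAt.isBigO_sub.bound
      exact ⟨L, hL.mono fun ε hε => by simpa [Real.norm_eq_abs] using hε⟩
    have hcl : ∀ᶠ ε in nhdsWithin (0 : ℝ) (Ioi 0), |R ε - R 0| ≤ L * |ε| ∧ ε < 1 - |m i|
        ∧ ε < 2 * exp (-(2 * L + 1)) := by
      have h1 : (0 : ℝ) < 1 - |m i| := sub_pos.2 (abs_lt.2 ⟨(hm i).1, (hm i).2⟩)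
      filter_upwards [hL.filter_mono nhdsWithin_le_nhds,
        nhdsWithin_le_nhds (Iio_mem_nhds h1),
        nhdsWithin_le_nhds (Iio_mem_nhds (show (0 : ℝ) < 2 * exp (-(2 * L + 1)) by positivity))]
        with ε a b c using ⟨a, b, c⟩
    obtain ⟨ε, ⟨hε, hε1, hε2⟩, hε0⟩ := (hcl.and self_mem_nhdsWithin).exists
    have hε0' : (0 : ℝ) < ε := hε0
    have hεlt : ε < 1 := lt_of_lt_of_le hε1 (by linarith [abs_nonneg (m i)])
    have hΓB : Γ ε ∈ B := by
      refine ⟨fun j => ?_, le_trans (sum_le_sum fun j _ => ?_) hMB.2⟩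
      · rcases eq_or_ne j i with rfl | hj
        · simp only [Γ, Function.update_self]
          rcases hsgn with h | h <;> rw [h] <;> constructor <;> linarith
        · simp only [Γ, ne_eq, hj, not_false_eq_true, Function.update_of_ne]; exact hMB.1 j
      · rcases eq_or_ne j i with rfl | hj
        · simp only [Γ, Function.update_self]
          have ha := abs_le.1 (le_of_eq (rfl : |m j| = |m j|))
          rcases hsgn with h | h <;> rw [h] <;> nlinarith
        · simp only [Γ, ne_eq, hj, not_false_eq_true, Function.update_of_ne, le_refl]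
    have hval := hmin' _ hΓB
    have hM0 : Γ 0 = M := by funext j; rcases eq_or_ne j i with rfl | hj <;> simp [Γ, *]
    have eT : ∀ ε, tapFun K h τ (Γ ε) = ∑ j, -binEntropy ((1 + Γ ε j) / 2) + R ε := fun ε => by
      simp only [hR, tapFun]; ring
    rw [← hM0, eT, eT] at hval
    have hsum : ∑ j, -binEntropy ((1 + Γ ε j) / 2) - ∑ j, -binEntropy ((1 + Γ 0 j) / 2)
        = -binEntropy (ε / 2) := by
      rw [← sum_sub_distrib, Finset.sum_eq_single i]
      · simp only [Γ, Function.update_self, sub_zero, mul_one]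
        rcases hsgn with h | h <;> rw [h]
        · rw [one_mul, show (1 + (1 - ε)) / 2 = 1 - ε / 2 by ring, binEntropy_one_sub]
          norm_num
        · rw [show (1 + -1 * (1 - ε)) / 2 = ε / 2 by ring]
          norm_num
      · intro j _ hj
        simp [Γ, hj]
      · simp
    have hent : ε / 2 * (2 * L + 1) ≤ binEntropy (ε / 2) := by
      rw [binEntropy_eq_negMulLog_add_negMulLog_one_sub]
      have h1 := negMulLog_nonneg (x := 1 - ε / 2) (by linarith) (by linarith)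
      have h2 : ε / 2 * (2 * L + 1) ≤ negMulLog (ε / 2) := by
        rw [negMulLog, neg_mul, le_neg, ← mul_neg]
        refine mul_le_mul_of_nonneg_left ?_ (by linarith)
        rw [log_le_iff_le_exp (by linarith)]
        linarith
      linarith
    rw [abs_of_pos hε0'] at hε
    linarith [(abs_le.1 hε).2]
  refine ⟨M, hint, hgrow, fun i => ?_⟩
  set e : Fin n → ℝ := Pi.single i 1 with he
  have hd : HasDerivAt (fun s => tapFun K h τ fun j => M j + s * e j) (tapGrad K h τ M i) 0 := by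
    have := hasDerivAt_tap_line hn K hK h τ M e 0 (by simpa using hint)
    simpa [he, Pi.single_apply] using this
  have hloc : IsLocalMin (fun s => tapFun K h τ fun j => M j + s * e j) 0 := by
    have hopen : ∀ᶠ s in nhds (0 : ℝ), (fun j => M j + s * e j) ∈ B := by
      have h1 : ∀ᶠ s in nhds (0 : ℝ), ∑ j, (M j + s * e j - m j) ^ 2 < δ ^ 2 * n := by
        refine ContinuousAt.eventually_lt (Continuous.continuousAt (by fun_prop)) continuousAt_const ?_
        simpa using hgrow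
      have h2 : ∀ j, ∀ᶠ s in nhds (0 : ℝ), M j + s * e j ∈ Ioo (-1 : ℝ) 1 := fun j => by
        refine (Continuous.continuousAt (by fun_prop)).eventually_mem (isOpen_Ioo.mem_nhds ?_)
        simpa using hint j
      filter_upwards [h1, Filter.eventually_all.2 h2] with s hs1 hs2
      exact ⟨fun j => ⟨(hs2 j).1.le, (hs2 j).2.le⟩, hs1.le⟩
    filter_upwards [hopen] with s hs
    simpa using hmin' _ hs
  exact hloc.hasDerivAt_eq_zero hd

/-- Exact TAP points in the ball are stable in the field. -/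
theorem tap_root_stable (hn : 0 < n) {K : Matrix (Fin n) (Fin n) ℝ} {h h' : Fin n → ℝ}
    {τ η θ σ δ : ℝ} (hτ : 0 ≤ τ) (hδ1 : δ ≤ 1) (hθ : 0 < θ) (hδ : 0 ≤ δ) (hσ : δ ^ 2 ≤ σ * θ ^ 2)
    {M M' : Fin n → ℝ} (hM : ∀ i, M i ∈ Ioo (-1 : ℝ) 1) (hM' : ∀ i, M' i ∈ Ioo (-1 : ℝ) 1)
    (hB : BallMargin K τ η θ σ M) (hd : ∑ i, (M' i - M i) ^ 2 ≤ δ ^ 2 * n)
    (h0 : ∀ i, tapGrad K h τ M i = 0) (h1 : ∀ i, tapGrad K h' τ M' i = 0) :
    (η - 4 * δ * τ) * √(∑ i, (M' i - M i) ^ 2) ≤ √(∑ i, (h' i - h i) ^ 2) := by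
  have hm := tapGrad_mono (h := h) hn hτ hδ1 hθ hδ hσ hM hM' hB hd
  have e : ∀ i, tapGrad K h τ M' i - tapGrad K h τ M i = h' i - h i := fun i => by
    have a := h0 i
    have b := h1 i
    simp only [tapGrad] at a b ⊢
    linarith
  simp only [e] at hm
  have hcs := Real.sum_mul_le_sqrt_mul_sqrt univ (fun i => h' i - h i) (fun i => M' i - M i)
  set D := ∑ i, (M' i - M i) ^ 2
  have hD : 0 ≤ D := sum_nonneg fun i _ => sq_nonneg _
  rcases (sqrt_nonneg D).eq_or_lt with h2 | h2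
  · rw [← h2, mul_zero]; exact sqrt_nonneg _
  · refine le_of_mul_le_mul_right ?_ h2
    rw [mul_assoc, mul_self_sqrt hD]
    linarith

/-- From the conditioned margin and a nearly correct image to the margin of the Hessian. -/
theorem margin_of_image (hn : 0 < n) {t q η e : ℝ} (hq : 0 < q) (he : 0 ≤ e)
    {K : Matrix (Fin n) (Fin n) ℝ} (hK : ∀ i j, K i j = K j i) {m v r : Fin n → ℝ}
    (hm : ∑ i, m i ^ 2 = q * n)
    (hmarg : ∀ u, Ent.qform K (projOff m u) ≤ margForm t q η m v r u)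
    (himg : ∑ i, ((∑ j, K i j * m j) - (r i + t * (1 - q) * m i)) ^ 2 ≤ e ^ 2 * (q * n))
    (u : Fin n → ℝ) :
    Ent.qform K u + t / n * (∑ i, u i) ^ 2 + 2 * t / n * (∑ i, u i * m i) ^ 2
        + (η - 3 * e) * ∑ i, u i ^ 2
      ≤ ∑ i, u i ^ 2 / v i + t * (1 - q) * ∑ i, u i ^ 2 := by
  have hN : (0 : ℝ) < q * n := mul_pos hq (by exact_mod_cast hn)
  set w : Fin n → ℝ := fun i => ∑ j, K i j * m j with hw
  set w' : Fin n → ℝ := fun i => r i + t * (1 - q) * m i with hw'
  set a := ∑ i, u i * m i with ha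
  set N := ∑ i, m i ^ 2
  have hsym : ∑ i, m i * (∑ j, K i j * u j) = ∑ i, u i * w i := by
    simp only [hw, mul_sum]
    rw [sum_comm]
    exact sum_congr rfl fun i _ => sum_congr rfl fun j _ => by rw [hK]; ring
  have e1 : Ent.qform K u = Ent.qform K (projOff m u)
      + (2 * (∑ i, u i * w i) * a / N - (∑ i, m i * w i) * a ^ 2 / N ^ 2) := by
    rw [← sum_qform K (projOff m u), ← sum_qform K u]
    have e0 : ∀ i, (∑ j, K i j * projOff m u j) * projOff m u i
        = (∑ j, K i j * u j) * u i - a / N * (m i * ∑ j, K i j * u j) - a / N * (u i * w i)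
          + (a / N) ^ 2 * (m i * w i) := fun i => by
      simp only [projOff, hw, mul_sub, sum_sub_distrib, ← ha]
      have : ∑ j, K i j * (a / N * m j) = a / N * ∑ j, K i j * m j := by
        rw [mul_sum]; exact sum_congr rfl fun j _ => by ring
      rw [this]
      ring
    simp only [e0, sum_add_distrib, sum_sub_distrib, ← mul_sum, hsym]
    ring
  have hr := rankForm_ge hn le_rfl hq he hm (w := fun i => w' i - w i)
    (le_trans (le_of_eq (sum_congr rfl fun i _ => by simp only [hw, hw']; ring)) himg) u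
  have e2 : rankForm 0 m (fun i => w' i - w i) u
      = rankForm t m w' u - t / n * (∑ i, u i) ^ 2 - 2 * t / n * a ^ 2
        - (2 * (∑ i, u i * w i) * a / N - (∑ i, m i * w i) * a ^ 2 / N ^ 2) := by
    simp only [rankForm, mul_sub, sum_sub_distrib, ← ha]
    ring
  have h := hmarg u
  have e3 : ∑ i, u i ^ 2 * (1 / v i + t * (1 - q) - η)
      = ∑ i, u i ^ 2 / v i + (t * (1 - q) - η) * ∑ i, u i ^ 2 := by
    rw [mul_sum, ← sum_add_distrib]
    exact sum_congr rfl fun i _ => by ring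
  rw [margForm, e3] at h
  linarith

end Vale.Agent.P150.Fast
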