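import Vale.Agent.P150.Fast.Tap
import Vale.Agent.P150.Fast.GoeStmt

/-!
Exported statement of the transfer (P150, module M6): in the planted model, gauged to the all-ones
configuration, with a side field of strength `u`, every approximate root of the TAP equation with
replica-symmetric statistics carries the margin, uniformly on compact ranges of `u`.
-/

open MeasureTheory Real Finset Filter
open scoped Matrix

namespace Vale.Agent.P150.Fast

variable {n : ℕ}

/-- The coupling planted at the all-ones configuration. -/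
noncomputable def plantK (n : ℕ) (β : ℝ) (d : Dis n) : Matrix (Fin n) (Fin n) ℝ :=
  kmat n β d + (β ^ 2 / n) • Matrix.vecMulVec (fun _ => 1) (fun _ => 1)

/-- The side field of strength `u` at the all-ones configuration. -/
noncomputable def plantH (u : ℝ) (g : Fin n → ℝ) (i : Fin n) : ℝ := u + √u * g i

/-- The TAP residual in field coordinates. -/
noncomputable def fieldRes (K : Matrix (Fin n) (Fin n) ℝ) (h : Fin n → ℝ) (t : ℝ) (a : Fin n → ℝ)
    (i : Fin n) : ℝ :=
  a i - h i - (∑ j, K i j * tanh (a j)) + t * (1 - (∑ j, tanh (a j) ^ 2) / n) * tanh (a i)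

/-- The statistics at the overlap `q` of the fields `a`, with `G = u + t q` the scalar channel:
overlap, magnetisation, energy, and the first two weighted moments of the special direction. -/
def RsStats (t u q ε : ℝ) (a : Fin n → ℝ) : Prop :=
  |(∑ i, tanh (a i) ^ 2) / (n : ℝ) - q| ≤ ε ∧
  |(∑ i, tanh (a i)) / (n : ℝ) - q| ≤ ε ∧
  |(∑ i, (a i - (u + t * q)) * tanh (a i)) / (n : ℝ) - (u + t * q) * (1 - q)| ≤ ε ∧
  |(∑ i, (1 - tanh (a i) ^ 2) * (2 * tanh (a i) + (a i - (u + t * q)) / (u + t * q))) / (n : ℝ)| ≤ ε ∧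
  (∑ i, (1 - tanh (a i) ^ 2) * (2 * tanh (a i) + (a i - (u + t * q)) / (u + t * q)) ^ 2) / (n : ℝ)
    ≤ 2 + (1 - q) / (u + t * q) + ε

/-- The transfer. -/
def TransferStmt : Prop :=
  ∀ β : ℝ, 0 < β → β < 1 → ∀ δ : ℝ, 0 < δ → ∀ U : ℝ, ∃ η θ σ ε γ : ℝ,
    0 < η ∧ 0 < θ ∧ 0 < σ ∧ 0 < ε ∧ 0 < γ ∧ ∀ᶠ n : ℕ in atTop, ∀ u q : ℝ,
      0 ≤ u → u ≤ U → δ ≤ q → q ≤ 1 - δ →
      ((disX n).prod (gp (Fin n))).real {p | ∃ a : Fin n → ℝ, RsStats (β ^ 2) u q ε a ∧
        ∑ i, fieldRes (plantK n β p.1) (plantH u p.2) (β ^ 2) a i ^ 2 ≤ ε ^ 2 * n ∧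
        ¬ BallMargin (plantK n β p.1) (β ^ 2) η θ σ fun i => tanh (a i)} ≤ exp (-(γ * n))

end Vale.Agent.P150.Fast
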