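import Vale.Agent.P150.Fast.Chan
import Vale.Agent.P150.Fast.StepKL
import Vale.Agent.P150.Fast.TransferStmt
import Vale.Agent.P150.Fast.LogDetTools

/-!
Crude-free volume bound for the transfer to approximate roots of the TAP equation in field
coordinates (P150): next to an approximate root, the Gaussian bump of the TAP residual carries the
mass of the regularised ellipsoid of the linearisation, up to `exp (small * n)`.
-/

open MeasureTheory ProbabilityTheory Real Finset Matrix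

namespace Vale.Agent.P150.Fast.Transfer

variable {n : ℕ}

/-- The Jacobian of the residual. -/
noncomputable def jacPsi (K : Matrix (Fin n) (Fin n) ℝ) (t : ℝ) (a : Fin n → ℝ) :
    Matrix (Fin n) (Fin n) ℝ :=
  1 + ((t * (1 - (∑ j, tanh (a j) ^ 2) / n)) • (1 : Matrix (Fin n) (Fin n) ℝ) - K)
      * diagonal (fun i => 1 - tanh (a i) ^ 2)
    - vecMulVec (fun i => 2 * t / n * tanh (a i)) (fun i => tanh (a i) * (1 - tanh (a i) ^ 2))

theorem jacPsi_apply (K : Matrix (Fin n) (Fin n) ℝ) (t : ℝ) (a y : Fin n → ℝ) (i : Fin n) :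
    (jacPsi K t a *ᵥ y) i = y i
      + t * (1 - (∑ j, tanh (a j) ^ 2) / n) * ((1 - tanh (a i) ^ 2) * y i)
      - ∑ j, K i j * ((1 - tanh (a j) ^ 2) * y j)
      - 2 * t / n * tanh (a i) * ∑ j, tanh (a j) * ((1 - tanh (a j) ^ 2) * y j) := by
  rw [jacPsi, sub_mulVec, add_mulVec, one_mulVec, ← mulVec_mulVec, sub_mulVec, smul_mulVec, one_mulVec]
  simp only [Pi.sub_apply, Pi.add_apply, Pi.smul_apply, smul_eq_mul, mulVec_diagonal]
  simp only [Matrix.mulVec, dotProduct, vecMulVec_apply]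
  simp only [diagonal_apply, ite_mul, zero_mul, sum_ite_eq, mem_univ, if_true, mul_sum]
  rw [sub_eq_add_neg, sub_eq_add_neg, sub_eq_add_neg]
  congr 1
  · abel
  · congr 1
    exact sum_congr rfl fun j _ => by ring

theorem continuous_tanh_field : Continuous tanh :=
  continuous_iff_continuousAt.2 fun y => (hasDerivAt_tanh' y).continuousAt

theorem continuous_fieldRes (K : Matrix (Fin n) (Fin n) ℝ) (h : Fin n → ℝ) (t : ℝ) :
    Continuous fun x => fieldRes K h t x := continuous_pi fun i => by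
  have hc : ∀ j, Continuous fun x : Fin n → ℝ => tanh (x j) := fun j =>
    continuous_tanh_field.comp (continuous_apply j)
  unfold fieldRes
  fun_prop (disch := assumption)

theorem nonneg_of_op (hn : 0 < n) {K : Matrix (Fin n) (Fin n) ℝ} {L : ℝ}
    (hK : ∀ u, ∑ i, (K *ᵥ u) i ^ 2 ≤ L * ∑ i, u i ^ 2) : 0 ≤ L := by
  have h := hK (Pi.single (⟨0, hn⟩ : Fin n) 1)
  have e : ∑ i, (Pi.single (⟨0, hn⟩ : Fin n) (1 : ℝ) : Fin n → ℝ) i ^ 2 = 1 := by
    simp [Pi.single_apply, ite_pow]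
  rw [e, mul_one] at h
  exact le_trans (sum_nonneg fun i _ => sq_nonneg _) h

theorem sq_four (a b c d : ℝ) : (a + b - c - d) ^ 2 ≤ 4 * (a ^ 2 + b ^ 2 + c ^ 2 + d ^ 2) := by
  linarith [sq_nonneg (a - b), sq_nonneg (a + c), sq_nonneg (a + d), sq_nonneg (b + c),
    sq_nonneg (b + d), sq_nonneg (c - d)]

theorem tanh_mem (x : ℝ) : |tanh x| ≤ 1 ∧ 0 ≤ 1 - tanh x ^ 2 ∧ 1 - tanh x ^ 2 ≤ 1 := by
  have h := abs_tanh_lt_one x
  refine ⟨h.le, ?_, sub_le_self _ (sq_nonneg _)⟩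
  linarith [(sq_le_one_iff_abs_le_one _).2 h.le]

theorem abs_tanh_diff (x y : ℝ) : |tanh (x + y) - tanh x| ≤ |y| := by
  have h := Convex.norm_image_sub_le_of_norm_hasDerivWithin_le (f := tanh)
    (f' := fun z => 1 - tanh z ^ 2) (C := 1) (s := Set.univ) (x := x) (y := x + y)
    (fun z _ => (hasDerivAt_tanh' z).hasDerivWithinAt)
    (fun z _ => by rw [norm_of_nonneg (tanh_mem z).2.1]; exact (tanh_mem z).2.2)
    convex_univ trivial trivial
  simpa [Real.norm_eq_abs] using h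

theorem abs_tanh_taylor (x y : ℝ) : |tanh (x + y) - tanh x - (1 - tanh x ^ 2) * y| ≤ y ^ 2 := by
  set v := 1 - tanh x ^ 2
  set f : ℝ → ℝ := fun s => tanh (x + s) - v * s
  have hd : ∀ s, HasDerivAt f ((1 - tanh (x + s) ^ 2) - v) s := fun s => by
    have h1 : HasDerivAt (fun s => tanh (x + s)) (1 - tanh (x + s) ^ 2) s :=
      HasDerivAt.comp_const_add x s (hasDerivAt_tanh' (x + s))
    exact h1.sub (by simpa using (hasDerivAt_id s).const_mul v)
  have hlip : ∀ a b : ℝ, |(1 - tanh b ^ 2) - (1 - tanh a ^ 2)| ≤ |b - a| := fun a b => by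
    have h := Convex.norm_image_sub_le_of_norm_hasDerivWithin_le (f := fun z => 1 - tanh z ^ 2)
      (f' := fun z => -(2 * tanh z * (1 - tanh z ^ 2))) (C := 1) (s := Set.univ) (x := a) (y := b)
      (fun z _ => by
        have := ((hasDerivAt_tanh' z).pow 2).const_sub 1
        exact HasDerivAt.hasDerivWithinAt (by simpa using this))
      (fun z _ => by
        have hz := tanh_mem z
        rw [norm_neg, Real.norm_eq_abs, abs_mul, abs_mul, abs_two, abs_of_nonneg hz.2.1, ← sq_abs (tanh z)]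
        nlinarith [sq_nonneg (|tanh z| - 1), sq_nonneg (2 * |tanh z| - 1), abs_nonneg (tanh z), hz.1,
          mul_nonneg (abs_nonneg (tanh z)) (sq_nonneg (|tanh z| - 1))])
      convex_univ trivial trivial
    simpa [Real.norm_eq_abs] using h
  have h := Convex.norm_image_sub_le_of_norm_hasDerivWithin_le (f := f)
    (f' := fun s => (1 - tanh (x + s) ^ 2) - v) (C := |y|) (s := Set.uIcc 0 y) (x := 0) (y := y)
    (fun s _ => (hd s).hasDerivWithinAt)
    (fun s hs => by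
      rw [Real.norm_eq_abs]
      refine (hlip x (x + s)).trans ?_
      rw [add_sub_cancel_left]
      have := Set.abs_sub_left_of_mem_uIcc hs
      simpa using this)
    (convex_uIcc 0 y) Set.left_mem_uIcc Set.right_mem_uIcc
  simp only [f, Real.norm_eq_abs, mul_zero, sub_zero, add_zero] at h
  rw [← abs_mul, ← pow_two, abs_of_nonneg (sq_nonneg y)] at h
  refine le_trans (le_of_eq ?_) h
  congr 1
  ring

/-- The remainder of the linearisation, exactly. -/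
theorem fieldRes_rem (hn : 0 < n) (K : Matrix (Fin n) (Fin n) ℝ) (t : ℝ) (h a y : Fin n → ℝ) (i : Fin n) :
    fieldRes K h t (a + y) i - fieldRes K h t a i - (jacPsi K t a *ᵥ y) i
      = -(K *ᵥ fun j => tanh (a j + y j) - tanh (a j) - (1 - tanh (a j) ^ 2) * y j) i
        + t * (1 - (∑ j, tanh (a j) ^ 2) / n)
          * (tanh (a i + y i) - tanh (a i) - (1 - tanh (a i) ^ 2) * y i)
        - t * ((2 * ∑ j, tanh (a j) * (tanh (a j + y j) - tanh (a j) - (1 - tanh (a j) ^ 2) * y j)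
            + ∑ j, (tanh (a j + y j) - tanh (a j)) ^ 2) / n) * tanh (a i)
        - t * ((2 * ∑ j, tanh (a j) * (tanh (a j + y j) - tanh (a j))
            + ∑ j, (tanh (a j + y j) - tanh (a j)) ^ 2) / n) * (tanh (a i + y i) - tanh (a i)) := by
  have hn' : (n : ℝ) ≠ 0 := by exact_mod_cast hn.ne'
  rw [jacPsi_apply]
  set m : Fin n → ℝ := fun j => tanh (a j) with hm
  set w : Fin n → ℝ := fun j => tanh (a j + y j) - m j with hw
  set z : Fin n → ℝ := fun j => (1 - m j ^ 2) * y j with hz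
  have e1 : ∀ j, tanh (a j + y j) = m j + w j := fun j => by simp [hw]
  have e2 : ∑ j, (m j + w j) ^ 2 = ∑ j, m j ^ 2 + 2 * ∑ j, m j * w j + ∑ j, w j ^ 2 := by
    rw [mul_sum, ← sum_add_distrib, ← sum_add_distrib]
    exact sum_congr rfl fun j _ => by ring
  have e3 : ∑ j, K i j * (m j + w j) = ∑ j, K i j * m j + ∑ j, K i j * w j := by
    simp only [mul_add, sum_add_distrib]
  have e4 : ∑ j, K i j * (w j - z j) = ∑ j, K i j * w j - ∑ j, K i j * z j := by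
    simp only [mul_sub, sum_sub_distrib]
  have e5 : ∑ j, m j * (w j - z j) = ∑ j, m j * w j - ∑ j, m j * z j := by
    simp only [mul_sub, sum_sub_distrib]
  show a i + y i - h i - (∑ j, K i j * tanh (a j + y j))
      + t * (1 - (∑ j, tanh (a j + y j) ^ 2) / n) * tanh (a i + y i)
      - (a i - h i - (∑ j, K i j * m j) + t * (1 - (∑ j, m j ^ 2) / n) * m i)
      - (y i + t * (1 - (∑ j, m j ^ 2) / n) * z i - ∑ j, K i j * z j
        - 2 * t / n * m i * ∑ j, m j * z j)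
    = -(∑ j, K i j * (w j - z j)) + t * (1 - (∑ j, m j ^ 2) / n) * (w i - z i)
      - t * ((2 * ∑ j, m j * (w j - z j) + ∑ j, w j ^ 2) / n) * m i
      - t * ((2 * ∑ j, m j * w j + ∑ j, w j ^ 2) / n) * w i
  simp only [e1, e2, e3, e4, e5]
  field_simp
  ring

theorem coef_sq (hn : 0 < n) {t S W A : ℝ} (ht : 0 ≤ t) (ht1 : t ≤ 1) {m : Fin n → ℝ}
    {B : ℝ} (hm : ∑ i, m i ^ 2 ≤ B) (hS : S ^ 2 ≤ n * A) :
    ∑ i, (t * ((2 * S + W) / n) * m i) ^ 2 ≤ (8 * (n * A) + 2 * W ^ 2) / (n : ℝ) ^ 2 * B := by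
  simp only [mul_pow, ← mul_sum, div_pow]
  have hn' : (0 : ℝ) < n := by exact_mod_cast hn
  have hA : 0 ≤ (n : ℝ) * A := (sq_nonneg S).trans hS
  refine mul_le_mul ?_ hm (sum_nonneg fun i _ => sq_nonneg _) (by positivity)
  refine (mul_le_of_le_one_left (by positivity) (pow_le_one₀ ht ht1)).trans ?_
  refine div_le_div_of_nonneg_right ?_ (by positivity)
  linarith [sq_nonneg (2 * S - W)]

/-- The remainder of the linearisation. -/
theorem fieldRes_taylor (hn : 0 < n) {K : Matrix (Fin n) (Fin n) ℝ} {L t : ℝ} (ht : 0 ≤ t) (ht1 : t ≤ 1)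
    (hK : ∀ u, ∑ i, (K *ᵥ u) i ^ 2 ≤ L * ∑ i, u i ^ 2) (h a y : Fin n → ℝ) :
    ∑ i, (fieldRes K h t (a + y) i - fieldRes K h t a i - (jacPsi K t a *ᵥ y) i) ^ 2
      ≤ (4 * L + 36) * ∑ i, y i ^ 4 + 40 * (∑ i, y i ^ 2) ^ 2 / n
        + 8 * (∑ i, y i ^ 2) ^ 3 / (n : ℝ) ^ 2 := by
  have hn' : (0 : ℝ) < n := by exact_mod_cast hn
  set m : Fin n → ℝ := fun i => tanh (a i)
  set w : Fin n → ℝ := fun i => tanh (a i + y i) - tanh (a i)
  set ρ : Fin n → ℝ := fun i => tanh (a i + y i) - tanh (a i) - (1 - tanh (a i) ^ 2) * y i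
  set c := t * (1 - (∑ j, m j ^ 2) / n)
  set D := ∑ i, y i ^ 2
  set F := ∑ i, y i ^ 4
  have hR : ∑ i, ρ i ^ 2 ≤ F := sum_le_sum fun i _ => by
    have h := pow_le_pow_left₀ (abs_nonneg _) (abs_tanh_taylor (a i) (y i)) 2
    rw [sq_abs] at h
    exact h.trans (le_of_eq (by ring))
  have hW : ∑ i, w i ^ 2 ≤ D := sum_le_sum fun i _ => sq_le_sq.2 (abs_tanh_diff (a i) (y i))
  have hm : ∑ i, m i ^ 2 ≤ n := le_trans (sum_le_sum fun i _ => (sq_le_one_iff_abs_le_one _).2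
    (tanh_mem (a i)).1) (by simp)
  have hm0 : 0 ≤ ∑ i, m i ^ 2 := sum_nonneg fun i _ => sq_nonneg _
  have hW0 : 0 ≤ ∑ i, w i ^ 2 := sum_nonneg fun i _ => sq_nonneg _
  have hF0 : 0 ≤ ∑ i, ρ i ^ 2 := sum_nonneg fun i _ => sq_nonneg _
  have hc0 : 0 ≤ c := mul_nonneg ht (sub_nonneg.2 ((div_le_one hn').2 hm))
  have hc1 : c ≤ 1 := mul_le_one₀ ht1 (sub_nonneg.2 ((div_le_one hn').2 hm))
    (sub_le_self _ (div_nonneg hm0 hn'.le))
  have hL := nonneg_of_op hn hK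
  have t1 : ∑ i, (-(K *ᵥ ρ) i) ^ 2 ≤ L * F := by
    simp only [neg_sq]
    exact (hK ρ).trans (mul_le_mul_of_nonneg_left hR hL)
  have t2 : ∑ i, (c * ρ i) ^ 2 ≤ F := le_trans (sum_le_sum fun i _ => by
    rw [mul_pow]; exact mul_le_of_le_one_left (sq_nonneg _) (pow_le_one₀ hc0 hc1)) hR
  have hmr : (∑ j, m j * ρ j) ^ 2 ≤ n * F :=
    (sum_mul_sq_le_sq_mul_sq univ m ρ).trans (mul_le_mul hm hR hF0 hn'.le)
  have hmw : (∑ j, m j * w j) ^ 2 ≤ n * D :=
    (sum_mul_sq_le_sq_mul_sq univ m w).trans (mul_le_mul hm hW hW0 hn'.le)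
  have hW2 := pow_le_pow_left₀ hW0 hW 2
  have hD0 : 0 ≤ D := sum_nonneg fun i _ => sq_nonneg _
  have t3 : ∑ i, (t * ((2 * ∑ j, m j * ρ j + ∑ j, w j ^ 2) / n) * m i) ^ 2 ≤ 8 * F + 2 * D ^ 2 / n := by
    refine (coef_sq hn ht ht1 hm hmr).trans ?_
    calc _ ≤ (8 * (n * F) + 2 * D ^ 2) / (n : ℝ) ^ 2 * n := by gcongr
      _ = _ := by field_simp
  have t4 : ∑ i, (t * ((2 * ∑ j, m j * w j + ∑ j, w j ^ 2) / n) * w i) ^ 2
      ≤ 8 * D ^ 2 / n + 2 * D ^ 3 / (n : ℝ) ^ 2 := by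
    refine (coef_sq hn ht ht1 hW hmw).trans ?_
    calc _ ≤ (8 * (n * D) + 2 * D ^ 2) / (n : ℝ) ^ 2 * D := by gcongr
      _ = _ := by field_simp
  refine le_trans (sum_le_sum fun i _ => ?_) (b := ∑ i, 4 * ((-(K *ᵥ ρ) i) ^ 2 + (c * ρ i) ^ 2
    + (t * ((2 * ∑ j, m j * ρ j + ∑ j, w j ^ 2) / n) * m i) ^ 2
    + (t * ((2 * ∑ j, m j * w j + ∑ j, w j ^ 2) / n) * w i) ^ 2)) ?_
  · rw [fieldRes_rem hn]
    exact sq_four _ _ _ _
  · rw [← mul_sum]
    simp only [sum_add_distrib]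
    have e : (4 * L + 36) * F + 40 * D ^ 2 / n + 8 * D ^ 3 / (n : ℝ) ^ 2
        = 4 * (L * F + F + (8 * F + 2 * D ^ 2 / n) + (8 * D ^ 2 / n + 2 * D ^ 3 / (n : ℝ) ^ 2)) := by
      ring
    linarith

theorem lin_four {ι : Type} [Fintype ι] (c : ι → ℝ) :
    Integrable (fun g => lin c g ^ 4) (gp ι) ∧ ∫ g, lin c g ^ 4 ∂gp ι = 3 * (∑ i, c i ^ 2) ^ 2 := by
  set S := √(∑ i, c i ^ 2) with hS
  have hlaw : (gp ι).map (fun g (_ : Fin 1) => lin c g)
      = (gp (Fin 1)).map (fun z _ => lin (fun _ => S) z) :=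
    lin_image_eq (fun g _ => lin c g) (fun z _ => lin (fun _ => S) z) (fun _ => c) (fun _ _ => S)
      (fun _ _ => rfl) (fun _ _ => rfl) fun ξ => by
        simp only [Fin.sum_univ_one, mul_pow, ← mul_sum]
        rw [hS, sq_sqrt (sum_nonneg fun i _ => sq_nonneg _)]
  have mA : Measurable fun g (_ : Fin 1) => lin c g :=
    measurable_pi_lambda _ fun _ => (continuous_lin _).measurable
  have mB : Measurable fun z (_ : Fin 1) => lin (fun _ : Fin 1 => S) z :=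
    measurable_pi_lambda _ fun _ => (continuous_lin _).measurable
  have mp : MeasurePreserving (fun g : Fin 1 → ℝ => g 0) (gp (Fin 1)) (gaussianReal 0 1) :=
    measurePreserving_eval _ 0
  have hB : Integrable (fun z : Fin 1 → ℝ => lin (fun _ => S) z ^ 4) (gp (Fin 1)) ∧
      ∫ z, lin (fun _ : Fin 1 => S) z ^ 4 ∂gp (Fin 1) = 3 * (∑ i, c i ^ 2) ^ 2 := by
    simp only [lin, Fin.sum_univ_one, mul_pow]
    refine ⟨(mp.integrable_comp_of_integrable (integrable_pow_gauss 4)).mul_const _, ?_⟩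
    rw [integral_mul_const, show ∫ g : Fin 1 → ℝ, g 0 ^ 4 ∂gp (Fin 1)
      = ∫ x : ℝ, x ^ 4 ∂gaussianReal 0 1 by
      rw [← mp.map_eq, integral_map mp.measurable.aemeasurable]
      exact (continuous_pow 4).aestronglyMeasurable]
    have h := moment_step 2
    have h0 := moment_step 0
    simp at h h0
    rw [h, h0, show S ^ 4 = (S ^ 2) ^ 2 by ring, hS, sq_sqrt (sum_nonneg fun i _ => sq_nonneg _)]
    norm_num
  have hf : AEStronglyMeasurable (fun w : Fin 1 → ℝ => w 0 ^ 4)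
      ((gp ι).map fun g (_ : Fin 1) => lin c g) := Continuous.aestronglyMeasurable (by fun_prop)
  have hf' : AEStronglyMeasurable (fun w : Fin 1 → ℝ => w 0 ^ 4)
      ((gp (Fin 1)).map fun z (_ : Fin 1) => lin (fun _ => S) z) :=
    Continuous.aestronglyMeasurable (by fun_prop)
  constructor
  · have h2 := (integrable_map_measure hf' mB.aemeasurable).2 hB.1
    rw [← hlaw] at h2
    exact (integrable_map_measure hf mA.aemeasurable).1 h2
  · have e := congrArg (fun μ => ∫ w : Fin 1 → ℝ, w 0 ^ 4 ∂μ) hlaw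
    simp only [integral_map mA.aemeasurable hf, integral_map mB.aemeasurable hf'] at e
    rw [e]
    exact hB.2

/-- The exponent lost in the volume bound. -/
noncomputable def volErr (L κ s θ ε : ℝ) : ℝ :=
  (1 + 1 / θ) * (ε ^ 2 + 12 * (4 * L + 36) * (s ^ 2) ^ 2 / κ ^ 2 + 640 * (s ^ 2) ^ 2 / κ ^ 2
    + 512 * (s ^ 2) ^ 3 / κ ^ 3) / s ^ 2

/-- The short fourth and second moments of a factor with short rows. -/
theorem gauss_box (hn : 0 < n) {B : Matrix (Fin n) (Fin n) ℝ} {r : ℝ} (hr : 0 < r)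
    (hrow : ∀ i, ∑ j, B i j ^ 2 ≤ r) :
    1 / 2 ≤ ∫ g, ({y : Fin n → ℝ | ∑ i, y i ^ 4 ≤ 12 * r ^ 2 * n ∧ ∑ i, y i ^ 2 ≤ 4 * r * n}.indicator
      (fun _ => (1 : ℝ)) (B *ᵥ g)) ∂gp (Fin n) := by
  have hn' : (0 : ℝ) < n := by exact_mod_cast hn
  set G : Set (Fin n → ℝ) := {y | ∑ i, y i ^ 4 ≤ 12 * r ^ 2 * n ∧ ∑ i, y i ^ 2 ≤ 4 * r * n}
  have hGm : MeasurableSet G :=
    (measurableSet_le (f := fun y : Fin n → ℝ => ∑ i, y i ^ 4) (by fun_prop) measurable_const).inter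
      (measurableSet_le (f := fun y : Fin n → ℝ => ∑ i, y i ^ 2) (by fun_prop) measurable_const)
  have hlinB : ∀ g i, (B *ᵥ g) i = lin (fun j => B i j) g := fun g i => by
    simp [Matrix.mulVec, dotProduct, lin, mul_comm]
  have i4 : Integrable (fun g => ∑ i, (B *ᵥ g) i ^ 4) (gp (Fin n)) := by
    simp only [hlinB]; exact integrable_finsetSum _ fun i _ => (lin_four _).1
  have i2 : Integrable (fun g => ∑ i, (B *ᵥ g) i ^ 2) (gp (Fin n)) := by
    simp only [hlinB]; exact integrable_finsetSum _ fun i _ => (lin_sq _).1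
  have h4 : ∫ g, ∑ i, (B *ᵥ g) i ^ 4 ∂gp (Fin n) ≤ 3 * r ^ 2 * n := by
    simp only [hlinB]
    rw [integral_finsetSum _ fun i _ => (lin_four _).1]
    simp only [(lin_four _).2]
    calc ∑ i, 3 * (∑ j, B i j ^ 2) ^ 2 ≤ ∑ _i : Fin n, 3 * r ^ 2 := sum_le_sum fun i _ =>
          mul_le_mul_of_nonneg_left (pow_le_pow_left₀ (sum_nonneg fun j _ => sq_nonneg _) (hrow i) 2)
            (by norm_num)
      _ = 3 * r ^ 2 * n := by simp; ring
  have h2 : ∫ g, ∑ i, (B *ᵥ g) i ^ 2 ∂gp (Fin n) ≤ r * n := by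
    simp only [hlinB]
    rw [integral_finsetSum _ fun i _ => (lin_sq _).1]
    simp only [(lin_sq _).2]
    calc ∑ i, ∑ j, B i j ^ 2 ≤ ∑ _i : Fin n, r := sum_le_sum fun i _ => hrow i
      _ = r * n := by simp; ring
  have hF4 : 0 < 12 * r ^ 2 * n := by positivity
  have hF2 : 0 < 4 * r * n := by positivity
  have hpt : ∀ g, 1 - ((∑ i, (B *ᵥ g) i ^ 4) / (12 * r ^ 2 * n) + (∑ i, (B *ᵥ g) i ^ 2) / (4 * r * n))
      ≤ G.indicator (fun _ => (1 : ℝ)) (B *ᵥ g) := fun g => by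
    have n4 : 0 ≤ (∑ i, (B *ᵥ g) i ^ 4) / (12 * r ^ 2 * n) :=
      div_nonneg (sum_nonneg fun i _ => by positivity) hF4.le
    have n2 : 0 ≤ (∑ i, (B *ᵥ g) i ^ 2) / (4 * r * n) :=
      div_nonneg (sum_nonneg fun i _ => sq_nonneg _) hF2.le
    by_cases hg : B *ᵥ g ∈ G
    · rw [Set.indicator_of_mem hg]; linarith
    · rw [Set.indicator_of_notMem hg]
      simp only [G, Set.mem_ofPred_eq, not_and_or, not_le] at hg
      rcases hg with hg | hg
      · have : 1 < (∑ i, (B *ᵥ g) i ^ 4) / (12 * r ^ 2 * n) := (one_lt_div hF4).2 hg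
        linarith
      · have : 1 < (∑ i, (B *ᵥ g) i ^ 2) / (4 * r * n) := (one_lt_div hF2).2 hg
        linarith
  have hI : Integrable (fun g => G.indicator (fun _ => (1 : ℝ)) (B *ᵥ g)) (gp (Fin n)) := by
    refine (integrable_const (1 : ℝ)).mono' ((measurable_const.indicator hGm).comp
      (Continuous.matrix_mulVec continuous_const continuous_id).measurable).aestronglyMeasurable
      (ae_of_all _ fun g => ?_)
    by_cases hg : B *ᵥ g ∈ G <;> simp [hg]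
  have i42 : Integrable (fun g => (∑ i, (B *ᵥ g) i ^ 4) / (12 * r ^ 2 * n)
      + (∑ i, (B *ᵥ g) i ^ 2) / (4 * r * n)) (gp (Fin n)) := (i4.div_const _).add (i2.div_const _)
  refine le_trans ?_ (integral_mono ((integrable_const 1).sub i42) hI hpt)
  simp only [Pi.sub_apply]
  rw [integral_sub (integrable_const 1) i42, integral_add (i4.div_const _) (i2.div_const _),
    integral_div, integral_div, integral_const, probReal_univ, one_smul]
  have a4 : (∫ g, ∑ i, (B *ᵥ g) i ^ 4 ∂gp (Fin n)) / (12 * r ^ 2 * n) ≤ 1 / 4 := by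
    rw [div_le_iff₀ hF4]; linarith
  have a2 : (∫ g, ∑ i, (B *ᵥ g) i ^ 2 ∂gp (Fin n)) / (4 * r * n) ≤ 1 / 4 := by
    rw [div_le_iff₀ hF2]; linarith
  linarith

/-- A factor of the covariance `c² (AᵀA + κ)⁻¹` with short rows. -/
theorem reg_factor {κ c : ℝ} (hκ : 0 < κ) (hc : 0 < c) (A : Matrix (Fin n) (Fin n) ℝ) :
    ∃ B : Matrix (Fin n) (Fin n) ℝ, B.det ≠ 0 ∧
      (B * B.transpose)⁻¹ = (c ^ 2)⁻¹ • (A.transpose * A + κ • (1 : Matrix (Fin n) (Fin n) ℝ)) ∧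
      (B * B.transpose).PosDef ∧ (∀ i, ∑ j, B i j ^ 2 ≤ c ^ 2 / κ) ∧
      √((2 * π) ^ n * (B * B.transpose).det) = √((2 * π) ^ n * (c ^ 2) ^ n) * exp (-regDet κ A) := by
  set P := A.transpose * A + κ • (1 : Matrix (Fin n) (Fin n) ℝ) with hP
  have hPs : P.IsSymm := reg_isSymm κ A
  have hPp : P.PosDef := reg_posDef hκ A
  obtain ⟨C, hCs, hCC, hC0⟩ := exists_sqrt_root hPp
  set B := c • C⁻¹ with hB
  have hBB : B * B.transpose = c ^ 2 • P⁻¹ := by
    rw [hB, ← hCC, Matrix.mul_inv_rev, transpose_smul, Matrix.smul_mul, Matrix.mul_smul,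
      smul_smul, Matrix.transpose_nonsing_inv, hCs.eq, pow_two]
  refine ⟨B, ?_, ?_, ?_, fun i => ?_, ?_⟩
  · rw [hB, Matrix.det_smul, Matrix.det_nonsing_inv, Ring.inverse_eq_inv']
    exact mul_ne_zero (pow_ne_zero _ hc.ne') (inv_ne_zero hC0)
  · rw [hBB]
    refine Matrix.inv_eq_right_inv ?_
    rw [Matrix.smul_mul, Matrix.mul_smul, smul_smul, mul_inv_cancel₀ (pow_ne_zero _ hc.ne'),
      one_smul, Matrix.nonsing_inv_mul _ (Ne.isUnit hPp.det_pos.ne')]
  · rw [hBB]; exact hPp.inv.smul (pow_pos hc 2)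
  · have e : ∑ j, B i j ^ 2 = (B * B.transpose) i i := by simp [Matrix.mul_apply, pow_two]
    have hlo : ∀ u, κ * ∑ i, u i ^ 2 ≤ u ⬝ᵥ (P *ᵥ u) := fun u => by
      rw [hP, reg_qform]; exact le_add_of_nonneg_left (sum_nonneg fun i _ => sq_nonneg _)
    have h := (inv_bounds hPs hκ hlo).1 (Pi.single i 1)
    simp only [Pi.single_apply, ite_pow, one_pow, ne_eq, OfNat.ofNat_ne_zero, not_false_eq_true,
      zero_pow, sum_ite_eq', mem_univ, if_true, Matrix.mulVec_single_one] at h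
    have h2 : P⁻¹ i i ^ 2 ≤ (1 / κ) ^ 2 := by
      rw [div_pow, one_pow]
      exact (single_le_sum (f := fun j => P⁻¹ j i ^ 2) (fun j _ => sq_nonneg _) (mem_univ i)).trans h
    rw [e, hBB, Matrix.smul_apply, smul_eq_mul, show c ^ 2 / κ = c ^ 2 * (1 / κ) by ring]
    exact mul_le_mul_of_nonneg_left ((le_abs_self _).trans (abs_le_of_sq_le_sq h2 (by positivity)))
      (sq_nonneg c)
  · rw [hBB, Matrix.det_smul, Matrix.det_nonsing_inv, Ring.inverse_eq_inv', Fintype.card_fin, regDet,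
      ← hP, ← mul_assoc, sqrt_mul (by positivity)]
    congr 1
    rw [← log_sqrt hPp.det_pos.le, exp_neg, exp_log (sqrt_pos.2 hPp.det_pos), sqrt_inv]

/-- The exponent in the pointwise bound. -/
theorem bump_point (hn : 0 < n) {K : Matrix (Fin n) (Fin n) ℝ} {L t κ s θ ε : ℝ} (ht : 0 ≤ t)
    (ht1 : t ≤ 1) (hκ : 0 < κ) (hs : 0 < s) (hθ : 0 < θ)
    (hK : ∀ u, ∑ i, (K *ᵥ u) i ^ 2 ≤ L * ∑ i, u i ^ 2) (h a y : Fin n → ℝ)
    (ha : ∑ i, fieldRes K h t a i ^ 2 ≤ ε ^ 2 * n)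
    (hy4 : ∑ i, y i ^ 4 ≤ 12 * (s ^ 2 / κ) ^ 2 * n) (hy2 : ∑ i, y i ^ 2 ≤ 4 * (s ^ 2 / κ) * n) :
    (∑ i, fieldRes K h t (a + y) i ^ 2) / (2 * s ^ 2)
      ≤ (s ^ 2 / (1 + θ))⁻¹ * (y ⬝ᵥ (((jacPsi K t a).transpose * jacPsi K t a
          + κ • (1 : Matrix (Fin n) (Fin n) ℝ)) *ᵥ y)) / 2 + n * volErr L κ s θ ε := by
  have hn' : (0 : ℝ) < n := by exact_mod_cast hn
  have hL := nonneg_of_op hn hK
  rw [reg_qform]
  set A := jacPsi K t a
  set Qb := 12 * (4 * L + 36) * (s ^ 2) ^ 2 / κ ^ 2 + 640 * (s ^ 2) ^ 2 / κ ^ 2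
      + 512 * (s ^ 2) ^ 3 / κ ^ 3 with hQb
  set Q := ∑ i, (fieldRes K h t (a + y) i - fieldRes K h t a i - (A *ᵥ y) i) ^ 2
  have hQ : Q ≤ n * Qb := by
    refine (fieldRes_taylor hn ht ht1 hK h a y).trans ?_
    calc (4 * L + 36) * ∑ i, y i ^ 4 + 40 * (∑ i, y i ^ 2) ^ 2 / n + 8 * (∑ i, y i ^ 2) ^ 3 / (n : ℝ) ^ 2
        ≤ (4 * L + 36) * (12 * (s ^ 2 / κ) ^ 2 * n) + 40 * (4 * (s ^ 2 / κ) * n) ^ 2 / n
          + 8 * (4 * (s ^ 2 / κ) * n) ^ 3 / (n : ℝ) ^ 2 := by gcongr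
      _ = n * Qb := by rw [hQb]; field_simp; ring
  have hsq : ∑ i, fieldRes K h t (a + y) i ^ 2
      ≤ (1 + θ) * ∑ i, (A *ᵥ y) i ^ 2 + (1 + 1 / θ) * (2 * (ε ^ 2 * n) + 2 * Q) := by
    calc ∑ i, fieldRes K h t (a + y) i ^ 2
        ≤ ∑ i, ((1 + θ) * (A *ᵥ y) i ^ 2 + (1 + 1 / θ) * (2 * fieldRes K h t a i ^ 2
            + 2 * (fieldRes K h t (a + y) i - fieldRes K h t a i - (A *ᵥ y) i) ^ 2)) := by
          refine sum_le_sum fun i _ => ?_
          set p := (A *ᵥ y) i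
          set r := fieldRes K h t a i
          set w := fieldRes K h t (a + y) i - r - p with hw
          rw [show fieldRes K h t (a + y) i = p + (r + w) by rw [hw]; ring]
          have h1 : 2 * p * (r + w) ≤ θ * p ^ 2 + (r + w) ^ 2 / θ := by
            rw [← sub_nonneg]
            have : 0 ≤ (θ * p - (r + w)) ^ 2 / θ := div_nonneg (sq_nonneg _) hθ.le
            refine le_of_le_of_eq this ?_
            field_simp
            ring
          have h2 : (r + w) ^ 2 ≤ 2 * r ^ 2 + 2 * w ^ 2 := by linarith [sq_nonneg (r - w)]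
          have h3 := mul_le_mul_of_nonneg_left h2 (show 0 ≤ 1 + 1 / θ by positivity)
          have : (r + w) ^ 2 / θ = 1 / θ * (r + w) ^ 2 := by ring
          linarith
      _ ≤ _ := by
          rw [sum_add_distrib, ← mul_sum, ← mul_sum, sum_add_distrib, ← mul_sum, ← mul_sum]
          gcongr
  have hk : 0 ≤ (1 + θ) * (κ * ∑ i, y i ^ 2) :=
    mul_nonneg (by linarith) (mul_nonneg hκ.le (sum_nonneg fun i _ => sq_nonneg _))
  have h1 := mul_le_mul_of_nonneg_left hQ (show 0 ≤ (1 + 1 / θ) * 2 by positivity)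
  rw [div_le_iff₀ (show 0 < 2 * s ^ 2 by positivity), inv_div]
  have e : ((1 + θ) / s ^ 2 * (∑ i, (A *ᵥ y) i ^ 2 + κ * ∑ i, y i ^ 2) / 2 + n * volErr L κ s θ ε)
      * (2 * s ^ 2) = (1 + θ) * ∑ i, (A *ᵥ y) i ^ 2 + (1 + θ) * (κ * ∑ i, y i ^ 2)
        + (1 + 1 / θ) * (2 * (ε ^ 2 * n) + 2 * (n * Qb)) := by
    rw [hQb, volErr]
    field_simp
    ring
  rw [e]
  linarith

/-- **The volume bound.** -/
theorem bump_lower (hn : 0 < n) {K : Matrix (Fin n) (Fin n) ℝ} {L t κ s θ ε ρ : ℝ} (ht : 0 ≤ t)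
    (ht1 : t ≤ 1) (hκ : 0 < κ) (hs : 0 < s) (hθ : 0 < θ) (hρ : 4 * (s ^ 2 / κ) ≤ ρ ^ 2)
    (hK : ∀ u, ∑ i, (K *ᵥ u) i ^ 2 ≤ L * ∑ i, u i ^ 2) (h a : Fin n → ℝ)
    (ha : ∑ i, fieldRes K h t a i ^ 2 ≤ ε ^ 2 * n) :
    1 / 2 * √((2 * π) ^ n * (s ^ 2 / (1 + θ)) ^ n) * exp (-regDet κ (jacPsi K t a))
        * exp (-(n * volErr L κ s θ ε))
      ≤ ∫ x, {x : Fin n → ℝ | ∑ i, (x i - a i) ^ 2 ≤ ρ ^ 2 * n}.indicator
          (fun x => exp (-((∑ i, fieldRes K h t x i ^ 2) / (2 * s ^ 2)))) x := by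
  have hn' : (0 : ℝ) < n := by exact_mod_cast hn
  have h1θ : 0 < 1 + θ := by linarith
  set c := s / √(1 + θ) with hc
  have hc0 : 0 < c := div_pos hs (sqrt_pos.2 h1θ)
  have hc2 : c ^ 2 = s ^ 2 / (1 + θ) := by rw [hc, div_pow, sq_sqrt h1θ.le]
  obtain ⟨B, hBd, hSinv, hSp, hrow, hZ⟩ := reg_factor hκ hc0 (jacPsi K t a)
  set r := s ^ 2 / κ
  have hrow' : ∀ i, ∑ j, B i j ^ 2 ≤ r := fun i => (hrow i).trans (by
    rw [hc2]; exact div_le_div_of_nonneg_right (div_le_self (sq_nonneg s) (by linarith)) hκ.le)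
  set G : Set (Fin n → ℝ) := {y | ∑ i, y i ^ 4 ≤ 12 * r ^ 2 * n ∧ ∑ i, y i ^ 2 ≤ 4 * r * n}
  have hGm : MeasurableSet G :=
    (measurableSet_le (f := fun y : Fin n → ℝ => ∑ i, y i ^ 4) (by fun_prop) measurable_const).inter
      (measurableSet_le (f := fun y : Fin n → ℝ => ∑ i, y i ^ 2) (by fun_prop) measurable_const)
  set S := B * B.transpose with hS
  set f : (Fin n → ℝ) → ℝ := {x : Fin n → ℝ | ∑ i, (x i - a i) ^ 2 ≤ ρ ^ 2 * n}.indicator
      (fun x => exp (-((∑ i, fieldRes K h t x i ^ 2) / (2 * s ^ 2))))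
  set E := volErr L κ s θ ε
  set Z := √((2 * π) ^ n * S.det)
  have hZ0 : 0 < Z := sqrt_pos.2 (mul_pos (by positivity) hSp.det_pos)
  have hpt : ∀ y, Z * exp (-(n * E)) * (chanV S 0 y * G.indicator (fun _ => (1 : ℝ)) y) ≤ f (a + y) :=
    fun y => by
    by_cases hy : y ∈ G
    swap
    · rw [Set.indicator_of_notMem hy, mul_zero, mul_zero]
      exact Set.indicator_nonneg (fun _ _ => (exp_pos _).le) _
    rw [Set.indicator_of_mem hy, mul_one]
    obtain ⟨hy4, hy2⟩ := hy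
    have hmem : a + y ∈ {x : Fin n → ℝ | ∑ i, (x i - a i) ^ 2 ≤ ρ ^ 2 * n} := by
      simp only [Set.mem_ofPred_eq, Pi.add_apply, add_sub_cancel_left]
      exact hy2.trans (mul_le_mul_of_nonneg_right hρ hn'.le)
    simp only [f, Set.indicator_of_mem hmem]
    have hb := bump_point hn ht ht1 hκ hs hθ hK h a y ha hy4 hy2
    rw [chanV, sub_zero, hSinv, smul_mulVec, dotProduct_smul, smul_eq_mul, hc2]
    calc Z * exp (-(n * E)) * (exp (-((s ^ 2 / (1 + θ))⁻¹ * (y ⬝ᵥ ((jacPsi K t a).transpose * jacPsi K t a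
            + κ • (1 : Matrix (Fin n) (Fin n) ℝ)) *ᵥ y) / 2)) / Z)
        = exp (-(n * E)) * exp (-((s ^ 2 / (1 + θ))⁻¹ * (y ⬝ᵥ ((jacPsi K t a).transpose * jacPsi K t a
            + κ • (1 : Matrix (Fin n) (Fin n) ℝ)) *ᵥ y) / 2)) := by field_simp
      _ ≤ _ := by rw [← exp_add, exp_le_exp]; linarith
  have hset : MeasurableSet {x : Fin n → ℝ | ∑ i, (x i - a i) ^ 2 ≤ ρ ^ 2 * n} :=
    measurableSet_le (f := fun x : Fin n → ℝ => ∑ i, (x i - a i) ^ 2) (by fun_prop) measurable_const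
  have hfi : Integrable f := by
    refine (integrable_indicator_iff hset).2 (ContinuousOn.integrableOn_compact ?_ ?_)
    · refine Metric.isCompact_of_isClosed_isBounded (isClosed_le (by fun_prop) continuous_const) ?_
      refine (Metric.isBounded_closedBall (x := a) (r := √(ρ ^ 2 * n))).subset fun x hx => ?_
      rw [Metric.mem_closedBall, dist_pi_le_iff (sqrt_nonneg _)]
      intro i
      rw [Real.dist_eq]
      exact abs_le_sqrt ((single_le_sum (f := fun j => (x j - a j) ^ 2) (fun j _ => sq_nonneg _)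
        (mem_univ i)).trans hx)
    · have hcr := continuous_fieldRes K h t
      exact Continuous.continuousOn (by fun_prop)
  calc 1 / 2 * √((2 * π) ^ n * (s ^ 2 / (1 + θ)) ^ n) * exp (-regDet κ (jacPsi K t a)) * exp (-(n * E))
      = Z * exp (-(n * E)) * (1 / 2) := by simp only [Z, hZ, hc2]; ring
    _ ≤ Z * exp (-(n * E)) * ∫ g, G.indicator (fun _ => (1 : ℝ)) (B *ᵥ g) ∂gp (Fin n) :=
        mul_le_mul_of_nonneg_left (gauss_box hn (by positivity) hrow') (by positivity)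
    _ = ∫ y, Z * exp (-(n * E)) * (chanV S 0 y * G.indicator (fun _ => (1 : ℝ)) y) := by
        rw [integral_const_mul, (chan_integral hS.symm hBd 0 _).1]
        simp
    _ ≤ ∫ y, f (a + y) := integral_mono ((chanV_bdd hSp 0 (measurable_const.indicator hGm) (M := 1)
          (fun y => by by_cases hy : y ∈ G <;> simp [hy])).const_mul _)
          ((measurePreserving_add_left volume a).integrable_comp_of_integrable hfi) hpt
    _ = ∫ x, f x := integral_add_left_eq_self f a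

end Vale.Agent.P150.Fast.Transfer
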