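import Vale.Agent.P150.Fast.LogDetMean
import Vale.Agent.P150.Fast.TransferVol
import Vale.Agent.P150.Fast.GoeNorm

/-!
The determinant bound used by the transfer (P150): outside an exponentially small event of the
disorder the regularised log determinant of the TAP Jacobian is at most `n (t (1-q)²/2 + ε)` at all
fields of overlap bounded away from zero, at once.
-/

open MeasureTheory Real Finset Filter Matrix

namespace Vale.Agent.P150.Fast.Transfer

variable {n : ℕ}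

theorem tendsto_exp_lin {c : ℝ} (hc : 0 < c) :
    Tendsto (fun n : ℕ => exp (-(c * n))) atTop (nhds 0) :=
  tendsto_exp_neg_atTop_nhds_zero.comp (tendsto_natCast_atTop_atTop.const_mul_atTop hc)

theorem eventually_small {c x a : ℝ} (hc : 0 < c) (hx : 0 < x) :
    ∀ᶠ n : ℕ in atTop, a * exp (-(c * n)) < x := by
  have h := (tendsto_exp_lin hc).const_mul a
  rw [mul_zero] at h
  exact h.eventually (eventually_lt_nhds hx)

/-- The bulk margin with the norm, uniformly in the strength and the weights. -/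
theorem bulk_uniform (hG : GaussTail) {t δ : ℝ} (ht : 0 < t) (ht1 : t < 1) (hδ : 0 < δ) (hδ1 : δ ≤ 1) :
    ∃ η c : ℝ, 0 < η ∧ η ≤ 1 ∧ 0 < c ∧ ∀ᶠ n : ℕ in atTop,
      (disX n).real {d | ¬ ∀ u, |Ent.qform (kmat n 1 d) u| ≤ 3 * ∑ i, u i ^ 2} ≤ exp (-(c * n)) ∧
      ∀ (τ U : ℝ) (v : Fin n → ℝ), 0 ≤ τ → τ ≤ t → 0 ≤ U → U ≤ 1 - δ → (∀ i, 0 < v i) →
        (∀ i, v i ≤ 1) → ∑ i, v i ≤ U * n →
        (disX n).real (goodBulk v U η 3 τ)ᶜ ≤ exp (-(c * n)) := by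
  set sl := δ * (1 - t) with hsl
  have hsl0 : 0 < sl := mul_pos hδ (by linarith)
  have hsl1 : sl ≤ δ := mul_le_of_le_one_right hδ.le (by linarith)
  set x := sl / 20 with hx
  have hx0 : 0 < x := by positivity
  have hx1 : x ≤ 1 / 20 := by rw [hx]; linarith
  obtain ⟨c1, hc1, hev⟩ := normEvent 1 1 zero_le_one one_pos
  set c2 := (x / 2) ^ 2 * x ^ 2 / (π ^ 2 * (1 + x) ^ 2) with hc2
  have hc20 : 0 < c2 := by positivity
  set c := min c1 c2 / 2
  have hc : 0 < c := by positivity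
  refine ⟨x, c, hx0, by linarith, hc, ?_⟩
  filter_upwards [hev, eventually_gt_atTop 0, eventually_small (a := 2) (c := c) hc one_pos,
    eventually_small (a := 1) (c := x ^ 2 / π ^ 2) (x := x / 2 / (2 * ((1 + x) / x))) (by positivity)
      (by positivity)] with n hnorm hn h2c hlarge
  have hn' : (0 : ℝ) < n := by exact_mod_cast hn
  have hhalf : exp (-(c * n)) * 2 ≤ 1 := by linarith
  have hW : (disX n).real {d | ¬ ∀ u, |Ent.qform (kmat n 1 d) u| ≤ 3 * ∑ i, u i ^ 2}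
      ≤ exp (-(2 * c * n)) := by
    refine le_trans (le_of_eq ?_) (hnorm.trans (exp_le_exp.2 (neg_le_neg ?_)))
    · norm_num
    · refine mul_le_mul_of_nonneg_right ?_ hn'.le
      simp only [c]; linarith [min_le_left c1 c2]
  refine ⟨hW.trans (exp_le_exp.2 (neg_le_neg (mul_le_mul_of_nonneg_right (by linarith) hn'.le))), fun τ U v hτ hτt hU hU1 hv hv1 hvs => ?_⟩
  have hsub : (goodBulk v U x 3 τ)ᶜ ⊆
      {d | ¬ ∀ u : Fin n → ℝ, Ent.qform (kmat n √τ d) u ≤ ∑ i, u i ^ 2 * (1 / v i + τ * U - x)}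
        ∪ {d | ¬ ∀ u, |Ent.qform (kmat n 1 d) u| ≤ 3 * ∑ i, u i ^ 2} := fun d hd => by
    by_contra hcon
    simp only [Set.mem_union, Set.mem_ofPred_eq, not_or, not_not] at hcon
    refine hd fun u => ⟨hcon.1 u, ?_⟩
    have e : kmat n √τ d = √τ • kmat n 1 d := by rw [← kmat_scale, mul_one]
    have hs : √τ ≤ 1 := sqrt_le_one.2 (by linarith)
    rw [e, cond_qform_eq_dot, smul_mulVec, dotProduct_smul, smul_eq_mul, ← cond_qform_eq_dot, abs_mul,
      abs_of_nonneg (sqrt_nonneg _)]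
    exact (mul_le_of_le_one_left (abs_nonneg _) hs).trans (hcon.2 u)
  refine (measureReal_mono hsub (measure_ne_top _ _)).trans ((measureReal_union_le _ _).trans ?_)
  rcases hτ.eq_or_lt with h0 | hτ0
  · subst h0
    have : {d : Dis n | ¬ ∀ u : Fin n → ℝ,
        Ent.qform (kmat n √0 d) u ≤ ∑ i, u i ^ 2 * (1 / v i + 0 * U - x)} = ∅ := by
      refine Set.eq_empty_iff_forall_notMem.2 fun d hd => hd fun u => ?_
      have e : kmat n √0 d = 0 := by ext i j; simp [kmat_apply]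
      rw [e]
      simp only [Ent.qform, Matrix.zero_apply, mul_zero, zero_mul, sum_const_zero, add_zero]
      refine sum_nonneg fun i _ => mul_nonneg (sq_nonneg _) ?_
      have : 1 ≤ 1 / v i := by rw [le_div_iff₀ (hv i), one_mul]; exact hv1 i
      linarith
    rw [this, measureReal_empty, zero_add]
    exact hW.trans (exp_le_exp.2 (neg_le_neg (mul_le_mul_of_nonneg_right (by linarith) hn'.le)))
  have hsqU : √U ≤ 1 := sqrt_le_one.2 (by linarith)
  have hexp : (√U + x) ^ 2 ≤ U + 3 * x := by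
    rw [add_sq, sq_sqrt hU]
    linarith [mul_le_mul_of_nonneg_right hsqU hx0.le,
      mul_le_mul_of_nonneg_right (show x ≤ 1 by linarith) hx0.le]
  have hprod : δ * (1 - t) ≤ (1 - U) * (1 - τ) := mul_le_mul (by linarith) (by linarith) (by linarith) (by linarith)
  have hb := bulk_event hG hn (τ := τ) (lam := 1) (η := x) (ζ := x) (e := x) hτ0 hU one_pos hx0 hx0 hx0
    hv hv1 hvs ?_ ?_ ?_
  · refine (add_le_add hb hW).trans ?_
    have : exp (-((x / 2) ^ 2 * n * x ^ 2 / (π ^ 2 * τ * (1 + x) ^ 2))) ≤ exp (-(2 * c * n)) := by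
      refine exp_le_exp.2 (neg_le_neg ?_)
      calc 2 * c * n ≤ c2 * n := by
            refine mul_le_mul_of_nonneg_right ?_ hn'.le
            simp only [c]; linarith [min_le_right c1 c2]
        _ = (x / 2) ^ 2 * n * x ^ 2 / (π ^ 2 * 1 * (1 + x) ^ 2) := by rw [hc2]; ring
        _ ≤ _ := by gcongr; linarith
    have e : exp (-(2 * c * n)) = exp (-(c * n)) * exp (-(c * n)) := by rw [← exp_add]; ring_nf
    linarith [mul_le_mul_of_nonneg_left hhalf (exp_pos (-(c * n))).le]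
  · rw [div_one, mul_one]
    have h1 := mul_le_mul_of_nonneg_left (add_le_add hexp (le_refl τ)) (show 0 ≤ 1 + x by linarith)
    have h2 := mul_le_mul_of_nonneg_left (show U + 3 * x + τ ≤ 3 by linarith) hx0.le
    linarith
  · rw [div_one]
    have h1 := mul_le_mul_of_nonneg_left hexp (show 0 ≤ 1 + x by linarith)
    have h2 := mul_le_mul_of_nonneg_left (show U + 3 * x ≤ 2 by linarith) hx0.le
    linarith
  · have hs : √τ ≤ 1 := sqrt_le_one.2 (by linarith)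
    rw [show exp (-(2 * x ^ 2 * n / π ^ 2)) = exp (-(x ^ 2 / π ^ 2 * n)) ^ 2 by
      rw [← exp_nat_mul]; congr 1; push_cast; ring, sqrt_sq (exp_pos _).le]
    rw [one_mul, lt_div_iff₀ (by positivity)] at hlarge
    calc 2 * √τ * ((1 + x) / x) * exp (-(x ^ 2 / π ^ 2 * n))
        ≤ 2 * 1 * ((1 + x) / x) * exp (-(x ^ 2 / π ^ 2 * n)) := by gcongr
      _ = exp (-(x ^ 2 / π ^ 2 * n)) * (2 * ((1 + x) / x)) := by ring
      _ ≤ x / 2 := hlarge.le

/-- The tail of the regularised log determinant at fixed weights. -/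
theorem grid_tail (hG : GaussTail) {t δ ε : ℝ} (ht : 0 < t) (ht1 : t < 1) (hδ : 0 < δ) (hδ1 : δ ≤ 1)
    (hε : 0 < ε) :
    ∃ κ c : ℝ, 0 < κ ∧ 0 < c ∧ ∀ᶠ n : ℕ in atTop, ∀ (U : ℝ) (v : Fin n → ℝ), 0 ≤ U → U ≤ 1 - δ →
      (∀ i, 0 < v i) → (∀ i, v i ≤ 1) → ∑ i, v i ≤ U * n →
      (disX n).real {d | n * (t * U ^ 2 / 2 + ε) ≤ LogDet.regBulk v U κ t d}
        ≤ exp (-(c * (n : ℝ) ^ 2)) := by
  obtain ⟨η, c, hη, -, hc, hev⟩ := bulk_uniform hG ht ht1 hδ hδ1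
  set e0 := ε / 6 with he0
  have he00 : 0 < e0 := by positivity
  set κ := e0 / (1 + (3 + 1) ^ 2 / η ^ 2) with hκd
  have hκ : 0 < κ := by positivity
  set C0 := ((3 : ℝ) + 5) * (1 + 2 / η)
  have hC0 : 0 < C0 := by positivity
  set K1 := 1 / η ^ 2 + 54 / η ^ 3
  obtain ⟨M, hM⟩ := exists_nat_gt (max (36 / η ^ 2) (max 1 ((K1 * 4 / e0) ^ 2)))
  have hM1 : (1 : ℝ) < M := ((le_max_left _ _).trans (le_max_right _ _)).trans_lt hM
  have hM36 : 36 / η ^ 2 < M := (le_max_left _ _).trans_lt hM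
  have hMK : (K1 * 4 / e0) ^ 2 < M := ((le_max_right _ _).trans (le_max_right _ _)).trans_lt hM
  have hM0 : 0 < M := by
    rcases Nat.eq_zero_or_pos M with h | h
    · rw [h] at hM1; norm_num at hM1
    · exact h
  have hM' : (0 : ℝ) < M := by exact_mod_cast hM0
  have hsM : 0 < √(M : ℝ) := sqrt_pos.2 hM'
  refine ⟨κ, 2 * e0 ^ 2 / (π ^ 2 * (2 * t / κ)), hκ, by positivity, ?_⟩
  filter_upwards [hev, eventually_gt_atTop 0,
    eventually_small (a := M * (4 * C0)) (c := c) (x := e0 / 4) hc (by positivity),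
    eventually_small (a := 4 / η ^ 2) (c := c / 2) (x := e0 / 4) (by positivity) (by positivity),
    eventually_small (a := 1) (c := c) (x := e0 / (1 + 2 * e0 + e0 + C0) / 2) hc (by positivity),
    eventually_small (a := 1) (c := 2 * e0 ^ 2 / (π ^ 2 * (2 * t / κ)))
      (x := e0 / (1 + 2 * e0 + e0 + C0) / 2) (by positivity) (by positivity)]
    with n ⟨hW, hgood⟩ hn hE1 hE2 hp hbig U v hU hU1 hv hv1 hvs
  have hn1 : (1 : ℝ) ≤ n := by exact_mod_cast hn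
  have hn' : (0 : ℝ) < n := by linarith
  set p := exp (-(c * n))
  have hp0 : 0 < p := exp_pos _
  have hU1' : U ≤ 1 := by linarith
  have hsmall : √(t / M) * 3 / η ≤ 1 / 2 := by
    have h1 : t / M ≤ (η / 6) ^ 2 := by
      rw [div_le_iff₀ hM']
      rw [div_lt_iff₀ (by positivity)] at hM36
      linarith
    have h2 := sqrt_le_sqrt h1
    rw [sqrt_sq (by positivity)] at h2
    rw [div_le_iff₀ hη]
    linarith
  have hmean := LogDet.psi_mean hn hv hv1 hM0 hη hU hU1' ht.le ht1.le (show (0 : ℝ) ≤ 3 by norm_num) hp0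
    hsmall (fun τ a b => hgood τ U v a b hU hU1 hv hv1 hvs) hW
  set a := t * U ^ 2 / 2 + 2 * e0
  have ha : 0 ≤ a := by positivity
  have ha1 : a ≤ 1 + 2 * e0 := by
    have : U ^ 2 ≤ 1 := pow_le_one₀ hU hU1'
    simp only [a]
    linarith [mul_le_of_le_one_right ht.le this]
  have hmean' : ∫ d, psiBulk v U η 3 t d ∂disX n ≤ n * a := by
    refine hmean.trans ?_
    have h1 : (M : ℝ) * (t / M / η) ^ 2 ≤ 1 / η ^ 2 / √M := by
      have hs1 : √(M : ℝ) ≤ M := sqrt_le_iff.2 ⟨hM'.le, le_self_pow₀ hM1.le two_ne_zero⟩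
      calc (M : ℝ) * (t / M / η) ^ 2 = t ^ 2 / η ^ 2 / M := by field_simp
        _ ≤ 1 / η ^ 2 / M := by gcongr; exact pow_le_one₀ ht.le ht1.le
        _ ≤ 1 / η ^ 2 / √M := div_le_div_of_nonneg_left (by positivity) hsM hs1
    have h2 : (M : ℝ) * (2 * (√(t / M) * 3 / η) ^ 3) ≤ 54 / η ^ 3 / √M := by
      have hsq : √(M : ℝ) ^ 2 = M := sq_sqrt hM'.le
      calc (M : ℝ) * (2 * (√(t / M) * 3 / η) ^ 3) ≤ (M : ℝ) * (2 * (1 / √M * 3 / η) ^ 3) := by
            gcongr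
            rw [sqrt_div ht.le]
            gcongr
            exact sqrt_le_one.2 ht1.le
        _ = 54 / η ^ 3 / √M := by
            field_simp
            rw [hsq]
            ring
    have h3 : K1 / √M ≤ e0 / 4 := by
      rw [div_le_iff₀ hsM]
      have h := sqrt_le_sqrt hMK.le
      rw [sqrt_sq (by positivity), div_le_iff₀ he00] at h
      linarith
    have h4 : √p = exp (-(c / 2 * n)) := by
      rw [show p = exp (-(c / 2 * n)) ^ 2 by simp only [p]; rw [← exp_nat_mul]; congr 1; push_cast; ring,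
        sqrt_sq (exp_pos _).le]
    have h5 : 4 * t * √p / η ^ 2 ≤ e0 / 4 := by
      rw [h4]
      calc 4 * t * exp (-(c / 2 * n)) / η ^ 2 ≤ 4 * 1 * exp (-(c / 2 * n)) / η ^ 2 := by gcongr
        _ = 4 / η ^ 2 * exp (-(c / 2 * n)) := by ring
        _ ≤ _ := hE2.le
    have hk : K1 / √M = 1 / η ^ 2 / √M + 54 / η ^ 3 / √M := by simp only [K1]; ring
    have key : t * U ^ 2 / 2 + (M : ℝ) * ((t / M / η) ^ 2 + 2 * (√(t / M) * 3 / η) ^ 3
        + 4 * C0 * p) + 4 * t * √p / η ^ 2 ≤ a := by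
      simp only [a]
      linarith
    have := mul_le_mul_of_nonneg_left key hn'.le
    refine le_trans (le_of_eq ?_) this
    simp only [C0]
    ring
  have hmono : e0 / (1 + 2 * e0 + e0 + C0) / 2 ≤ e0 / (a + e0 + C0) / 2 := by gcongr
  have hq : exp (-(2 * (e0 * n) ^ 2 / (π ^ 2 * (2 * t / κ)))) < e0 / (a + e0 + C0) / 2 := by
    rw [one_mul] at hbig
    refine lt_of_le_of_lt (exp_le_exp.2 (neg_le_neg ?_)) (hbig.trans_le hmono)
    have : (n : ℝ) ≤ (n : ℝ) ^ 2 := le_self_pow₀ hn1 two_ne_zero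
    calc 2 * e0 ^ 2 / (π ^ 2 * (2 * t / κ)) * n ≤ 2 * e0 ^ 2 / (π ^ 2 * (2 * t / κ)) * (n : ℝ) ^ 2 := by
          gcongr
      _ = _ := by ring
  have htail := LogDet.regBulk_tail hG hn hv hv1 hη (show (0 : ℝ) ≤ 3 by norm_num) hU hU1' hκ ht ht1.le
    he00 ha hmean' (hgood t U v ht.le le_rfl hU hU1 hv hv1 hvs)
    (by rw [one_mul] at hp; exact hp.trans_le hmono) hq
  refine (measureReal_mono (fun d hd => ?_) (measure_ne_top _ _)).trans (htail.trans (le_of_eq ?_))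
  · simp only [Set.mem_ofPred_eq] at hd ⊢
    refine le_trans (mul_le_mul_of_nonneg_left ?_ hn'.le) hd
    have : κ * (1 + (3 + 1) ^ 2 / η ^ 2) = e0 := by rw [hκd]; field_simp
    simp only [a]
    linarith
  · congr 1; ring

theorem plant_diff (t c c' : ℝ) (K : Matrix (Fin n) (Fin n) ℝ) (r s v v' : Fin n → ℝ) :
    (1 + (c • (1 : Matrix (Fin n) (Fin n) ℝ) - (K + (t / n) • vecMulVec (fun _ => 1) fun _ => 1))
          * diagonal v - vecMulVec r s)
        - (1 + (c' • (1 : Matrix (Fin n) (Fin n) ℝ) - K) * diagonal v')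
      = (c - c') • diagonal v + (c' • (1 : Matrix (Fin n) (Fin n) ℝ) - K) * diagonal (fun i => v i - v' i)
        - vecMulVec (fun _ => t / n) v - vecMulVec r s := by
  ext i j
  simp only [Matrix.sub_apply, Matrix.add_apply, Matrix.mul_diagonal, Matrix.smul_apply, smul_eq_mul,
    vecMulVec_apply, diagonal_apply, Matrix.one_apply]
  by_cases h : i = j <;> simp [h] <;> ring

theorem fsq_diag (v : Fin n → ℝ) : fsq (diagonal v) = ∑ i, v i ^ 2 := by
  rw [fsq_eq]; simp [diagonal_apply, ite_pow]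

theorem fsq_vecMulVec (r s : Fin n → ℝ) : fsq (vecMulVec r s) = (∑ i, r i ^ 2) * ∑ j, s j ^ 2 := by
  rw [fsq_eq, sum_mul_sum]
  exact sum_congr rfl fun i _ => sum_congr rfl fun j _ => by rw [vecMulVec_apply]; ring

theorem fsq_four (A B C D : Matrix (Fin n) (Fin n) ℝ) :
    fsq (A + B - C - D) ≤ 4 * (fsq A + fsq B + fsq C + fsq D) := by
  simp only [fsq_eq, mul_add, mul_sum, ← sum_add_distrib]
  refine sum_le_sum fun i _ => sum_le_sum fun j _ => ?_
  simp only [Matrix.sub_apply, Matrix.add_apply]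
  linarith [sq_four (A i j) (B i j) (C i j) (D i j)]

theorem jac_diff {t : ℝ} (ht : 0 ≤ t) (ht1 : t ≤ 1) (hn : 0 < n) {K : Matrix (Fin n) (Fin n) ℝ}
    {h U : ℝ} (a : Fin n → ℝ) {w : Fin n → ℝ}
    (hK : ∀ u, ∑ i, (((t * U) • (1 : Matrix (Fin n) (Fin n) ℝ) - K) *ᵥ u) i ^ 2 ≤ 4 ^ 2 * ∑ i, u i ^ 2)
    (hw : ∀ i, |1 - tanh (a i) ^ 2 - w i| ≤ h) (hU : |1 - (∑ j, tanh (a j) ^ 2) / (n : ℝ) - U| ≤ h) :
    fsq (jacPsi (K + (t / n) • vecMulVec (fun _ => 1) fun _ => 1) t a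
      - (1 + ((t * U) • (1 : Matrix (Fin n) (Fin n) ℝ) - K) * diagonal w)) ≤ (9 * h) ^ 2 * n + 20 := by
  have hn' : (0 : ℝ) < n := by exact_mod_cast hn
  have hh : 0 ≤ h := (abs_nonneg _).trans hU
  set v : Fin n → ℝ := fun i => 1 - tanh (a i) ^ 2 with hv
  have hv0 : ∀ i, 0 ≤ v i := fun i => (tanh_mem (a i)).2.1
  have hv1 : ∀ i, v i ≤ 1 := fun i => (tanh_mem (a i)).2.2
  rw [jacPsi, plant_diff]
  refine (fsq_four _ _ _ _).trans ?_
  set V := 1 - (∑ j, tanh (a j) ^ 2) / (n : ℝ)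
  have f1 : fsq ((t * V - t * U) • diagonal v) ≤ h ^ 2 * n := by
    rw [show (t * V - t * U) • diagonal v = diagonal (fun i => (t * V - t * U) * v i) by
      ext i j; by_cases h : i = j <;> simp [h], fsq_diag]
    refine (sum_le_card_nsmul _ _ (h ^ 2) fun i _ => ?_).trans (le_of_eq (by simp; ring))
    rw [mul_pow]
    refine (mul_le_of_le_one_right (sq_nonneg _) (pow_le_one₀ (hv0 i) (hv1 i))).trans (sq_le_sq.2 ?_)
    rw [← mul_sub, abs_mul, abs_of_nonneg ht, abs_of_nonneg hh]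
    exact (mul_le_of_le_one_left (abs_nonneg _) ht1).trans hU
  have f2 : fsq (((t * U) • (1 : Matrix (Fin n) (Fin n) ℝ) - K) * diagonal (fun i => v i - w i))
      ≤ 16 * (h ^ 2 * n) := by
    refine (fsq_mul_le hK _).trans ?_
    rw [fsq_diag, show (4 : ℝ) ^ 2 = 16 by norm_num]
    refine mul_le_mul_of_nonneg_left ?_ (by norm_num)
    refine (sum_le_card_nsmul _ _ (h ^ 2) fun i _ => sq_le_sq.2 ?_).trans (le_of_eq (by simp; ring))
    rw [abs_of_nonneg hh]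
    exact hw i
  have f3 : fsq (vecMulVec (fun _ : Fin n => t / n) v) ≤ 1 := by
    rw [fsq_vecMulVec]
    simp only [sum_const, card_univ, Fintype.card_fin, nsmul_eq_mul]
    calc (n : ℝ) * (t / n) ^ 2 * ∑ j, v j ^ 2 ≤ (n : ℝ) * (1 / n) ^ 2 * n := by
          gcongr
          refine (sum_le_card_nsmul _ _ (1 : ℝ) fun j _ => pow_le_one₀ (hv0 j) (hv1 j)).trans (by simp)
      _ = 1 := by field_simp
  have f4 : fsq (vecMulVec (fun i => 2 * t / n * tanh (a i)) fun i => tanh (a i) * v i) ≤ 4 := by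
    rw [fsq_vecMulVec]
    calc (∑ i, (2 * t / n * tanh (a i)) ^ 2) * ∑ j, (tanh (a j) * v j) ^ 2
        ≤ ((n : ℝ) * (2 / n) ^ 2) * n := by
          refine mul_le_mul ?_ ?_ (sum_nonneg fun j _ => sq_nonneg _) (by positivity)
          · refine (sum_le_card_nsmul _ _ ((2 / n : ℝ) ^ 2) fun i _ => ?_).trans (le_of_eq (by simp))
            rw [show 2 * t / n * tanh (a i) = 2 / n * (t * tanh (a i)) by ring, mul_pow]
            refine mul_le_of_le_one_right (sq_nonneg _) ((sq_le_one_iff_abs_le_one _).2 ?_)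
            rw [abs_mul, abs_of_nonneg ht]
            exact mul_le_one₀ ht1 (abs_nonneg _) (tanh_mem _).1
          · refine (sum_le_card_nsmul _ _ (1 : ℝ) fun j _ => ?_).trans (by simp)
            refine (sq_le_one_iff_abs_le_one _).2 ?_
            rw [abs_mul, abs_of_nonneg (hv0 j)]
            exact mul_le_one₀ (tanh_mem _).1 (hv0 j) (hv1 j)
      _ = 4 := by field_simp; ring
  have hpos : 0 ≤ h ^ 2 * (n : ℝ) := by positivity
  linarith [show (9 * h) ^ 2 * (n : ℝ) = 81 * (h ^ 2 * n) by ring]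

theorem op_shift {β U : ℝ} (hβ : 0 ≤ β) (hβ1 : β ≤ 1) (hU : 0 ≤ U) (hU1 : U ≤ 1) {d : Dis n}
    (hN : ∀ u, |Ent.qform (kmat n 1 d) u| ≤ 3 * ∑ i, u i ^ 2) (u : Fin n → ℝ) :
    ∑ i, (((β ^ 2 * U) • (1 : Matrix (Fin n) (Fin n) ℝ) - kmat n β d) *ᵥ u) i ^ 2
      ≤ 4 ^ 2 * ∑ i, u i ^ 2 := by
  refine op_of_qform ((Matrix.isSymm_one.smul _).sub (kmat_isSymm β d)) (by norm_num) (fun u => ?_) u
  have hs : 0 ≤ ∑ i, u i ^ 2 := sum_nonneg fun i _ => sq_nonneg _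
  have e : kmat n β d = β • kmat n 1 d := by rw [← kmat_scale, mul_one]
  rw [sub_mulVec, dotProduct_sub, smul_mulVec, one_mulVec, dotProduct_smul, smul_eq_mul, e,
    smul_mulVec, dotProduct_smul, smul_eq_mul, ← cond_qform_eq_dot,
    show u ⬝ᵥ u = ∑ i, u i ^ 2 by simp [dotProduct, pow_two]]
  have h0 : 0 ≤ β ^ 2 * U := mul_nonneg (sq_nonneg β) hU
  have h1 : β ^ 2 * U ≤ 1 := mul_le_one₀ (pow_le_one₀ hβ hβ1) hU hU1
  have h2 := mul_le_mul_of_nonneg_right h1 hs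
  have h3 := mul_nonneg h0 hs
  have h4 : |β * Ent.qform (kmat n 1 d) u| ≤ 3 * ∑ i, u i ^ 2 := by
    rw [abs_mul, abs_of_nonneg hβ]
    exact (mul_le_of_le_one_left (abs_nonneg _) hβ1).trans (hN u)
  obtain ⟨h5, h6⟩ := abs_le.1 h4
  rw [abs_le]; constructor <;> linarith

theorem lip_room {ε κ x h : ℝ} (hε : 0 < ε) (hκ : 0 < κ) (hx : 0 < x) (hh : 0 ≤ h)
    (h1 : 36 * h ≤ ε * √κ) (h2 : (24 / (ε * √κ)) ^ 2 ≤ x) :
    √(x / κ) * √((9 * h) ^ 2 * x + 20) ≤ x * (ε / 2) := by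
  have hsκ : 0 < √κ := sqrt_pos.2 hκ
  have hs : √((9 * h) ^ 2 * x + 20) ≤ 9 * h * √x + 5 := by
    rw [sqrt_le_iff]
    refine ⟨by positivity, ?_⟩
    rw [add_sq, mul_pow (9 * h), sq_sqrt hx.le]
    linarith [mul_nonneg (mul_nonneg (show (0 : ℝ) ≤ 9 by norm_num) hh) (sqrt_nonneg x)]
  refine (mul_le_mul_of_nonneg_left hs (sqrt_nonneg _)).trans ?_
  rw [sqrt_div hx.le, div_mul_eq_mul_div, div_le_iff₀ hsκ]
  have hsn : 24 ≤ √x * (ε * √κ) := by
    have h := sqrt_le_sqrt h2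
    rw [sqrt_sq (by positivity), div_le_iff₀ (by positivity)] at h
    exact h
  have hnn : √x * √x = x := mul_self_sqrt hx.le
  have h3 := mul_le_mul_of_nonneg_left hsn (sqrt_nonneg x)
  have h4 := mul_le_mul_of_nonneg_right h1 hx.le
  have h5 : √x * (√x * (ε * √κ)) = x * (ε * √κ) := by rw [← mul_assoc, hnn]
  have h6 : √x * (9 * h * √x + 5) = 9 * h * x + 5 * √x := by linear_combination 9 * h * hnn
  rw [h6]
  linarith [sqrt_nonneg x]

/-- The bound at one field, from the bound at rounded weights. -/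
theorem det_point (hn : 0 < n) {β ε κ h U : ℝ} (hβ : 0 ≤ β) (hβ1 : β ≤ 1) (hκ : 0 < κ) (hε : 0 < ε)
    (hh : 0 ≤ h) (hh1 : 36 * h ≤ ε * √κ) (hh2 : 8 * h ≤ ε) (hbig : (24 / (ε * √κ)) ^ 2 ≤ (n : ℝ))
    {d : Dis n} (hN : ∀ u, |Ent.qform (kmat n 1 d) u| ≤ 3 * ∑ i, u i ^ 2) (a : Fin n → ℝ)
    {w : Fin n → ℝ} (hw : ∀ i, |1 - tanh (a i) ^ 2 - w i| ≤ h) (hU0 : 0 ≤ U) (hU1 : U ≤ 1)
    (hU : |1 - (∑ j, tanh (a j) ^ 2) / (n : ℝ) - U| ≤ h)
    (hb : LogDet.regBulk w U κ (β ^ 2) d < n * (β ^ 2 * U ^ 2 / 2 + ε / 4)) :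
    regDet κ (jacPsi (plantK n β d) (β ^ 2) a)
      ≤ n * (β ^ 2 * (1 - (∑ j, tanh (a j) ^ 2) / n) ^ 2 / 2 + ε) := by
  have hn' : (0 : ℝ) < n := by exact_mod_cast hn
  set t := β ^ 2 with ht
  have ht0 : 0 ≤ t := sq_nonneg β
  have ht1 : t ≤ 1 := pow_le_one₀ hβ hβ1
  have e3 : kmat n √t d = kmat n β d := by rw [sqrt_sq hβ]
  have hf : fsq (jacPsi (plantK n β d) t a - (1 + ((t * U) • (1 : Matrix (Fin n) (Fin n) ℝ) - kmat n β d)
      * diagonal w)) ≤ (9 * h) ^ 2 * n + 20 :=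
    jac_diff ht0 ht1 hn a (fun u => op_shift hβ hβ1 hU0 hU1 hN u) hw hU
  have hlip := (regDet_lip hκ (jacPsi (plantK n β d) t a)
      (1 + ((t * U) • (1 : Matrix (Fin n) (Fin n) ℝ) - kmat n β d) * diagonal w)).trans
    ((mul_le_mul_of_nonneg_left (sqrt_le_sqrt hf) (sqrt_nonneg _)).trans
      (lip_room hε hκ hn' hh hh1 hbig))
  rw [LogDet.regBulk, e3] at hb
  set V := 1 - (∑ j, tanh (a j) ^ 2) / (n : ℝ)
  obtain ⟨c1, c2⟩ := abs_le.1 hU
  have hV0 : 0 ≤ V := sub_nonneg.2 ((div_le_one hn').2 (le_trans (sum_le_card_nsmul _ _ (1 : ℝ)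
    fun j _ => (sq_le_one_iff_abs_le_one _).2 (tanh_mem _).1) (by simp)))
  have hV1 : V ≤ 1 := sub_le_self _ (div_nonneg (sum_nonneg fun j _ => sq_nonneg _) hn'.le)
  have hUU : t * U ^ 2 / 2 ≤ t * V ^ 2 / 2 + ε / 4 := by
    have hsq : U ^ 2 - V ^ 2 ≤ ε / 4 := by
      rw [show U ^ 2 - V ^ 2 = (U - V) * (U + V) by ring]
      exact (mul_le_mul_of_nonneg_right (show U - V ≤ h by linarith) (by linarith)).trans
        ((mul_le_mul_of_nonneg_left (show U + V ≤ 2 by linarith) hh).trans (by linarith))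
    have h2 := mul_le_mul_of_nonneg_left hsq ht0
    have h3 : t * (ε / 4) ≤ ε / 4 := mul_le_of_le_one_left (by linarith) ht1
    linarith
  have := mul_le_mul_of_nonneg_left hUU hn'.le
  linarith

/-- The weights on the grid. -/
noncomputable def gridW {M : ℕ} (k : Fin n → Fin M) (i : Fin n) : ℝ := (((k i : ℕ) : ℝ) + 1) / M

theorem grid_near {M : ℕ} (hM : 0 < M) (hn : 0 < n) (a : Fin n → ℝ) :
    ∃ k : Fin n → Fin M, (∀ i, |1 - tanh (a i) ^ 2 - gridW k i| ≤ (1 : ℝ) / M) ∧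
      |1 - (∑ j, tanh (a j) ^ 2) / (n : ℝ) - (∑ i, gridW k i) / n| ≤ (1 : ℝ) / M ∧
      (∑ i, gridW k i) / n ≤ 1 - (∑ j, tanh (a j) ^ 2) / (n : ℝ) + (1 : ℝ) / M := by
  have hn' : (0 : ℝ) < n := by exact_mod_cast hn
  have hM' : (0 : ℝ) < M := by exact_mod_cast hM
  set v : Fin n → ℝ := fun i => 1 - tanh (a i) ^ 2
  have hv0 : ∀ i, 0 < v i := fun i => sub_pos.2 ((sq_lt_one_iff_abs_lt_one _).2 (abs_tanh_lt_one _))
  have h2 : ∀ i, 1 ≤ ⌈v i * M⌉₊ := fun i => Nat.ceil_pos.2 (mul_pos (hv0 i) hM')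
  have hkM : ∀ i, ⌈v i * M⌉₊ - 1 < M := fun i => by
    have h1 : ⌈v i * M⌉₊ ≤ M := Nat.ceil_le.2 (mul_le_of_le_one_left hM'.le (tanh_mem (a i)).2.2)
    have := h2 i
    omega
  refine ⟨fun i => ⟨⌈v i * M⌉₊ - 1, hkM i⟩, ?_⟩
  set w := gridW fun i => (⟨⌈v i * M⌉₊ - 1, hkM i⟩ : Fin M) with hw
  have hwv : ∀ i, v i ≤ w i ∧ w i ≤ v i + 1 / M := fun i => by
    simp only [hw, gridW, Nat.cast_sub (h2 i), Nat.cast_one, sub_add_cancel]
    rw [le_div_iff₀ hM', div_le_iff₀ hM', add_mul, one_div, inv_mul_cancel₀ hM'.ne']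
    exact ⟨Nat.le_ceil _, (Nat.ceil_lt_add_one (mul_nonneg (hv0 i).le hM'.le)).le⟩
  have hMp : 0 ≤ 1 / (M : ℝ) := by positivity
  have e : 1 - (∑ j, tanh (a j) ^ 2) / (n : ℝ) = (∑ i, v i) / n := by
    simp only [v, sum_sub_distrib, sum_const, card_univ, Fintype.card_fin, nsmul_eq_mul, mul_one]
    field_simp
  have hlo := div_le_div_of_nonneg_right (sum_le_sum fun i (_ : i ∈ univ) => (hwv i).1) hn'.le
  have hhi : (∑ i, w i) / n ≤ (∑ i, v i) / n + 1 / M := by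
    refine (div_le_div_of_nonneg_right (sum_le_sum fun i (_ : i ∈ univ) => (hwv i).2) hn'.le).trans ?_
    simp only [sum_add_distrib, sum_const, card_univ, Fintype.card_fin, nsmul_eq_mul]
    rw [add_div, mul_div_cancel_left₀ _ hn'.ne']
  refine ⟨fun i => ?_, ?_, by rw [e]; exact hhi⟩
  · have := hwv i
    simp only [v] at this
    rw [abs_le]; constructor <;> linarith
  · rw [e, abs_le]; constructor <;> linarith

/-- **The determinant bound at all fields at once.** -/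
theorem det_uniform (hG : GaussTail) {β δ ε : ℝ} (hβ : 0 < β) (hβ1 : β < 1) (hδ : 0 < δ) (hδ1 : δ ≤ 1)
    (hε : 0 < ε) :
    ∃ κ γ : ℝ, 0 < κ ∧ 0 < γ ∧ ∀ᶠ n : ℕ in atTop,
      (disX n).real {d | ∃ a : Fin n → ℝ, δ ≤ (∑ j, tanh (a j) ^ 2) / (n : ℝ) ∧
        n * (β ^ 2 * (1 - (∑ j, tanh (a j) ^ 2) / n) ^ 2 / 2 + ε)
          < regDet κ (jacPsi (plantK n β d) (β ^ 2) a)} ≤ exp (-(γ * n)) := by
  classical
  have ht : 0 < β ^ 2 := pow_pos hβ 2
  have ht1 : β ^ 2 < 1 := pow_lt_one₀ hβ.le hβ1 two_ne_zero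
  obtain ⟨κ, c, hκ, hc, hgrid⟩ := grid_tail hG ht ht1 (half_pos hδ) (by linarith) (show 0 < ε / 4 by positivity)
  obtain ⟨c1, hc1, hnorm⟩ := normEvent 1 1 zero_le_one one_pos
  obtain ⟨M, hM⟩ := exists_nat_gt (max (2 / δ) (max (8 / ε) (36 / (ε * √κ))))
  have hsκ : 0 < √κ := sqrt_pos.2 hκ
  have hM1 := (le_max_left _ _).trans_lt hM
  have hM2 := ((le_max_left _ _).trans (le_max_right _ _)).trans_lt hM
  have hM3 := ((le_max_right _ _).trans (le_max_right _ _)).trans_lt hM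
  have hM' : (0 : ℝ) < M := lt_trans (by positivity) hM1
  have hM0 : 0 < M := by exact_mod_cast hM'
  rw [div_lt_iff₀ hδ] at hM1
  rw [div_lt_iff₀ hε] at hM2
  rw [div_lt_iff₀ (by positivity)] at hM3
  have hMd : 1 / (M : ℝ) ≤ δ / 2 := by rw [div_le_iff₀ hM']; linarith
  have hMe : 8 * (1 / (M : ℝ)) ≤ ε := by rw [mul_one_div, div_le_iff₀ hM']; linarith
  have hMk : 36 * (1 / (M : ℝ)) ≤ ε * √κ := by rw [mul_one_div, div_le_iff₀ hM']; linarith
  refine ⟨κ, c1 / 2, hκ, half_pos hc1, ?_⟩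
  filter_upwards [hgrid, hnorm, eventually_gt_atTop 0,
    (tendsto_natCast_atTop_atTop (R := ℝ)).eventually_ge_atTop ((24 / (ε * √κ)) ^ 2),
    (tendsto_natCast_atTop_atTop (R := ℝ)).eventually_ge_atTop ((log M + c1) / c),
    eventually_small (a := 2) (c := c1 / 2) (half_pos hc1) one_pos] with n hgr hno hn hbig hnet h2
  have hn' : (0 : ℝ) < n := by exact_mod_cast hn
  set Uv : (Fin n → Fin M) → ℝ := fun k => (∑ i, gridW k i) / n with hUv
  set Net := (univ : Finset (Fin n → Fin M)).filter fun k => Uv k ≤ 1 - δ / 2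
  set Bad : (Fin n → Fin M) → Set (Dis n) := fun k =>
    {d | n * (β ^ 2 * Uv k ^ 2 / 2 + ε / 4) ≤ LogDet.regBulk (gridW k) (Uv k) κ (β ^ 2) d}
  have hk0 : ∀ (k : Fin n → Fin M) i, 0 < gridW k i ∧ gridW k i ≤ 1 := fun k i => by
    refine ⟨by unfold gridW; positivity, ?_⟩
    rw [gridW, div_le_one hM']
    exact_mod_cast (k i).2
  have hsub : {d | ∃ a : Fin n → ℝ, δ ≤ (∑ j, tanh (a j) ^ 2) / (n : ℝ) ∧
      n * (β ^ 2 * (1 - (∑ j, tanh (a j) ^ 2) / n) ^ 2 / 2 + ε)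
        < regDet κ (jacPsi (plantK n β d) (β ^ 2) a)}
      ⊆ {d | ¬ ∀ u, |Ent.qform (kmat n 1 d) u| ≤ (2 * 1 + 1) * ∑ i, u i ^ 2} ∪ ⋃ k ∈ Net, Bad k := by
    rintro d ⟨a, haq, had⟩
    by_contra hcon
    simp only [Set.mem_union, Set.mem_ofPred_eq, Set.mem_iUnion, not_or, not_exists, not_not] at hcon
    obtain ⟨hN, hB⟩ := hcon
    obtain ⟨k, hw, hU, hUle⟩ := grid_near hM0 hn a
    have hk : k ∈ Net := mem_filter.2 ⟨mem_univ _, by simp only [hUv]; linarith⟩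
    have hN' : ∀ u, |Ent.qform (kmat n 1 d) u| ≤ 3 * ∑ i, u i ^ 2 := fun u => by
      have := hN u; linarith
    exact absurd had (not_lt.2 (det_point hn hβ.le hβ1.le hκ hε (by positivity) hMk hMe hbig hN' a hw
      (div_nonneg (sum_nonneg fun i _ => (hk0 k i).1.le) hn'.le) (by linarith) hU (not_le.1 (hB k hk))))
  refine (measureReal_mono hsub (measure_ne_top _ _)).trans ((measureReal_union_le _ _).trans ?_)
  have hbd : (disX n).real (⋃ k ∈ Net, Bad k) ≤ exp (-(c1 * n)) := by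
    refine (measureReal_biUnion_finset_le _ _).trans ((sum_le_card_nsmul _ _ (exp (-(c * (n : ℝ) ^ 2)))
      fun k hk => hgr _ _ (div_nonneg (sum_nonneg fun i _ => (hk0 k i).1.le) hn'.le) (mem_filter.1 hk).2
        (fun i => (hk0 k i).1) (fun i => (hk0 k i).2)
        (le_of_eq (div_mul_cancel₀ _ hn'.ne').symm)).trans ?_)
    rw [nsmul_eq_mul]
    calc (Net.card : ℝ) * exp (-(c * (n : ℝ) ^ 2)) ≤ exp (n * log M) * exp (-(c * (n : ℝ) ^ 2)) := by
          gcongr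
          rw [exp_nat_mul, exp_log hM']
          exact_mod_cast (card_filter_le _ _).trans (le_of_eq (by simp))
      _ ≤ exp (-(c1 * n)) := by
          rw [← exp_add, exp_le_exp]
          rw [div_le_iff₀ hc] at hnet
          have := mul_le_mul_of_nonneg_left hnet hn'.le
          linarith [show (n : ℝ) * (n * c) = c * (n : ℝ) ^ 2 by ring]
  refine (add_le_add hno hbd).trans ?_
  have e : exp (-(c1 * n)) = exp (-(c1 / 2 * n)) * exp (-(c1 / 2 * n)) := by rw [← exp_add]; ring_nf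
  rw [e]
  have := mul_le_mul_of_nonneg_right h2.le (exp_pos (-(c1 / 2 * n))).le
  linarith

end Vale.Agent.P150.Fast.Transfer
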