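import Vale.Agent.P150.Fast.TransferGood
import Vale.Agent.P150.Fast.TransferDet
import Vale.Agent.P150.Fast.GaussTail

/-!
The parameters of the transfer (P150): at typical images the margin fails with exponentially small
probability, with a rate independent of the smallness parameter and of the overlap, and the noise is
typical outside an exponentially small event.
-/

open MeasureTheory Real Finset Filter Matrix

namespace Vale.Agent.P150.Fast.Transfer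

/-- A sparsity level at which the number of sparse sets costs at most `2 Γ`. -/
theorem sparse_level {z Γ : ℝ} (hz : 0 < z) (hΓ : 0 < Γ) :
    ∃ r σ0 : ℝ, 0 < r ∧ r ≤ 1 ∧ 0 < σ0 ∧ σ0 ≤ z ∧
      ∀ σ, 0 < σ → σ ≤ σ0 → r + σ * -log r ≤ 2 * Γ := by
  set r := min 1 Γ
  have hr : 0 < r := lt_min one_pos hΓ
  have hr1 : r ≤ 1 := min_le_left _ _
  have hl : 0 ≤ -log r := neg_nonneg.2 (log_nonpos hr.le hr1)
  refine ⟨r, min z (Γ / (-log r + 1)), hr, hr1, lt_min hz (div_pos hΓ (by linarith)), min_le_left _ _,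
    fun σ hσ hσ0 => ?_⟩
  have h := hσ0.trans (min_le_right z (Γ / (-log r + 1)))
  rw [le_div_iff₀ (by linarith)] at h
  have : r ≤ Γ := min_le_right _ _
  linarith

/-- The three main terms of the margin stay below one, uniformly in the overlap. -/
theorem main_room {t δ q : ℝ} (ht : 0 < t) (ht1 : t < 1) (hδ : 0 < δ) (hδ1 : δ ≤ 1) (hq : δ / 2 ≤ q)
    (hq1 : q ≤ 1 - δ / 2) :
    t / (2 + (1 - q) / q) * (2 + (1 - q) / (t * q))
        ≤ 1 - t * (δ * (1 - t) / 4) - δ * (1 - t) ^ 2 / 16 ∧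
      t * (1 - q) ≤ 1 - t * (δ * (1 - t) / 4) - δ * (1 - t) ^ 2 / 16 ∧
      1 / (1 + δ * (1 - t) / 4) ≤ 1 - t * (δ * (1 - t) / 4) - δ * (1 - t) ^ 2 / 16 := by
  have hq0 : 0 < q := by linarith
  have hs : 0 < 1 - t := by linarith
  set p := δ * (1 - t) / 4 with hp
  have hp0 : 0 < p := by positivity
  have hp4 : p ≤ (1 - t) / 4 := by
    have := mul_le_mul_of_nonneg_right hδ1 hs.le
    linarith
  have htp : t * p ≤ p := mul_le_of_le_one_left hp0.le ht1.le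
  have e16 : δ * (1 - t) ^ 2 / 16 = p * (1 - t) / 4 := by rw [hp]; ring
  have hp16 : p * (1 - t) ≤ p := mul_le_of_le_one_right hp0.le (by linarith)
  rw [e16]
  refine ⟨?_, ?_, ?_⟩
  · set w := (1 - q) / q with hw
    have hw0 : 0 ≤ w := div_nonneg (by linarith) hq0.le
    have hwb : w ≤ 2 / δ - 1 := by
      rw [hw, div_le_iff₀ hq0, sub_mul, one_mul, div_mul_eq_mul_div, le_sub_iff_add_le, le_div_iff₀ hδ]
      linarith
    have e0 : (1 - q) / (t * q) = w / t := by rw [hw, div_div, mul_comm q t]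
    have e : t / (2 + w) * (2 + (1 - q) / (t * q)) = 1 - 2 * (1 - t) / (2 + w) := by
      have : (2 : ℝ) + w ≠ 0 := by positivity
      rw [e0]; field_simp; ring
    have h4 : δ * (2 + w) ≤ 4 := by
      have := mul_le_mul_of_nonneg_left hwb hδ.le
      rw [mul_sub, mul_div_cancel₀ _ hδ.ne'] at this
      linarith
    have h : δ * (1 - t) / 2 ≤ 2 * (1 - t) / (2 + w) := by
      rw [div_le_div_iff₀ two_pos (by positivity)]
      have := mul_le_mul_of_nonneg_left h4 hs.le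
      linarith
    rw [e]
    linarith
  · have : t * (1 - q) ≤ t := mul_le_of_le_one_right ht.le (by linarith)
    linarith
  · rw [div_le_iff₀ (by linarith)]
    linarith [mul_nonneg hp0.le (sub_nonneg.2 hp4), mul_nonneg (mul_nonneg hp0.le hs.le) hs.le,
      mul_nonneg (mul_nonneg hp0.le ht.le) (sub_nonneg.2 hp4)]

/-- The three conditions on the bound `M`, from the main terms and the slack. -/
theorem margin_terms {t q z σ e lam D Sm S1 g p A M : ℝ} (ht1 : t ≤ 1) (hq : 0 < q)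
    (hq1 : q < 1) (hg1 : g ≤ 1) (he : 0 ≤ e) (he1 : e ≤ 1) (hσ : 0 ≤ σ) (hσz : σ ≤ z)
    (hp : 0 ≤ p) (hlam : lam = (1 - q) * (1 + p)) (hD : lam⁻¹ ≤ D) (heq : e / q ≤ D * e)
    (hA : 0 ≤ A) (hS1 : 0 ≤ S1) (hS1m : S1 ≤ Sm) (hU1 : 1 - q + 2 * z + σ ≤ 1)
    {T : ℝ} (hT1 : g * (S1 - A) ≤ T) (hT2 : t * (1 - q) ≤ T) (hT3 : 1 / (1 + p) ≤ T)
    (h1 : A + e + (e + D * e * (Sm + 1)) * D ≤ M - T)
    (h2 : e + 3 * z + (e + D * e) * D ≤ M - T)
    (h3 : e + D * e * (Sm + 1) + (e + D * e)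
      + (3 * z + 3 * e + 2 * D * e + D ^ 2 * e) * D ≤ M - T) :
    g * S1 + t * e + (e + e / q * (S1 + 1)) / lam ≤ M ∧
      g * e + t * (1 - q + 2 * z + σ) + (e + e / q) / lam ≤ M ∧
      g * (e + e / q * (S1 + 1)) + t * (e + e / q)
        + ((√(1 - q + 2 * z + σ) + e) ^ 2 + 2 * (e / q * e) + (e / q) ^ 2) / lam ≤ M := by
  have hl0 : 0 < lam := by rw [hlam]; exact mul_pos (by linarith) (by linarith)
  have hdl : ∀ {x X : ℝ}, 0 ≤ x → x ≤ X → x / lam ≤ X * D := fun {x X} hx hX => by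
    rw [div_eq_mul_inv]
    exact mul_le_mul hX hD (inv_nonneg.2 hl0.le) (hx.trans hX)
  have hz : 0 ≤ z := hσ.trans hσz
  have hU0 : 0 ≤ 1 - q + 2 * z + σ := by linarith
  have heq0 : 0 ≤ e / q := div_nonneg he hq.le
  have heS : e / q * (S1 + 1) ≤ D * e * (Sm + 1) :=
    mul_le_mul heq (by linarith) (by linarith) (heq0.trans heq)
  have hpos : 0 ≤ e + e / q * (S1 + 1) := add_nonneg he (mul_nonneg heq0 (by linarith))
  refine ⟨?_, ?_, ?_⟩
  · have a1 := hdl hpos (add_le_add le_rfl heS)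
    have a2 : g * A ≤ A := mul_le_of_le_one_left hA hg1
    have a3 : t * e ≤ e := mul_le_of_le_one_left he ht1
    linarith
  · have a1 := hdl (add_nonneg he heq0) (add_le_add le_rfl heq)
    have a2 : g * e ≤ e := mul_le_of_le_one_left he hg1
    have a3 : t * (2 * z + σ) ≤ 3 * z := (mul_le_of_le_one_left (by linarith) ht1).trans (by linarith)
    linarith
  · have a1 : g * (e + e / q * (S1 + 1)) ≤ e + D * e * (Sm + 1) :=
      (mul_le_of_le_one_left hpos hg1).trans (add_le_add le_rfl heS)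
    have a2 : t * (e + e / q) ≤ e + D * e :=
      (mul_le_of_le_one_left (add_nonneg he heq0) ht1).trans (add_le_add le_rfl heq)
    have a3 : (√(1 - q + 2 * z + σ) + e) ^ 2 ≤ (1 - q) + (3 * z + 3 * e) := by
      rw [add_sq, sq_sqrt hU0]
      have b1 : √(1 - q + 2 * z + σ) * e ≤ e := mul_le_of_le_one_left he (sqrt_le_one.2 hU1)
      have b2 : e ^ 2 ≤ e := pow_le_of_le_one he he1 two_ne_zero
      linarith
    have a4 : e / q * e ≤ D * e := (mul_le_of_le_one_right heq0 he1).trans heq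
    have a5 : (e / q) ^ 2 ≤ D ^ 2 * e := by
      refine (pow_le_pow_left₀ heq0 heq 2).trans ?_
      rw [mul_pow]
      exact mul_le_mul_of_nonneg_left (pow_le_of_le_one he he1 two_ne_zero) (sq_nonneg D)
    have a6 : ((√(1 - q + 2 * z + σ) + e) ^ 2 + 2 * (e / q * e) + (e / q) ^ 2) / lam
        ≤ (1 - q) / lam + (3 * z + 3 * e + 2 * D * e + D ^ 2 * e) * D := by
      refine (div_le_div_of_nonneg_right
        (b := (1 - q) + (3 * z + 3 * e + 2 * D * e + D ^ 2 * e)) (by linarith) hl0.le).trans ?_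
      rw [add_div]
      refine add_le_add le_rfl (hdl ?_ le_rfl)
      have : 0 ≤ D := (inv_nonneg.2 hl0.le).trans hD
      positivity
    have a7 : (1 - q) / lam = 1 / (1 + p) := by
      rw [hlam, ← div_div, div_self (by linarith : (1 : ℝ) - q ≠ 0)]
    linarith

/-- The room left by the bound `M`. -/
theorem margin_room {t q p G ζ W κ lam M : ℝ} (ht : 0 ≤ t) (ht1 : t ≤ 1) (hq : 0 ≤ q) (hq1 : q ≤ 1)
    (hp : 0 ≤ p) (hG : 0 ≤ G) (hζ : 0 ≤ ζ) (hW : 0 ≤ W) (hζW : ζ * (3 + 3 * W) = G / 6)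
    (hκ : κ ≤ G / 6) (hlam : lam = (1 - q) * (1 + p)) (hM : M = 1 - t * p - G / 2) :
    (1 + ζ) * M ≤ 1 ∧ (1 + ζ) * (M + t * lam + κ) + G / 6 + 3 * ζ * W ≤ 1 + t * (1 - q) := by
  have htp : 0 ≤ t * p := mul_nonneg ht hp
  have h1 : ζ * M ≤ ζ := mul_le_of_le_one_right hζ (by linarith)
  have h2 : 0 ≤ ζ * W := mul_nonneg hζ hW
  refine ⟨by linarith, ?_⟩
  have a1 : M + t * lam + κ ≤ 1 + t * (1 - q) - G / 2 + G / 6 := by
    have := mul_nonneg htp hq
    rw [hM, hlam]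
    linarith
  have a2 : t * (1 - q) ≤ 1 := mul_le_one₀ ht1 (by linarith) (by linarith)
  have a3 : ζ * (M + t * lam + κ) ≤ ζ * 3 := mul_le_mul_of_nonneg_left (by linarith) hζ
  linarith

/-- The net event is negligible for large `n`. -/
theorem large_bound {t d lam S1 Sm e x : ℝ} {n : ℕ} (ht : 0 < t) (hd : 0 < d) (hlam : d ≤ lam)
    (hS1 : 0 ≤ S1) (hS1m : S1 ≤ Sm)
    (hx : 2 * √t * (1 / (t * d)) * 3 * exp (-(2 * e ^ 2 / (π ^ 2 * (Sm + 1)) / 2 * n)) ≤ x) :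
    2 * √t * (1 / (t * lam)) * √(8 * exp (-(2 * e ^ 2 * n / (π ^ 2 * (S1 + 1))))
      + exp (-(2 * e ^ 2 * n / π ^ 2))) ≤ x := by
  refine le_trans ?_ hx
  set c := 2 * e ^ 2 / (π ^ 2 * (Sm + 1)) with hc
  have hexp : ∀ k : ℝ, c ≤ k → exp (-(k * n)) ≤ exp (-(c * n)) := fun k hk =>
    exp_le_exp.2 (neg_le_neg (mul_le_mul_of_nonneg_right hk (Nat.cast_nonneg n)))
  have a1 : exp (-(2 * e ^ 2 * n / (π ^ 2 * (S1 + 1)))) ≤ exp (-(c * n)) := by
    rw [show 2 * e ^ 2 * n / (π ^ 2 * (S1 + 1)) = 2 * e ^ 2 / (π ^ 2 * (S1 + 1)) * n by ring]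
    exact hexp _ (div_le_div_of_nonneg_left (by positivity) (by positivity)
      (mul_le_mul_of_nonneg_left (by linarith) (sq_nonneg π)))
  have a2 : exp (-(2 * e ^ 2 * n / π ^ 2)) ≤ exp (-(c * n)) := by
    rw [show 2 * e ^ 2 * n / π ^ 2 = 2 * e ^ 2 / π ^ 2 * n by ring]
    exact hexp _ (div_le_div_of_nonneg_left (by positivity) (by positivity)
      (le_mul_of_one_le_right (sq_nonneg π) (by linarith)))
  have a3 : √(8 * exp (-(2 * e ^ 2 * n / (π ^ 2 * (S1 + 1)))) + exp (-(2 * e ^ 2 * n / π ^ 2)))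
      ≤ 3 * exp (-(c / 2 * n)) := by
    refine (sqrt_le_left (by positivity)).2 ?_
    rw [mul_pow, ← exp_nat_mul, show ((2 : ℕ) : ℝ) * -(c / 2 * n) = -(c * n) by push_cast; ring]
    linarith
  calc 2 * √t * (1 / (t * lam)) * √(8 * exp (-(2 * e ^ 2 * n / (π ^ 2 * (S1 + 1))))
        + exp (-(2 * e ^ 2 * n / π ^ 2)))
      ≤ 2 * √t * (1 / (t * d)) * (3 * exp (-(c / 2 * n))) := by gcongr
    _ = _ := by ring

/-- **The margin at typical images**, uniformly in the overlap. -/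
theorem margin_uniform {t δ L W : ℝ} (ht : 0 < t) (ht1 : t < 1) (hδ : 0 < δ) (hδ1 : δ ≤ 1) (hL : 0 < L)
    (hW : 0 ≤ W) :
    ∃ η Γ z0 : ℝ, 0 < η ∧ 0 < Γ ∧ 0 < z0 ∧ ∀ z, 0 < z → z ≤ z0 →
      ∃ σ0, 0 < σ0 ∧ σ0 ≤ z ∧ ∀ σ, 0 < σ → σ ≤ σ0 → ∀ᶠ n : ℕ in atTop,
        ∀ (q : ℝ) (m img : Fin n → ℝ), δ / 2 ≤ q → q ≤ 1 - δ / 2 → ∑ i, m i ^ 2 = q * n →
          (∀ i, |m i| ≤ 1) →
          ImgOK t q (L * z) W (2 + (1 - q) / (t * q) + L * z) (L * z) (L * z) σ m img →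
          (disX n).real {d | ∃ S : Finset (Fin n), (S.card : ℝ) ≤ σ * n ∧ ∃ u,
              margForm t q η m (vsec z m S) (fun i => img i - t * (1 - q) * m i) u
                < Ent.qform (kmat n √t d) (projOff m u)} ≤ exp (-(Γ * n)) := by
  set p := δ * (1 - t) / 4
  set G := δ * (1 - t) ^ 2 / 16 with hG
  set M := 1 - t * p - G / 2 with hMd
  set D := 2 / δ with hD
  set Cs := 8 + 4 * (W ^ 2 + 1) / (t * (δ / 2)) ^ 2 with hCsd
  set Sm := 2 + 1 / (t * (δ / 2)) + 2 * L + 2 * Cs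
  have hs : 0 < 1 - t := by linarith
  have hG0 : 0 < G := by positivity
  have hp : 0 < p := by positivity
  have hD0 : 0 < D := by positivity
  have hCs0 : 0 < Cs := by positivity
  set ζ := G / (6 * (3 + 3 * W)) with hζd
  have hζ : 0 < ζ := by positivity
  have hζW : ζ * (3 + 3 * W) = G / 6 := by rw [hζd]; field_simp
  set Γ := (ζ / 2) ^ 2 * (t * (δ / 2) ^ 2) / π ^ 2 / 3 with hΓd
  have hΓ : 0 < Γ := by positivity
  -- the slack terms vanish with `z`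
  set ef : ℝ → ℝ := fun z => L * z + √(5 * z * Cs) with hef
  set f1 : ℝ → ℝ := fun z => (2 * L + 2 * Cs) * z + ef z + (ef z + D * ef z * (Sm + 1)) * D
  set f2 : ℝ → ℝ := fun z => ef z + 3 * z + (ef z + D * ef z) * D
  set f3 : ℝ → ℝ := fun z => ef z + D * ef z * (Sm + 1) + (ef z + D * ef z)
    + (3 * z + 3 * ef z + 2 * D * ef z + D ^ 2 * ef z) * D
  have hev : ∀ᶠ z in nhds (0 : ℝ), f1 z < G / 2 ∧ f2 z < G / 2 ∧ f3 z < G / 2 ∧ ef z < 1 ∧
      L * z < G / 6 ∧ 3 * z < δ / 2 := by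
    have lim : ∀ (f : ℝ → ℝ) (c : ℝ), Continuous f → f 0 = 0 → 0 < c → ∀ᶠ z in nhds (0 : ℝ), f z < c :=
      fun f c hf h0 hc => hf.continuousAt.eventually_lt continuousAt_const (by rwa [h0])
    refine (lim f1 _ (by fun_prop) (by simp [f1, ef]) (half_pos hG0)).and
      ((lim f2 _ (by fun_prop) (by simp [f2, ef]) (half_pos hG0)).and
      ((lim f3 _ (by fun_prop) (by simp [f3, ef]) (half_pos hG0)).and
      ((lim ef _ (by fun_prop) (by simp [ef]) one_pos).and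
      ((lim _ _ (by fun_prop) (mul_zero L) (by positivity)).and
      (lim _ _ (by fun_prop) (mul_zero (3 : ℝ)) (half_pos hδ))))))
  obtain ⟨ρ, hρ, hball⟩ := Metric.eventually_nhds_iff.1 hev
  refine ⟨G / 6, Γ, ρ / 2, by positivity, hΓ, half_pos hρ, fun z hz hzρ => ?_⟩
  obtain ⟨h1, h2, h3, he1, hκ, hz3⟩ := hball (show dist z 0 < ρ by
    rw [Real.dist_eq, sub_zero, abs_of_pos hz]; linarith)
  set e := ef z with he_def
  have he : 0 < e := by simp only [he_def, hef]; positivity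
  obtain ⟨r, σ0, hr, hr1, hσ0, hσ0z, hrs⟩ := sparse_level hz hΓ
  refine ⟨σ0, hσ0, hσ0z, fun σ hσ hσσ => ?_⟩
  have hσz : σ ≤ z := hσσ.trans hσ0z
  have hSm : 0 < Sm + 1 := by positivity
  set c := 2 * e ^ 2 / (π ^ 2 * (Sm + 1)) with hc
  filter_upwards [eventually_small (a := 2 * √t * (1 / (t * (δ / 2))) * 3) (c := c / 2)
    (by positivity) (half_pos hζ), eventually_gt_atTop 0] with n hsm hn q m img hq hq1 hm hm1 hI
  have hn' : (0 : ℝ) < n := by exact_mod_cast hn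
  have hq0 : 0 < q := by linarith
  have hqlt : q < 1 := by linarith
  have hz1 : z ≤ 1 := by linarith
  set lam := (1 - q) * (1 + p) with hlamd
  have hlam : 1 - q ≤ lam := le_mul_of_one_le_right (by linarith) (by linarith)
  have hlam0 : δ / 2 ≤ lam := by linarith
  have hlamp : 0 < lam := by linarith
  have hli : lam⁻¹ ≤ D := by
    rw [hD, show 2 / δ = (δ / 2)⁻¹ by rw [inv_div]]
    exact inv_anti₀ (half_pos hδ) hlam0
  have heq : e / q ≤ D * e := by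
    rw [hD, div_le_iff₀ hq0, div_mul_eq_mul_div, div_mul_eq_mul_div, le_div_iff₀ hδ]
    have := mul_le_mul_of_nonneg_left hq he.le
    linarith
  have hCs : 8 + 4 * (W ^ 2 + 1) / (t * q) ^ 2 ≤ Cs := by rw [hCsd]; gcongr
  set S1 := 2 + (1 - q) / (t * q) + (2 * L + 2 * Cs) * z with hS1d
  have hd0 : 0 ≤ (1 - q) / (t * q) := div_nonneg (by linarith) (by positivity)
  have hS10 : 0 ≤ S1 := by positivity
  have hS1m : S1 ≤ Sm := by
    have a1 : (1 - q) / (t * q) ≤ 1 / (t * (δ / 2)) := by gcongr; linarith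
    have a2 : (2 * L + 2 * Cs) * z ≤ 2 * L + 2 * Cs := mul_le_of_le_one_right (by positivity) hz1
    linarith
  obtain ⟨m1, m2, m3⟩ := main_room ht ht1 hδ hδ1 hq hq1
  set g := t / (2 + (1 - q) / q) with hgd
  have hw : 0 ≤ (1 - q) / q := div_nonneg (by linarith) hq0.le
  have hg1 : g ≤ 1 := (div_le_one (by positivity)).2 (by linarith)
  have hS2 : L * z + √((4 * z ^ 2 + σ) * Cs) ≤ e := by
    simp only [he_def, hef]
    gcongr
    have := mul_le_mul_of_nonneg_left hz1 hz.le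
    linarith
  have hU1 : 1 - q + 2 * z + σ ≤ 1 := by linarith
  obtain ⟨hM1, hM2, hM3⟩ := margin_terms (A := (2 * L + 2 * Cs) * z) (T := 1 - t * p - G) (M := M)
    ht1.le hq0 hqlt hg1 he.le he1.le hσ.le hσz hp.le hlamd hli heq (by positivity) hS10 hS1m
    hU1 (by rw [hS1d, add_sub_cancel_right]; exact m1) m2 m3
    (le_of_lt (lt_of_lt_of_le h1 (by linarith))) (le_of_lt (lt_of_lt_of_le h2 (by linarith)))
    (le_of_lt (lt_of_lt_of_le h3 (by linarith)))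
  obtain ⟨hMζ, hroom⟩ := margin_room ht.le ht1.le hq0.le hqlt.le hp.le hG0.le hζ.le hW hζW hκ.le
    hlamd hMd
  have hlarge := large_bound (e := e) (Sm := Sm) ht (half_pos hδ) hlam0 hS10 hS1m hsm.le
  refine (margin_sparse gaussTail hn ht ht1.le hq0 hqlt hz hσ.le hCs hW hS10 he hζ hr hr1 hlam hU1
    (by rw [hS1d]; linarith) hS2 hM1 hM2 hM3 hMζ hroom hlarge hm hm1 hI).trans ?_
  rw [← exp_add]
  refine exp_le_exp.2 ?_
  have a1 := mul_le_mul_of_nonneg_right (hrs σ hσ hσσ) hn'.le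
  have a2 : (ζ / 2) ^ 2 * n * (t * (δ / 2) ^ 2) / π ^ 2 ≤ (ζ / 2) ^ 2 * n * (t * lam ^ 2) / π ^ 2 := by
    gcongr
  have a3 : (ζ / 2) ^ 2 * n * (t * (δ / 2) ^ 2) / π ^ 2 = 3 * (Γ * n) := by rw [hΓd]; ring
  linarith

/-- **The noise is typical.** -/
theorem wgood_uniform {z Cb : ℝ} (hz : 0 < z) (hz1 : z ≤ 1) (hCb : 0 < Cb) :
    ∃ σ0 Γ : ℝ, 0 < σ0 ∧ σ0 ≤ z ∧ 0 < Γ ∧ ∀ σ, 0 < σ → σ ≤ σ0 → ∀ᶠ n : ℕ in atTop,
      (∀ (m b : Fin n → ℝ), (∀ i, |m i| ≤ 1) → ∑ i, b i ^ 2 ≤ Cb * n →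
        (gp (Fin n)).real {w | ¬ WGood z σ m b w} ≤ exp (-(Γ * n))) ∧
      (gp (Fin n)).real {g | ∃ S : Finset (Fin n), (S.card : ℝ) ≤ σ * n ∧ z * n < ∑ i ∈ S, g i ^ 2}
        ≤ exp (-(Γ * n)) := by
  set Γ := min (2 * z ^ 2 / (π ^ 2 * (Cb + 1))) (z / (4 * π ^ 2)) / 4 with hΓd
  have hΓ : 0 < Γ := div_pos (lt_min (by positivity) (by positivity)) four_pos
  have hΓ1 : 4 * Γ ≤ 2 * z ^ 2 / (π ^ 2 * (Cb + 1)) := by
    rw [hΓd, mul_div_cancel₀ _ four_ne_zero]; exact min_le_left _ _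
  have hΓ2 : 4 * Γ ≤ z / (4 * π ^ 2) := by
    rw [hΓd, mul_div_cancel₀ _ four_ne_zero]; exact min_le_right _ _
  obtain ⟨r, σ0, hr, hr1, hσ0, hσ0z, hrs⟩ := sparse_level (show 0 < z / 4 by linarith) hΓ
  refine ⟨σ0, Γ, hσ0, hσ0z.trans (by linarith), hΓ, fun σ hσ hσσ => ?_⟩
  have hσz : σ ≤ z / 4 := hσσ.trans hσ0z
  filter_upwards [eventually_small (a := 9) hΓ one_pos, eventually_gt_atTop 0] with n h9 hn
  have hn' : (0 : ℝ) < n := by exact_mod_cast hn
  set E := exp (-(2 * (Γ * n)))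
  have h9E : 9 * E ≤ exp (-(Γ * n)) := by
    calc 9 * E = 9 * exp (-(Γ * n)) * exp (-(Γ * n)) := by
          rw [mul_assoc, ← exp_add]; simp only [E]; congr 2; ring
      _ ≤ 1 * exp (-(Γ * n)) := mul_le_mul_of_nonneg_right h9.le (exp_pos _).le
      _ = _ := one_mul _
  have hE : 0 < E := exp_pos _
  have hk : ∀ k : ℝ, 4 * Γ ≤ k → exp (-(k * n)) ≤ E := fun k hk => by
    refine exp_le_exp.2 ?_
    have := mul_le_mul_of_nonneg_right hk hn'.le
    linarith [mul_pos hΓ hn']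
  have hlin : ∀ c : Fin n → ℝ, ∑ i, c i ^ 2 ≤ (Cb + 1) * n →
      (gp (Fin n)).real {g | z * n < |∑ i, g i * c i|} ≤ 2 * E := fun c hc => by
    refine (lin_tail gaussTail (by linarith) hc hn hz.le).trans (mul_le_mul_of_nonneg_left ?_ zero_le_two)
    rw [show 2 * z ^ 2 * n / (π ^ 2 * (Cb + 1)) = 2 * z ^ 2 / (π ^ 2 * (Cb + 1)) * n by ring]
    exact hk _ hΓ1
  have hsp : (gp (Fin n)).real
      {g | ∃ S : Finset (Fin n), (S.card : ℝ) ≤ σ * n ∧ z * n < ∑ i ∈ S, g i ^ 2} ≤ E := by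
    refine (sparse_energy hn hr hr1 hσ (by linarith)).trans (exp_le_exp.2 ?_)
    have h0 : √σ ≤ √z / 2 := by
      rw [sqrt_le_left (by positivity), div_pow, sq_sqrt hz.le]
      linarith
    have h1 : z / 4 ≤ (√z - √σ) ^ 2 := by
      refine le_trans (le_of_eq ?_) (pow_le_pow_left₀ (by positivity) (show √z / 2 ≤ √z - √σ by linarith) 2)
      rw [div_pow, sq_sqrt hz.le]; norm_num
    have h2 : 4 * Γ ≤ (√z - √σ) ^ 2 / π ^ 2 := by
      refine hΓ2.trans ?_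
      rw [← div_div]
      exact div_le_div_of_nonneg_right h1 (sq_nonneg π)
    rw [neg_mul_eq_neg_mul]
    have := mul_le_mul_of_nonneg_right (show r + σ * -log r - (√z - √σ) ^ 2 / π ^ 2 ≤ -(2 * Γ) by
      linarith [hrs σ hσ hσσ]) hn'.le
    linarith
  refine ⟨fun m b hm hb => ?_, hsp.trans ((le_mul_of_one_le_left hE.le (by norm_num)).trans h9E)⟩
  have hv : ∀ i, 0 ≤ 1 - m i ^ 2 ∧ 1 - m i ^ 2 ≤ 1 := fun i =>
    ⟨sub_nonneg.2 ((sq_le_one_iff_abs_le_one _).2 (hm i)), sub_le_self _ (sq_nonneg _)⟩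
  have hone : ∀ f : Fin n → ℝ, (∀ i, f i ^ 2 ≤ 1) → ∑ i, f i ^ 2 ≤ (Cb + 1) * n := fun f hf => by
    refine (sum_le_sum fun i _ => hf i).trans ?_
    simp only [sum_const, card_univ, Fintype.card_fin, nsmul_eq_mul, mul_one]
    exact le_mul_of_one_le_left hn'.le (by linarith)
  have a1 := hlin (fun i => 1 - m i ^ 2) (hone _ fun i => pow_le_one₀ (hv i).1 (hv i).2)
  have a2 := hlin (fun i => (1 - m i ^ 2) * b i) (by
    refine (sum_le_sum fun i _ => ?_).trans (hb.trans (mul_le_mul_of_nonneg_right (by linarith) hn'.le))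
    rw [mul_pow]
    exact mul_le_of_le_one_left (sq_nonneg _) (pow_le_one₀ (hv i).1 (hv i).2))
  have a3 := hlin m (hone _ fun i => (sq_le_one_iff_abs_le_one _).2 (hm i))
  have hk2 : ∀ k : ℝ, 2 * z ^ 2 / π ^ 2 ≤ k → exp (-(k * n)) ≤ E := fun k h => by
    refine hk k (hΓ1.trans (le_trans ?_ h))
    exact div_le_div_of_nonneg_left (by positivity) (by positivity)
      (le_mul_of_one_le_right (sq_nonneg π) (by linarith))
  have a4 : (gp (Fin n)).real {w | √(1 - (∑ j, m j ^ 2) / (n : ℝ)) * √n + z * √n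
      < √(∑ i, (1 - m i ^ 2) * w i ^ 2)} ≤ E := by
    refine (sq_tail gaussTail (fun i => (hv i).1) (fun i => (hv i).2) ?_ hz.le).trans ?_
    · rw [sum_sub_distrib, sub_mul, div_mul_cancel₀ _ hn'.ne']
      simp
    · rw [show 2 * z ^ 2 * n / π ^ 2 = 2 * z ^ 2 / π ^ 2 * n by ring]
      exact hk2 _ le_rfl
  have a5 : (gp (Fin n)).real {w : Fin n → ℝ | 4 * (n : ℝ) < ∑ i, w i ^ 2} ≤ E := by
    refine le_trans (measureReal_mono (fun w hw => ?_) (measure_ne_top _ _))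
      ((sq_tail gaussTail (v := fun _ : Fin n => (1 : ℝ)) (fun _ => zero_le_one) (fun _ => le_rfl)
        (U := 1) (e := 1) (by simp) zero_le_one).trans ?_)
    · simp only [Set.mem_ofPred_eq, sqrt_one, one_mul] at hw ⊢
      rw [← two_mul, lt_sqrt (by positivity), mul_pow, sq_sqrt hn'.le]
      linarith
    · rw [show 2 * (1 : ℝ) ^ 2 * n / π ^ 2 = 2 * 1 ^ 2 / π ^ 2 * n by ring]
      refine hk2 _ ?_
      gcongr
  have hsub : {w : Fin n → ℝ | ¬ WGood z σ m b w}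
      ⊆ {g | z * n < |∑ i, g i * (1 - m i ^ 2)|} ∪ ({g | z * n < |∑ i, g i * ((1 - m i ^ 2) * b i)|}
      ∪ ({g | z * n < |∑ i, g i * m i|} ∪ ({w | √(1 - (∑ j, m j ^ 2) / (n : ℝ)) * √n + z * √n
        < √(∑ i, (1 - m i ^ 2) * w i ^ 2)} ∪ ({w : Fin n → ℝ | 4 * (n : ℝ) < ∑ i, w i ^ 2}
      ∪ {g | ∃ S : Finset (Fin n), (S.card : ℝ) ≤ σ * n ∧ z * n < ∑ i ∈ S, g i ^ 2})))) := fun w hw => by
    simp only [WGood, Set.mem_ofPred_eq, not_and_or, not_le, not_forall, exists_prop] at hw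
    exact hw
  refine (measureReal_mono hsub (measure_ne_top _ _)).trans ?_
  refine (measureReal_union_le _ _).trans ((add_le_add a1 ((measureReal_union_le _ _).trans
    (add_le_add a2 ((measureReal_union_le _ _).trans (add_le_add a3 ((measureReal_union_le _ _).trans
      (add_le_add a4 ((measureReal_union_le _ _).trans (add_le_add a5 hsp))))))))).trans ?_)
  linarith

end Vale.Agent.P150.Fast.Transfer
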