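import Vale.Agent.P150.Fast.TransferGood
import Vale.Agent.P150.Fast.TransferVol

/-!
Near an approximate root (P150): the fields are short, and their replica-symmetric statistics move
little on a small ball.
-/

open MeasureTheory Real Finset Filter Matrix

namespace Vale.Agent.P150.Fast.Transfer

variable {n : ℕ}

theorem inv_cosh_sq (x : ℝ) : (cosh x)⁻¹ ^ 2 = 1 - tanh x ^ 2 := by
  have h := cosh_sq_sub_sinh_sq x
  have hc := (cosh_pos x).ne'
  rw [tanh_eq_sinh_div_cosh]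
  field_simp
  linarith

theorem abs_mul_inv_cosh (x : ℝ) : |x| * (cosh x)⁻¹ ≤ 1 := by
  rw [← div_eq_mul_inv, div_le_one (cosh_pos x)]
  have h1 := quadratic_le_exp_of_nonneg (abs_nonneg x)
  have h2 := (exp_pos (-|x|)).le
  rw [← cosh_abs, cosh_eq]
  linarith [sq_nonneg (|x| - 1)]

/-- The special direction weighted by the square root of the weight, and by the weight, is
Lipschitz in the field. -/
theorem spec_lip {a G : ℝ} (ha : 0 < a) (hG : a ≤ G) (x y : ℝ) :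
    |(cosh x)⁻¹ * (2 * tanh x + (x - G) / G) - (cosh y)⁻¹ * (2 * tanh y + (y - G) / G)|
        ≤ (5 + 2 / a) * |x - y| ∧
      |(1 - tanh x ^ 2) * (2 * tanh x + (x - G) / G) - (1 - tanh y ^ 2) * (2 * tanh y + (y - G) / G)|
        ≤ (8 + 3 / a) * |x - y| := by
  have hG0 : 0 < G := lt_of_lt_of_le ha hG
  set h : ℝ → ℝ := fun x => (cosh x)⁻¹ * (2 * tanh x + (x - G) / G)
  set c : ℝ → ℝ := fun x => -((cosh x)⁻¹ * tanh x)
  set h' : ℝ → ℝ := fun x =>
    c x * (2 * tanh x + (x - G) / G) + (cosh x)⁻¹ * (2 * (1 - tanh x ^ 2) + 1 / G)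
  have hi : ∀ x, |(cosh x)⁻¹| ≤ 1 := fun x => by
    rw [abs_inv, abs_of_pos (cosh_pos x)]
    exact inv_le_one_of_one_le₀ (one_le_cosh x)
  have hb : ∀ x, |h x| ≤ 3 + 1 / a := fun x => by
    have e : h x = (cosh x)⁻¹ * (2 * tanh x) + (cosh x)⁻¹ * x / G + -(cosh x)⁻¹ := by
      simp only [h]; field_simp; ring
    rw [e]
    refine (abs_add_three _ _ _).trans ?_
    have h1 : |(cosh x)⁻¹ * (2 * tanh x)| ≤ 1 * 2 := by
      rw [abs_mul]
      refine mul_le_mul (hi x) ?_ (abs_nonneg _) zero_le_one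
      rw [abs_mul, abs_two]
      linarith [(tanh_mem x).1]
    have h2 : |(cosh x)⁻¹ * x / G| ≤ 1 / a := by
      rw [abs_div, abs_of_pos hG0, abs_mul, abs_of_pos (inv_pos.2 (cosh_pos x)), mul_comm]
      exact div_le_div₀ zero_le_one (abs_mul_inv_cosh x) ha hG
    rw [abs_neg]
    linarith [hi x]
  have hc : ∀ x, HasDerivAt (fun x => (cosh x)⁻¹) (c x) x := fun x => by
    refine ((hasDerivAt_cosh x).inv (cosh_pos x).ne').congr_deriv ?_
    simp only [c, tanh_eq_sinh_div_cosh]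
    field_simp
  have hh : ∀ x, HasDerivAt h (h' x) x := fun x =>
    (hc x).mul (((hasDerivAt_tanh' x).const_mul 2).add (((hasDerivAt_id x).sub_const G).div_const G))
  have hh' : ∀ x, |h' x| ≤ 5 + 2 / a := fun x => by
    have e : h' x = -(tanh x * h x) + (cosh x)⁻¹ * (2 * (1 - tanh x ^ 2) + 1 / G) := by
      simp only [h', c, h]; ring
    rw [e]
    refine (abs_add_le _ _).trans ?_
    rw [abs_neg, abs_mul (tanh x), abs_mul (cosh x)⁻¹ (2 * (1 - tanh x ^ 2) + 1 / G)]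
    have h1 : |tanh x| * |h x| ≤ 1 * (3 + 1 / a) :=
      mul_le_mul (tanh_mem x).1 (hb x) (abs_nonneg _) zero_le_one
    have h2 : |(cosh x)⁻¹| * |2 * (1 - tanh x ^ 2) + 1 / G| ≤ 1 * (2 + 1 / a) := by
      refine mul_le_mul (hi x) ?_ (abs_nonneg _) zero_le_one
      have h3 : 1 / G ≤ 1 / a := one_div_le_one_div_of_le ha hG
      have h4 : 0 < 1 / G := by positivity
      obtain ⟨-, h5, h6⟩ := tanh_mem x
      rw [abs_of_nonneg (by linarith)]
      linarith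
    have h7 : 2 / a = 1 / a + 1 / a := by ring
    linarith
  have key : ∀ (f f' : ℝ → ℝ) (Λ : ℝ), (∀ x, HasDerivAt f (f' x) x) → (∀ x, |f' x| ≤ Λ) →
      |f x - f y| ≤ Λ * |x - y| := fun f f' Λ hf hΛ =>
    Convex.norm_image_sub_le_of_norm_hasDerivWithin_le (fun x _ => (hf x).hasDerivWithinAt)
      (fun x _ => hΛ x) convex_univ (Set.mem_univ y) (Set.mem_univ x)
  refine ⟨key h h' _ hh hh', ?_⟩
  have e : ∀ x, (1 - tanh x ^ 2) * (2 * tanh x + (x - G) / G) = (cosh x)⁻¹ * h x := fun x => by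
    simp only [h, ← inv_cosh_sq]; ring
  rw [e, e]
  refine key (fun x => (cosh x)⁻¹ * h x) (fun x => c x * h x + (cosh x)⁻¹ * h' x) _
    (fun x => (hc x).mul (hh x)) fun x => ?_
  refine (abs_add_le _ _).trans ?_
  have h1 : |c x * h x| ≤ 1 * (3 + 1 / a) := by
    rw [abs_mul]
    refine mul_le_mul ?_ (hb x) (abs_nonneg _) zero_le_one
    simp only [c, abs_neg, abs_mul]
    exact mul_le_one₀ (hi x) (abs_nonneg _) (tanh_mem x).1
  have h2 : |(cosh x)⁻¹ * h' x| ≤ 1 * (5 + 2 / a) := by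
    rw [abs_mul]; exact mul_le_mul (hi x) (hh' x) (abs_nonneg _) zero_le_one
  have h3 : 3 / a = 1 / a + 2 / a := by ring
  linarith

theorem sum_lip {x a : Fin n → ℝ} {ρ Λ : ℝ} (hρ : 0 ≤ ρ) (hΛ : 0 ≤ Λ)
    (hd : ∑ i, (x i - a i) ^ 2 ≤ ρ ^ 2 * n) {f : ℝ → ℝ} (hf : ∀ x y, |f x - f y| ≤ Λ * |x - y|) :
    |∑ i, f (x i) - ∑ i, f (a i)| ≤ Λ * ρ * n := by
  rw [← sum_sub_distrib]
  refine (abs_sum_le_sum_abs _ _).trans ((sum_le_sum fun i _ => hf (x i) (a i)).trans ?_)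
  have h := abs_sum_mul_le (a := fun _ : Fin n => (1 : ℝ)) (b := fun i => |x i - a i|) zero_le_one hρ
    (by simp) (by simpa [sq_abs] using hd)
  rw [← mul_sum, mul_assoc]
  refine mul_le_mul_of_nonneg_left ?_ hΛ
  simpa using le_of_abs_le h

theorem sum_lip_sq {x a : Fin n → ℝ} {ρ Λ : ℝ} (hρ : 0 < ρ) (hΛ : 0 ≤ Λ)
    (hd : ∑ i, (x i - a i) ^ 2 ≤ ρ ^ 2 * n) {f : ℝ → ℝ} (hf : ∀ x y, |f x - f y| ≤ Λ * |x - y|) :
    ∑ i, f (x i) ^ 2 ≤ (1 + Λ * ρ) * ∑ i, f (a i) ^ 2 + (Λ * ρ + Λ ^ 2 * ρ ^ 2) * n := by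
  calc ∑ i, f (x i) ^ 2
      ≤ ∑ i, ((1 + Λ * ρ) * f (a i) ^ 2 + (Λ / ρ + Λ ^ 2) * (x i - a i) ^ 2) := by
        refine sum_le_sum fun i _ => ?_
        set D := |x i - a i| with hD
        have h0 := hf (x i) (a i)
        rw [← hD] at h0
        have h1 : f (x i) ^ 2 ≤ (|f (a i)| + Λ * D) ^ 2 := by
          rw [← sq_abs (f (x i))]
          refine pow_le_pow_left₀ (abs_nonneg _) ?_ 2
          linarith [abs_sub_abs_le_abs_sub (f (x i)) (f (a i))]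
        have h2 : 2 * (|f (a i)| * D) ≤ ρ * f (a i) ^ 2 + D ^ 2 / ρ := by
          have h : 0 ≤ (ρ * |f (a i)| - D) ^ 2 / ρ := by positivity
          have e : (ρ * |f (a i)| - D) ^ 2 / ρ
              = ρ * |f (a i)| ^ 2 + D ^ 2 / ρ - 2 * (|f (a i)| * D) := by
            field_simp; ring
          rw [sq_abs] at e
          linarith
        have h3 := mul_le_mul_of_nonneg_left h2 hΛ
        have e1 : (x i - a i) ^ 2 = D ^ 2 := (sq_abs _).symm
        have e2 : (|f (a i)| + Λ * D) ^ 2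
            = f (a i) ^ 2 + Λ * (2 * (|f (a i)| * D)) + Λ ^ 2 * D ^ 2 := by
          rw [add_sq, sq_abs]; ring
        have e3 : Λ * (D ^ 2 / ρ) = Λ / ρ * D ^ 2 := by ring
        rw [e1]
        linarith
    _ = (1 + Λ * ρ) * ∑ i, f (a i) ^ 2 + (Λ / ρ + Λ ^ 2) * ∑ i, (x i - a i) ^ 2 := by
        rw [sum_add_distrib, ← mul_sum, ← mul_sum]
    _ ≤ (1 + Λ * ρ) * ∑ i, f (a i) ^ 2 + (Λ / ρ + Λ ^ 2) * (ρ ^ 2 * n) := by gcongr
    _ = _ := by field_simp

/-- The statistics move little on small balls. -/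
theorem stats_robust {t u q a0 C : ℝ} (ha : 0 < a0) (hG : a0 ≤ u + t * q) (hC : 0 ≤ C) (hq : 0 ≤ q)
    {ε ρ : ℝ} (hρ : 0 < ρ) (hρ1 : ρ ≤ 1) (hε1 : ε ≤ 1) {a x : Fin n → ℝ} (hn : 0 < n)
    (hd : ∑ i, (x i - a i) ^ 2 ≤ ρ ^ 2 * n) (hy : ∑ i, (a i - (u + t * q)) ^ 2 ≤ C * n)
    (h : RsStats t u q ε a) :
    RsStats t u q (ε + (8 + 3 / a0 + √C + (5 + 2 / a0) * (4 + 1 / a0 + (5 + 2 / a0) + 1)) * ρ) x := by
  have hn' : (0 : ℝ) < n := by exact_mod_cast hn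
  obtain ⟨h1, h2, h3, h4, h5⟩ := h
  set Λ := 5 + 2 / a0
  set K := 8 + 3 / a0 + √C + Λ * (4 + 1 / a0 + Λ + 1)
  have hΛ : 0 < Λ := by positivity
  have hsC := sqrt_nonneg C
  have p3 : 0 < 3 / a0 := by positivity
  have pΛ : 0 ≤ Λ * (4 + 1 / a0 + Λ + 1) := by positivity
  have step : ∀ {c A B T : ℝ}, c ≤ K → |A - B| ≤ c * ρ * n → |B / n - T| ≤ ε → |A / n - T| ≤ ε + K * ρ :=
    fun {c A B T} hc h hB => by
      have h' : |A / n - B / n| ≤ K * ρ := by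
        rw [← sub_div, abs_div, abs_of_pos hn', div_le_iff₀ hn']
        exact h.trans (mul_le_mul_of_nonneg_right (mul_le_mul_of_nonneg_right hc hρ.le) hn'.le)
      calc |A / n - T| = |(A / n - B / n) + (B / n - T)| := by ring_nf
        _ ≤ _ := (abs_add_le _ _).trans (by linarith)
  have hl1 : ∀ x y : ℝ, |tanh x - tanh y| ≤ 1 * |x - y| := fun x y => by
    have := abs_tanh_diff y (x - y)
    rwa [add_sub_cancel, ← one_mul |x - y|] at this
  have hl2 : ∀ x y : ℝ, |tanh x ^ 2 - tanh y ^ 2| ≤ 2 * |x - y| := fun x y => by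
    rw [show tanh x ^ 2 - tanh y ^ 2 = (tanh x + tanh y) * (tanh x - tanh y) by ring, abs_mul]
    refine mul_le_mul ((abs_add_le _ _).trans ?_) ((hl1 x y).trans_eq (one_mul _)) (abs_nonneg _) two_pos.le
    linarith [(tanh_mem x).1, (tanh_mem y).1]
  refine ⟨step (c := 2) (by linarith) (sum_lip hρ.le two_pos.le hd hl2) h1,
    step (c := 1) (by linarith) (sum_lip hρ.le zero_le_one hd hl1) h2,
    step (c := 1 + √C) (by linarith) ?_ h3, ?_, ?_⟩
  · rw [← sum_sub_distrib]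
    have e : ∀ i, (x i - (u + t * q)) * tanh (x i) - (a i - (u + t * q)) * tanh (a i)
        = (x i - a i) * tanh (x i) + (a i - (u + t * q)) * (tanh (x i) - tanh (a i)) := fun i => by ring
    simp only [e, sum_add_distrib]
    refine (abs_add_le _ _).trans ?_
    have hb : ∑ i, tanh (x i) ^ 2 ≤ 1 ^ 2 * (n : ℝ) :=
      le_trans (sum_le_sum fun i _ => (sq_le_one_iff_abs_le_one _).2 (tanh_mem _).1) (by simp)
    have q1 := abs_sum_mul_le hρ.le zero_le_one hd hb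
    have q2 := abs_sum_mul_le hsC hρ.le (a := fun i => a i - (u + t * q))
      (b := fun i => tanh (x i) - tanh (a i)) (by rwa [sq_sqrt hC])
      (le_trans (sum_le_sum fun i _ => by
        rw [← sq_abs, ← sq_abs (x i - a i)]
        exact pow_le_pow_left₀ (abs_nonneg _) ((hl1 _ _).trans_eq (one_mul _)) 2) hd)
    linarith
  · have hl := sum_lip hρ.le (show 0 ≤ 8 + 3 / a0 by positivity) hd
      (f := fun x => (1 - tanh x ^ 2) * (2 * tanh x + (x - (u + t * q)) / (u + t * q))) fun x y => (spec_lip ha hG x y).2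
    simpa using step (T := 0) (show 8 + 3 / a0 ≤ K by linarith) hl (by simpa using h4)
  · have e : ∀ x, (1 - tanh x ^ 2) * (2 * tanh x + (x - (u + t * q)) / (u + t * q)) ^ 2
        = ((cosh x)⁻¹ * (2 * tanh x + (x - (u + t * q)) / (u + t * q))) ^ 2 := fun x => by rw [mul_pow, inv_cosh_sq]
    simp only [e] at h5 ⊢
    have hl := sum_lip_sq hρ hΛ.le hd (f := fun x => (cosh x)⁻¹ * (2 * tanh x + (x - (u + t * q)) / (u + t * q)))
      fun x y => (spec_lip ha hG x y).1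
    rw [div_le_iff₀ hn'] at h5 ⊢
    refine hl.trans ?_
    set S := 2 + (1 - q) / (u + t * q) with hS
    have hS1 : S + ε ≤ 4 + 1 / a0 := by
      have : (1 - q) / (u + t * q) ≤ 1 / a0 := div_le_div₀ zero_le_one (by linarith) ha hG
      rw [hS]; linarith
    have h7 := mul_le_mul_of_nonneg_left h5 (show 0 ≤ 1 + Λ * ρ by positivity)
    have h8 : Λ * ρ * (S + ε) ≤ Λ * ρ * (4 + 1 / a0) := mul_le_mul_of_nonneg_left hS1 (by positivity)
    have h9 : Λ ^ 2 * ρ ^ 2 ≤ Λ ^ 2 * ρ :=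
      mul_le_mul_of_nonneg_left (pow_le_of_le_one hρ.le hρ1 two_ne_zero) (sq_nonneg _)
    have h10 : Λ * (4 + 1 / a0 + Λ + 1) * ρ ≤ K * ρ := mul_le_mul_of_nonneg_right (by linarith) hρ.le
    calc (1 + Λ * ρ) * ∑ i, ((cosh (a i))⁻¹ * (2 * tanh (a i) + (a i - (u + t * q)) / (u + t * q))) ^ 2
          + (Λ * ρ + Λ ^ 2 * ρ ^ 2) * n
        ≤ (1 + Λ * ρ) * ((S + ε) * n) + (Λ * ρ + Λ ^ 2 * ρ ^ 2) * n := by linarith
      _ = (S + (ε + Λ * ρ * (S + ε) + Λ * ρ + Λ ^ 2 * ρ ^ 2)) * n := by ring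
      _ ≤ (S + (ε + K * ρ)) * n := by
          refine mul_le_mul_of_nonneg_right ?_ hn'.le
          linarith

/-- Approximate roots are short. -/
theorem root_short {t u q U L ρ ε : ℝ} (ht : 0 ≤ t) (ht1 : t ≤ 1) (hu : 0 ≤ u) (huU : u ≤ U) (hq : 0 ≤ q)
    (hq1 : q ≤ 1) (hρ1 : ρ ^ 2 ≤ 1) (hε1 : ε ^ 2 ≤ 1) {K : Matrix (Fin n) (Fin n) ℝ} (hL : 0 ≤ L)
    (hK : ∀ v, ∑ i, (K *ᵥ v) i ^ 2 ≤ L * ∑ i, v i ^ 2) {g a x : Fin n → ℝ}
    (hg : ∑ i, g i ^ 2 ≤ 4 * n) (hd : ∑ i, (x i - a i) ^ 2 ≤ ρ ^ 2 * n)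
    (hres : ∑ i, fieldRes K (plantH u g) t a i ^ 2 ≤ ε ^ 2 * n) :
    ∑ i, (a i - (u + t * q)) ^ 2 ≤ (8 * U ^ 2 + 32 * U + 4 * L + 8 + 2 * (U + 1) ^ 2) * 2 * n ∧
      ∑ i, (x i - (u + t * q)) ^ 2 ≤ (8 * U ^ 2 + 32 * U + 4 * L + 9 + 2 * (U + 1) ^ 2) * 4 * n := by
  rcases Nat.eq_zero_or_pos n with rfl | hn
  · simp
  have hn' : (0 : ℝ) < n := by exact_mod_cast hn
  set m : Fin n → ℝ := fun i => tanh (a i)
  set c := t * (1 - (∑ j, tanh (a j) ^ 2) / (n : ℝ))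
  have hm : ∑ i, m i ^ 2 ≤ 1 * (n : ℝ) :=
    le_trans (sum_le_sum fun i _ => (sq_le_one_iff_abs_le_one _).2 (tanh_mem _).1) (by simp)
  have hqa : (∑ j, tanh (a j) ^ 2) / (n : ℝ) ≤ 1 := by rw [div_le_iff₀ hn']; exact hm
  have hqa0 : 0 ≤ (∑ j, tanh (a j) ^ 2) / (n : ℝ) := by positivity
  have hc : c ^ 2 ≤ 1 :=
    pow_le_one₀ (mul_nonneg ht (by linarith)) (mul_le_one₀ ht1 (by linarith) (by linarith))
  have ha : ∑ i, a i ^ 2 ≤ (8 * U ^ 2 + 32 * U + 4 * L + 8) * n := by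
    calc ∑ i, a i ^ 2 ≤ ∑ i, 4 * ((2 * U ^ 2 + 2 * U * g i ^ 2) + (K *ᵥ m) i ^ 2 + m i ^ 2
          + fieldRes K (plantH u g) t a i ^ 2) := by
          refine sum_le_sum fun i _ => ?_
          set r := fieldRes K (plantH u g) t a i with hr
          have e : a i = plantH u g i + (K *ᵥ m) i - c * m i - (-r) := by
            simp only [hr, fieldRes, m, c, Matrix.mulVec, dotProduct]; ring
          rw [e]
          refine (sq_four _ _ _ _).trans ?_
          rw [neg_sq, mul_pow]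
          have h1 : plantH u g i ^ 2 ≤ 2 * U ^ 2 + 2 * U * g i ^ 2 := by
            simp only [plantH]
            have h2 := pow_le_pow_left₀ hu huU 2
            have h3 := mul_le_mul_of_nonneg_right huU (sq_nonneg (g i))
            have h4 : (√u * g i) ^ 2 = u * g i ^ 2 := by rw [mul_pow, sq_sqrt hu]
            linarith [sq_nonneg (u - √u * g i)]
          linarith [mul_le_of_le_one_left (sq_nonneg (m i)) hc]
      _ = 4 * (2 * U ^ 2 * n + 2 * U * ∑ i, g i ^ 2 + ∑ i, (K *ᵥ m) i ^ 2 + ∑ i, m i ^ 2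
            + ∑ i, fieldRes K (plantH u g) t a i ^ 2) := by
          rw [← mul_sum]
          simp only [sum_add_distrib, ← mul_sum, sum_const, card_univ, Fintype.card_fin, nsmul_eq_mul]
          ring
      _ ≤ 4 * (2 * U ^ 2 * n + 2 * U * (4 * n) + L * (1 * n) + 1 * n + 1 * n) := by
          have hU : 0 ≤ U := hu.trans huU
          gcongr
          · exact (hK m).trans (mul_le_mul_of_nonneg_left hm hL)
          · exact hres.trans (mul_le_mul_of_nonneg_right hε1 hn'.le)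
      _ = _ := by ring
  have hG : (u + t * q) ^ 2 ≤ (U + 1) ^ 2 :=
    pow_le_pow_left₀ (by positivity) (by linarith [mul_le_one₀ ht1 hq hq1]) 2
  have h1 : ∑ i, (a i - (u + t * q)) ^ 2 ≤ (8 * U ^ 2 + 32 * U + 4 * L + 8 + 2 * (U + 1) ^ 2) * 2 * n := by
    calc ∑ i, (a i - (u + t * q)) ^ 2 ≤ ∑ i, (2 * a i ^ 2 + 2 * (U + 1) ^ 2) :=
          sum_le_sum fun i _ => by linarith [sq_nonneg (a i + (u + t * q))]
      _ = 2 * ∑ i, a i ^ 2 + 2 * (U + 1) ^ 2 * n := by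
          simp only [sum_add_distrib, ← mul_sum, sum_const, card_univ, Fintype.card_fin, nsmul_eq_mul]
          ring
      _ ≤ _ := by
          have : 0 ≤ (U + 1) ^ 2 * n := by positivity
          linarith
  refine ⟨h1, ?_⟩
  calc ∑ i, (x i - (u + t * q)) ^ 2 ≤ ∑ i, (2 * (x i - a i) ^ 2 + 2 * (a i - (u + t * q)) ^ 2) :=
        sum_le_sum fun i _ => by linarith [sq_nonneg ((x i - a i) - (a i - (u + t * q)))]
    _ = 2 * ∑ i, (x i - a i) ^ 2 + 2 * ∑ i, (a i - (u + t * q)) ^ 2 := by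
        rw [sum_add_distrib, ← mul_sum, ← mul_sum]
    _ ≤ _ := by
        have := hd.trans (mul_le_mul_of_nonneg_right hρ1 hn'.le)
        linarith

end Vale.Agent.P150.Fast.Transfer
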