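import Vale.Agent.P150.Fast.TransferCond
import Vale.Agent.P150.Fast.TransferRobust
import Vale.Agent.P150.Fast.TransferParams
import Vale.Agent.P150.Fast.TransferDet
import Vale.Agent.P150.Fast.GaussTail

/-!
The transfer (P150, module M6): approximate roots of the TAP equation with replica-symmetric
statistics carry the margin, outside an event of exponentially small probability. Next to such a
root the bump of the residual keeps its mass, and the mean mass at configurations without margin is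
exponentially smaller.
-/

open MeasureTheory ProbabilityTheory Real Finset Filter Matrix
open scoped ENNReal

namespace Vale.Agent.P150.Fast.Transfer

variable {n : ℕ}

/-- Fields with the statistics at level `ε` and bounded energy. -/
def statSet (t u q ε C : ℝ) (n : ℕ) : Set (Fin n → ℝ) :=
  {x | RsStats t u q ε x ∧ ∑ i, (x i - (u + t * q)) ^ 2 ≤ C * n}

/-- Fields with much energy on a sparse set. -/
def sparseSet (G z σ : ℝ) (n : ℕ) : Set (Fin n → ℝ) :=
  {x | ∃ S : Finset (Fin n), (S.card : ℝ) ≤ σ * n ∧ z * n < ∑ i ∈ S, (x i - G) ^ 2}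

/-- Disorder and fields at which the statistics hold and the margin fails. -/
def testSet (β u q ε C η θ σ : ℝ) (n : ℕ) : Set ((Dis n × (Fin n → ℝ)) × (Fin n → ℝ)) :=
  {p | p.2 ∈ statSet (β ^ 2) u q ε C n ∧
    ¬ BallMargin (plantK n β p.1.1) (β ^ 2) η θ σ fun i => tanh (p.2 i)}

theorem isClosed_statSet (t u q ε C : ℝ) (n : ℕ) : IsClosed (statSet t u q ε C n) := by
  have hc : ∀ j, Continuous fun x : Fin n → ℝ => tanh (x j) := fun j =>
    continuous_tanh_field.comp (continuous_apply j)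
  simp only [statSet, RsStats, Set.ofPred_and]
  refine ((isClosed_le (by fun_prop) continuous_const).inter ((isClosed_le (by fun_prop) continuous_const).inter
    ((isClosed_le (by fun_prop) continuous_const).inter ((isClosed_le (by fun_prop) continuous_const).inter
      (isClosed_le (by fun_prop) continuous_const))))).inter (isClosed_le (by fun_prop) continuous_const)

theorem isOpen_sparseSet (G z σ : ℝ) (n : ℕ) : IsOpen (sparseSet G z σ n) := by
  simp only [sparseSet, Set.ofPred_exists, Set.ofPred_and]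
  exact isOpen_iUnion fun S => isOpen_const.inter (isOpen_lt continuous_const (by fun_prop))

theorem measurable_testSet (β u q ε C η σ : ℝ) {θ : ℝ} (hθ : 0 < θ) (n : ℕ) :
    MeasurableSet (testSet β u q ε C η θ σ n) := by
  simp only [testSet, Set.ofPred_and]
  exact (measurable_snd (isClosed_statSet _ _ _ _ _ _).measurableSet).inter
    (((continuous_fst.comp continuous_fst).prodMk continuous_snd).measurable
      (isClosed_ball β (β ^ 2) η σ hθ).measurableSet).compl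

theorem measurable_fieldBump (β u s : ℝ) (n : ℕ) :
    Measurable fun p : (Dis n × (Fin n → ℝ)) × (Fin n → ℝ) =>
      ENNReal.ofReal (exp (-((∑ i, fieldRes (plantK n β p.1.1) (plantH u p.1.2) (β ^ 2) p.2 i ^ 2)
        / (2 * s ^ 2)))) := by
  have hc : ∀ j, Continuous fun p : (Dis n × (Fin n → ℝ)) × (Fin n → ℝ) => tanh (p.2 j) := fun j =>
    continuous_tanh_field.comp ((continuous_apply j).comp continuous_snd)
  have hK : ∀ a b, Continuous fun p : (Dis n × (Fin n → ℝ)) × (Fin n → ℝ) => plantK n β p.1.1 a b :=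
    fun a b => by
      simp only [plantK, Matrix.add_apply, Matrix.smul_apply, vecMulVec_apply]
      exact ((cont_entry β a b).comp (continuous_fst.comp continuous_fst)).add continuous_const
  refine ENNReal.measurable_ofReal.comp (Continuous.measurable ?_)
  unfold fieldRes plantH
  fun_prop

/-- The lower bound next to an approximate root. -/
theorem root_lower (hn : 0 < n) {β u q U δ ε εx εd κ s θv ρ C η θ σ : ℝ} (hβ : 0 < β) (hβ1 : β < 1)
    (hδ : 0 < δ) (hu : 0 ≤ u) (huU : u ≤ U) (hq : δ ≤ q) (hq1 : q ≤ 1 - δ) (hεδ : ε ≤ δ / 2)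
    (hε1 : ε ≤ 1) (hε0 : 0 ≤ ε) (hκ : 0 < κ) (hs : 0 < s) (hθv : 0 < θv) (hθ : 0 < θ) (hρ : 0 < ρ)
    (hρ1 : ρ ≤ 1) (hρs : 4 * (s ^ 2 / κ) ≤ ρ ^ 2) (hρη : 8 * ρ ≤ η) (hρσ : ρ ^ 2 ≤ σ * θ ^ 2)
    (hC : (8 * U ^ 2 + 32 * U + 4 * 34 + 9 + 2 * (U + 1) ^ 2) * 4 ≤ C)
    (hεx : ε + (8 + 3 / (β ^ 2 * δ) + √C + (5 + 2 / (β ^ 2 * δ)) * (4 + 1 / (β ^ 2 * δ)
      + (5 + 2 / (β ^ 2 * δ)) + 1)) * ρ ≤ εx)
    {d : Dis n} {g a : Fin n → ℝ} (hN : ∀ v, |Ent.qform (kmat n 1 d) v| ≤ 3 * ∑ i, v i ^ 2)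
    (hg : ∑ i, g i ^ 2 ≤ 4 * n)
    (hdet : δ / 2 ≤ (∑ j, tanh (a j) ^ 2) / (n : ℝ) → regDet κ (jacPsi (plantK n β d) (β ^ 2) a)
      ≤ n * (β ^ 2 * (1 - (∑ j, tanh (a j) ^ 2) / n) ^ 2 / 2 + εd))
    (hst : RsStats (β ^ 2) u q ε a)
    (hres : ∑ i, fieldRes (plantK n β d) (plantH u g) (β ^ 2) a i ^ 2 ≤ ε ^ 2 * n)
    (hbad : ¬ BallMargin (plantK n β d) (β ^ 2) η θ σ fun i => tanh (a i)) :
    ENNReal.ofReal (1 / 2 * √((2 * π) ^ n * (s ^ 2 / (1 + θv)) ^ n)
        * exp (-(n * (β ^ 2 * (1 - q) ^ 2 / 2 + ε + εd))) * exp (-(n * volErr 34 κ s θv ε)))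
      ≤ ∫⁻ x, (testSet β u q εx C (2 * η) (2 * θ) (2 * σ) n).indicator (fun p =>
          ENNReal.ofReal (exp (-((∑ i, fieldRes (plantK n β p.1.1) (plantH u p.1.2) (β ^ 2) p.2 i ^ 2)
            / (2 * s ^ 2))))) ((d, g), x) := by
  set t := β ^ 2
  have ht : 0 < t := by positivity
  have ht1 : t ≤ 1 := pow_le_one₀ hβ.le hβ1.le
  have hU : 0 ≤ U := hu.trans huU
  have hn' : (0 : ℝ) < n := by exact_mod_cast hn
  have hK : ∀ v, ∑ i, (plantK n β d *ᵥ v) i ^ 2 ≤ 34 * ∑ i, v i ^ 2 := fun v => by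
    have h1 := op_shift hβ.le hβ1.le le_rfl zero_le_one hN v
    simp only [mul_zero, zero_smul, zero_sub, neg_mulVec, Pi.neg_apply, neg_sq] at h1
    have e : ∀ i, (plantK n β d *ᵥ v) i = (kmat n β d *ᵥ v) i + t / n * ∑ j, v j := fun i => by
      simp [plantK, Matrix.mulVec, dotProduct, vecMulVec_apply, add_mul, sum_add_distrib, mul_sum, t]
    have h2 : (∑ j, v j) ^ 2 ≤ (n : ℝ) * ∑ j, v j ^ 2 := by
      simpa using sq_sum_le_card_mul_sum_sq (s := (univ : Finset (Fin n))) (f := v)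
    calc ∑ i, (plantK n β d *ᵥ v) i ^ 2
        ≤ ∑ i, (2 * (kmat n β d *ᵥ v) i ^ 2 + 2 * (t / n * ∑ j, v j) ^ 2) := by
          refine sum_le_sum fun i _ => ?_
          rw [e i]
          linarith [sq_nonneg ((kmat n β d *ᵥ v) i - t / n * ∑ j, v j)]
      _ = 2 * ∑ i, (kmat n β d *ᵥ v) i ^ 2 + 2 * (t ^ 2 / n) * (∑ j, v j) ^ 2 := by
          simp only [sum_add_distrib, ← mul_sum, sum_const, card_univ, Fintype.card_fin, nsmul_eq_mul]
          field_simp
      _ ≤ 2 * (4 ^ 2 * ∑ i, v i ^ 2) + 2 * (1 / n) * ((n : ℝ) * ∑ j, v j ^ 2) := by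
          gcongr; exact pow_le_one₀ ht.le ht1
      _ = _ := by field_simp; ring
  have hq0 : 0 ≤ q := hδ.le.trans hq
  have hqq : |(∑ j, tanh (a j) ^ 2) / (n : ℝ) - q| ≤ ε := hst.1
  set qa := (∑ j, tanh (a j) ^ 2) / (n : ℝ)
  obtain ⟨hq2, hq3⟩ := abs_le.1 hqq
  have hqa1 : qa ≤ 1 := (div_le_one hn').2 (le_trans (sum_le_sum fun i _ =>
    (sq_le_one_iff_abs_le_one _).2 (tanh_mem (a i)).1) (by simp))
  have hexp : regDet κ (jacPsi (plantK n β d) t a) ≤ n * (t * (1 - q) ^ 2 / 2 + ε + εd) := by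
    refine (hdet (by linarith)).trans (mul_le_mul_of_nonneg_left ?_ hn'.le)
    have h : (1 - qa) ^ 2 ≤ (1 - q) ^ 2 + 2 * ε := by
      have e : (1 - qa) ^ 2 = (1 - q) ^ 2 + (q - qa) * ((1 - qa) + (1 - q)) := by ring
      have : (q - qa) * ((1 - qa) + (1 - q)) ≤ ε * 2 :=
        mul_le_mul (by linarith) (by linarith) (by linarith) hε0
      linarith
    have := mul_le_mul_of_nonneg_left h ht.le
    have h' : t * (2 * ε) ≤ 2 * ε := mul_le_of_le_one_left (by linarith) ht1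
    linarith
  set Bρ := {x : Fin n → ℝ | ∑ i, (x i - a i) ^ 2 ≤ ρ ^ 2 * n}
  set f : (Fin n → ℝ) → ℝ := fun x =>
    exp (-((∑ i, fieldRes (plantK n β d) (plantH u g) t x i ^ 2) / (2 * s ^ 2)))
  have hlow := bump_lower hn ht.le ht1 hκ hs hθv hρs hK (plantH u g) a hres
  have hBρ : MeasurableSet Bρ := (isClosed_le (by fun_prop) continuous_const).measurableSet
  have hfm : Measurable f := by
    have := continuous_fieldRes (plantK n β d) (plantH u g) t
    exact (continuous_exp.comp (((continuous_finsetSum _ fun i _ =>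
      ((continuous_apply i).comp this).pow 2).div_const _).neg)).measurable
  have hfin : volume Bρ ≠ ⊤ := by
    refine ((measure_mono fun x hx => ?_).trans_lt
      (isCompact_closedBall a (ρ * √n)).measure_lt_top).ne
    rw [Metric.mem_closedBall, dist_pi_le_iff (by positivity)]
    intro i
    rw [Real.dist_eq]
    refine abs_le_of_sq_le_sq ?_ (by positivity)
    rw [mul_pow, sq_sqrt hn'.le]
    exact (single_le_sum (f := fun i => (x i - a i) ^ 2) (fun j _ => sq_nonneg _) (mem_univ i)).trans hx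
  have hint : Integrable (Bρ.indicator f) := by
    rw [integrable_indicator_iff hBρ]
    exact IntegrableOn.of_bound hfin.lt_top hfm.aestronglyMeasurable 1 (ae_of_all _ fun x => by
      rw [norm_of_nonneg (exp_pos _).le]
      exact exp_le_one_iff.2 (neg_nonpos.2 (by positivity)))
  refine le_trans (ENNReal.ofReal_le_ofReal (le_trans ?_ hlow)) ?_
  · gcongr
  rw [ofReal_integral_eq_lintegral_ofReal hint
    (ae_of_all _ fun x => Set.indicator_nonneg (fun _ _ => (exp_pos _).le) x)]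
  refine lintegral_mono fun x => ?_
  by_cases hx : x ∈ Bρ
  · have hG : t * δ ≤ u + t * q := by
      linarith [mul_le_mul_of_nonneg_left hq ht.le]
    obtain ⟨hya, hyx⟩ := root_short (q := q) ht.le ht1 hu huU hq0 (by linarith)
      (pow_le_one₀ hρ.le hρ1) (pow_le_one₀ hε0 hε1) (by norm_num : (0 : ℝ) ≤ 34) hK hg hx hres
    have hC0 : 0 ≤ C := le_trans (by positivity) hC
    have hCn := mul_le_mul_of_nonneg_right hC hn'.le
    have hS := stats_robust (C := C) (mul_pos ht hδ) hG hC0 hq0 hρ hρ1 hε1 hn hx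
      (hya.trans (by
        have : 0 ≤ (8 * U ^ 2 + 32 * U + 4 * 34 + 9 + 2 * (U + 1) ^ 2) * n := by positivity
        linarith)) hst
    have hmem : ((d, g), x) ∈ testSet β u q εx C (2 * η) (2 * θ) (2 * σ) n := by
      refine ⟨⟨⟨hS.1.trans hεx, hS.2.1.trans hεx, hS.2.2.1.trans hεx, hS.2.2.2.1.trans hεx,
        hS.2.2.2.2.trans (by linarith)⟩, hyx.trans hCn⟩, fun hB => hbad ?_⟩
      refine ball_robust hn ht.le ht1 hθ hρ.le hρ1 hρη hρσ (fun i => (tanh_mem (a i)).1)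
        (fun i => (tanh_mem (x i)).1) (le_trans (sum_le_sum fun i _ => ?_) hx) hB
      rw [← sq_abs, ← sq_abs (x i - a i), abs_sub_comm]
      refine pow_le_pow_left₀ (abs_nonneg _) ?_ 2
      have h := abs_tanh_diff (a i) (x i - a i)
      rwa [add_sub_cancel] at h
    rw [Set.indicator_of_mem hx, Set.indicator_of_mem hmem]
  · simp [hx]

/-- The weight of the count at fixed fields. -/
noncomputable def countK (t u q κ s : ℝ) (x : Fin n → ℝ) : ℝ :=
  exp (κ * n) * √((2 * π) ^ n * (s ^ 2) ^ n) * exp (-(n * (t * (1 - q) ^ 2 / 2))) * refDens (u + t * q) x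

/-- The upper bound at fixed fields. -/
theorem count_upper {β U δ : ℝ} (hβ : 0 < β) (hβ1 : β < 1) (hδ : 0 < δ) (hU : 0 ≤ U) {C : ℝ} (hC : 1 ≤ C) :
    ∃ L W : ℝ, 0 < L ∧ 0 < W ∧ ∀ κ : ℝ, 0 < κ → ∃ εc : ℝ, 0 < εc ∧
      ∀ (n : ℕ), 0 < n → ∀ (u q s z Γ η θ σ εx : ℝ), 0 ≤ u → u ≤ U → δ ≤ q → q ≤ 1 - δ → 0 < s →
      2 * s ^ 2 ≤ εc → s ^ 2 ≤ z → 0 < z → z ≤ δ / 2 → z ≤ 1 → σ ≤ z → εx ≤ εc → εx ≤ z →
      Γ ≤ z ^ 2 / 4 → Γ + 1 ≤ z ^ 2 / (4 * s ^ 2) → 0 < θ →
      (∀ (qx : ℝ) (m img : Fin n → ℝ), δ / 2 ≤ qx → qx ≤ 1 - δ / 2 → ∑ i, m i ^ 2 = qx * n →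
        (∀ i, |m i| ≤ 1) → ImgOK (β ^ 2) qx (L * z) W (2 + (1 - qx) / (β ^ 2 * qx) + L * z) (L * z) (L * z)
          σ m img →
        (disX n).real {d | ∃ S : Finset (Fin n), (S.card : ℝ) ≤ σ * n ∧ ∃ u,
          margForm (β ^ 2) qx η m (vsec θ m S) (fun i => img i - β ^ 2 * (1 - qx) * m i) u
            < Ent.qform (kmat n √(β ^ 2) d) (projOff m u)} ≤ exp (-(Γ * n))) →
      (∀ (m b : Fin n → ℝ), (∀ i, |m i| ≤ 1) → ∑ i, b i ^ 2 ≤ (8 + 2 / (β ^ 2 * δ / 2) ^ 2 * C) * n →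
        (gp (Fin n)).real {w | ¬ WGood z σ m b w} ≤ exp (-(Γ * n))) →
      ∀ x : Fin n → ℝ,
        ∫⁻ p, (testSet β u q εx C η θ σ n).indicator (fun p =>
            ENNReal.ofReal (exp (-((∑ i, fieldRes (plantK n β p.1.1) (plantH u p.1.2) (β ^ 2) p.2 i ^ 2)
              / (2 * s ^ 2))))) (p, x) ∂(disX n).prod (gp (Fin n))
          ≤ ENNReal.ofReal (countK (β ^ 2) u q κ s x
              * (5 * exp (-(Γ * n)) + (sparseSet (u + β ^ 2 * q) z σ n).indicator (fun _ => 4) x)) := by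
  have ht : 0 < β ^ 2 := by positivity
  have ht1 : β ^ 2 ≤ 1 := pow_le_one₀ hβ.le hβ1.le
  obtain ⟨L, W, hL, hW, himg⟩ := image_good (t := β ^ 2) ht ht1 hδ hU (zero_le_one.trans hC)
  refine ⟨L, W, hL, hW, fun κ hκ => ?_⟩
  obtain ⟨εc, hεc, hεcδ, -, hcount⟩ := count_bound (U := U) ht hδ hκ hC
  refine ⟨εc, hεc, fun n hn u q s z Γ η θ σ εx hu huU hq hq1 hs hs2 hsz hz hzδ hz1 hσz hxc hxz hΓ hΓs hθ
    hmar hnoise x => ?_⟩
  set t := β ^ 2 with ht'
  by_cases hx : x ∈ statSet t u q εx C n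
  swap
  · refine le_of_eq_of_le ?_ bot_le
    refine (lintegral_congr fun p => Set.indicator_of_notMem (fun h => hx h.1) _).trans lintegral_zero
  obtain ⟨hS, hy⟩ := hx
  obtain ⟨s1, s2, s3, s4, s5⟩ := hS
  have hn' : (0 : ℝ) < n := by exact_mod_cast hn
  set m : Fin n → ℝ := fun i => tanh (x i)
  set qx := (∑ j, tanh (x j) ^ 2) / (n : ℝ) with hqxd
  set K := countK t u q κ s x with hK
  obtain ⟨hq2, hq3⟩ := abs_le.1 s1
  have hqx : 0 < qx := by linarith
  have hG0 : 0 < u + t * q := by linarith [mul_pos ht (hδ.trans_le hq)]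
  have hK0 : 0 ≤ K := by
    rw [hK]; unfold countK refDens
    exact mul_nonneg (by positivity) (prod_nonneg fun i _ => gaussianPDFReal_nonneg _ _ _)
  have hct : ∀ r, 0 < r → r ^ 2 ≤ εc → countTot t u r x
      ≤ exp (κ * n) * √((2 * π) ^ n * (r ^ 2) ^ n) * refDens (u + t * q) x
        * exp (-(n * (t * (1 - q) ^ 2 / 2))) := fun r hr hre => by
    have h := hcount n hn u q r x hu huU hq hq1 hr hre (s1.trans hxc) (s2.trans hxc) (s3.trans hxc) hy
    rw [exp_neg, ← div_eq_mul_inv, le_div_iff₀ (exp_pos _)]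
    exact h
  have hc1 : countTot t u s x ≤ K := (hct s hs (by linarith [sq_nonneg s])).trans_eq (by
    rw [hK]; unfold countK; ring)
  have hc2 : exp (-(z ^ 2 * n / (4 * s ^ 2))) * countTot t u (√2 * s) x ≤ K * exp (-(Γ * n)) := by
    have h := hct (√2 * s) (by positivity) (by rw [mul_pow, sq_sqrt zero_le_two]; exact hs2)
    have hr : √((2 * π) ^ n * ((√2 * s) ^ 2) ^ n) ≤ exp n * √((2 * π) ^ n * (s ^ 2) ^ n) := by
      rw [mul_pow √2, sq_sqrt zero_le_two, mul_pow 2 (s ^ 2) n, mul_left_comm, sqrt_mul (by positivity)]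
      refine mul_le_mul_of_nonneg_right ?_ (sqrt_nonneg _)
      rw [sqrt_le_left (exp_pos _).le, ← exp_nat_mul, Nat.cast_ofNat,
        show exp (2 * (n : ℝ)) = exp 2 ^ n by rw [← exp_nat_mul]; congr 1; ring]
      exact pow_le_pow_left₀ zero_le_two (by linarith [add_one_le_exp (2 : ℝ)]) n
    have he : exp (-(z ^ 2 * n / (4 * s ^ 2))) * exp n ≤ exp (-(Γ * n)) := by
      rw [← exp_add, exp_le_exp]
      have := mul_le_mul_of_nonneg_right hΓs hn'.le
      rw [show z ^ 2 * n / (4 * s ^ 2) = z ^ 2 / (4 * s ^ 2) * n by ring]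
      linarith
    have hd : 0 ≤ refDens (u + t * q) x := prod_nonneg fun i _ => gaussianPDFReal_nonneg _ _ _
    calc exp (-(z ^ 2 * n / (4 * s ^ 2))) * countTot t u (√2 * s) x
        ≤ exp (-(z ^ 2 * n / (4 * s ^ 2))) * (exp (κ * n) * (exp n * √((2 * π) ^ n * (s ^ 2) ^ n))
            * refDens (u + t * q) x * exp (-(n * (t * (1 - q) ^ 2 / 2)))) := by
          refine mul_le_mul_of_nonneg_left (h.trans ?_) (exp_pos _).le
          gcongr
      _ = exp (-(z ^ 2 * n / (4 * s ^ 2))) * exp n * K := by rw [hK]; unfold countK; ring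
      _ ≤ exp (-(Γ * n)) * K := mul_le_mul_of_nonneg_right he hK0
      _ = _ := mul_comm _ _
  have h2e : 2 * exp (-(z ^ 2 * n / 4)) ≤ 2 * exp (-(Γ * n)) := by
    refine mul_le_mul_of_nonneg_left (exp_le_exp.2 ?_) two_pos.le
    have := mul_le_mul_of_nonneg_right hΓ hn'.le
    linarith
  have hle : ∀ p : Dis n × (Fin n → ℝ), (testSet β u q εx C η θ σ n).indicator (fun p =>
      ENNReal.ofReal (exp (-((∑ i, fieldRes (plantK n β p.1.1) (plantH u p.1.2) (β ^ 2) p.2 i ^ 2)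
        / (2 * s ^ 2))))) (p, x)
      ≤ bumpAt s (resMean t u x) (fun i => (kmat n β p.1 *ᵥ fun j => tanh (x j)) i + √u * p.2 i)
        * {d | ¬ BallMargin (plantK n β d) (β ^ 2) η θ σ m}.indicator (fun _ => 1) p.1 := fun p => by
    by_cases h : (p, x) ∈ testSet β u q εx C η θ σ n
    · rw [Set.indicator_of_mem h, Set.indicator_of_mem (show p.1 ∈ {d | ¬ BallMargin (plantK n β d) (β ^ 2) η θ σ m} from h.2), mul_one]
      unfold bumpAt
      simp only [fieldRes_plant, t]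
      exact le_rfl
    · simp [h]
  refine (lintegral_mono hle).trans ?_
  have hG : 0 ≤ countTot t u s x := by unfold countTot; positivity
  by_cases hY : x ∈ sparseSet (u + t * q) z σ n
  · rw [Set.indicator_of_mem hY]
    refine (inner_bound hn hβ hu hs hz.le (pm := 0) (pw := 1) le_rfl zero_le_one hqx (O := ∅) (B := ∅)
      MeasurableSet.empty MeasurableSet.empty (fun Z w ξ h => h.elim) (fun W h => h.elim) (by simp)).trans
      (ENNReal.ofReal_le_ofReal ?_)
    have e1 : exp (-(z ^ 2 * n / 4)) ≤ 1 := exp_le_one_iff.2 (neg_nonpos.2 (by positivity))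
    have e2 := mul_le_mul hc1 (show 0 + 2 * exp (-(z ^ 2 * n / 4)) + 1 ≤ (3 : ℝ) by linarith)
      (by positivity) hK0
    have := mul_nonneg hK0 (exp_pos (-(Γ * n))).le
    linarith
  · rw [Set.indicator_of_notMem hY, add_zero]
    simp only [sparseSet, Set.mem_ofPred_eq, not_exists, not_and, not_lt] at hY
    set b : Fin n → ℝ := fun i => 2 * tanh (x i) + (x i - (u + t * q)) / (u + t * q)
    set O := {img | ImgOK t qx (L * z) W (2 + (1 - qx) / (t * qx) + L * z) (L * z) (L * z) σ m img}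
    have hm1 : ∀ i, |m i| ≤ 1 := fun i => (tanh_mem (x i)).1
    have hN : ∑ i, m i ^ 2 = qx * n := by simp only [m, hqxd]; field_simp
    have hX : XGood t u q C z σ x :=
      ⟨s1.trans hxz, s2.trans hxz, s3.trans hxz, s4.trans hxz, s5.trans (by linarith), hy, hY⟩
    have hb : ∑ i, b i ^ 2 ≤ (8 + 2 / (t * δ / 2) ^ 2 * C) * n := by
      have h := (base_energy (k := 0) (K := 0) (G := u + t * q) (C := C) (m := m)
        (y := fun i => x i - (u + t * q)) (w := fun _ => 0) (show 0 < t * δ / 2 by positivity)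
        (by linarith [mul_le_mul_of_nonneg_left hq ht.le, mul_pos ht hδ]) (by simp) hm1 hy (by simp)).1
      refine (sum_le_sum fun i _ => h i).trans ?_
      rw [sum_add_distrib, ← mul_sum, sum_const, card_univ, Fintype.card_fin, nsmul_eq_mul]
      have := mul_le_mul_of_nonneg_left hy (show 0 ≤ 2 / (t * δ / 2) ^ 2 by positivity)
      linarith
    refine (inner_bound hn hβ hu hs hz.le (exp_pos (-(Γ * n))).le (exp_pos (-(Γ * n))).le hqx (O := O)
      (B := {w | WGood z σ m b w}) (isClosed_imgOK _ _ _ _ _ _ _ _ _).measurableSet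
      (isClosed_wGood _ _ _ _).measurableSet
      (fun Z w ξ hw hfar hξ => himg n hn u q s z σ x Z w ξ hu huU hq hq1 hz hzδ hz1 hσz hsz hX hw hfar hξ)
      (fun img himgO => ?_) ?_).trans (ENNReal.ofReal_le_ofReal ?_)
    · refine le_of_eq_of_le ?_ (hmar qx m img (by linarith) (by linarith) hN hm1 himgO)
      congr 1
      ext d
      simp only [pinchBad, Set.mem_ofPred_eq, qform_pinch]
      rfl
    · simpa [Set.compl_ofPred] using hnoise m b hm1 hb
    · have e2 := mul_le_mul hc1 (show exp (-(Γ * n)) + 2 * exp (-(z ^ 2 * n / 4)) + exp (-(Γ * n))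
        ≤ 4 * exp (-(Γ * n)) by linarith) (by positivity) hK0
      linarith

/-- The mean of the weight of the count. -/
theorem count_mean {t u q z σ U Γ κ s : ℝ} (hG : 0 < u + t * q) (hGU : u + t * q ≤ U + 1)
    (hsp : (gp (Fin n)).real {g | ∃ S : Finset (Fin n), (S.card : ℝ) ≤ σ * n
      ∧ z / (U + 1) * n < ∑ i ∈ S, g i ^ 2} ≤ exp (-(Γ * n))) :
    ∫⁻ x, ENNReal.ofReal (countK t u q κ s x
        * (5 * exp (-(Γ * n)) + (sparseSet (u + t * q) z σ n).indicator (fun _ => 4) x))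
      ≤ ENNReal.ofReal (exp (κ * n) * √((2 * π) ^ n * (s ^ 2) ^ n) * exp (-(n * (t * (1 - q) ^ 2 / 2)))
          * (9 * exp (-(Γ * n)))) := by
  set G := u + t * q
  set Y := sparseSet G z σ n
  set F : (Fin n → ℝ) → ℝ := fun x => 5 * exp (-(Γ * n)) + Y.indicator (fun _ => 4) x
  set c := exp (κ * n) * √((2 * π) ^ n * (s ^ 2) ^ n) * exp (-(n * (t * (1 - q) ^ 2 / 2)))
  have hY : MeasurableSet Y := (isOpen_sparseSet G z σ n).measurableSet
  have hF0 : ∀ x, 0 ≤ F x := fun x =>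
    add_nonneg (by positivity) (Set.indicator_nonneg (fun _ _ => by norm_num) x)
  set φ : (Fin n → ℝ) → Fin n → ℝ := fun g i => G + √G * g i
  have hφ : Measurable φ := by fun_prop
  obtain ⟨hint, hiff⟩ := refDens_integral (n := n) hG F
  have hYi : Integrable (fun g => Y.indicator (fun _ => (4 : ℝ)) (φ g)) (gp (Fin n)) := by
    refine (integrable_const (4 : ℝ)).mono' ((measurable_const.indicator hY).comp hφ).aestronglyMeasurable
      (ae_of_all _ fun g => ?_)
    rw [norm_of_nonneg (Set.indicator_nonneg (fun _ _ => by norm_num) _)]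
    exact Set.indicator_le' (fun _ _ => le_rfl) (fun _ _ => by norm_num) _
  have hi : Integrable (fun g => F (φ g)) (gp (Fin n)) := (integrable_const _).add hYi
  have hnn : ∀ x, 0 ≤ refDens G x * F x := fun x =>
    mul_nonneg (prod_nonneg fun i _ => gaussianPDFReal_nonneg _ _ _) (hF0 x)
  have e : ∀ x, countK t u q κ s x * F x = c * (refDens G x * F x) := fun x => by
    simp only [countK, c, G]; ring
  calc ∫⁻ x, ENNReal.ofReal (countK t u q κ s x * F x)
      = ENNReal.ofReal c * ∫⁻ x, ENNReal.ofReal (refDens G x * F x) := by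
        simp only [e, ENNReal.ofReal_mul (show 0 ≤ c by positivity)]
        exact lintegral_const_mul' _ _ ENNReal.ofReal_ne_top
    _ = ENNReal.ofReal c * ENNReal.ofReal (∫ x, refDens G x * F x) := by
        rw [ofReal_integral_eq_lintegral_ofReal (hiff.2 hi) (ae_of_all _ hnn)]
    _ ≤ ENNReal.ofReal c * ENNReal.ofReal (9 * exp (-(Γ * n))) := by
        refine mul_le_mul_right (ENNReal.ofReal_le_ofReal ?_) _
        rw [hint]
        show ∫ g, (5 * exp (-(Γ * n)) + Y.indicator (fun _ => 4) (φ g)) ∂gp (Fin n) ≤ _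
        rw [integral_add (integrable_const _) hYi, integral_const, probReal_univ, one_smul]
        have h : ∫ g, Y.indicator (fun _ => (4 : ℝ)) (φ g) ∂gp (Fin n) ≤ 4 * exp (-(Γ * n)) := by
          have e2 : ∀ g, Y.indicator (fun _ => (4 : ℝ)) (φ g) = (φ ⁻¹' Y).indicator (fun _ => 4) g :=
            fun g => by by_cases h : φ g ∈ Y <;> simp [h]
          simp only [e2]
          rw [integral_indicator_const (4 : ℝ) (hφ hY), smul_eq_mul, mul_comm]
          refine mul_le_mul_of_nonneg_left ((measureReal_mono ?_ (measure_ne_top _ _)).trans hsp) (by norm_num)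
          rintro g ⟨S, hS, hg⟩
          refine ⟨S, hS, ?_⟩
          have e3 : ∑ i ∈ S, (φ g i - G) ^ 2 = G * ∑ i ∈ S, g i ^ 2 := by
            rw [mul_sum]
            exact sum_congr rfl fun i _ => by simp only [φ, add_sub_cancel_left, mul_pow, sq_sqrt hG.le]
          rw [e3] at hg
          have hU : 0 < U + 1 := lt_of_lt_of_le hG hGU
          rw [div_mul_eq_mul_div, div_lt_iff₀ hU]
          refine hg.trans_le ?_
          rw [mul_comm (∑ i ∈ S, g i ^ 2)]
          exact mul_le_mul_of_nonneg_right hGU (sum_nonneg fun i _ => sq_nonneg _)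
        linarith
    _ = _ := (ENNReal.ofReal_mul (show 0 ≤ c by positivity)).symm

/-- The transfer, on normalised ranges. -/
theorem transfer_main {β δ U : ℝ} (hβ : 0 < β) (hβ1 : β < 1) (hδ : 0 < δ) (hδ1 : δ ≤ 1 / 2) (hU : 0 ≤ U) :
    ∃ η θ σ ε γ : ℝ, 0 < η ∧ 0 < θ ∧ 0 < σ ∧ 0 < ε ∧ 0 < γ ∧ ∀ᶠ n : ℕ in atTop, ∀ u q : ℝ,
      0 ≤ u → u ≤ U → δ ≤ q → q ≤ 1 - δ →
      ((disX n).prod (gp (Fin n))).real {p | ∃ a : Fin n → ℝ, RsStats (β ^ 2) u q ε a ∧
        ∑ i, fieldRes (plantK n β p.1) (plantH u p.2) (β ^ 2) a i ^ 2 ≤ ε ^ 2 * n ∧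
        ¬ BallMargin (plantK n β p.1) (β ^ 2) η θ σ fun i => tanh (a i)} ≤ exp (-(γ * n)) := by
  set t := β ^ 2 with ht'
  have ht : 0 < t := by positivity
  have ht1 : t < 1 := pow_lt_one₀ hβ.le hβ1 two_ne_zero
  set C := (8 * U ^ 2 + 32 * U + 4 * 34 + 9 + 2 * (U + 1) ^ 2) * 4
  have hC1 : 1 ≤ C := by
    have : 0 ≤ U ^ 2 := sq_nonneg _
    have : 0 ≤ (U + 1) ^ 2 := sq_nonneg _
    linarith
  obtain ⟨L, W, hL, hW, hupper⟩ := count_upper hβ hβ1 hδ hU hC1
  obtain ⟨η0, Γm, z0, hη0, hΓm, hz0, hmarU⟩ := margin_uniform ht ht1 hδ (by linarith) hL hW.le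
  set z := min z0 (δ / 2)
  have hz : 0 < z := lt_min hz0 (by linarith)
  have hzδ : z ≤ δ / 2 := min_le_right _ _
  have hz1 : z ≤ 1 := by linarith
  obtain ⟨σm, hσm, -, hmarS⟩ := hmarU z hz (min_le_left _ _)
  obtain ⟨σw, Γw, hσw, hσwz, hΓw, hwev⟩ :=
    wgood_uniform (Cb := 8 + 2 / (t * δ / 2) ^ 2 * C) hz hz1 (by positivity)
  obtain ⟨σg, Γg, hσg, -, hΓg, hgev⟩ := wgood_uniform (z := z / (U + 1)) (Cb := 1) (by positivity)
    ((div_le_one (by linarith)).2 (by linarith)) one_pos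
  set σ1 := min σm (min σw σg)
  have hσ1 : 0 < σ1 := lt_min hσm (lt_min hσw hσg)
  have hσ1z : σ1 ≤ z := ((min_le_right _ _).trans (min_le_left _ _)).trans hσwz
  set Γ := min (min Γm Γw) (min Γg (z ^ 2 / 4)) with hΓd
  have hΓ : 0 < Γ := lt_min (lt_min hΓm hΓw) (lt_min hΓg (by positivity))
  obtain ⟨εc, hεc, hup⟩ := hupper (Γ / 12) (by positivity)
  obtain ⟨κd, γd, hκd, hγd, hdetev⟩ := det_uniform gaussTail hβ hβ1 (half_pos hδ)
    (show δ / 2 ≤ 1 by linarith) (show 0 < Γ / 12 by positivity)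
  set θv := Γ / 6 with hθvd
  have hθv : 0 < θv := by positivity
  set εx := min εc z
  have hεx : 0 < εx := lt_min hεc hz
  set K0 := 8 + 3 / (t * δ) + √C + (5 + 2 / (t * δ)) * (4 + 1 / (t * δ) + (5 + 2 / (t * δ)) + 1)
  have hK0 : 0 < K0 := by positivity
  set ρ := min (min 1 (η0 / 16)) (min (z / 2 * √(σ1 / 2)) (εx / (2 * K0)))
  have hρ : 0 < ρ := lt_min (lt_min one_pos (by positivity)) (lt_min (by positivity) (by positivity))
  set A := (1 + 1 / θv) * (12 * (4 * 34 + 36) / κd ^ 2 + 640 / κd ^ 2 + 512 / κd ^ 3) with hAd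
  have hA : 0 < A := by positivity
  set S2 := min (min 1 (εc / 2)) (min (min z (κd * ρ ^ 2 / 4)) (min (z ^ 2 / (4 * (Γ + 1))) (Γ / (12 * A))))
    with hS2d
  have hS2 : 0 < S2 := lt_min (lt_min one_pos (by positivity))
    (lt_min (lt_min hz (by positivity)) (lt_min (by positivity) (by positivity)))
  set s := √S2
  have hs : 0 < s := sqrt_pos.2 hS2
  have hss : s ^ 2 = S2 := sq_sqrt hS2.le
  set ε := min (min (εx / 2) (Γ / 12)) (min (δ / 2) √(Γ * S2 / (12 * (1 + 1 / θv)))) with hεd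
  have hε : 0 < ε := lt_min (lt_min (by positivity) (by positivity)) (lt_min (by linarith) (by positivity))
  have hε1 : ε ≤ 1 := ((min_le_right _ _).trans (min_le_left _ _)).trans (by linarith)
  obtain ⟨cn, hcn, hnev⟩ := normEvent 1 1 zero_le_one one_pos
  set γ0 := min (min cn γd) (min (Γ / 2) (2 / π ^ 2))
  have hγ0 : 0 < γ0 := lt_min (lt_min hcn hγd) (lt_min (by positivity) (by positivity))
  refine ⟨η0 / 2, z / 2, σ1 / 2, ε, γ0 / 2, by positivity, by positivity, by positivity, hε,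
    by positivity, ?_⟩
  filter_upwards [hmarS σ1 hσ1 (min_le_left _ _),
    hwev σ1 hσ1 ((min_le_right _ _).trans (min_le_left _ _)),
    hgev σ1 hσ1 ((min_le_right _ _).trans (min_le_right _ _)), hdetev, hnev, eventually_gt_atTop 0,
    eventually_small (a := 21) (half_pos hγ0) one_pos] with n hmar hwg hgg hdet hnorm hn hlarge u q hu huU hq hq1
  have hn' : (0 : ℝ) < n := by exact_mod_cast hn
  have hΓle : ∀ {Γ' : ℝ}, Γ ≤ Γ' → exp (-(Γ' * n)) ≤ exp (-(Γ * n)) := fun h =>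
    exp_le_exp.2 (neg_le_neg (mul_le_mul_of_nonneg_right h hn'.le))
  set Φ : (Dis n × (Fin n → ℝ)) × (Fin n → ℝ) → ℝ≥0∞ :=
    (testSet β u q εx C η0 z σ1 n).indicator fun p =>
      ENNReal.ofReal (exp (-((∑ i, fieldRes (plantK n β p.1.1) (plantH u p.1.2) t p.2 i ^ 2) / (2 * s ^ 2))))
  have hΦ : Measurable Φ := (measurable_fieldBump β u s n).indicator (measurable_testSet β u q εx C η0 σ1 hz n)
  have hG : 0 < u + t * q := by linarith [mul_pos ht (hδ.trans_le hq)]
  have hJ : ∫⁻ p, (∫⁻ x, Φ (p, x)) ∂(disX n).prod (gp (Fin n))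
      ≤ ENNReal.ofReal (exp (Γ / 12 * n) * √((2 * π) ^ n * (s ^ 2) ^ n)
        * exp (-(n * (t * (1 - q) ^ 2 / 2))) * (9 * exp (-(Γ * n)))) := by
    rw [lintegral_lintegral_swap (by exact hΦ.aemeasurable)]
    refine (lintegral_mono fun x => ?_).trans (count_mean (σ := σ1) hG
      (by linarith [mul_le_one₀ ht1.le (hδ.le.trans hq) (show q ≤ 1 by linarith)])
      (hgg.2.trans (hΓle ((min_le_right _ _).trans (min_le_left _ _)))))
    refine hup n hn u q s z Γ η0 z σ1 εx hu huU hq hq1 hs ?_ ?_ hz hzδ hz1 hσ1z (min_le_left _ _)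
      (min_le_right _ _) ((min_le_right _ _).trans (min_le_right _ _)) ?_ hz
      (fun qx m img h1 h2 h3 h4 h5 => (hmar qx m img h1 h2 h3 h4 h5).trans
        (hΓle ((min_le_left _ _).trans (min_le_left _ _))))
      (fun m b h1 h2 => (hwg.1 m b h1 h2).trans (hΓle ((min_le_left _ _).trans (min_le_right _ _)))) x
    · rw [hss]; linarith [(min_le_left _ _).trans (min_le_right _ _) |> fun h : S2 ≤ εc / 2 => h]
    · rw [hss]; exact (min_le_right _ _).trans ((min_le_left _ _).trans (min_le_left _ _))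
    · rw [hss]
      have h : S2 ≤ z ^ 2 / (4 * (Γ + 1)) :=
        (min_le_right _ _).trans ((min_le_right _ _).trans (min_le_left _ _))
      rw [le_div_iff₀ (by positivity)] at h ⊢
      linarith
  set LB := 1 / 2 * √((2 * π) ^ n * (s ^ 2 / (1 + θv)) ^ n)
    * exp (-(n * (t * (1 - q) ^ 2 / 2 + ε + Γ / 12))) * exp (-(n * volErr 34 κd s θv ε)) with hLB
  have hLB0 : 0 < LB := by positivity
  set E1 := {p : Dis n × (Fin n → ℝ) | ¬ ∀ v, |Ent.qform (kmat n 1 p.1) v| ≤ 3 * ∑ i, v i ^ 2}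
  set E2 := {p : Dis n × (Fin n → ℝ) | 4 * (n : ℝ) < ∑ i, p.2 i ^ 2}
  set E3 := {p : Dis n × (Fin n → ℝ) | ∃ a : Fin n → ℝ, δ / 2 ≤ (∑ j, tanh (a j) ^ 2) / (n : ℝ) ∧
    n * (t * (1 - (∑ j, tanh (a j) ^ 2) / n) ^ 2 / 2 + Γ / 12) < regDet κd (jacPsi (plantK n β p.1) t a)}
  set E4 := {p : Dis n × (Fin n → ℝ) | ENNReal.ofReal LB ≤ ∫⁻ x, Φ (p, x)}
  have hρη : 8 * ρ ≤ η0 / 2 := by
    linarith [(min_le_left _ _).trans (min_le_right _ _) |> fun h : ρ ≤ η0 / 16 => h]
  have hρσ : ρ ^ 2 ≤ σ1 / 2 * (z / 2) ^ 2 := by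
    refine (pow_le_pow_left₀ hρ.le ((min_le_right _ _).trans (min_le_left _ _)) 2).trans_eq ?_
    rw [mul_pow, sq_sqrt (by positivity)]; ring
  have hρs : 4 * (s ^ 2 / κd) ≤ ρ ^ 2 := by
    have h : S2 ≤ κd * ρ ^ 2 / 4 := (min_le_right _ _).trans ((min_le_left _ _).trans (min_le_right _ _))
    rw [hss, mul_div_assoc', div_le_iff₀ hκd]
    linarith
  have hρx : ε + K0 * ρ ≤ εx := by
    have h1 : ρ ≤ εx / (2 * K0) := (min_le_right _ _).trans (min_le_right _ _)
    have h2 : ε ≤ εx / 2 := (min_le_left _ _).trans (min_le_left _ _)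
    rw [le_div_iff₀ (by positivity)] at h1
    linarith
  have hsub : {p : Dis n × (Fin n → ℝ) | ∃ a : Fin n → ℝ, RsStats t u q ε a ∧
      ∑ i, fieldRes (plantK n β p.1) (plantH u p.2) t a i ^ 2 ≤ ε ^ 2 * n ∧
      ¬ BallMargin (plantK n β p.1) t (η0 / 2) (z / 2) (σ1 / 2) fun i => tanh (a i)}
      ⊆ E1 ∪ E2 ∪ E3 ∪ E4 := by
    rintro ⟨d, g⟩ ⟨a, hst, hres, hbad⟩
    by_contra h
    simp only [E1, E2, E3, E4, Set.mem_union, Set.mem_ofPred_eq, not_or, not_not, not_lt, not_exists,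
      not_and] at h
    obtain ⟨⟨⟨h1, h2⟩, h3⟩, h4⟩ := h
    have hlow := root_lower hn hβ hβ1 hδ hu huU hq hq1 ((min_le_right _ _).trans (min_le_left _ _)) hε1
      hε.le hκd hs hθv (half_pos hz) hρ ((min_le_left _ _).trans (min_le_left _ _)) hρs hρη hρσ
      (le_refl C) hρx h1 h2 (h3 a) hst hres hbad
    rw [mul_div_cancel₀ _ two_ne_zero, mul_div_cancel₀ _ two_ne_zero, mul_div_cancel₀ _ two_ne_zero] at hlow
    exact h4 hlow
  have hvol : volErr 34 κd s θv ε ≤ Γ / 12 + Γ / 12 := by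
    have h1 : (1 + 1 / θv) * ε ^ 2 / s ^ 2 ≤ Γ / 12 := by
      have h := pow_le_pow_left₀ hε.le ((min_le_right _ _).trans (min_le_right _ _)) 2
      rw [sq_sqrt (by positivity)] at h
      rw [hss, div_le_iff₀ hS2]
      refine (mul_le_mul_of_nonneg_left h (by positivity)).trans_eq ?_
      field_simp
    have h2 : S2 * A ≤ Γ / 12 := by
      have h : S2 ≤ Γ / (12 * A) := (min_le_right _ _).trans ((min_le_right _ _).trans (min_le_right _ _))
      rw [le_div_iff₀ (by positivity)] at h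
      linarith
    have h3 : S2 ≤ 1 := (min_le_left _ _).trans (min_le_left _ _)
    have e : volErr 34 κd s θv ε = (1 + 1 / θv) * ε ^ 2 / s ^ 2 + (1 + 1 / θv)
        * (12 * (4 * 34 + 36) / κd ^ 2 + 640 / κd ^ 2 + 512 / κd ^ 3 * s ^ 2) * s ^ 2 := by
      unfold volErr; field_simp; ring
    rw [e, hss]
    rw [hss] at h1
    refine add_le_add h1 (le_trans ?_ h2)
    rw [hAd, mul_comm S2]
    refine mul_le_mul_of_nonneg_right (mul_le_mul_of_nonneg_left ?_ (by positivity)) hS2.le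
    have := mul_le_mul_of_nonneg_left h3 (show 0 ≤ 512 / κd ^ 3 by positivity)
    linarith
  have p4 : ((disX n).prod (gp (Fin n))).real E4 ≤ 18 * exp (-(Γ / 2 * n)) := by
    have hmk := mul_meas_ge_le_lintegral (μ := (disX n).prod (gp (Fin n)))
      (Measurable.lintegral_prod_right' (ν := (volume : Measure (Fin n → ℝ))) hΦ) (ENNReal.ofReal LB)
    have h := ENNReal.toReal_mono ENNReal.ofReal_ne_top (hmk.trans hJ)
    rw [ENNReal.toReal_mul, ENNReal.toReal_ofReal hLB0.le, ENNReal.toReal_ofReal (by positivity)] at h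
    refine le_of_mul_le_mul_left (a := LB) (le_trans h ?_) hLB0
    have hsq : √((2 * π) ^ n * (s ^ 2) ^ n) ≤ exp (θv / 2 * n) * √((2 * π) ^ n * (s ^ 2 / (1 + θv)) ^ n) := by
      have e : (2 * π) ^ n * (s ^ 2) ^ n = (1 + θv) ^ n * ((2 * π) ^ n * (s ^ 2 / (1 + θv)) ^ n) := by
        rw [div_pow]; field_simp
      rw [e, sqrt_mul (by positivity)]
      refine mul_le_mul_of_nonneg_right ?_ (sqrt_nonneg _)
      rw [sqrt_le_left (exp_pos _).le, ← exp_nat_mul]
      refine (pow_le_pow_left₀ (by positivity) (add_comm 1 θv ▸ add_one_le_exp θv) n).trans_eq ?_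
      rw [← exp_nat_mul]; congr 1; push_cast; ring
    calc exp (Γ / 12 * n) * √((2 * π) ^ n * (s ^ 2) ^ n) * exp (-(n * (t * (1 - q) ^ 2 / 2)))
          * (9 * exp (-(Γ * n)))
        ≤ exp (Γ / 12 * n) * (exp (θv / 2 * n) * √((2 * π) ^ n * (s ^ 2 / (1 + θv)) ^ n))
          * exp (-(n * (t * (1 - q) ^ 2 / 2))) * (9 * exp (-(Γ * n))) := by gcongr
      _ = √((2 * π) ^ n * (s ^ 2 / (1 + θv)) ^ n) * 9
          * exp (Γ / 12 * n + θv / 2 * n + -(n * (t * (1 - q) ^ 2 / 2)) + -(Γ * n)) := by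
          simp only [exp_add]; ring
      _ ≤ √((2 * π) ^ n * (s ^ 2 / (1 + θv)) ^ n) * 9
          * exp (-(n * (t * (1 - q) ^ 2 / 2 + ε + Γ / 12)) + -(n * volErr 34 κd s θv ε) + -(Γ / 2 * n)) := by
          refine mul_le_mul_of_nonneg_left (exp_le_exp.2 ?_) (by positivity)
          have h1 : ε ≤ Γ / 12 := (min_le_left _ _).trans (min_le_right _ _)
          have h2 := mul_le_mul_of_nonneg_left (add_le_add h1 hvol) hn'.le
          rw [hθvd]
          linarith
      _ = LB * (18 * exp (-(Γ / 2 * n))) := by rw [hLB]; simp only [exp_add]; ring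
  have hmap1 : ∀ S : Set (Dis n), ((disX n).prod (gp (Fin n))).real {p | p.1 ∈ S} = (disX n).real S := fun S => by
    rw [show {p : Dis n × (Fin n → ℝ) | p.1 ∈ S} = S ×ˢ Set.univ by ext p; simp, measureReal_prod_prod]
    simp
  have hγle : ∀ {c : ℝ}, γ0 ≤ c → exp (-(c * n)) ≤ exp (-(γ0 * n)) := fun h =>
    exp_le_exp.2 (neg_le_neg (mul_le_mul_of_nonneg_right h hn'.le))
  have p1 : ((disX n).prod (gp (Fin n))).real E1 ≤ exp (-(γ0 * n)) := by
    refine (hmap1 {d | ¬ ∀ v, |Ent.qform (kmat n 1 d) v| ≤ 3 * ∑ i, v i ^ 2}).trans_le ?_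
    refine le_trans ?_ (hnorm.trans (hγle ((min_le_left _ _).trans (min_le_left _ _))))
    norm_num
  have p3 : ((disX n).prod (gp (Fin n))).real E3 ≤ exp (-(γ0 * n)) :=
    (hmap1 {d | ∃ a : Fin n → ℝ, δ / 2 ≤ (∑ j, tanh (a j) ^ 2) / (n : ℝ) ∧
      n * (t * (1 - (∑ j, tanh (a j) ^ 2) / n) ^ 2 / 2 + Γ / 12)
        < regDet κd (jacPsi (plantK n β d) t a)}).trans_le
      (hdet.trans (hγle ((min_le_left _ _).trans (min_le_right _ _))))
  have p2 : ((disX n).prod (gp (Fin n))).real E2 ≤ exp (-(γ0 * n)) := by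
    rw [show E2 = Set.univ ×ˢ {g : Fin n → ℝ | 4 * (n : ℝ) < ∑ i, g i ^ 2} by ext p; simp [E2],
      measureReal_prod_prod, probReal_univ, one_mul]
    have h := sq_tail gaussTail (v := fun _ : Fin n => (1 : ℝ)) (fun _ => zero_le_one) (fun _ => le_rfl)
      (U := 1) (by simp) zero_le_one
    refine ((measureReal_mono (fun g hg => ?_) (measure_ne_top _ _)).trans h).trans
      (le_trans (le_of_eq ?_) (hγle ((min_le_right _ _).trans (min_le_right _ _))))
    · simp only [Set.mem_ofPred_eq, sqrt_one, one_mul] at hg ⊢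
      refine lt_of_eq_of_lt ?_ (sqrt_lt_sqrt (by positivity) hg)
      rw [sqrt_mul (by norm_num : (0 : ℝ) ≤ 4), show (4 : ℝ) = 2 ^ 2 by norm_num, sqrt_sq two_pos.le]
      ring
    · congr 1; ring
  have p4' := p4.trans (mul_le_mul_of_nonneg_left (hγle ((min_le_right _ _).trans (min_le_left _ _)))
    (show (0 : ℝ) ≤ 18 by norm_num))
  refine (measureReal_mono hsub (measure_ne_top _ _)).trans ?_
  calc ((disX n).prod (gp (Fin n))).real (E1 ∪ E2 ∪ E3 ∪ E4)
      ≤ ((disX n).prod (gp (Fin n))).real E1 + ((disX n).prod (gp (Fin n))).real E2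
        + ((disX n).prod (gp (Fin n))).real E3 + ((disX n).prod (gp (Fin n))).real E4 :=
        (measureReal_union_le _ _).trans (add_le_add ((measureReal_union_le _ _).trans
          (add_le_add (measureReal_union_le _ _) le_rfl)) le_rfl)
    _ ≤ 21 * exp (-(γ0 * n)) := by linarith
    _ = 21 * exp (-(γ0 / 2 * n)) * exp (-(γ0 / 2 * n)) := by rw [mul_assoc, ← exp_add]; congr 2; ring
    _ ≤ 1 * exp (-(γ0 / 2 * n)) := mul_le_mul_of_nonneg_right hlarge.le (exp_pos _).le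
    _ = _ := one_mul _

end Vale.Agent.P150.Fast.Transfer

namespace Vale.Agent.P150.Fast

/-- **The transfer.** -/
theorem transferThm : TransferStmt := by
  intro β hβ hβ1 δ hδ U
  obtain ⟨η, θ, σ, ε, γ, h1, h2, h3, h4, h5, h⟩ :=
    Transfer.transfer_main (δ := min δ (1 / 2)) (U := max U 0) hβ hβ1 (lt_min hδ one_half_pos)
      (min_le_right _ _) (le_max_right _ _)
  refine ⟨η, θ, σ, ε, γ, h1, h2, h3, h4, h5, ?_⟩
  filter_upwards [h] with n hn u q hu huU hq hq1
  have := min_le_left δ (1 / 2)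
  exact hn u q hu (huU.trans (le_max_left _ _)) (this.trans hq) (by linarith)

end Vale.Agent.P150.Fast
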