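import Vale.Agent.P150.Fast.TransferCount
import Vale.Agent.P150.Fast.Chan
import Vale.Agent.P150.Fast.LLMarginWt

/-!
Tools of the transfer (P150): robustness of the ball margin under small moves, the number of sparse
sets, the energy of standard Gaussian vectors on sparse sets, and the law behind the reference
density.
-/

open MeasureTheory ProbabilityTheory Real Finset Matrix

namespace Vale.Agent.P150.Fast.Transfer

variable {n : ℕ}

theorem vsec_pos {θ : ℝ} (hθ : 0 < θ) {m : Fin n → ℝ} (hm : ∀ i, |m i| ≤ 1) (S : Finset (Fin n))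
    (i : Fin n) : 0 < vsec θ m S i ∧ vsec θ m S i ≤ 1 := by
  unfold vsec
  split_ifs with h
  · exact ⟨one_pos, le_rfl⟩
  · refine ⟨lt_min one_pos ?_, min_le_left _ _⟩
    have := (sq_le_one_iff_abs_le_one _).2 (hm i)
    linarith

/-- The ball margin with doubled parameters at a nearby point gives the ball margin. -/
theorem ball_robust (hn : 0 < n) {K : Matrix (Fin n) (Fin n) ℝ} {τ η θ σ ρ : ℝ} (hτ : 0 ≤ τ)
    (hτ1 : τ ≤ 1) (hθ : 0 < θ) (hρ : 0 ≤ ρ) (hρ1 : ρ ≤ 1) (hρη : 8 * ρ ≤ η) (hρσ : ρ ^ 2 ≤ σ * θ ^ 2)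
    {m m' : Fin n → ℝ} (hm : ∀ i, |m i| ≤ 1) (hm' : ∀ i, |m' i| ≤ 1)
    (hd : ∑ i, (m i - m' i) ^ 2 ≤ ρ ^ 2 * n)
    (hB : BallMargin K τ (2 * η) (2 * θ) (2 * σ) m') : BallMargin K τ η θ σ m := by
  classical
  have hn' : (0 : ℝ) < n := by exact_mod_cast hn
  intro S hS u
  set M := (univ : Finset (Fin n)).filter fun i => θ < |m i - m' i|
  have hM : (M.card : ℝ) ≤ σ * n := by
    have h1 : (M.card : ℝ) * θ ^ 2 ≤ ∑ i, (m i - m' i) ^ 2 := by
      refine le_trans ?_ (sum_le_sum_of_subset_of_nonneg (s := M) (subset_univ _) fun i _ _ => sq_nonneg _)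
      rw [← nsmul_eq_mul]
      refine card_nsmul_le_sum _ _ _ fun i hi => ?_
      rw [← sq_abs (m i - m' i)]
      exact pow_le_pow_left₀ hθ.le (mem_filter.1 hi).2.le 2
    refine le_of_mul_le_mul_right (a := θ ^ 2) ?_ (by positivity)
    calc (M.card : ℝ) * θ ^ 2 ≤ ρ ^ 2 * n := h1.trans hd
      _ ≤ σ * θ ^ 2 * n := mul_le_mul_of_nonneg_right hρσ hn'.le
      _ = σ * n * θ ^ 2 := by ring
  have hcard : ((S ∪ M).card : ℝ) ≤ 2 * σ * n := by
    refine (Nat.cast_le.2 (card_union_le S M)).trans ?_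
    push_cast
    linarith
  have h := hB (S ∪ M) hcard u
  have hv : ∀ i, vsec θ m S i ≤ vsec (2 * θ) m' (S ∪ M) i := fun i => by
    unfold vsec
    by_cases hi : i ∈ S ∪ M
    · rw [if_pos hi]
      split_ifs
      · exact le_rfl
      · exact min_le_left _ _
    · have hS' : i ∉ S := fun h => hi (mem_union_left _ h)
      have hM' : ¬ θ < |m i - m' i| := fun h => hi (mem_union_right _ (mem_filter.2 ⟨mem_univ _, h⟩))
      rw [if_neg hi, if_neg hS']
      refine min_le_min le_rfl ?_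
      have h2 : |m' i ^ 2 - m i ^ 2| ≤ 2 * θ := by
        rw [show m' i ^ 2 - m i ^ 2 = (m' i - m i) * (m' i + m i) by ring, abs_mul, abs_sub_comm]
        calc |m i - m' i| * |m' i + m i| ≤ θ * 2 := by
              refine mul_le_mul (not_lt.1 hM') ((abs_add_le _ _).trans ?_) (abs_nonneg _) hθ.le
              linarith [hm i, hm' i]
          _ = 2 * θ := mul_comm _ _
      linarith [(abs_le.1 h2).2]
  have hvs : ∑ i, u i ^ 2 / vsec (2 * θ) m' (S ∪ M) i ≤ ∑ i, u i ^ 2 / vsec θ m S i :=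
    sum_le_sum fun i _ => div_le_div_of_nonneg_left (sq_nonneg _) (vsec_pos hθ hm S i).1 (hv i)
  set P := ∑ i, u i ^ 2
  set a := ∑ i, u i * m i
  set a' := ∑ i, u i * m' i
  have hP : 0 ≤ P := sum_nonneg fun i _ => sq_nonneg _
  have hsq : ∀ f : Fin n → ℝ, (∀ i, |f i| ≤ 1) → ∑ i, f i ^ 2 ≤ n := fun f hf =>
    le_trans (sum_le_sum fun i _ => (sq_le_one_iff_abs_le_one _).2 (hf i)) (by simp)
  have hqd : (a - a') ^ 2 ≤ ρ ^ 2 * n * P := by
    have h1 : a - a' = ∑ i, u i * (m i - m' i) := by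
      rw [← sum_sub_distrib]; exact sum_congr rfl fun i _ => by ring
    rw [h1]
    refine (sum_mul_sq_le_sq_mul_sq _ _ _).trans ?_
    rw [mul_comm]
    exact mul_le_mul_of_nonneg_right hd hP
  have hqs : a' ^ 2 ≤ n * P := by
    refine (sum_mul_sq_le_sq_mul_sq _ _ _).trans ?_
    rw [mul_comm]
    exact mul_le_mul_of_nonneg_right (hsq m' hm') hP
  have h1 : |a - a'| ≤ ρ * √(n * P) := by
    have h := abs_le_sqrt hqd
    rwa [mul_assoc, sqrt_mul (sq_nonneg ρ), sqrt_sq hρ] at h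
  have h2 : |a + a'| ≤ 3 * √(n * P) := by
    have h3 := abs_le_sqrt hqs
    have h4 : ρ * √(n * P) ≤ √(n * P) := mul_le_of_le_one_left (sqrt_nonneg _) hρ1
    calc |a + a'| = |(a - a') + 2 * a'| := by ring_nf
      _ ≤ |a - a'| + |2 * a'| := abs_add_le _ _
      _ ≤ 3 * √(n * P) := by rw [abs_mul, abs_two]; linarith
  have hua : a ^ 2 - a' ^ 2 ≤ 3 * ρ * (n * P) := by
    calc a ^ 2 - a' ^ 2 = (a - a') * (a + a') := by ring
      _ ≤ |a - a'| * |a + a'| := (le_abs_self _).trans_eq (abs_mul _ _)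
      _ ≤ ρ * √(n * P) * (3 * √(n * P)) := mul_le_mul h1 h2 (abs_nonneg _) (by positivity)
      _ = _ := by linear_combination 3 * ρ * mul_self_sqrt (show 0 ≤ (n : ℝ) * P by positivity)
  have hqq : ∑ j, m j ^ 2 - ∑ j, m' j ^ 2 ≤ 2 * ρ * n := by
    have e : ∑ j, m j ^ 2 - ∑ j, m' j ^ 2 = ∑ j, (m j - m' j) * (m j + m' j) := by
      rw [← sum_sub_distrib]; exact sum_congr rfl fun j _ => by ring
    have h4 : ∑ j, (m j + m' j) ^ 2 ≤ 4 * n := by
      calc ∑ j, (m j + m' j) ^ 2 ≤ ∑ _j : Fin n, (4 : ℝ) := sum_le_sum fun j _ => by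
            rw [← sq_abs]
            calc |m j + m' j| ^ 2 ≤ 2 ^ 2 := pow_le_pow_left₀ (abs_nonneg _)
                  ((abs_add_le _ _).trans (by linarith [hm j, hm' j])) 2
              _ = 4 := by norm_num
        _ = 4 * n := by simp; ring
    rw [e]
    refine le_of_abs_le (abs_le_of_sq_le_sq ?_ (by positivity))
    refine (sum_mul_sq_le_sq_mul_sq _ _ _).trans ((mul_le_mul hd h4 (sum_nonneg fun j _ => sq_nonneg _)
      (by positivity)).trans_eq ?_)
    ring
  set P1 := ∑ i, u i ^ 2 / vsec θ m S i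
  have e1 : 2 * τ / n * a ^ 2 ≤ 2 * τ / n * a' ^ 2 + 6 * ρ * P := by
    have := mul_le_mul_of_nonneg_left hua (show 0 ≤ 2 * τ / n by positivity)
    have e : 2 * τ / n * (3 * ρ * (n * P)) = τ * (6 * ρ * P) := by field_simp; ring
    have e' : τ * (6 * ρ * P) ≤ 6 * ρ * P := mul_le_of_le_one_left (by positivity) hτ1
    linarith
  have e2 : τ * (1 - (∑ j, m' j ^ 2) / n) * P ≤ τ * (1 - (∑ j, m j ^ 2) / n) * P + 2 * ρ * P := by
    have h5 : (∑ j, m j ^ 2) / n - (∑ j, m' j ^ 2) / n ≤ 2 * ρ := by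
      rw [← sub_div, div_le_iff₀ hn']; linarith
    have h6 := mul_le_mul_of_nonneg_left h5 hτ
    have h7 : τ * (2 * ρ) ≤ 2 * ρ := mul_le_of_le_one_left (by positivity) hτ1
    have := mul_le_mul_of_nonneg_right (h6.trans h7) hP
    linarith
  have e3 : 8 * ρ * P ≤ η * P := mul_le_mul_of_nonneg_right hρη hP
  linarith

/-- The number of sparse sets. -/
theorem card_sparse {r σ : ℝ} (hr : 0 < r) (hr1 : r ≤ 1) :
    (((univ : Finset (Finset (Fin n))).filter fun S => (S.card : ℝ) ≤ σ * n).card : ℝ)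
      ≤ exp ((r + σ * -log r) * n) := by
  set F := (univ : Finset (Finset (Fin n))).filter fun S => (S.card : ℝ) ≤ σ * n
  have h1 : (F.card : ℝ) * exp (σ * n * log r) ≤ exp (r * n) := by
    calc (F.card : ℝ) * exp (σ * n * log r) ≤ ∑ S ∈ F, r ^ S.card := by
          rw [← nsmul_eq_mul]
          refine card_nsmul_le_sum _ _ _ fun S hS => ?_
          calc exp (σ * n * log r) ≤ exp ((S.card : ℝ) * log r) :=
                exp_le_exp.2 (mul_le_mul_of_nonpos_right (mem_filter.1 hS).2 (log_nonpos hr.le hr1))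
            _ = r ^ S.card := by rw [exp_nat_mul, exp_log hr]
      _ ≤ ∑ S : Finset (Fin n), r ^ S.card :=
          sum_le_sum_of_subset_of_nonneg (subset_univ _) fun S _ _ => by positivity
      _ = (r + 1) ^ n := by rw [Fin.sum_pow_mul_eq_add_pow r 1 |>.symm]; simp
      _ ≤ exp (r * n) := by
          rw [mul_comm, exp_nat_mul]
          exact pow_le_pow_left₀ (by linarith) (add_one_le_exp r) n
  refine le_of_mul_le_mul_right (h1.trans (le_of_eq ?_)) (exp_pos (σ * n * log r))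
  rw [← exp_add]
  congr 1
  ring

/-- Standard Gaussian vectors carry little energy on sparse sets. -/
theorem sparse_energy {r σ e : ℝ} (hn : 0 < n) (hr : 0 < r) (hr1 : r ≤ 1) (hσ : 0 < σ) (hσe : σ ≤ e) :
    (gp (Fin n)).real {g | ∃ S : Finset (Fin n), (S.card : ℝ) ≤ σ * n ∧ e * n < ∑ i ∈ S, g i ^ 2}
      ≤ exp ((r + σ * -log r - (√e - √σ) ^ 2 / π ^ 2) * n) := by
  classical
  have hn' : (0 : ℝ) < n := by exact_mod_cast hn
  set F := (univ : Finset (Finset (Fin n))).filter fun S => (S.card : ℝ) ≤ σ * n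
  set u := (√e - √σ) * √(n : ℝ)
  have hu : 0 ≤ u := mul_nonneg (sub_nonneg.2 (sqrt_le_sqrt hσe)) (sqrt_nonneg _)
  have hsub : {g : Fin n → ℝ | ∃ S : Finset (Fin n), (S.card : ℝ) ≤ σ * n ∧ e * n < ∑ i ∈ S, g i ^ 2}
      ⊆ ⋃ S ∈ F, {g | √(σ * n) + u ≤ √(∑ i, (if i ∈ S then 1 else 0 : ℝ) * g i ^ 2)} := by
    rintro g ⟨S, hS, hg⟩
    refine Set.mem_iUnion₂.2 ⟨S, mem_filter.2 ⟨mem_univ _, hS⟩, ?_⟩
    simp only [Set.mem_ofPred_eq, ite_mul, one_mul, zero_mul, sum_ite_mem, univ_inter]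
    refine le_trans (le_of_eq ?_) (sqrt_le_sqrt hg.le)
    rw [sqrt_mul hσ.le, sqrt_mul (hσ.le.trans hσe)]
    ring
  refine (measureReal_mono hsub (measure_ne_top _ _)).trans ((measureReal_biUnion_finset_le _ _).trans ?_)
  refine (sum_le_card_nsmul _ _ (exp (-(u ^ 2 / π ^ 2))) fun S hS => ?_).trans ?_
  · refine LL.wnorm_tail _ (fun i => ?_) (sqrt_pos.2 (mul_pos hσ hn')) hu ?_
    · split_ifs <;> norm_num
    · rw [sq_sqrt (by positivity)]
      simpa using (mem_filter.1 hS).2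
  · rw [nsmul_eq_mul]
    refine (mul_le_mul_of_nonneg_right (card_sparse hr hr1) (exp_pos _).le).trans (le_of_eq ?_)
    rw [← exp_add]
    congr 1
    simp only [u, mul_pow, sq_sqrt hn'.le]
    ring

/-- The reference density is the law of `G + √G g`. -/
theorem refDens_integral {G : ℝ} (hG : 0 < G) (F : (Fin n → ℝ) → ℝ) :
    (∫ x, refDens G x * F x = ∫ g, F (fun i => G + √G * g i) ∂gp (Fin n)) ∧
      (Integrable (fun x => refDens G x * F x) ↔
        Integrable (fun g => F (fun i => G + √G * g i)) (gp (Fin n))) := by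
  set B : Matrix (Fin n) (Fin n) ℝ := √G • (1 : Matrix (Fin n) (Fin n) ℝ)
  have hB : B * B.transpose = G • (1 : Matrix (Fin n) (Fin n) ℝ) := by
    simp only [B, transpose_smul, transpose_one, Matrix.smul_mul, Matrix.mul_smul, Matrix.one_mul,
      smul_smul, mul_self_sqrt hG.le]
  have hd : B.det ≠ 0 := by
    simp only [B, Matrix.det_smul, Matrix.det_one, mul_one]
    exact pow_ne_zero _ (sqrt_pos.2 hG).ne'
  have hdens : ∀ x, refDens G x = chanV (G • (1 : Matrix (Fin n) (Fin n) ℝ)) (fun _ => G) x := fun x => by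
    have hinv : (G • (1 : Matrix (Fin n) (Fin n) ℝ))⁻¹ = G⁻¹ • (1 : Matrix (Fin n) (Fin n) ℝ) := by
      refine Matrix.inv_eq_right_inv ?_
      rw [Matrix.smul_mul, Matrix.mul_smul, Matrix.one_mul, smul_smul, mul_inv_cancel₀ hG.ne', one_smul]
    simp only [refDens, gaussianPDFReal, Real.coe_toNNReal _ hG.le, prod_mul_distrib, prod_const,
      card_univ, Fintype.card_fin, ← exp_sum, chanV, hinv, smul_mulVec, one_mulVec, dotProduct_smul,
      smul_eq_mul, Matrix.det_smul, Matrix.det_one, mul_one, inv_pow]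
    rw [← mul_pow (2 * π), show √((2 * π * G) ^ n) = √(2 * π * G) ^ n by
      rw [← sqrt_sq (show (0 : ℝ) ≤ √(2 * π * G) ^ n by positivity), ← pow_mul, mul_comm n 2, pow_mul,
        sq_sqrt (by positivity)], inv_mul_eq_div]
    congr 2
    simp only [dotProduct, Pi.sub_apply, neg_div, sum_neg_distrib, mul_sum, sum_div]
    congr 1
    exact sum_congr rfl fun i _ => by field_simp
  have e : ∀ g : Fin n → ℝ, (fun _ => G) + B *ᵥ g = fun i => G + √G * g i := fun g => by
    funext i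
    simp [B, smul_mulVec]
  have h := chan_integral hB hd (fun _ => G) F
  simp only [e, ← hdens] at h
  exact h

end Vale.Agent.P150.Fast.Transfer
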