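import Vale.Agent.P150.Fast.TransferGood
import Vale.Agent.P150.Fast.TransferVol

/-!
The bump of the residual at fixed fields, integrated over the disorder (P150): outside an event of
small probability the image of the configuration is typical, and then the compressed coupling gives
the margin, so configurations without margin carry an exponentially small part of the mass.
-/

open MeasureTheory ProbabilityTheory Real Finset Matrix
open scoped ENNReal

namespace Vale.Agent.P150.Fast.Transfer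

variable {n : ℕ}

/-- The bump of the deviation of `v` from `r`. -/
noncomputable def bumpAt (s : ℝ) (r v : Fin n → ℝ) : ℝ≥0∞ :=
  ENNReal.ofReal (exp (-((∑ i, (r i - v i) ^ 2) / (2 * s ^ 2))))

/-- The mass of the bump at fixed fields. -/
noncomputable def countTot (t u s : ℝ) (x : Fin n → ℝ) : ℝ :=
  (s / √(u + t * ((∑ j, tanh (x j) ^ 2) / (n : ℝ)) + s ^ 2)) ^ n * exp (countExp t u s x)

/-- The compressed coupling `p.2` breaks the margin at the image `p.1`. -/
def pinchBad (t q η θ σ : ℝ) (m : Fin n → ℝ) : Set ((Fin n → ℝ) × Dis n) :=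
  {p | ∃ S : Finset (Fin n), (S.card : ℝ) ≤ σ * n ∧ ∃ u,
    margForm t q η m (vsec θ m S) (fun i => p.1 i - t * (1 - q) * m i) u
      < Ent.qform (kmat n √t p.2) u}

theorem fieldRes_plant (β u : ℝ) (d : Dis n) (g x : Fin n → ℝ) (i : Fin n) :
    fieldRes (plantK n β d) (plantH u g) (β ^ 2) x i
      = resMean (β ^ 2) u x i - ((kmat n β d *ᵥ fun j => tanh (x j)) i + √u * g i) := by
  simp only [fieldRes, resMean, plantK, plantH, Matrix.add_apply, Matrix.smul_apply, vecMulVec_apply,
    smul_eq_mul, mul_one, add_mul, sum_add_distrib, ← mul_sum, Matrix.mulVec, dotProduct]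
  ring

theorem cont_entry (β : ℝ) (a b : Fin n) : Continuous fun d : Dis n => kmat n β d a b := by
  simp only [kmat]
  split_ifs <;> fun_prop

theorem cont_qform (β : ℝ) (u : Fin n → ℝ) : Continuous fun d : Dis n => Ent.qform (kmat n β d) u :=
  continuous_finsetSum _ fun a _ => continuous_finsetSum _ fun b _ =>
    (continuous_const.mul (cont_entry β a b)).mul continuous_const

theorem cont_mulVec (β : ℝ) (m : Fin n → ℝ) : Continuous fun d : Dis n => kmat n β d *ᵥ m := by
  refine continuous_pi fun i => ?_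
  simp only [Matrix.mulVec, dotProduct]
  exact continuous_finsetSum _ fun j _ => (cont_entry β i j).mul continuous_const

theorem measurable_pinch (m : Fin n → ℝ) : Measurable (pinch m : Dis n → Dis n) := by
  refine Continuous.measurable (continuous_pi fun k => ?_)
  have hM : ∀ i j, Continuous fun d : Dis n => (offMat m * goe n d * offMat m) i j := fun i j => by
    simp only [Matrix.mul_apply]
    refine continuous_finsetSum _ fun l _ => (continuous_finsetSum _ fun l' _ => ?_).mul continuous_const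
    refine continuous_const.mul ?_
    simp only [goe]
    split_ifs <;> fun_prop
  cases k with
  | inl p => exact hM _ _
  | inr i => exact (hM i i).div_const _

theorem isOpen_pinchBad (t q η θ σ : ℝ) (m : Fin n → ℝ) : IsOpen (pinchBad t q η θ σ m) := by
  simp only [pinchBad, Set.ofPred_exists, Set.ofPred_and]
  refine isOpen_iUnion fun S => isOpen_const.inter (isOpen_iUnion fun u => isOpen_lt ?_ ?_)
  · unfold margForm rankForm
    fun_prop
  · exact (cont_qform _ u).comp continuous_snd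

theorem isClosed_imgOK (t q κ W Sb a e3 σ : ℝ) (m : Fin n → ℝ) :
    IsClosed {img | ImgOK t q κ W Sb a e3 σ m img} := by
  simp only [ImgOK, specImg, Set.ofPred_and, Set.ofPred_forall]
  refine (isClosed_le (by fun_prop) continuous_const).inter ((isClosed_le (by fun_prop) continuous_const).inter
    ((isClosed_le (by fun_prop) continuous_const).inter ((isClosed_le (by fun_prop) continuous_const).inter
      (isClosed_iInter fun S => isClosed_iInter fun _ => isClosed_le (by fun_prop) continuous_const))))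

theorem isClosed_wGood (z σ : ℝ) (m b : Fin n → ℝ) : IsClosed {w | WGood z σ m b w} := by
  simp only [WGood, Set.ofPred_and, Set.ofPred_forall]
  refine (isClosed_le (by fun_prop) continuous_const).inter ((isClosed_le (by fun_prop) continuous_const).inter
    ((isClosed_le (by fun_prop) continuous_const).inter ((isClosed_le (by fun_prop) continuous_const).inter
      ((isClosed_le (by fun_prop) continuous_const).inter
        (isClosed_iInter fun S => isClosed_iInter fun _ => isClosed_le (by fun_prop) continuous_const)))))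

/-- The configurations with the margin form a closed set. -/
theorem isClosed_ball (β τ η σ : ℝ) {θ : ℝ} (hθ : 0 < θ) :
    IsClosed {p : Dis n × (Fin n → ℝ) |
      BallMargin (plantK n β p.1) τ η θ σ fun i => tanh (p.2 i)} := by
  simp only [BallMargin, Set.ofPred_forall]
  refine isClosed_iInter fun S => isClosed_iInter fun _ => isClosed_iInter fun u => isClosed_le ?_ ?_
  · have h1 : Continuous fun p : Dis n × (Fin n → ℝ) => Ent.qform (plantK n β p.1) u :=
      continuous_finsetSum _ fun a _ => continuous_finsetSum _ fun b _ => by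
        simp only [plantK, Matrix.add_apply, Matrix.smul_apply, vecMulVec_apply]
        exact (continuous_const.mul (((cont_entry β a b).comp continuous_fst).add continuous_const)).mul
          continuous_const
    have h2 : ∀ i, Continuous fun p : Dis n × (Fin n → ℝ) => tanh (p.2 i) := fun i =>
      continuous_tanh_field.comp ((continuous_apply i).comp continuous_snd)
    fun_prop
  · have h2 : ∀ i, Continuous fun p : Dis n × (Fin n → ℝ) => tanh (p.2 i) := fun i =>
      continuous_tanh_field.comp ((continuous_apply i).comp continuous_snd)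
    refine (continuous_finsetSum _ fun i _ => continuous_const.div ?_ fun p => ?_).add (by fun_prop)
    · simp only [vsec]
      split_ifs <;> fun_prop
    · exact (vsec_pos hθ (fun j => (abs_tanh_lt_one (p.2 j)).le) S i).1.ne'

/-- The mass of the bump of the sum over a product set of noise and direction. -/
theorem sum_total {σ u s : ℝ} (hσ : 0 < σ) (hu : 0 ≤ u) (hs : 0 < s) {m : Fin n → ℝ}
    (hm : 0 < ∑ j, m j ^ 2) (r : Fin n → ℝ) {B : Set (Fin n → ℝ)} (hB : MeasurableSet B) {A : Set ℝ}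
    (hA : MeasurableSet A) :
    ∫⁻ q, bumpAt s r (sumOf σ u m q.1 q.2.2)
        * (B.indicator (fun _ => 1) q.2.1 * A.indicator (fun _ => 1) q.2.2)
        ∂(gp (Fin n)).prod ((gp (Fin n)).prod (gaussianReal 0 1))
      = gp (Fin n) B * ENNReal.ofReal ((s / √(σ ^ 2 + u + s ^ 2)) ^ n
          * ∫ ξ, A.indicator (fun ξ => exp (-((∑ i, r i ^ 2
              - 2 * σ * ξ * ((∑ i, m i * r i) / √(∑ j, m j ^ 2)) + σ ^ 2 * ξ ^ 2)
                / (2 * (σ ^ 2 + u + s ^ 2))))) ξ ∂gaussianReal 0 1) := by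
  set N := ∑ j, m j ^ 2 with hN
  set G := σ ^ 2 + u
  have hG : 0 < G := by positivity
  set c := (s / √(G + s ^ 2)) ^ n
  set H : ℝ → ℝ := fun ξ => exp (-((∑ i, r i ^ 2 - 2 * σ * ξ * ((∑ i, m i * r i) / √N) + σ ^ 2 * ξ ^ 2)
    / (2 * (G + s ^ 2))))
  have hZ : ∀ ξ, ∫⁻ Z, bumpAt s r (sumOf σ u m Z ξ) ∂gp (Fin n) = ENNReal.ofReal (c * H ξ) := fun ξ => by
    obtain ⟨hi, he⟩ := bump_vec hs hG (fun i => r i - σ / √N * ξ * m i)
    have e : ∀ Z, bumpAt s r (sumOf σ u m Z ξ)
        = ENNReal.ofReal (exp (-((∑ i, (r i - σ / √N * ξ * m i - √G * Z i) ^ 2) / (2 * s ^ 2)))) := fun Z => by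
      unfold bumpAt sumOf
      congr 4
      exact sum_congr rfl fun i _ => by simp only [G, ← hN]; ring
    simp only [e]
    rw [← ofReal_integral_eq_lintegral_ofReal hi (ae_of_all _ fun Z => (exp_pos _).le), he]
    congr 4
    have e2 : ∑ i, (r i - σ / √N * ξ * m i) ^ 2
        = ∑ i, r i ^ 2 - 2 * σ * ξ * ((∑ i, m i * r i) / √N) + (σ / √N * ξ) ^ 2 * N := by
      rw [hN, mul_sum, sum_div, mul_sum, ← sum_sub_distrib, ← sum_add_distrib]
      exact sum_congr rfl fun i _ => by ring
    rw [e2, show (σ / √N * ξ) ^ 2 * N = σ ^ 2 * ξ ^ 2 by rw [mul_pow, div_pow, sq_sqrt hm.le]; field_simp]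
  have hmA : Measurable fun ξ => A.indicator (fun _ => (1 : ℝ≥0∞)) ξ := measurable_const.indicator hA
  have hmB : Measurable fun w => B.indicator (fun _ => (1 : ℝ≥0∞)) w := measurable_const.indicator hB
  have hmH : Measurable H := by fun_prop
  have hmS : Measurable fun q : (Fin n → ℝ) × (Fin n → ℝ) × ℝ => bumpAt s r (sumOf σ u m q.1 q.2.2) := by
    unfold bumpAt sumOf; fun_prop
  rw [lintegral_prod_symm _ (by fun_prop)]
  simp only
  have e1 : ∀ y : (Fin n → ℝ) × ℝ, ∫⁻ Z, bumpAt s r (sumOf σ u m Z y.2)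
      * (B.indicator (fun _ => 1) y.1 * A.indicator (fun _ => 1) y.2) ∂gp (Fin n)
      = B.indicator (fun _ => 1) y.1 * (A.indicator (fun _ => 1) y.2 * ENNReal.ofReal (c * H y.2)) :=
    fun y => by
      rw [lintegral_mul_const _ (by unfold bumpAt sumOf; fun_prop), hZ]
      ring
  simp only [e1]
  rw [lintegral_prod_mul (f := fun w => B.indicator (fun _ => (1 : ℝ≥0∞)) w)
    (g := fun ξ => A.indicator (fun _ => (1 : ℝ≥0∞)) ξ * ENNReal.ofReal (c * H ξ))
    hmB.aemeasurable (by fun_prop)]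
  congr 1
  · exact (lintegral_indicator_const hB 1).trans (one_mul _)
  · have e3 : ∀ ξ, A.indicator (fun _ => (1 : ℝ≥0∞)) ξ * ENNReal.ofReal (c * H ξ)
        = ENNReal.ofReal (c * A.indicator H ξ) := fun ξ => by
      by_cases h : ξ ∈ A <;> simp [h]
    have hc : 0 ≤ c := by positivity
    have hint : Integrable (fun ξ => c * A.indicator H ξ) (gaussianReal 0 1) := by
      refine (integrable_const c).mono' ((hmH.indicator hA).const_mul c).aestronglyMeasurable
        (ae_of_all _ fun ξ => ?_)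
      have h0 : 0 ≤ A.indicator H ξ := Set.indicator_nonneg (fun _ _ => (exp_pos _).le) ξ
      rw [norm_of_nonneg (mul_nonneg hc h0)]
      refine mul_le_of_le_one_right hc (Set.indicator_le' (fun y _ => ?_) (fun _ _ => zero_le_one) ξ)
      refine exp_le_one_iff.2 (neg_nonpos.2 (div_nonneg ?_ (by positivity)))
      have e2 : ∑ i, (r i - σ / √N * y * m i) ^ 2
          = ∑ i, r i ^ 2 - 2 * σ * y * ((∑ i, m i * r i) / √N) + (σ / √N * y) ^ 2 * N := by
        rw [hN, mul_sum, sum_div, mul_sum, ← sum_sub_distrib, ← sum_add_distrib]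
        exact sum_congr rfl fun i _ => by ring
      rw [show σ ^ 2 * y ^ 2 = (σ / √N * y) ^ 2 * N by rw [mul_pow, div_pow, sq_sqrt hm.le]; field_simp, ← e2]
      exact sum_nonneg fun i _ => sq_nonneg _
    simp only [e3]
    rw [← ofReal_integral_eq_lintegral_ofReal hint (ae_of_all _ fun ξ =>
      mul_nonneg hc (Set.indicator_nonneg (fun _ _ => (exp_pos _).le) ξ)), integral_const_mul]

theorem measurable_bumpAt (s : ℝ) (r : Fin n → ℝ) : Measurable fun v => bumpAt s r v := by
  unfold bumpAt; fun_prop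

theorem measurable_image (β u : ℝ) (m : Fin n → ℝ) :
    Measurable fun p : Dis n × (Fin n → ℝ) => fun i => (kmat n β p.1 *ᵥ m) i + √u * p.2 i :=
  (continuous_pi fun i => (((continuous_apply i).comp ((cont_mulVec β m).comp continuous_fst))).add
    (continuous_const.mul ((continuous_apply i).comp continuous_snd))).measurable

/-- On the event of typical images the compressed coupling is independent of the bump. -/
theorem pinch_part {β u pm : ℝ} {m : Fin n → ℝ} (hm : ∑ j, m j ^ 2 ≠ 0)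
    {F : (Fin n → ℝ) → ℝ≥0∞} (hF : Measurable F) {E : Set ((Fin n → ℝ) × Dis n)} (hE : MeasurableSet E)
    {O : Set (Fin n → ℝ)} (hO : MeasurableSet O)
    (hmar : ∀ W ∈ O, (disX n).real {d | (W, pinch m d) ∈ E} ≤ pm) :
    ∫⁻ p, F (fun i => (kmat n β p.1 *ᵥ m) i + √u * p.2 i)
        * (E ∩ O ×ˢ Set.univ).indicator (fun _ => 1) (kmat n β p.1 *ᵥ m, pinch m p.1)
        ∂(disX n).prod (gp (Fin n))
      ≤ ENNReal.ofReal pm
        * ∫⁻ p, F (fun i => (kmat n β p.1 *ᵥ m) i + √u * p.2 i) ∂(disX n).prod (gp (Fin n)) := by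
  classical
  set A := E ∩ O ×ˢ (Set.univ : Set (Dis n))
  have mK : Measurable fun d : Dis n => kmat n β d *ᵥ m := (cont_mulVec β m).measurable
  have mP := measurable_pinch m
  have hmA : Measurable fun z => A.indicator (fun _ => (1 : ℝ≥0∞)) z :=
    measurable_const.indicator (hE.inter (hO.prod MeasurableSet.univ))
  have hm1 : Measurable fun p : Dis n × (Fin n → ℝ) => F fun i => (kmat n β p.1 *ᵥ m) i + √u * p.2 i :=
    hF.comp (measurable_image β u m)
  have hm2 : Measurable fun p : Dis n × (Fin n → ℝ) => F (fun i => (kmat n β p.1 *ᵥ m) i + √u * p.2 i)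
      * A.indicator (fun _ => 1) (kmat n β p.1 *ᵥ m, pinch m p.1) :=
    hm1.mul (hmA.comp ((mK.comp measurable_fst).prodMk (mP.comp measurable_fst)))
  rw [lintegral_prod_symm _ hm2.aemeasurable, lintegral_prod_symm _ hm1.aemeasurable,
    ← lintegral_const_mul' _ _ ENNReal.ofReal_ne_top]
  refine lintegral_mono fun g => ?_
  have hmg : Measurable fun W : Fin n → ℝ => F fun i => W i + √u * g i :=
    hF.comp (continuous_pi fun i => (continuous_apply i).add continuous_const).measurable
  have hψ : Measurable fun z : (Fin n → ℝ) × Dis n => F (fun i => z.1 i + √u * g i)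
      * A.indicator (fun _ => 1) z := (hmg.comp measurable_fst).mul hmA
  calc ∫⁻ d, F (fun i => (kmat n β d *ᵥ m) i + √u * g i)
        * A.indicator (fun _ => 1) (kmat n β d *ᵥ m, pinch m d) ∂disX n
      = ∫⁻ z, F (fun i => z.1 i + √u * g i) * A.indicator (fun _ => 1) z
          ∂(disX n).map fun d => (kmat n β d *ᵥ m, pinch m d) := (lintegral_map hψ (mK.prodMk mP)).symm
    _ ≤ ∫⁻ W, ENNReal.ofReal pm * F (fun i => W i + √u * g i) ∂(disX n).map fun d => kmat n β d *ᵥ m := by
        rw [image_pinch_law β hm mK mP, lintegral_prod _ hψ.aemeasurable]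
        refine lintegral_mono fun W => ?_
        simp only
        have hmW' : Measurable fun P : Dis n => A.indicator (fun _ => (1 : ℝ≥0∞)) (W, P) :=
          hmA.comp measurable_prodMk_left
        rw [lintegral_const_mul _ hmW', mul_comm]
        refine mul_le_mul_left ?_ _
        by_cases ho : W ∈ O
        · have e : ∀ P, A.indicator (fun _ => (1 : ℝ≥0∞)) (W, P)
              = {P | (W, P) ∈ E}.indicator (fun _ => 1) P := fun P => by
            by_cases h : (W, P) ∈ E <;> simp [A, h, ho]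
          simp only [e]
          have hmW : MeasurableSet {P | (W, P) ∈ E} := measurable_prodMk_left hE
          rw [lintegral_indicator_const hmW, one_mul, Measure.map_apply mP hmW]
          refine le_trans (le_of_eq (ofReal_measureReal (measure_ne_top _ _)).symm) ?_
          exact ENNReal.ofReal_le_ofReal (hmar W ho)
        · simp [A, ho]
    _ = _ := by
        rw [lintegral_const_mul _ hmg, lintegral_map hmg mK]

/-- Far from the sum the bump is small. -/
theorem bump_far {s z : ℝ} {r v : Fin n → ℝ} (hs : 0 < s) (hfar : z ^ 2 * n < ∑ i, (r i - v i) ^ 2) :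
    bumpAt s r v ≤ ENNReal.ofReal (exp (-(z ^ 2 * n / (4 * s ^ 2)))) * bumpAt (√2 * s) r v := by
  unfold bumpAt
  rw [← ENNReal.ofReal_mul (exp_pos _).le, ← exp_add]
  refine ENNReal.ofReal_le_ofReal (exp_le_exp.2 ?_)
  rw [mul_pow, sq_sqrt zero_le_two]
  have e : (∑ i, (r i - v i) ^ 2) / (2 * s ^ 2) = (∑ i, (r i - v i) ^ 2) / (4 * s ^ 2)
      + (∑ i, (r i - v i) ^ 2) / (2 * (2 * s ^ 2)) := by field_simp; ring
  rw [e]
  have := div_le_div_of_nonneg_right hfar.le (show (0 : ℝ) ≤ 4 * s ^ 2 by positivity)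
  linarith

/-- The part of the bump outside the typical images. -/
theorem atypical_part {σ u s z : ℝ} (hs : 0 < s) {m r : Fin n → ℝ} {O B : Set (Fin n → ℝ)}
    {c : ℝ}
    (himg : ∀ (Z w : Fin n → ℝ) (ξ : ℝ), w ∈ B → ∑ i, (r i - sumOf σ u m Z ξ i) ^ 2 ≤ z ^ 2 * n →
      |ξ - c| ≤ z * √n → imgOf σ u m Z w ξ ∈ O) :
    ∫⁻ q, bumpAt s r (sumOf σ u m q.1 q.2.2) * Oᶜ.indicator (fun _ => 1) (imgOf σ u m q.1 q.2.1 q.2.2)
        ∂(gp (Fin n)).prod ((gp (Fin n)).prod (gaussianReal 0 1))
      ≤ ENNReal.ofReal (exp (-(z ^ 2 * n / (4 * s ^ 2))))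
          * ∫⁻ q, bumpAt (√2 * s) r (sumOf σ u m q.1 q.2.2)
              * (Set.univ : Set (Fin n → ℝ)).indicator (fun _ => 1) q.2.1
              ∂(gp (Fin n)).prod ((gp (Fin n)).prod (gaussianReal 0 1))
        + (∫⁻ q, bumpAt s r (sumOf σ u m q.1 q.2.2)
              * ((Set.univ : Set (Fin n → ℝ)).indicator (fun _ => 1) q.2.1
                * {ξ : ℝ | z * √n ≤ |ξ - c|}.indicator (fun _ => 1) q.2.2)
              ∂(gp (Fin n)).prod ((gp (Fin n)).prod (gaussianReal 0 1))
          + ∫⁻ q, bumpAt s r (sumOf σ u m q.1 q.2.2) * Bᶜ.indicator (fun _ => 1) q.2.1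
              ∂(gp (Fin n)).prod ((gp (Fin n)).prod (gaussianReal 0 1))) := by
  classical
  set A := {ξ : ℝ | z * √n ≤ |ξ - c|}
  have hA : MeasurableSet A := (isClosed_le continuous_const (by fun_prop)).measurableSet
  have m0 : ∀ s, Measurable fun q : (Fin n → ℝ) × (Fin n → ℝ) × ℝ => bumpAt s r (sumOf σ u m q.1 q.2.2) :=
    fun s => (measurable_bumpAt s r).comp (by unfold sumOf; fun_prop)
  have m2 : ∀ (B : Set (Fin n → ℝ)), MeasurableSet B →
      Measurable fun q : (Fin n → ℝ) × (Fin n → ℝ) × ℝ => B.indicator (fun _ => (1 : ℝ≥0∞)) q.2.1 :=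
    fun B hB => (measurable_const.indicator hB).comp (measurable_fst.comp measurable_snd)
  have m3 : Measurable fun q : (Fin n → ℝ) × (Fin n → ℝ) × ℝ => A.indicator (fun _ => (1 : ℝ≥0∞)) q.2.2 :=
    (measurable_const.indicator hA).comp (measurable_snd.comp measurable_snd)
  have hle : ∀ q : (Fin n → ℝ) × (Fin n → ℝ) × ℝ,
      bumpAt s r (sumOf σ u m q.1 q.2.2) * Oᶜ.indicator (fun _ => 1) (imgOf σ u m q.1 q.2.1 q.2.2)
        ≤ ENNReal.ofReal (exp (-(z ^ 2 * n / (4 * s ^ 2)))) * (bumpAt (√2 * s) r (sumOf σ u m q.1 q.2.2)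
              * (Set.univ : Set (Fin n → ℝ)).indicator (fun _ => 1) q.2.1)
          + (bumpAt s r (sumOf σ u m q.1 q.2.2)
              * ((Set.univ : Set (Fin n → ℝ)).indicator (fun _ => 1) q.2.1 * A.indicator (fun _ => 1) q.2.2)
            + bumpAt s r (sumOf σ u m q.1 q.2.2) * Bᶜ.indicator (fun _ => 1) q.2.1) := fun q => by
    by_cases ho : imgOf σ u m q.1 q.2.1 q.2.2 ∈ O
    · simp [ho]
    rw [Set.indicator_of_mem (show imgOf σ u m q.1 q.2.1 q.2.2 ∈ Oᶜ from ho), mul_one]
    by_cases hfar : z ^ 2 * n < ∑ i, (r i - sumOf σ u m q.1 q.2.2 i) ^ 2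
    · refine le_add_right ?_
      simpa using bump_far hs hfar
    refine le_add_left ?_
    by_cases hξ : q.2.2 ∈ A
    · refine le_add_right ?_
      simp [hξ]
    by_cases hwB : q.2.1 ∈ B
    · exact absurd (himg q.1 q.2.1 q.2.2 hwB (not_lt.1 hfar) (not_le.1 hξ).le) ho
    · refine le_add_left ?_
      simp [hwB]
  refine (lintegral_mono hle).trans (le_of_eq ?_)
  rw [lintegral_add_left (((m0 _).fun_mul (m2 _ MeasurableSet.univ)).const_mul _),
    lintegral_const_mul' _ _ ENNReal.ofReal_ne_top,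
    lintegral_add_left (((m0 s).fun_mul ((m2 _ MeasurableSet.univ).fun_mul m3)))]

/-- **The bump at fixed fields.** -/
theorem inner_bound (hn : 0 < n) {β u s z σ η θ pm pw : ℝ} (hβ : 0 < β) (hu : 0 ≤ u) (hs : 0 < s)
    (hz : 0 ≤ z) (hpm : 0 ≤ pm) (hpw : 0 ≤ pw) {x : Fin n → ℝ}
    (hqx : 0 < (∑ j, tanh (x j) ^ 2) / (n : ℝ)) {O B : Set (Fin n → ℝ)} (hO : MeasurableSet O)
    (hB : MeasurableSet B)
    (himg : ∀ (Z w : Fin n → ℝ) (ξ : ℝ), w ∈ B →
      ∑ i, (resMean (β ^ 2) u x i
        - sumOf √(β ^ 2 * ((∑ j, tanh (x j) ^ 2) / (n : ℝ))) u (fun i => tanh (x i)) Z ξ i) ^ 2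
          ≤ z ^ 2 * n →
      |ξ - √(β ^ 2 * ((∑ j, tanh (x j) ^ 2) / (n : ℝ)))
          * ((∑ i, tanh (x i) * resMean (β ^ 2) u x i) / √((∑ j, tanh (x j) ^ 2) / (n : ℝ) * n))
          / (u + β ^ 2 * ((∑ j, tanh (x j) ^ 2) / (n : ℝ)) + s ^ 2
            + β ^ 2 * ((∑ j, tanh (x j) ^ 2) / (n : ℝ)))| ≤ z * √n →
      imgOf √(β ^ 2 * ((∑ j, tanh (x j) ^ 2) / (n : ℝ))) u (fun i => tanh (x i)) Z w ξ ∈ O)
    (hmar : ∀ W ∈ O, (disX n).real {d | (W, pinch (fun i => tanh (x i)) d)
      ∈ pinchBad (β ^ 2) ((∑ j, tanh (x j) ^ 2) / (n : ℝ)) η θ σ fun i => tanh (x i)} ≤ pm)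
    (hw : (gp (Fin n)).real Bᶜ ≤ pw) :
    ∫⁻ p, bumpAt s (resMean (β ^ 2) u x)
        (fun i => (kmat n β p.1 *ᵥ fun j => tanh (x j)) i + √u * p.2 i)
        * {d | ¬ BallMargin (plantK n β d) (β ^ 2) η θ σ fun i => tanh (x i)}.indicator (fun _ => 1) p.1
        ∂(disX n).prod (gp (Fin n))
      ≤ ENNReal.ofReal (countTot (β ^ 2) u s x * (pm + 2 * exp (-(z ^ 2 * n / 4)) + pw)
          + exp (-(z ^ 2 * n / (4 * s ^ 2))) * countTot (β ^ 2) u (√2 * s) x) := by
  classical
  set m : Fin n → ℝ := fun i => tanh (x i)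
  set qx := (∑ j, tanh (x j) ^ 2) / (n : ℝ) with hqxd
  set r := resMean (β ^ 2) u x
  set t := β ^ 2
  set σc := √(t * qx)
  have hn' : (0 : ℝ) < n := by exact_mod_cast hn
  have hN : ∑ j, m j ^ 2 = qx * n := by simp only [m, hqxd]; field_simp
  have hN0 : 0 < ∑ j, m j ^ 2 := by rw [hN]; positivity
  have hσc : 0 < σc := sqrt_pos.2 (by positivity)
  have hσ2 : β ^ 2 / n * ∑ j, m j ^ 2 = σc ^ 2 := by
    rw [sq_sqrt (by positivity), hN]; field_simp; ring
  set E := pinchBad t qx η θ σ m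
  have hE : MeasurableSet E := (isOpen_pinchBad _ _ _ _ _ _).measurableSet
  have mK : Measurable fun d : Dis n => kmat n β d *ᵥ m := (cont_mulVec β m).measurable
  have hmF := fun s => measurable_bumpAt s r
  have htot : ∀ s, 0 < s → ∀ {B : Set (Fin n → ℝ)}, MeasurableSet B → ∀ {A : Set ℝ}, MeasurableSet A →
      ∀ {P : ℝ}, 0 ≤ P → (∫ ξ, A.indicator (fun ξ => exp (-((∑ i, r i ^ 2
          - 2 * σc * ξ * ((∑ i, m i * r i) / √(∑ j, m j ^ 2)) + σc ^ 2 * ξ ^ 2)
            / (2 * (σc ^ 2 + u + s ^ 2))))) ξ ∂gaussianReal 0 1) ≤ P * exp (countExp t u s x) →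
      ∫⁻ q, bumpAt s r (sumOf σc u m q.1 q.2.2)
          * (B.indicator (fun _ => 1) q.2.1 * A.indicator (fun _ => 1) q.2.2)
          ∂(gp (Fin n)).prod ((gp (Fin n)).prod (gaussianReal 0 1))
        ≤ ENNReal.ofReal ((gp (Fin n)).real B * P * countTot t u s x) := by
    intro s hs B hB A hA P hP hle
    rw [sum_total hσc hu hs hN0 r hB hA, mul_assoc, ENNReal.ofReal_mul measureReal_nonneg,
      ofReal_measureReal]
    refine mul_le_mul_right (ENNReal.ofReal_le_ofReal ?_) _
    have e : σc ^ 2 + u + s ^ 2 = u + t * qx + s ^ 2 := by rw [sq_sqrt (by positivity)]; ring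
    rw [countTot, ← hqxd, e]
    rw [e] at hle
    calc (s / √(u + t * qx + s ^ 2)) ^ n * _
        ≤ (s / √(u + t * qx + s ^ 2)) ^ n * (P * exp (countExp t u s x)) :=
          mul_le_mul_of_nonneg_left hle (by positivity)
      _ = _ := by ring
  have hexp : ∀ s, 0 < s → exp (-((∑ i, r i ^ 2) / (2 * (σc ^ 2 + u + s ^ 2)))
      + σc ^ 2 * ((∑ i, m i * r i) / √(∑ j, m j ^ 2)) ^ 2
        / (2 * (σc ^ 2 + u + s ^ 2) * (σc ^ 2 + u + s ^ 2 + σc ^ 2))) = exp (countExp t u s x) :=
    fun s _ => by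
      unfold countExp
      congr 2
      · simp only [r, ← hqxd, σc]; rw [sq_sqrt (by positivity)]; ring
      · rw [div_pow, sq_sqrt hN0.le, hN]
        simp only [r, m, σc]
        rw [sq_sqrt (by positivity)]
        field_simp
        ring
  have hfull : ∀ s, 0 < s → ∀ {B : Set (Fin n → ℝ)}, MeasurableSet B →
      ∫⁻ q, bumpAt s r (sumOf σc u m q.1 q.2.2) * B.indicator (fun _ => 1) q.2.1
          ∂(gp (Fin n)).prod ((gp (Fin n)).prod (gaussianReal 0 1))
        ≤ ENNReal.ofReal ((gp (Fin n)).real B * countTot t u s x) := by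
    intro s hs B hB
    have h := htot s hs hB MeasurableSet.univ zero_le_one (by
      simp only [Set.indicator_univ, one_mul, ← hexp s hs]
      exact (dir_integral (by positivity) hσc _ _ 0 le_rfl).1)
    simpa using h
  have hT : ∫⁻ p, bumpAt s r (fun i => (kmat n β p.1 *ᵥ m) i + √u * p.2 i) ∂(disX n).prod (gp (Fin n))
      ≤ ENNReal.ofReal (countTot t u s x) := by
    have h := hfull s hs MeasurableSet.univ
    rw [joint_image hn hu hσc hN0.ne' hσ2 (F := fun p => bumpAt s r p.2) ((hmF s).comp measurable_snd)]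
    simpa using h
  set bad := {d : Dis n | ¬ BallMargin (plantK n β d) (β ^ 2) η θ σ m}
  have hsub : ∀ d, d ∈ bad → kmat n β d *ᵥ m ∈ O → (kmat n β d *ᵥ m, pinch m d) ∈ E := fun d hd _ => by
    by_contra h
    exact hd (ball_of_image hn hβ.le hqx d hN h)
  have hpt : ∀ p : Dis n × (Fin n → ℝ),
      bumpAt s r (fun i => (kmat n β p.1 *ᵥ m) i + √u * p.2 i) * bad.indicator (fun _ => 1) p.1
        ≤ bumpAt s r (fun i => (kmat n β p.1 *ᵥ m) i + √u * p.2 i) * Oᶜ.indicator (fun _ => 1) (kmat n β p.1 *ᵥ m)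
          + bumpAt s r (fun i => (kmat n β p.1 *ᵥ m) i + √u * p.2 i)
            * (E ∩ O ×ˢ Set.univ).indicator (fun _ => 1) (kmat n β p.1 *ᵥ m, pinch m p.1) := fun p => by
    rw [← mul_add]
    refine mul_le_mul_right ?_ _
    by_cases hd : p.1 ∈ bad
    · by_cases ho : kmat n β p.1 *ᵥ m ∈ O
      · simp [hd, ho, hsub _ hd ho]
      · simp [hd, ho]
    · simp [hd]
  have h2 : ∫⁻ p, bumpAt s r (fun i => (kmat n β p.1 *ᵥ m) i + √u * p.2 i)
      * (E ∩ O ×ˢ Set.univ).indicator (fun _ => 1) (kmat n β p.1 *ᵥ m, pinch m p.1) ∂(disX n).prod (gp (Fin n))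
      ≤ ENNReal.ofReal (pm * countTot t u s x) := by
    rw [ENNReal.ofReal_mul hpm]
    exact (pinch_part hN0.ne' (hmF s) hE hO hmar).trans (mul_le_mul_right hT _)
  have hmO : Measurable fun W : Fin n → ℝ => Oᶜ.indicator (fun _ => (1 : ℝ≥0∞)) W :=
    measurable_const.indicator hO.compl
  set c := σc * ((∑ i, m i * r i) / √(∑ j, m j ^ 2)) / (σc ^ 2 + u + s ^ 2 + σc ^ 2) with hc
  have hcc : c = √(t * qx) * ((∑ i, m i * r i) / √(qx * n)) / (u + t * qx + s ^ 2 + t * qx) := by
    rw [hc, hN, sq_sqrt (show 0 ≤ t * qx by positivity), add_comm (t * qx) u]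
  have h1 : ∫⁻ p, bumpAt s r (fun i => (kmat n β p.1 *ᵥ m) i + √u * p.2 i)
      * Oᶜ.indicator (fun _ => 1) (kmat n β p.1 *ᵥ m) ∂(disX n).prod (gp (Fin n))
      ≤ ENNReal.ofReal (exp (-(z ^ 2 * n / (4 * s ^ 2))) * countTot t u (√2 * s) x)
        + (ENNReal.ofReal (2 * exp (-(z ^ 2 * n / 4)) * countTot t u s x)
          + ENNReal.ofReal (pw * countTot t u s x)) := by
    rw [joint_image hn hu hσc hN0.ne' hσ2 (F := fun p => bumpAt s r p.2 * Oᶜ.indicator (fun _ => 1) p.1)
      (((hmF s).comp measurable_snd).mul (hmO.comp measurable_fst))]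
    refine (atypical_part (B := B) hs fun Z w ξ hwB hfar hξ => himg Z w ξ hwB hfar (hcc ▸ hξ)).trans ?_
    refine add_le_add ?_ (add_le_add ?_ ?_)
    · rw [ENNReal.ofReal_mul (exp_pos _).le]
      refine mul_le_mul_right ?_ _
      simpa using hfull (√2 * s) (by positivity) MeasurableSet.univ
    · have h := htot s hs MeasurableSet.univ
        (A := {ξ : ℝ | z * √n ≤ |ξ - c|}) (isClosed_le continuous_const (by fun_prop)).measurableSet
        (show (0 : ℝ) ≤ 2 * exp (-(z ^ 2 * n / 4)) by positivity) (by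
        have h2 := (dir_integral (G := σc ^ 2 + u + s ^ 2) (by positivity) hσc (∑ i, r i ^ 2)
          ((∑ i, m i * r i) / √(∑ j, m j ^ 2)) (z * √n) (by positivity)).2
        rw [hexp s hs, mul_pow, sq_sqrt hn'.le] at h2
        exact h2)
      simpa using h
    · refine (hfull s hs hB.compl).trans (ENNReal.ofReal_le_ofReal ?_)
      exact mul_le_mul_of_nonneg_right hw (by unfold countTot; positivity)
  have hc0 : ∀ s, 0 < s → 0 ≤ countTot t u s x := fun s hs => by unfold countTot; positivity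
  refine (lintegral_mono hpt).trans ?_
  have hm1 : Measurable fun p : Dis n × (Fin n → ℝ) => bumpAt s r fun i => (kmat n β p.1 *ᵥ m) i + √u * p.2 i :=
    (hmF s).comp (measurable_image β u m)
  have hm2 : Measurable fun p : Dis n × (Fin n → ℝ) => Oᶜ.indicator (fun _ => (1 : ℝ≥0∞)) (kmat n β p.1 *ᵥ m) :=
    hmO.comp (mK.comp measurable_fst)
  rw [lintegral_add_left (hm1.fun_mul hm2)]
  refine (add_le_add h1 h2).trans ?_
  have p1 : 0 ≤ exp (-(z ^ 2 * n / (4 * s ^ 2))) * countTot t u (√2 * s) x :=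
    mul_nonneg (exp_pos _).le (hc0 _ (by positivity))
  have p2 : 0 ≤ 2 * exp (-(z ^ 2 * n / 4)) * countTot t u s x := mul_nonneg (by positivity) (hc0 s hs)
  have p3 : 0 ≤ pw * countTot t u s x := mul_nonneg hpw (hc0 s hs)
  have p4 : 0 ≤ pm * countTot t u s x := mul_nonneg hpm (hc0 s hs)
  rw [← ENNReal.ofReal_add p2 p3, ← ENNReal.ofReal_add p1 (by positivity),
    ← ENNReal.ofReal_add (by positivity) p4]
  exact ENNReal.ofReal_le_ofReal (le_of_eq (by ring))

end Vale.Agent.P150.Fast.Transfer
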