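import Vale.Agent.P150.Fast.TransferStmt

/-!
The count identity of the transfer (P150): at replica-symmetric statistics the Gaussian density of
the TAP residual times the bound on the Jacobian is the law of independent fields `N(G, G)`,
`G = u + t q`, up to `exp (small * n)`. No types and no entropy enter.
-/

open MeasureTheory ProbabilityTheory Real Finset

namespace Vale.Agent.P150.Fast.Transfer

/-- The deficit of the count identity in terms of the overlap `q`, the overlap `qx`, the energy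
`mr` and squared norm `R` of the residual mean, the two variances and the moment `S`. -/
noncomputable def defVal (t q qx G0 G R mr S : ℝ) : ℝ :=
  -(R / (2 * G)) + t * mr ^ 2 / (2 * G * (G + t * qx)) + S / (2 * G0) + t * (1 - q) ^ 2 / 2
    + log (G0 / G) / 2

/-- The squared norm of the residual mean. -/
noncomputable def resR (t q qx G0 dp dB S T : ℝ) : ℝ :=
  S - 2 * (t * dp) * T + t ^ 2 * dp ^ 2
    + 2 * (t * (1 - qx)) * (G0 * (1 - q) + dB - t * dp * (q + dp)) + (t * (1 - qx)) ^ 2 * qx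

/-- The energy of the residual mean. -/
noncomputable def resM (t q qx G0 dp dB : ℝ) : ℝ :=
  G0 * (1 - q) + dB - t * dp * (q + dp) + t * (1 - qx) * qx

/-- The deficit in terms of `(u, q)`, the deviations of overlap, magnetisation and energy, the two
moments of `x - G`, and the added variance. -/
noncomputable def countDef (t : ℝ) (z : ℝ × ℝ × ℝ × ℝ × ℝ × ℝ × ℝ × ℝ) : ℝ :=
  defVal t z.2.1 (z.2.1 + z.2.2.1) (z.1 + t * z.2.1)
    (z.1 + t * (z.2.1 + z.2.2.1) + z.2.2.2.2.2.2.2)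
    (resR t z.2.1 (z.2.1 + z.2.2.1) (z.1 + t * z.2.1) z.2.2.2.1 z.2.2.2.2.1 z.2.2.2.2.2.1
      z.2.2.2.2.2.2.1)
    (resM t z.2.1 (z.2.1 + z.2.2.1) (z.1 + t * z.2.1) z.2.2.2.1 z.2.2.2.2.1) z.2.2.2.2.2.1

theorem countDef_zero {t u q : ℝ} (hG : u + t * q ≠ 0) (hG2 : u + t * q + t * q ≠ 0) (S T : ℝ) :
    countDef t (u, q, 0, 0, 0, S, T, 0) = 0 := by
  simp only [countDef, defVal, resR, resM, add_zero, mul_zero, sub_zero, zero_mul, div_self hG, log_one, zero_div,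
    zero_pow two_ne_zero]
  field_simp
  ring

theorem countDef_small {t δ U C κ : ℝ} (ht : 0 < t) (hδ : 0 < δ) (hκ : 0 < κ) :
    ∃ ε : ℝ, 0 < ε ∧ ε ≤ δ / 2 ∧ ε ≤ 1 ∧ ∀ u q dq dp dB S T v : ℝ, 0 ≤ u → u ≤ U → δ ≤ q → q ≤ 1 - δ →
      |dq| ≤ ε → |dp| ≤ ε → |dB| ≤ ε → 0 ≤ S → S ≤ C → |T| ≤ C → 0 ≤ v → v ≤ ε →
      countDef t (u, q, dq, dp, dB, S, T, v) ≤ κ := by
  set K : Set (ℝ × ℝ × ℝ × ℝ × ℝ × ℝ × ℝ × ℝ) := Set.Icc 0 U ×ˢ Set.Icc δ (1 - δ) ×ˢ
    Set.Icc (-(δ / 2)) (δ / 2) ×ˢ Set.Icc (-1) 1 ×ˢ Set.Icc (-1) 1 ×ˢ Set.Icc 0 C ×ˢ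
    Set.Icc (-C) C ×ˢ Set.Icc 0 1 with hK
  have hKc : IsCompact K := isCompact_Icc.prod (isCompact_Icc.prod (isCompact_Icc.prod
    (isCompact_Icc.prod (isCompact_Icc.prod (isCompact_Icc.prod (isCompact_Icc.prod isCompact_Icc))))))
  have hpos : ∀ z ∈ K, 0 < z.1 + t * z.2.1 ∧ 0 < z.1 + t * (z.2.1 + z.2.2.1) + z.2.2.2.2.2.2.2 ∧
      0 < t * (z.2.1 + z.2.2.1) := fun z hz => by
    simp only [hK, Set.mem_prod, Set.mem_Icc] at hz
    obtain ⟨⟨hu, -⟩, ⟨hq, -⟩, ⟨hd, -⟩, -, -, -, -, ⟨hv, -⟩⟩ := hz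
    have h1 : δ / 2 ≤ z.2.1 + z.2.2.1 := by linarith
    have h2 : 0 < t * (z.2.1 + z.2.2.1) := mul_pos ht (by linarith)
    exact ⟨by linarith [mul_pos ht (show 0 < z.2.1 by linarith)], by linarith, h2⟩
  have hcont : ContinuousOn (countDef t) K := by
    have hG0 : ∀ z ∈ K, z.1 + t * z.2.1 ≠ 0 := fun z hz => (hpos z hz).1.ne'
    have hG : ∀ z ∈ K, z.1 + t * (z.2.1 + z.2.2.1) + z.2.2.2.2.2.2.2 ≠ 0 := fun z hz => (hpos z hz).2.1.ne'
    unfold countDef defVal resR resM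
    refine ContinuousOn.add (ContinuousOn.add (ContinuousOn.add (ContinuousOn.add ?_ ?_) ?_) ?_) ?_
    · exact (ContinuousOn.div (by fun_prop) (by fun_prop) fun z hz =>
        mul_ne_zero two_ne_zero (hG z hz)).neg
    · refine ContinuousOn.div (by fun_prop) (by fun_prop) fun z hz => ?_
      exact mul_ne_zero (mul_ne_zero two_ne_zero (hG z hz))
        (add_pos (hpos z hz).2.1 (hpos z hz).2.2).ne'
    · exact ContinuousOn.div (by fun_prop) (by fun_prop) fun z hz => mul_ne_zero two_ne_zero (hG0 z hz)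
    · fun_prop
    · refine ContinuousOn.div_const (ContinuousOn.log (ContinuousOn.div (by fun_prop) (by fun_prop) hG) ?_) _
      exact fun z hz => div_ne_zero (hG0 z hz) (hG z hz)
  obtain ⟨e, he, heK⟩ := Metric.uniformContinuousOn_iff.1 (hKc.uniformContinuousOn_of_continuous hcont) κ hκ
  refine ⟨min (e / 2) (min (δ / 2) 1), lt_min (half_pos he) (lt_min (half_pos hδ) one_pos),
    (min_le_right _ _).trans (min_le_left _ _), (min_le_right _ _).trans (min_le_right _ _),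
    fun u q dq dp dB S T v hu huU hq hq1 hdq hdp hdB hS hSC hT hv hve => ?_⟩
  set ε := min (e / 2) (min (δ / 2) 1)
  have h1 : ε ≤ δ / 2 := (min_le_right _ _).trans (min_le_left _ _)
  have h2 : ε ≤ 1 := (min_le_right _ _).trans (min_le_right _ _)
  have h3 : ε ≤ e / 2 := min_le_left _ _
  obtain ⟨a1, a2⟩ := abs_le.1 hdq
  obtain ⟨b1, b2⟩ := abs_le.1 hdp
  obtain ⟨c1, c2⟩ := abs_le.1 hdB
  obtain ⟨d1, d2⟩ := abs_le.1 hT
  have hm : (u, q, dq, dp, dB, S, T, v) ∈ K := by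
    simp only [hK, Set.mem_prod, Set.mem_Icc]
    refine ⟨⟨hu, huU⟩, ⟨hq, hq1⟩, ⟨?_, ?_⟩, ⟨?_, ?_⟩, ⟨?_, ?_⟩, ⟨hS, hSC⟩, ⟨d1, d2⟩, ⟨hv, ?_⟩⟩ <;> linarith
  have hm0 : (u, q, 0, 0, 0, S, T, 0) ∈ K := by
    simp only [hK, Set.mem_prod, Set.mem_Icc]
    refine ⟨⟨hu, huU⟩, ⟨hq, hq1⟩, ⟨?_, ?_⟩, ⟨?_, ?_⟩, ⟨?_, ?_⟩, ⟨hS, hSC⟩, ⟨d1, d2⟩, ⟨le_rfl, ?_⟩⟩ <;>
      linarith
  have hd : dist (u, q, dq, dp, dB, S, T, v) (u, q, (0 : ℝ), (0 : ℝ), (0 : ℝ), S, T, (0 : ℝ)) < e := by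
    have : 0 < e := he
    simp only [Prod.dist_eq, dist_self, Real.dist_eq, sub_zero, max_lt_iff, abs_of_nonneg hv]
    exact ⟨this, this, by linarith, by linarith, by linarith, this, this, by linarith⟩
  have h0 : countDef t (u, q, 0, 0, 0, S, T, 0) = 0 := by
    have := mul_pos ht (lt_of_lt_of_le hδ hq)
    exact countDef_zero (by positivity) (by positivity) S T
  have := heK _ hm _ hm0 hd
  rw [h0, Real.dist_eq, sub_zero] at this
  exact ((le_abs_self _).trans this.le)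

variable {n : ℕ}

/-- The mean of the residual at fixed fields, before the noise. -/
noncomputable def resMean (t u : ℝ) (x : Fin n → ℝ) (i : Fin n) : ℝ :=
  x i - u - t * ((∑ j, tanh (x j)) / n) + t * (1 - (∑ j, tanh (x j) ^ 2) / n) * tanh (x i)

/-- The exponent of the bump integral at fixed fields. -/
noncomputable def countExp (t u s : ℝ) (x : Fin n → ℝ) : ℝ :=
  -((∑ i, resMean t u x i ^ 2) / (2 * (u + t * ((∑ j, tanh (x j) ^ 2) / n) + s ^ 2)))
    + t / n * (∑ i, tanh (x i) * resMean t u x i) ^ 2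
      / (2 * (u + t * ((∑ j, tanh (x j) ^ 2) / n) + s ^ 2)
        * (u + t * ((∑ j, tanh (x j) ^ 2) / n) + s ^ 2 + t * ((∑ j, tanh (x j) ^ 2) / n)))

/-- The density of the independent fields `N(G, G)`. -/
noncomputable def refDens (G : ℝ) (x : Fin n → ℝ) : ℝ := ∏ i, gaussianPDFReal G G.toNNReal (x i)

/-- **The count identity.** -/
theorem count_bound {t δ U C κ : ℝ} (ht : 0 < t) (hδ : 0 < δ) (hκ : 0 < κ) (hC : 1 ≤ C) :
    ∃ ε : ℝ, 0 < ε ∧ ε ≤ δ / 2 ∧ ε ≤ 1 ∧ ∀ n : ℕ, 0 < n → ∀ (u q s : ℝ) (x : Fin n → ℝ),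
      0 ≤ u → u ≤ U → δ ≤ q → q ≤ 1 - δ → 0 < s → s ^ 2 ≤ ε →
      |(∑ i, tanh (x i) ^ 2) / (n : ℝ) - q| ≤ ε → |(∑ i, tanh (x i)) / (n : ℝ) - q| ≤ ε →
      |(∑ i, (x i - (u + t * q)) * tanh (x i)) / (n : ℝ) - (u + t * q) * (1 - q)| ≤ ε →
      ∑ i, (x i - (u + t * q)) ^ 2 ≤ C * n →
      (s / √(u + t * ((∑ j, tanh (x j) ^ 2) / (n : ℝ)) + s ^ 2)) ^ n * exp (countExp t u s x)
          * exp (n * (t * (1 - q) ^ 2 / 2))
        ≤ exp (κ * n) * √((2 * π) ^ n * (s ^ 2) ^ n) * refDens (u + t * q) x := by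
  obtain ⟨ε, hε, hεδ, hε1, hsm⟩ := countDef_small (U := U) (C := C) ht hδ hκ
  refine ⟨ε, hε, hεδ, hε1, fun n hn u q s x hu huU hq hq1 hs hsε hqx hpx hBx hSx => ?_⟩
  have hn' : (0 : ℝ) < n := by exact_mod_cast hn
  set qx := (∑ j, tanh (x j) ^ 2) / (n : ℝ) with hqxd
  set px := (∑ j, tanh (x j)) / (n : ℝ) with hpxd
  set G0 := u + t * q with hG0d
  set G := u + t * qx + s ^ 2 with hGd
  set S := (∑ i, (x i - G0) ^ 2) / (n : ℝ)
  set T := (∑ i, (x i - G0)) / (n : ℝ)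
  set B := (∑ i, (x i - G0) * tanh (x i)) / (n : ℝ) with hB
  set c := t * (1 - qx)
  have hqx0 : 0 < qx := by linarith [(abs_le.1 hqx).1]
  have hG0 : 0 < G0 := by linarith [mul_pos ht (lt_of_lt_of_le hδ hq)]
  have hG : 0 < G := by linarith [mul_pos ht hqx0, sq_nonneg s]
  have hS0 : 0 ≤ S := div_nonneg (sum_nonneg fun i _ => sq_nonneg _) hn'.le
  have hSC : S ≤ C := (div_le_iff₀ hn').2 hSx
  have hTC : |T| ≤ C := by
    refine abs_le_of_sq_le_sq ?_ (by linarith)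
    have h1 : (∑ i, (x i - G0)) ^ 2 ≤ n * ∑ i, (x i - G0) ^ 2 := by
      simpa using sum_mul_sq_le_sq_mul_sq univ (fun _ => (1 : ℝ)) (fun i => x i - G0)
    calc T ^ 2 = (∑ i, (x i - G0)) ^ 2 / (n : ℝ) ^ 2 := div_pow _ _ _
      _ ≤ n * (C * n) / (n : ℝ) ^ 2 := by gcongr; exact h1.trans (mul_le_mul_of_nonneg_left hSx hn'.le)
      _ = C := by field_simp
      _ ≤ C ^ 2 := le_self_pow₀ hC two_ne_zero
  have hr : ∀ i, resMean t u x i = (x i - G0) - t * (px - q) + c * tanh (x i) := fun i => by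
    simp only [resMean, c, hG0d, ← hqxd, ← hpxd]; ring
  have eR : ∑ i, resMean t u x i ^ 2
      = n * (S - 2 * (t * (px - q)) * T + t ^ 2 * (px - q) ^ 2
        + 2 * c * (B - t * (px - q) * px) + c ^ 2 * qx) := by
    simp only [hr, S, T, hB, hqxd, hpxd]
    obtain ⟨y, hy⟩ : ∃ y : Fin n → ℝ, ∀ i, x i - G0 = y i := ⟨_, fun i => rfl⟩
    simp only [hy]
    set a := t * ((∑ j, tanh (x j)) / (n : ℝ) - q)
    have e : ∀ i, (y i - a + c * tanh (x i)) ^ 2
        = y i ^ 2 - 2 * a * y i + a ^ 2 + 2 * c * (y i * tanh (x i)) - 2 * c * a * tanh (x i)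
          + c ^ 2 * tanh (x i) ^ 2 := fun i => by ring
    simp only [e, sum_add_distrib, sum_sub_distrib, ← mul_sum, sum_const, card_univ, Fintype.card_fin,
      nsmul_eq_mul, a]
    field_simp
    ring
  have eM : ∑ i, tanh (x i) * resMean t u x i = n * (B - t * (px - q) * px + c * qx) := by
    simp only [hr]
    have e : ∀ i, tanh (x i) * ((x i - G0) - t * (px - q) + c * tanh (x i))
        = (x i - G0) * tanh (x i) - t * (px - q) * tanh (x i) + c * tanh (x i) ^ 2 := fun i => by ring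
    simp only [e, sum_add_distrib, sum_sub_distrib, ← mul_sum]
    simp only [hB, hqxd, hpxd]
    field_simp
  have key := hsm u q (qx - q) (px - q) (B - G0 * (1 - q)) S T (s ^ 2) hu huU hq hq1 hqx hpx hBx hS0
    hSC hTC (sq_nonneg s) hsε
  simp only [countDef, defVal, resR, resM, add_sub_cancel, ← hG0d, ← hGd] at key
  have hcE : countExp t u s x + n * (t * (1 - q) ^ 2 / 2) + n * (log (G0 / G) / 2)
      ≤ κ * n - n * (S / (2 * G0)) := by
    simp only [countExp, ← hqxd, ← hGd, eR, eM]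
    have h := mul_le_mul_of_nonneg_left key hn'.le
    have e : t / n * (n * (B - t * (px - q) * px + c * qx)) ^ 2 / (2 * G * (G + t * qx))
        = n * (t * (B - t * (px - q) * px + c * qx) ^ 2 / (2 * G * (G + t * qx))) := by
      field_simp
    rw [e, mul_div_assoc]
    linarith
  have hd : refDens G0 x = (√(2 * π * G0))⁻¹ ^ n * exp (-(n * (S / (2 * G0)))) := by
    simp only [refDens, gaussianPDFReal, Real.coe_toNNReal _ hG0.le, prod_mul_distrib, prod_const, card_univ,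
      Fintype.card_fin, ← exp_sum]
    congr 2
    simp only [S, neg_div, sum_neg_distrib, ← sum_div]
    field_simp
  have hlog : exp (n * (log (G0 / G) / 2)) = (√G0 / √G) ^ n := by
    rw [← log_sqrt (by positivity), exp_nat_mul, exp_log (sqrt_pos.2 (by positivity)), sqrt_div hG0.le]
  have hroot : √((2 * π) ^ n * (s ^ 2) ^ n) = (√(2 * π) * s) ^ n := by
    rw [← mul_pow, show (2 * π * s ^ 2) ^ n = ((√(2 * π) * s) ^ n) ^ 2 by
      rw [pow_right_comm, mul_pow (√(2 * π)) s 2, sq_sqrt (show (0 : ℝ) ≤ 2 * π by positivity)],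
      sqrt_sq (by positivity)]
  rw [hroot, hd]
  calc (s / √G) ^ n * exp (countExp t u s x) * exp (n * (t * (1 - q) ^ 2 / 2))
      = (s / √G0) ^ n * exp (countExp t u s x + n * (t * (1 - q) ^ 2 / 2) + n * (log (G0 / G) / 2)) := by
        rw [exp_add, exp_add, hlog, div_pow, div_pow, div_pow]
        have : (√G0) ^ n ≠ 0 := pow_ne_zero _ (sqrt_pos.2 hG0).ne'
        field_simp
    _ ≤ (s / √G0) ^ n * exp (κ * n - n * (S / (2 * G0))) := by gcongr
    _ = exp (κ * n) * (√(2 * π) * s) ^ n * ((√(2 * π * G0))⁻¹ ^ n * exp (-(n * (S / (2 * G0))))) := by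
        rw [sub_eq_add_neg, exp_add, sqrt_mul (by positivity) G0, div_pow, inv_pow, mul_pow, mul_pow]
        have : √(2 * π) ^ n ≠ 0 := pow_ne_zero _ (sqrt_pos.2 (by positivity)).ne'
        field_simp

end Vale.Agent.P150.Fast.Transfer
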