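import Vale.Agent.P150.Fast.LogDetTools

/-!
The image of a fixed vector under the coupling, jointly with the side noise, in rotated standard
variables (P150): conditioning on their sum leaves the image an affine function of independent
standard noise. The Gaussian integrals of the bump along the sum are exact.
-/

open MeasureTheory ProbabilityTheory Real Finset Matrix
open scoped ENNReal

namespace Vale.Agent.P150.Fast.Transfer

variable {n : ℕ}

/-- The image of `m` in the rotated variables `(Z, w, ξ)`, given its scale `σ`. -/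
noncomputable def imgOf (σ u : ℝ) (m Z w : Fin n → ℝ) (ξ : ℝ) (i : Fin n) : ℝ :=
  σ / √(∑ j, m j ^ 2) * ξ * m i + σ ^ 2 / √(σ ^ 2 + u) * Z i + σ * √u / √(σ ^ 2 + u) * w i

/-- The sum of the image and the side noise in the rotated variables. -/
noncomputable def sumOf (σ u : ℝ) (m Z : Fin n → ℝ) (ξ : ℝ) (i : Fin n) : ℝ :=
  σ / √(∑ j, m j ^ 2) * ξ * m i + √(σ ^ 2 + u) * Z i

theorem pol_comb (η m : Fin n → ℝ) (k : Pair n ⊕ Fin n) :
    ∑ s, η s * pol (Pi.single s 1) m k = pol η m k := by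
  cases k with
  | inl p =>
    have hd : ∀ s : Fin n, pol (Pi.single s 1) m (Sum.inl p)
        = (Pi.single s 1 : Fin n → ℝ) p.1.1 * m p.1.2 + m p.1.1 * (Pi.single s 1 : Fin n → ℝ) p.1.2 :=
      fun s => by simp only [pol, coef, Sum.elim_inl]; ring
    simp only [hd]
    simp [Pi.single_apply, mul_add, sum_add_distrib, pol, coef]
    ring
  | inr i =>
    have hd : ∀ s : Fin n, pol (Pi.single s 1) m (Sum.inr i)
        = √2 * ((Pi.single s 1 : Fin n → ℝ) i * m i) :=
      fun s => by simp only [pol, coef, Sum.elim_inr]; ring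
    simp only [hd]
    simp [Pi.single_apply, pol, coef]
    ring

theorem mulVec_pol (β : ℝ) (m : Fin n → ℝ) (d : Dis n) (s : Fin n) :
    (kmat n β d *ᵥ m) s = lin (fun k => β / √n * pol (Pi.single s 1) m k) d := by
  have h := kmat_mulVec_lin β m d (Pi.single s 1)
  simp only [Pi.single_apply, ite_mul, one_mul, zero_mul, sum_ite_eq', mem_univ, if_true] at h
  rw [h]
  simp [pol, Pi.single_apply]

/-- Linear forms of the image and the sum have equal variances in both descriptions. -/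
theorem image_cov (hn : 0 < n) {β u σ : ℝ} (hu : 0 ≤ u) (hσ : 0 < σ) {m : Fin n → ℝ}
    (hN0 : 0 < ∑ j, m j ^ 2) (hσ2 : β ^ 2 / n * ∑ j, m j ^ 2 = σ ^ 2) (x y : Fin n → ℝ) :
    ∑ k, (β / √n * pol (fun s => x s + y s) m k) ^ 2 + ∑ s, (y s * √u) ^ 2
      = ∑ s, (x s * (σ ^ 2 / √(σ ^ 2 + u)) + y s * √(σ ^ 2 + u)) ^ 2
        + (∑ s, (x s * (σ * √u / √(σ ^ 2 + u))) ^ 2
          + (σ / √(∑ j, m j ^ 2) * ∑ s, (x s + y s) * m s) ^ 2) := by
  set N := ∑ j, m j ^ 2 with hN
  set G := σ ^ 2 + u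
  have hG : 0 < G := by positivity
  have hn' : (0 : ℝ) < n := by exact_mod_cast hn
  set η : Fin n → ℝ := fun s => x s + y s
  have h1 : √G ^ 2 = G := sq_sqrt hG.le
  have h2 : √u ^ 2 = u := sq_sqrt hu
  have h3 : √G ≠ 0 := (sqrt_pos.2 hG).ne'
  have hK : ∑ k, (β / √n * pol η m k) ^ 2
      = σ ^ 2 * ∑ s, η s ^ 2 + σ ^ 2 / N * (∑ s, η s * m s) ^ 2 := by
    simp only [mul_pow, div_pow, sq_sqrt hn'.le, ← mul_sum]
    have e : ∑ k, pol η m k ^ 2 = (∑ s, η s ^ 2) * N + (∑ s, η s * m s) ^ 2 := by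
      simp only [pow_two, hN, pol_inner]
      congr 1
      congr 1
      exact sum_congr rfl fun s _ => mul_comm _ _
    rw [e, ← hσ2]
    field_simp
  have e : ∀ s, (x s * (σ ^ 2 / √G) + y s * √G) ^ 2 + (x s * (σ * √u / √G)) ^ 2
      = σ ^ 2 * η s ^ 2 + (y s * √u) ^ 2 := fun s => by
    simp only [η]
    field_simp
    rw [h1, h2]
    simp only [G]
    ring
  have hs := sum_congr (s₁ := (univ : Finset (Fin n))) rfl fun s (_ : s ∈ univ) => e s
  simp only [sum_add_distrib, ← mul_sum] at hs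
  rw [hK, mul_pow (σ / √N), div_pow σ, sq_sqrt hN0.le]
  linarith

/-- The law of the image and the side noise in the rotated variables. -/
theorem joint_image (hn : 0 < n) {β u σ : ℝ} (hu : 0 ≤ u) (hσ : 0 < σ) {m : Fin n → ℝ}
    (hm : ∑ j, m j ^ 2 ≠ 0) (hσ2 : β ^ 2 / n * ∑ j, m j ^ 2 = σ ^ 2)
    {F : (Fin n → ℝ) × (Fin n → ℝ) → ℝ≥0∞} (hF : Measurable F) :
    ∫⁻ p, F (kmat n β p.1 *ᵥ m, fun i => (kmat n β p.1 *ᵥ m) i + √u * p.2 i)
        ∂(disX n).prod (gp (Fin n))
      = ∫⁻ q, F (imgOf σ u m q.1 q.2.1 q.2.2, sumOf σ u m q.1 q.2.2)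
        ∂(gp (Fin n)).prod ((gp (Fin n)).prod (gaussianReal 0 1)) := by
  classical
  have hN0 : 0 < ∑ j, m j ^ 2 := lt_of_le_of_ne (sum_nonneg fun j _ => sq_nonneg _) (Ne.symm hm)
  set G := σ ^ 2 + u
  set κ := Fin n ⊕ (Fin n ⊕ Fin 1)
  let fA : ((Pair n ⊕ Fin n) ⊕ Fin n → ℝ) → Fin n ⊕ Fin n → ℝ := fun g => Sum.elim
    (fun i => (kmat n β (fun k => g (Sum.inl k)) *ᵥ m) i)
    (fun i => (kmat n β (fun k => g (Sum.inl k)) *ᵥ m) i + √u * g (Sum.inr i))
  let fB : (κ → ℝ) → Fin n ⊕ Fin n → ℝ := fun g => Sum.elim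
    (fun i => imgOf σ u m (fun i => g (Sum.inl i)) (fun i => g (Sum.inr (Sum.inl i)))
      (g (Sum.inr (Sum.inr 0))) i)
    (fun i => sumOf σ u m (fun i => g (Sum.inl i)) (g (Sum.inr (Sum.inr 0))) i)
  set cd : Fin n → Pair n ⊕ Fin n → ℝ := fun s k => β / √n * pol (Pi.single s 1) m k with hcd
  set a : Fin n ⊕ Fin n → (Pair n ⊕ Fin n) ⊕ Fin n → ℝ := Sum.elim
    (fun s => Sum.elim (cd s) fun _ => 0)
    (fun s => Sum.elim (cd s) fun j => if j = s then √u else 0)
  set b : Fin n ⊕ Fin n → κ → ℝ := Sum.elim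
    (fun s => Sum.elim (fun j => if j = s then σ ^ 2 / √G else 0)
      (Sum.elim (fun j => if j = s then σ * √u / √G else 0) fun _ => σ / √(∑ j, m j ^ 2) * m s))
    (fun s => Sum.elim (fun j => if j = s then √G else 0)
      (Sum.elim (fun _ => 0) fun _ => σ / √(∑ j, m j ^ 2) * m s))
  have hlaw : (gp ((Pair n ⊕ Fin n) ⊕ Fin n)).map fA = (gp κ).map fB := by
    refine lin_image_eq fA fB a b (fun g s => ?_) (fun g s => ?_) fun ξ => ?_
    · cases s with
      | inl s => simp [fA, a, lin, mulVec_pol, hcd, Fintype.sum_sum_type]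
      | inr s => simp [fA, a, lin, mulVec_pol, hcd, Fintype.sum_sum_type, mul_comm]
    · cases s with
      | inl s => simp [fB, b, imgOf, lin, G, κ, Fintype.sum_sum_type]; ring
      | inr s => simp [fB, b, sumOf, lin, G, κ, Fintype.sum_sum_type]; ring
    · have eK : ∀ k, ∑ s, ξ (Sum.inl s) * cd s k + ∑ s, ξ (Sum.inr s) * cd s k
          = β / √n * pol (fun s => ξ (Sum.inl s) + ξ (Sum.inr s)) m k := fun k => by
        rw [← sum_add_distrib, ← pol_comb (fun s => ξ (Sum.inl s) + ξ (Sum.inr s)), mul_sum]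
        exact sum_congr rfl fun s _ => by simp only [hcd]; ring
      have eC : ∀ c : ℝ, ∑ s, ξ (Sum.inl s) * (c * m s) + ∑ s, ξ (Sum.inr s) * (c * m s)
          = c * ∑ s, (ξ (Sum.inl s) + ξ (Sum.inr s)) * m s := fun c => by
        rw [← sum_add_distrib, mul_sum]
        exact sum_congr rfl fun s _ => by ring
      simp only [κ, Fintype.sum_sum_type, a, b, Sum.elim_inl, Sum.elim_inr, mul_ite, mul_zero,
        sum_const_zero, zero_add, add_zero, sum_ite_eq, mem_univ, if_true, Fin.sum_univ_one, eK, eC]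
      rw [← Fintype.sum_sum_type (f := fun k => (β / √n * pol (fun s => ξ (Sum.inl s) + ξ (Sum.inr s)) m k) ^ 2)]
      exact image_cov hn hu hσ hN0 hσ2 _ _
  have mA : Measurable fA := by
    refine measurable_pi_lambda _ fun s => ?_
    cases s <;> (simp only [fA, Sum.elim_inl, Sum.elim_inr, mulVec_pol]; unfold lin; fun_prop)
  have mB : Measurable fB := by
    refine measurable_pi_lambda _ fun s => ?_
    cases s <;> (simp only [fB, Sum.elim_inl, Sum.elim_inr, imgOf, sumOf]; fun_prop)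
  set F' : (Fin n ⊕ Fin n → ℝ) → ℝ≥0∞ := fun z => F (fun i => z (Sum.inl i), fun i => z (Sum.inr i))
  have hF' : Measurable F' := hF.comp (by fun_prop)
  have e := congrArg (fun μ => ∫⁻ z, F' z ∂μ) hlaw
  simp only [lintegral_map hF' mA, lintegral_map hF' mB] at e
  have mp : MeasurePreserving (fun g : (Pair n ⊕ Fin n) ⊕ Fin n → ℝ =>
      ((fun k => g (Sum.inl k)), fun k => g (Sum.inr k)))
      (gp ((Pair n ⊕ Fin n) ⊕ Fin n)) ((disX n).prod (gp (Fin n))) :=
    measurePreserving_sumPiEquivProdPi (fun _ => gaussianReal 0 1)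
  have m1 : MeasurePreserving (fun g : Fin n ⊕ Fin 1 → ℝ =>
      ((fun k => g (Sum.inl k)), g (Sum.inr 0)))
      (gp (Fin n ⊕ Fin 1)) ((gp (Fin n)).prod (gaussianReal 0 1)) := by
    have h1 : MeasurePreserving (fun g : Fin n ⊕ Fin 1 → ℝ =>
        ((fun k => g (Sum.inl k)), fun k => g (Sum.inr k)))
        (gp (Fin n ⊕ Fin 1)) ((gp (Fin n)).prod (gp (Fin 1))) :=
      measurePreserving_sumPiEquivProdPi (fun _ => gaussianReal 0 1)
    have h2 : MeasurePreserving (fun z : Fin 1 → ℝ => z 0) (gp (Fin 1)) (gaussianReal 0 1) :=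
      measurePreserving_eval _ 0
    exact ((MeasurePreserving.id _).prod h2).comp h1
  have m2 : MeasurePreserving (fun g : κ → ℝ => ((fun k => g (Sum.inl k)),
      ((fun k => g (Sum.inr (Sum.inl k))), g (Sum.inr (Sum.inr 0)))))
      (gp κ) ((gp (Fin n)).prod ((gp (Fin n)).prod (gaussianReal 0 1))) := by
    have h1 : MeasurePreserving (fun g : κ → ℝ => ((fun k => g (Sum.inl k)), fun k => g (Sum.inr k)))
        (gp κ) ((gp (Fin n)).prod (gp (Fin n ⊕ Fin 1))) :=
      measurePreserving_sumPiEquivProdPi (fun _ => gaussianReal 0 1)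
    exact ((MeasurePreserving.id _).prod m1).comp h1
  have hA : Measurable fun p : Dis n × (Fin n → ℝ) =>
      F (kmat n β p.1 *ᵥ m, fun i => (kmat n β p.1 *ᵥ m) i + √u * p.2 i) := by
    refine hF.comp ((measurable_pi_lambda _ fun i => ?_).prodMk (measurable_pi_lambda _ fun i => ?_)) <;>
      (simp only [mulVec_pol]; unfold lin; fun_prop)
  have hB : Measurable fun q : (Fin n → ℝ) × (Fin n → ℝ) × ℝ =>
      F (imgOf σ u m q.1 q.2.1 q.2.2, sumOf σ u m q.1 q.2.2) := by
    refine hF.comp ((measurable_pi_lambda _ fun i => ?_).prodMk (measurable_pi_lambda _ fun i => ?_)) <;>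
      (simp only [imgOf, sumOf]; fun_prop)
  exact ((mp.lintegral_comp hA).symm.trans e).trans (m2.lintegral_comp hB)

/-- The image and the coupling compressed off `m` are independent. -/
theorem image_pinch_law (β : ℝ) {m : Fin n → ℝ} (hm : ∑ j, m j ^ 2 ≠ 0)
    (mK : Measurable fun d : Dis n => kmat n β d *ᵥ m) (mP : Measurable (pinch m : Dis n → Dis n)) :
    (disX n).map (fun d => (kmat n β d *ᵥ m, pinch m d))
      = ((disX n).map fun d => kmat n β d *ᵥ m).prod ((disX n).map (pinch m)) := by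
  refine (Measure.prod_eq fun W A hW hA => ?_).symm
  rw [Measure.map_apply (mK.prodMk mP) (hW.prod hA), Measure.map_apply mK hW, Measure.map_apply mP hA]
  have h := cond_indep (β := β) hm hW hA
  simp only [measureReal_def, ← ENNReal.toReal_mul] at h
  exact (ENNReal.toReal_eq_toReal_iff' (measure_ne_top _ _)
    (ENNReal.mul_ne_top (measure_ne_top _ _) (measure_ne_top _ _))).1 h

/-- The bump along the sum, integrated over the standard variable. -/
theorem bump_vec {s G : ℝ} (hs : 0 < s) (hG : 0 < G) (a : Fin n → ℝ) :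
    Integrable (fun Z => exp (-((∑ i, (a i - √G * Z i) ^ 2) / (2 * s ^ 2)))) (gp (Fin n)) ∧
      ∫ Z, exp (-((∑ i, (a i - √G * Z i) ^ 2) / (2 * s ^ 2))) ∂gp (Fin n)
        = (s / √(G + s ^ 2)) ^ n * exp (-((∑ i, a i ^ 2) / (2 * (G + s ^ 2)))) := by
  have hG' : √G ≠ 0 := (sqrt_pos.2 hG).ne'
  have hq : ∀ Z : Fin n → ℝ, exp (-((∑ i, (a i - √G * Z i) ^ 2) / (2 * s ^ 2)))
      = ∏ i, exp (-((Z i - a i / √G) ^ 2 / (2 * (s / √G) ^ 2))) := fun Z => by
    rw [← exp_sum, sum_div, ← sum_neg_distrib]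
    congr 1
    exact sum_congr rfl fun i _ => by field_simp; ring
  constructor
  · simp only [hq]
    exact Integrable.fintype_prod (f := fun i (x : ℝ) =>
      exp (-((x - a i / √G) ^ 2 / (2 * (s / √G) ^ 2))))
      fun i => (integrable_const (1 : ℝ)).mono' (by fun_prop) (ae_of_all _ fun x => by
        rw [norm_of_nonneg (exp_pos _).le]
        exact exp_le_one_iff.2 (neg_nonpos.2 (by positivity)))
  · simp only [hq, gp]
    rw [integral_fintype_prod_eq_prod (f := fun i (x : ℝ) =>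
      exp (-((x - a i / √G) ^ 2 / (2 * (s / √G) ^ 2))))]
    simp only [bump_integral (show 0 < s / √G by positivity), prod_mul_distrib, prod_const, card_univ,
      Fintype.card_fin, ← exp_sum, sum_div, ← sum_neg_distrib]
    have h1 : 1 + (s / √G) ^ 2 = (G + s ^ 2) / G := by
      rw [div_pow, sq_sqrt hG.le]; field_simp
    congr 1
    · congr 1
      rw [h1, sqrt_div (by positivity), div_div_div_cancel_right₀ hG']
    · congr 1
      refine sum_congr rfl fun i _ => ?_
      rw [h1, div_pow, sq_sqrt hG.le]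
      field_simp

/-- The rank-one direction, integrated: the mass and the window around the conditional mean. -/
theorem dir_integral {G σ : ℝ} (hG : 0 < G) (hσ : 0 < σ) (R b d : ℝ) (hd : 0 ≤ d) :
    ∫ ξ, exp (-((R - 2 * σ * ξ * b + σ ^ 2 * ξ ^ 2) / (2 * G))) ∂gaussianReal 0 1
        ≤ exp (-(R / (2 * G)) + σ ^ 2 * b ^ 2 / (2 * G * (G + σ ^ 2))) ∧
      ∫ ξ, {ξ | d ≤ |ξ - σ * b / (G + σ ^ 2)|}.indicator
          (fun ξ => exp (-((R - 2 * σ * ξ * b + σ ^ 2 * ξ ^ 2) / (2 * G)))) ξ ∂gaussianReal 0 1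
        ≤ 2 * exp (-(d ^ 2 / 4)) * exp (-(R / (2 * G)) + σ ^ 2 * b ^ 2 / (2 * G * (G + σ ^ 2))) := by
  set E := exp (-(R / (2 * G)) + σ ^ 2 * b ^ 2 / (2 * G * (G + σ ^ 2))) with hE
  set c := σ * b / (G + σ ^ 2) with hc
  set A := (G + σ ^ 2) / (2 * G) with hA
  have hA2 : 1 / 2 ≤ A := by
    rw [hA, div_le_div_iff₀ two_pos (by positivity)]
    linarith [sq_nonneg σ]
  have hs : G + σ ^ 2 ≠ 0 := by positivity
  have e : ∀ ξ, gaussianPDFReal 0 1 ξ * exp (-((R - 2 * σ * ξ * b + σ ^ 2 * ξ ^ 2) / (2 * G)))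
      = (√(2 * π))⁻¹ * E * exp (-A * (ξ - c) ^ 2) := fun ξ => by
    simp only [gaussianPDFReal, NNReal.coe_one, mul_one, sub_zero, hE]
    rw [mul_assoc, mul_assoc (√(2 * π))⁻¹, ← exp_add, ← exp_add]
    congr 2
    rw [hA, hc]
    field_simp
    ring
  have hint : ∀ B : ℝ, 0 < B → Integrable fun ξ : ℝ => exp (-B * (ξ - c) ^ 2) := fun B hB =>
    (integrable_exp_neg_mul_sq hB).comp_sub_right c
  have hval : ∀ B : ℝ, ∫ ξ : ℝ, exp (-B * (ξ - c) ^ 2) = √(π / B) := fun B => by
    rw [integral_sub_right_eq_self (fun z => exp (-B * z ^ 2)) c, integral_gaussian]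
  have h2π : 0 < √(2 * π) := sqrt_pos.2 (by positivity)
  constructor
  · rw [integral_gaussianReal_eq_integral_smul one_ne_zero]
    simp only [smul_eq_mul, e, integral_const_mul, hval]
    calc (√(2 * π))⁻¹ * E * √(π / A) ≤ (√(2 * π))⁻¹ * E * √(2 * π) := by
          refine mul_le_mul_of_nonneg_left (sqrt_le_sqrt ?_) (by positivity)
          rw [div_le_iff₀ (by linarith)]
          nlinarith [pi_pos]
      _ = E := by field_simp
  · set S := {ξ : ℝ | d ≤ |ξ - c|}
    have hS : MeasurableSet S := (isClosed_le continuous_const (by fun_prop)).measurableSet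
    rw [integral_gaussianReal_eq_integral_smul one_ne_zero]
    have e2 : ∀ ξ, gaussianPDFReal 0 1 ξ • S.indicator
        (fun ξ => exp (-((R - 2 * σ * ξ * b + σ ^ 2 * ξ ^ 2) / (2 * G)))) ξ
        = S.indicator (fun ξ => (√(2 * π))⁻¹ * E * exp (-A * (ξ - c) ^ 2)) ξ := fun ξ => by
      by_cases hξ : ξ ∈ S
      · simp only [Set.indicator_of_mem hξ, smul_eq_mul, e]
      · simp only [Set.indicator_of_notMem hξ, smul_zero]
    simp only [e2]
    have hpt : ∀ ξ, S.indicator (fun ξ => (√(2 * π))⁻¹ * E * exp (-A * (ξ - c) ^ 2)) ξ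
        ≤ (√(2 * π))⁻¹ * E * exp (-(d ^ 2 / 4)) * exp (-(A - 1 / 4) * (ξ - c) ^ 2) := fun ξ => by
      by_cases hξ : ξ ∈ S
      · rw [Set.indicator_of_mem hξ, mul_assoc _ (exp (-(d ^ 2 / 4))), ← exp_add]
        refine mul_le_mul_of_nonneg_left (exp_le_exp.2 ?_) (by positivity)
        have : d ^ 2 ≤ (ξ - c) ^ 2 := by
          rw [← sq_abs (ξ - c)]; exact pow_le_pow_left₀ hd hξ 2
        linarith
      · rw [Set.indicator_of_notMem hξ]; positivity
    refine (integral_mono (((hint A (by linarith)).const_mul _).indicator hS)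
      ((hint (A - 1 / 4) (by linarith)).const_mul _) hpt).trans ?_
    rw [integral_const_mul, hval]
    calc (√(2 * π))⁻¹ * E * exp (-(d ^ 2 / 4)) * √(π / (A - 1 / 4))
        ≤ (√(2 * π))⁻¹ * E * exp (-(d ^ 2 / 4)) * (2 * √(2 * π)) := by
          refine mul_le_mul_of_nonneg_left ?_ (by positivity)
          rw [show (2 : ℝ) * √(2 * π) = √(4 * (2 * π)) by
            rw [sqrt_mul (by norm_num) (2 * π), show (4 : ℝ) = 2 ^ 2 by norm_num, sqrt_sq two_pos.le]]
          refine sqrt_le_sqrt ?_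
          rw [div_le_iff₀ (by linarith)]
          nlinarith [pi_pos]
      _ = 2 * exp (-(d ^ 2 / 4)) * E := by field_simp

end Vale.Agent.P150.Fast.Transfer
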