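import Vale.Agent.P150.Fast.TransferMargin
import Vale.Agent.P150.Fast.TransferImage
import Vale.Agent.P150.Fast.TransferCount

/-!
Typical images are good (P150): at fields with replica-symmetric statistics, in the window of the
rank-one direction and of the bump, the image has the statistics required by the margin, up to a
constant times the common small parameter.
-/

open MeasureTheory Real Finset Filter Matrix

namespace Vale.Agent.P150.Fast.Transfer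

variable {n : ℕ}

/-- Fields with the replica-symmetric statistics and little energy on sparse sets. -/
def XGood (t u q C z σ : ℝ) (x : Fin n → ℝ) : Prop :=
  |(∑ i, tanh (x i) ^ 2) / (n : ℝ) - q| ≤ z ∧
  |(∑ i, tanh (x i)) / (n : ℝ) - q| ≤ z ∧
  |(∑ i, (x i - (u + t * q)) * tanh (x i)) / (n : ℝ) - (u + t * q) * (1 - q)| ≤ z ∧
  |(∑ i, (1 - tanh (x i) ^ 2) * (2 * tanh (x i) + (x i - (u + t * q)) / (u + t * q))) / (n : ℝ)| ≤ z ∧
  (∑ i, (1 - tanh (x i) ^ 2) * (2 * tanh (x i) + (x i - (u + t * q)) / (u + t * q)) ^ 2) / (n : ℝ)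
    ≤ 2 + (1 - q) / (u + t * q) + z ∧
  ∑ i, (x i - (u + t * q)) ^ 2 ≤ C * n ∧
  ∀ S : Finset (Fin n), (S.card : ℝ) ≤ σ * n → ∑ i ∈ S, (x i - (u + t * q)) ^ 2 ≤ z * n

/-- Noise with small weighted sums and little energy on sparse sets. -/
def WGood (z σ : ℝ) (m b w : Fin n → ℝ) : Prop :=
  |∑ i, w i * (1 - m i ^ 2)| ≤ z * n ∧
  |∑ i, w i * ((1 - m i ^ 2) * b i)| ≤ z * n ∧
  |∑ i, w i * m i| ≤ z * n ∧
  √(∑ i, (1 - m i ^ 2) * w i ^ 2) ≤ √(1 - (∑ j, m j ^ 2) / (n : ℝ)) * √n + z * √n ∧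
  ∑ i, w i ^ 2 ≤ 4 * n ∧
  ∀ S : Finset (Fin n), (S.card : ℝ) ≤ σ * n → ∑ i ∈ S, w i ^ 2 ≤ z * n

theorem abs_sum_mul_le {a b : Fin n → ℝ} {A B : ℝ} (hA : 0 ≤ A) (hB : 0 ≤ B)
    (ha : ∑ i, a i ^ 2 ≤ A ^ 2 * n) (hb : ∑ i, b i ^ 2 ≤ B ^ 2 * n) :
    |∑ i, a i * b i| ≤ A * B * n := by
  refine abs_le_of_sq_le_sq ?_ (by positivity)
  refine (sum_mul_sq_le_sq_mul_sq _ _ _).trans ((mul_le_mul ha hb (sum_nonneg fun i _ => sq_nonneg _)
    (by positivity)).trans_eq ?_)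
  ring

theorem sq_three (a b c : ℝ) : (a + b + c) ^ 2 ≤ 3 * (a ^ 2 + b ^ 2 + c ^ 2) := by
  linarith [sq_nonneg (a - b), sq_nonneg (a - c), sq_nonneg (b - c)]

/-- Weighted first moment. -/
theorem wsum_bound {v b w E : Fin n → ℝ} {k K z L : ℝ} (hk : |k| ≤ K) (hL : 0 ≤ L)
    (hz : 0 ≤ z) (hv : ∀ i, 0 ≤ v i ∧ v i ≤ 1) (h1 : |∑ i, v i * b i| ≤ z * n)
    (h2 : |∑ i, w i * v i| ≤ z * n) (hE : ∑ i, E i ^ 2 ≤ (L * z) ^ 2 * n) :
    |∑ i, v i * (b i + k * w i + E i)| ≤ (1 + K + L) * z * n := by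
  have hvv : ∑ i, v i ^ 2 ≤ 1 ^ 2 * (n : ℝ) := by
    refine le_trans (sum_le_sum fun i _ => pow_le_one₀ (hv i).1 (hv i).2) ?_
    simp
  have h3 := abs_sum_mul_le zero_le_one (mul_nonneg hL hz) hvv hE
  have e : ∑ i, v i * (b i + k * w i + E i)
      = ∑ i, v i * b i + k * ∑ i, w i * v i + ∑ i, v i * E i := by
    rw [mul_sum, ← sum_add_distrib, ← sum_add_distrib]
    exact sum_congr rfl fun i _ => by ring
  rw [e]
  refine (abs_add_three _ _ _).trans ?_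
  have h4 : |k * ∑ i, w i * v i| ≤ K * (z * n) := by
    rw [abs_mul]
    exact mul_le_mul hk h2 (abs_nonneg _) ((abs_nonneg _).trans hk)
  linarith

/-- Weighted second moment. -/
theorem wsq_bound {v b w E : Fin n → ℝ} {k K z L Db S0 V : ℝ} (hk : |k| ≤ K) (hL : 0 ≤ L) (hDb : 0 ≤ Db)
    (hz : 0 ≤ z) (hz1 : z ≤ 1) (hv : ∀ i, 0 ≤ v i ∧ v i ≤ 1) (h1 : ∑ i, v i * b i ^ 2 ≤ S0 * n)
    (h2 : |∑ i, w i * (v i * b i)| ≤ z * n) (h3 : ∑ i, v i * w i ^ 2 ≤ V * n)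
    (h4 : ∑ i, (b i + k * w i) ^ 2 ≤ Db ^ 2 * n) (hE : ∑ i, E i ^ 2 ≤ (L * z) ^ 2 * n) :
    ∑ i, v i * (b i + k * w i + E i) ^ 2
      ≤ (S0 + k ^ 2 * V + (2 * K + 2 * Db * L + L ^ 2) * z) * n := by
  have hvb : ∑ i, (v i * (b i + k * w i)) ^ 2 ≤ Db ^ 2 * n := le_trans (sum_le_sum fun i _ => by
    rw [mul_pow]; exact mul_le_of_le_one_left (sq_nonneg _) (pow_le_one₀ (hv i).1 (hv i).2)) h4
  have h5 := abs_sum_mul_le hDb (mul_nonneg hL hz) hvb hE
  have e : ∑ i, v i * (b i + k * w i + E i) ^ 2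
      = ∑ i, v i * b i ^ 2 + 2 * k * ∑ i, w i * (v i * b i) + k ^ 2 * ∑ i, v i * w i ^ 2
        + 2 * ∑ i, v i * (b i + k * w i) * E i + ∑ i, v i * E i ^ 2 := by
    simp only [mul_sum, ← sum_add_distrib]
    exact sum_congr rfl fun i _ => by ring
  rw [e]
  have h6 : 2 * k * ∑ i, w i * (v i * b i) ≤ 2 * K * (z * n) := by
    refine (le_abs_self _).trans ?_
    rw [abs_mul, abs_mul, abs_two]
    exact mul_le_mul (mul_le_mul_of_nonneg_left hk two_pos.le) h2 (abs_nonneg _)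
      (mul_nonneg two_pos.le ((abs_nonneg _).trans hk))
  have h7 : ∑ i, v i * E i ^ 2 ≤ L ^ 2 * z * n := by
    refine le_trans (sum_le_sum fun i _ => mul_le_of_le_one_left (sq_nonneg _) (hv i).2) (hE.trans ?_)
    refine mul_le_mul_of_nonneg_right ?_ (Nat.cast_nonneg n)
    rw [mul_pow]
    exact mul_le_mul_of_nonneg_left (pow_le_of_le_one hz hz1 two_ne_zero) (sq_nonneg L)
  have h8 := mul_le_mul_of_nonneg_left h3 (sq_nonneg k)
  linarith [(abs_le.1 h5).2]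

/-- The scale of the rank-one direction is the Onsager coefficient. -/
theorem dir_near {t u q qx px B s ξ z U a : ℝ} (hn : 0 < n) (ht : 0 < t) (ht1 : t ≤ 1) (ha : 0 < a)
    (hu : 0 ≤ u) (huU : u ≤ U) (hq : 0 ≤ q) (hq1 : q ≤ 1) (hqx0 : 0 < qx) (hqx1 : qx ≤ 1) (hz : 0 ≤ z)
    (hs : s ^ 2 ≤ z) (hqq : |qx - q| ≤ z) (hpq : |px - q| ≤ z) (hpx : |px| ≤ 1)
    (hB : |B - (u + t * q) * (1 - q)| ≤ z) (haG : a ≤ u + t * qx + s ^ 2 + t * qx)
    (hξ : |ξ - √(t * qx) * ((n : ℝ) * (B - t * (px - q) * px + t * (1 - qx) * qx) / √(qx * n))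
      / (u + t * qx + s ^ 2 + t * qx)| ≤ z * √n) :
    |√(t * qx) / √(qx * n) * ξ - t * (1 - qx)| ≤ (1 + (U + 5) / a) * z := by
  have hn' : (0 : ℝ) < n := by exact_mod_cast hn
  set X := B - t * (px - q) * px + t * (1 - qx) * qx
  set D := u + t * qx + s ^ 2 + t * qx
  have hD : 0 < D := lt_of_lt_of_le ha haG
  have hsn : 0 < √(n : ℝ) := sqrt_pos.2 hn'
  have hsq : 0 < √qx := sqrt_pos.2 hqx0
  have e1 : √(t * qx) / √(qx * n) = √t / √n := by
    rw [sqrt_mul ht.le, sqrt_mul hqx0.le]; field_simp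
  have e2 : √(t * qx) * ((n : ℝ) * X / √(qx * n)) / D = √t * √n * (X / D) := by
    rw [sqrt_mul ht.le, sqrt_mul hqx0.le]
    field_simp
    rw [sq_sqrt hn'.le]
    ring
  rw [e2] at hξ
  rw [e1]
  have e3 : √t / √n * ξ - t * (1 - qx)
      = √t / √n * (ξ - √t * √n * (X / D)) + t * (X - (1 - qx) * D) / D := by
    field_simp
    linear_combination (√n * X) * sq_sqrt ht.le
  rw [e3]
  have h1 : |√t / √n * (ξ - √t * √n * (X / D))| ≤ z := by
    rw [abs_mul, abs_of_nonneg (show 0 ≤ √t / √n by positivity)]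
    refine (mul_le_mul_of_nonneg_left hξ (by positivity)).trans ?_
    rw [show √t / √n * (z * √n) = √t * z by field_simp]
    exact mul_le_of_le_one_left hz (sqrt_le_one.2 ht1)
  have h2 : |X - (1 - qx) * D| ≤ (U + 5) * z := by
    have e : X - (1 - qx) * D = (B - (u + t * q) * (1 - q)) - t * (px - q) * px
        + ((qx - q) * (u + t * q) - (1 - qx) * (t * (qx - q))) - (1 - qx) * s ^ 2 := by
      simp only [X, D]; ring
    have p1 : |t * (px - q) * px| ≤ z := by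
      rw [abs_mul, abs_mul, abs_of_pos ht]
      calc t * |px - q| * |px| ≤ 1 * z * 1 :=
            mul_le_mul (mul_le_mul ht1 hpq (abs_nonneg _) zero_le_one) hpx (abs_nonneg _) (by linarith)
        _ = z := by ring
    have p2 : |(qx - q) * (u + t * q)| ≤ (U + 1) * z := by
      rw [abs_mul, mul_comm, abs_of_nonneg (show 0 ≤ u + t * q by positivity)]
      exact mul_le_mul (by linarith [mul_le_one₀ ht1 hq hq1]) hqq (abs_nonneg _) (by linarith)
    have p3 : |(1 - qx) * (t * (qx - q))| ≤ z := by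
      rw [abs_mul, abs_mul, abs_of_pos ht, abs_of_nonneg (show 0 ≤ 1 - qx by linarith)]
      exact (mul_le_of_le_one_left (by positivity) (by linarith)).trans
        ((mul_le_of_le_one_left (abs_nonneg _) ht1).trans hqq)
    have p4 : |(1 - qx) * s ^ 2| ≤ z := by
      rw [abs_of_nonneg (mul_nonneg (by linarith) (sq_nonneg s))]
      exact (mul_le_of_le_one_left (sq_nonneg s) (by linarith)).trans hs
    obtain ⟨a1, a2⟩ := abs_le.1 hB
    obtain ⟨b1, b2⟩ := abs_le.1 p1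
    obtain ⟨c1, c2⟩ := abs_le.1 p2
    obtain ⟨d1, d2⟩ := abs_le.1 p3
    obtain ⟨f1, f2⟩ := abs_le.1 p4
    rw [e, abs_le]
    constructor <;> linarith
  have h3 : |t * (X - (1 - qx) * D) / D| ≤ (U + 5) / a * z := by
    rw [abs_div, abs_mul, abs_of_pos ht, abs_of_pos hD, div_mul_eq_mul_div]
    exact div_le_div₀ (mul_nonneg (by linarith) hz)
      ((mul_le_of_le_one_left (abs_nonneg _) ht1).trans h2) ha haG
  refine (abs_add_le _ _).trans ?_
  linarith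

/-- The decomposition of the image into the field part, the noise and the error. -/
theorem img_split (σc u t q qx : ℝ) (hσ : σc ^ 2 = t * qx) (hG : 0 < σc ^ 2 + u) (m r0 Z w : Fin n → ℝ)
    (ξ px : ℝ) (x : Fin n → ℝ) (i : Fin n) (hN : ∑ j, m j ^ 2 = qx * n)
    (hr0 : r0 i = (x i - (u + t * q)) - t * (px - q) + t * (1 - qx) * m i) :
    imgOf σc u m Z w ξ i - t * (1 - qx) * m i
      = t * qx / (u + t * qx) * (x i - (u + t * q)) + σc * √u / √(σc ^ 2 + u) * w i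
        + ((σc / √(qx * n) * ξ - t * (1 - qx)) * (1 - t * qx / (u + t * qx)) * m i
          - t * qx / (u + t * qx) * (r0 i - sumOf σc u m Z ξ i + t * (px - q))) := by
  have hs : √(σc ^ 2 + u) ^ 2 = σc ^ 2 + u := sq_sqrt hG.le
  have hne : √(σc ^ 2 + u) ≠ 0 := (sqrt_pos.2 hG).ne'
  have hGne : u + t * qx ≠ 0 := by rw [← hσ, add_comm]; exact hG.ne'
  have hZ : σc ^ 2 / √(σc ^ 2 + u) * Z i = t * qx / (u + t * qx) * (√(σc ^ 2 + u) * Z i) := by
    rw [← hσ, show u + σc ^ 2 = σc ^ 2 + u from add_comm _ _]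
    field_simp
    rw [hs]
  simp only [imgOf, sumOf, hN, hr0, hZ]
  ring

/-- The bounds on the three parts. -/
theorem spec_stats {qx z σ K L Db S0 C : ℝ} (hn : 0 < n) (hz : 0 ≤ z) (hz1 : z ≤ 1)
    (hσz : σ ≤ z) (hL : 0 ≤ L) (hDb : 0 ≤ Db) (hC : 0 ≤ C) {m y w b E : Fin n → ℝ} {k : ℝ}
    (hk : |k| ≤ K) (hm1 : ∀ i, |m i| ≤ 1) (hb1 : |(∑ i, (1 - m i ^ 2) * b i) / (n : ℝ)| ≤ z)
    (hb2 : (∑ i, (1 - m i ^ 2) * b i ^ 2) / (n : ℝ) ≤ S0)
    (hw : WGood z σ m b w) (hqx : (∑ j, m j ^ 2) / (n : ℝ) = qx) (hqx1 : qx ≤ 1)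
    (hDb4 : ∑ i, (b i + k * w i) ^ 2 ≤ Db ^ 2 * n) (hE : ∑ i, E i ^ 2 ≤ (L * z) ^ 2 * n)
    (hby : ∀ i, b i ^ 2 ≤ 8 + C * y i ^ 2)
    (hy : ∀ S : Finset (Fin n), (S.card : ℝ) ≤ σ * n → ∑ i ∈ S, y i ^ 2 ≤ z * n) :
    |∑ i, (1 - m i ^ 2) * (b i + k * w i + E i)| ≤ (1 + K + L) * z * n ∧
      ∑ i, (1 - m i ^ 2) * (b i + k * w i + E i) ^ 2
        ≤ (S0 + k ^ 2 * (1 - qx) + (3 * K ^ 2 + 2 * K + 2 * Db * L + L ^ 2) * z) * n ∧
      ∀ S : Finset (Fin n), (S.card : ℝ) ≤ σ * n →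
        ∑ i ∈ S, (b i + k * w i + E i) ^ 2 ≤ 3 * (8 + C + K ^ 2 + L ^ 2) * z * n := by
  have hn' : (0 : ℝ) < n := by exact_mod_cast hn
  obtain ⟨w1, w2, -, w4, -, w6⟩ := hw
  have hv : ∀ i, 0 ≤ 1 - m i ^ 2 ∧ 1 - m i ^ 2 ≤ 1 := fun i =>
    ⟨sub_nonneg.2 ((sq_le_one_iff_abs_le_one _).2 (hm1 i)), sub_le_self _ (sq_nonneg _)⟩
  rw [abs_div, abs_of_pos hn', div_le_iff₀ hn'] at hb1
  rw [div_le_iff₀ hn'] at hb2
  rw [hqx] at w4
  have hw2 : ∑ i, (1 - m i ^ 2) * w i ^ 2 ≤ (1 - qx + 3 * z) * n := by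
    have h0 : 0 ≤ ∑ i, (1 - m i ^ 2) * w i ^ 2 := sum_nonneg fun i _ => mul_nonneg (hv i).1 (sq_nonneg _)
    have h1 := pow_le_pow_left₀ (sqrt_nonneg _) w4 2
    rw [sq_sqrt h0] at h1
    refine h1.trans ?_
    rw [← add_mul, mul_pow, sq_sqrt hn'.le]
    refine mul_le_mul_of_nonneg_right ?_ hn'.le
    rw [add_sq, sq_sqrt (by linarith)]
    have h2 : √(1 - qx) ≤ 1 := sqrt_le_one.2 (by
      have : 0 ≤ qx := hqx ▸ div_nonneg (sum_nonneg fun j _ => sq_nonneg _) hn'.le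
      linarith)
    have h3 := mul_le_mul_of_nonneg_right h2 hz
    have h4 := pow_le_of_le_one hz hz1 two_ne_zero
    linarith
  refine ⟨wsum_bound hk hL hz hv hb1 w1 hE, ?_, fun S hS => ?_⟩
  · refine (wsq_bound hk hL hDb hz hz1 hv hb2 w2 hw2 hDb4 hE).trans ?_
    refine mul_le_mul_of_nonneg_right ?_ hn'.le
    have h1 : k ^ 2 ≤ K ^ 2 := by rw [← sq_abs k]; exact pow_le_pow_left₀ (abs_nonneg _) hk 2
    have := mul_le_mul_of_nonneg_right h1 (show 0 ≤ 3 * z by linarith)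
    linarith
  · calc ∑ i ∈ S, (b i + k * w i + E i) ^ 2
        ≤ ∑ i ∈ S, 3 * ((8 + C * y i ^ 2) + k ^ 2 * w i ^ 2 + E i ^ 2) := by
          refine sum_le_sum fun i _ => (sq_three _ _ _).trans ?_
          rw [mul_pow]
          linarith [hby i]
      _ = 3 * (8 * S.card + C * ∑ i ∈ S, y i ^ 2 + k ^ 2 * ∑ i ∈ S, w i ^ 2 + ∑ i ∈ S, E i ^ 2) := by
          simp only [← mul_sum, sum_add_distrib, sum_const, nsmul_eq_mul]
          ring
      _ ≤ 3 * (8 * (z * n) + C * (z * n) + K ^ 2 * (z * n) + L ^ 2 * (z * n)) := by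
          refine mul_le_mul_of_nonneg_left ?_ (by norm_num)
          have a1 : (S.card : ℝ) ≤ z * n := hS.trans (mul_le_mul_of_nonneg_right hσz hn'.le)
          have a2 := mul_le_mul_of_nonneg_left (hy S hS) hC
          have a3 : k ^ 2 * ∑ i ∈ S, w i ^ 2 ≤ K ^ 2 * (z * n) :=
            mul_le_mul (by rw [← sq_abs k]; exact pow_le_pow_left₀ (abs_nonneg _) hk 2) (w6 S hS)
              (sum_nonneg fun i _ => sq_nonneg _) (sq_nonneg K)
          have a4 : ∑ i ∈ S, E i ^ 2 ≤ L ^ 2 * (z * n) := by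
            refine (sum_le_sum_of_subset_of_nonneg (subset_univ S) fun i _ _ => sq_nonneg _).trans (hE.trans ?_)
            rw [mul_pow, mul_assoc]
            exact mul_le_mul_of_nonneg_left (mul_le_mul_of_nonneg_right
              (pow_le_of_le_one hz hz1 two_ne_zero) hn'.le) (sq_nonneg L)
          linarith
      _ = _ := by ring

/-- The base second moment at the actual overlap. -/
theorem base_shift {t u q qx a U z : ℝ} (ha : 0 < a) (ht : 0 < t) (ht1 : t ≤ 1) (hu : 0 ≤ u) (huU : u ≤ U)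
    (hqx0 : 0 < qx) (hqq : |qx - q| ≤ z) (h0 : a ≤ u + t * q)
    (hx : a ≤ u + t * qx) :
    (1 - q) / (u + t * q) + u / ((u + t * qx) * (t * qx)) * (1 - qx)
      ≤ (1 - qx) / (t * qx) + (U + 2) / a ^ 2 * z := by
  have hGx : 0 < u + t * qx := lt_of_lt_of_le ha hx
  have hG0 : 0 < u + t * q := lt_of_lt_of_le ha h0
  have e : u / ((u + t * qx) * (t * qx)) * (1 - qx) = (1 - qx) / (t * qx) - (1 - qx) / (u + t * qx) := by
    field_simp
    ring
  have hd : (1 - q) / (u + t * q) - (1 - qx) / (u + t * qx) ≤ (U + 2) / a ^ 2 * z := by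
    rw [div_sub_div _ _ hG0.ne' hGx.ne', div_mul_eq_mul_div]
    have h1 : (1 - q) * (u + t * qx) - (u + t * q) * (1 - qx) ≤ (U + 2) * z := by
      have e1 : (1 - q) * (u + t * qx) - (u + t * q) * (1 - qx) = (qx - q) * (u + t) := by ring
      rw [e1]
      refine le_trans (le_abs_self _) ?_
      rw [abs_mul, mul_comm, abs_of_nonneg (show 0 ≤ u + t by positivity)]
      exact mul_le_mul (by linarith) hqq (abs_nonneg _) (by linarith)
    refine div_le_div₀ (mul_nonneg (by linarith) ((abs_nonneg _).trans hqq)) h1 (by positivity) ?_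
    rw [pow_two]
    exact mul_le_mul h0 hx ha.le hG0.le
  linarith

/-- Energy of a combination of two vectors. -/
theorem sum_sq_lin {y e : Fin n → ℝ} {d g D G A B : ℝ} (hd : |d| ≤ D) (hg : |g| ≤ G) (hA : 0 ≤ A)
    (hB : 0 ≤ B) (hy : ∑ i, y i ^ 2 ≤ A ^ 2 * n) (he : ∑ i, e i ^ 2 ≤ B ^ 2 * n) :
    ∑ i, (d * y i + g * e i) ^ 2 ≤ (2 * (D * A + G * B)) ^ 2 * n := by
  have hD := (abs_nonneg d).trans hd
  have hG := (abs_nonneg g).trans hg
  have h1 : d ^ 2 ≤ D ^ 2 := by rw [← sq_abs d]; exact pow_le_pow_left₀ (abs_nonneg _) hd 2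
  have h2 : g ^ 2 ≤ G ^ 2 := by rw [← sq_abs g]; exact pow_le_pow_left₀ (abs_nonneg _) hg 2
  calc ∑ i, (d * y i + g * e i) ^ 2 ≤ ∑ i, (2 * D ^ 2 * y i ^ 2 + 2 * G ^ 2 * e i ^ 2) := by
        refine sum_le_sum fun i _ => ?_
        linarith [sq_nonneg (d * y i - g * e i), mul_le_mul_of_nonneg_right h1 (sq_nonneg (y i)),
          mul_le_mul_of_nonneg_right h2 (sq_nonneg (e i))]
    _ = 2 * D ^ 2 * ∑ i, y i ^ 2 + 2 * G ^ 2 * ∑ i, e i ^ 2 := by
        rw [sum_add_distrib, ← mul_sum, ← mul_sum]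
    _ ≤ 2 * D ^ 2 * (A ^ 2 * n) + 2 * G ^ 2 * (B ^ 2 * n) := by gcongr
    _ ≤ _ := by
        have : 0 ≤ (n : ℝ) * (D * A) * (G * B) := by positivity
        have : 0 ≤ (n : ℝ) * (D ^ 2 * A ^ 2) := by positivity
        have : 0 ≤ (n : ℝ) * (G ^ 2 * B ^ 2) := by positivity
        linarith

/-- Length of the image. -/
theorem img_energy {c f k C L qx δ : ℝ} (hn : 0 < n) (hc : c ^ 2 ≤ 1) (hf : f ^ 2 ≤ 1) (hk : k ^ 2 ≤ 1)
    (hC : 0 ≤ C) (hδ : 0 < δ) (hqx : δ / 2 ≤ qx) (hqx1 : qx ≤ 1) {m y w e : Fin n → ℝ}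
    (hm : ∑ i, m i ^ 2 = qx * n) (hy : ∑ i, y i ^ 2 ≤ C * n) (hw : ∑ i, w i ^ 2 ≤ 4 * n)
    (he : ∑ i, e i ^ 2 ≤ L ^ 2 * n) :
    ∑ i, (c * m i + f * y i + k * w i + e i) ^ 2
      ≤ (√(4 * (1 + C + 4 + L ^ 2) * (2 / δ)) + 1) ^ 2 * (qx * n) := by
  have hn' : (0 : ℝ) < n := by exact_mod_cast hn
  have hqx0 : 0 < qx := by linarith
  set W2 := 4 * (1 + C + 4 + L ^ 2) * (2 / δ) with hW2d
  calc ∑ i, (c * m i + f * y i + k * w i + e i) ^ 2
      ≤ ∑ i, 4 * (m i ^ 2 + y i ^ 2 + w i ^ 2 + e i ^ 2) := by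
        refine sum_le_sum fun i _ => ?_
        linarith [mul_le_of_le_one_left (sq_nonneg (m i)) hc, mul_le_of_le_one_left (sq_nonneg (y i)) hf,
          mul_le_of_le_one_left (sq_nonneg (w i)) hk, sq_nonneg (c * m i + f * y i - (k * w i + e i)),
          sq_nonneg (c * m i - f * y i), sq_nonneg (k * w i - e i)]
    _ = 4 * (qx * n + ∑ i, y i ^ 2 + ∑ i, w i ^ 2 + ∑ i, e i ^ 2) := by
        rw [← mul_sum, sum_add_distrib, sum_add_distrib, sum_add_distrib, hm]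
    _ ≤ 4 * (1 * n + C * n + 4 * n + L ^ 2 * n) := by gcongr
    _ = 4 * (1 + C + 4 + L ^ 2) * 1 * n := by ring
    _ ≤ 4 * (1 + C + 4 + L ^ 2) * (2 / δ * qx) * n := by
        gcongr
        rw [div_mul_eq_mul_div, le_div_iff₀ hδ]; linarith
    _ = W2 * (qx * n) := by rw [hW2d]; ring
    _ ≤ (√W2 + 1) ^ 2 * (qx * n) := by
        gcongr
        linarith [sq_sqrt (show 0 ≤ W2 by positivity), sqrt_nonneg W2]

/-- Correlation of the image with the configuration. -/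
theorem corr_bound {t u q qx z U L : ℝ} (hn : 0 < n) (ht : 0 < t) (ht1 : t ≤ 1) (hu : 0 ≤ u)
    (huU : u ≤ U) (hq : 0 ≤ q) (hq1 : q ≤ 1) (hqx0 : 0 < qx) (hqx1 : qx ≤ 1) (hz : 0 ≤ z) (hL : 0 ≤ L)
    (hqq : |qx - q| ≤ z) {k : ℝ} (hk : |k| ≤ 1) {m y w e : Fin n → ℝ} (hm : ∑ i, m i ^ 2 = qx * n)
    (hB : |(∑ i, y i * m i) / (n : ℝ) - (u + t * q) * (1 - q)| ≤ z) (hw : |∑ i, w i * m i| ≤ z * n)
    (he : ∑ i, e i ^ 2 ≤ (L * z) ^ 2 * n) :
    |∑ i, m i * (t * qx / (u + t * qx) * y i + k * w i + e i) - t * (1 - qx) * qx * n|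
      ≤ (U + 3 + L) * z * n := by
  have hn' : (0 : ℝ) < n := by exact_mod_cast hn
  have hGx : 0 < u + t * qx := by positivity
  set f := t * qx / (u + t * qx)
  have hf0 : 0 ≤ f := by positivity
  have hf1 : f ≤ 1 := (div_le_one hGx).2 (by linarith)
  have e1 : t * (1 - qx) * qx = f * ((u + t * qx) * (1 - qx)) := by simp only [f]; field_simp
  have e2 : ∑ i, m i * (f * y i + k * w i + e i)
      = f * ∑ i, y i * m i + k * ∑ i, w i * m i + ∑ i, m i * e i := by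
    rw [mul_sum, mul_sum, ← sum_add_distrib, ← sum_add_distrib]
    exact sum_congr rfl fun i _ => by ring
  have e3 : ∑ i, m i * (f * y i + k * w i + e i) - t * (1 - qx) * qx * n
      = f * (∑ i, y i * m i - (u + t * q) * (1 - q) * n) + f * ((qx - q) * (u - t + t * (q + qx))) * n
        + k * ∑ i, w i * m i + ∑ i, m i * e i := by
    rw [e2, e1]; ring
  rw [e3]
  have q1 : |f * (∑ i, y i * m i - (u + t * q) * (1 - q) * n)| ≤ 1 * (z * n) := by
    rw [abs_mul, abs_of_nonneg hf0]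
    refine mul_le_mul hf1 ?_ (abs_nonneg _) zero_le_one
    have h := mul_le_mul_of_nonneg_right hB hn'.le
    rwa [← abs_of_pos hn', ← abs_mul, abs_of_pos hn', sub_mul, div_mul_cancel₀ _ hn'.ne'] at h
  have q2 : |f * ((qx - q) * (u - t + t * (q + qx))) * n| ≤ 1 * (z * (U + 1)) * n := by
    rw [abs_mul, abs_mul, abs_mul, abs_of_nonneg hf0, abs_of_pos hn']
    gcongr
    rw [abs_le]
    have := mul_nonneg ht.le (show 0 ≤ q + qx by linarith)
    have := mul_le_mul_of_nonneg_left (show q + qx ≤ 2 by linarith) ht.le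
    constructor <;> linarith
  have q3 : |k * ∑ i, w i * m i| ≤ 1 * (z * n) := by
    rw [abs_mul]; exact mul_le_mul hk hw (abs_nonneg _) zero_le_one
  have q4 : |∑ i, m i * e i| ≤ 1 * (L * z) * n := by
    refine abs_sum_mul_le zero_le_one (by positivity) ?_ he
    rw [hm]; exact mul_le_mul_of_nonneg_right (by linarith) hn'.le
  refine (abs_add_le _ _).trans (le_trans (add_le_add (abs_add_three _ _ _) q4) ?_)
  linarith

/-- Energy of the error of the image. -/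
theorem err_energy {t qx px q A L f z : ℝ} (ht : 0 ≤ t) (ht1 : t ≤ 1) (hz : 0 ≤ z) (hf0 : 0 ≤ f)
    (hf1 : f ≤ 1) (hL : 0 ≤ L) (hqx1 : qx ≤ 1) (hpq : |px - q| ≤ z) (hA : |A| ≤ L * z) {m v : Fin n → ℝ}
    (hm : ∑ i, m i ^ 2 = qx * n) (hv : ∑ i, v i ^ 2 ≤ z ^ 2 * n) :
    ∑ i, (A * (1 - f) * m i - f * (v i + t * (px - q))) ^ 2 ≤ (2 * (L + 2) * z) ^ 2 * n := by
  calc ∑ i, (A * (1 - f) * m i - f * (v i + t * (px - q))) ^ 2
      ≤ ∑ i, 3 * ((L * z) ^ 2 * m i ^ 2 + v i ^ 2 + z ^ 2) := by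
        refine sum_le_sum fun i _ => ?_
        have e : A * (1 - f) * m i - f * (v i + t * (px - q))
            = A * (1 - f) * m i + -(f * v i) + -(f * (t * (px - q))) := by ring
        rw [e]
        refine (sq_three _ _ _).trans (mul_le_mul_of_nonneg_left ?_ (by norm_num))
        refine add_le_add (add_le_add ?_ ?_) ?_
        · rw [mul_pow, mul_pow]
          refine mul_le_mul_of_nonneg_right ?_ (sq_nonneg _)
          refine (mul_le_of_le_one_right (sq_nonneg _) (pow_le_one₀ (by linarith) (by linarith))).trans ?_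
          rw [← sq_abs A]
          exact pow_le_pow_left₀ (abs_nonneg _) hA 2
        · rw [neg_sq, mul_pow]
          exact mul_le_of_le_one_left (sq_nonneg _) (pow_le_one₀ hf0 hf1)
        · rw [neg_sq]
          refine sq_le_sq.2 ?_
          rw [abs_mul, abs_mul, abs_of_nonneg hf0, abs_of_nonneg ht, abs_of_nonneg hz]
          exact (mul_le_of_le_one_left (by positivity) hf1).trans
            ((mul_le_of_le_one_left (abs_nonneg _) ht1).trans hpq)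
    _ = 3 * ((L * z) ^ 2 * (qx * n) + ∑ i, v i ^ 2 + z ^ 2 * n) := by
        rw [← mul_sum, sum_add_distrib, sum_add_distrib, ← mul_sum, hm]
        simp; ring
    _ ≤ 3 * ((L * z) ^ 2 * (1 * n) + z ^ 2 * n + z ^ 2 * n) := by gcongr
    _ ≤ _ := by
        have : 0 ≤ z ^ 2 * n * (L ^ 2 + 16 * L + 10) := by positivity
        linarith

/-- Energy of the base and noise parts of the special direction. -/
theorem base_energy {a C K k G : ℝ} (ha : 0 < a) (hG : a ≤ G) (hk : |k| ≤ K) {m y w : Fin n → ℝ}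
    (hm : ∀ i, |m i| ≤ 1) (hy : ∑ i, y i ^ 2 ≤ C * n) (hw : ∑ i, w i ^ 2 ≤ 4 * n) :
    (∀ i, (2 * m i + y i / G) ^ 2 ≤ 8 + 2 / a ^ 2 * y i ^ 2) ∧
      ∑ i, (2 * m i + y i / G + k * w i) ^ 2 ≤ (2 * (8 + C * (2 / a ^ 2)) + 8 * K ^ 2) * n := by
  have hby : ∀ i, (2 * m i + y i / G) ^ 2 ≤ 8 + 2 / a ^ 2 * y i ^ 2 := fun i => by
    have h1 : m i ^ 2 ≤ 1 := (sq_le_one_iff_abs_le_one _).2 (hm i)
    have h2 : (y i / G) ^ 2 ≤ y i ^ 2 / a ^ 2 := by
      rw [div_pow]; exact div_le_div_of_nonneg_left (sq_nonneg _) (by positivity) (pow_le_pow_left₀ ha.le hG 2)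
    have h3 : 2 / a ^ 2 * y i ^ 2 = 2 * (y i ^ 2 / a ^ 2) := by ring
    linarith [sq_nonneg (2 * m i - y i / G)]
  refine ⟨hby, ?_⟩
  calc ∑ i, (2 * m i + y i / G + k * w i) ^ 2
      ≤ ∑ i, (2 * (8 + 2 / a ^ 2 * y i ^ 2) + 2 * K ^ 2 * w i ^ 2) := by
        refine sum_le_sum fun i _ => ?_
        have h1 : k ^ 2 ≤ K ^ 2 := by rw [← sq_abs k]; exact pow_le_pow_left₀ (abs_nonneg _) hk 2
        have h2 := mul_le_mul_of_nonneg_right h1 (sq_nonneg (w i))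
        linarith [sq_nonneg (2 * m i + y i / G - k * w i), hby i]
    _ = 16 * n + 4 / a ^ 2 * ∑ i, y i ^ 2 + 2 * K ^ 2 * ∑ i, w i ^ 2 := by
        simp only [sum_add_distrib, ← mul_sum, sum_const, card_univ, Fintype.card_fin, nsmul_eq_mul]
        ring
    _ ≤ 16 * n + 4 / a ^ 2 * (C * n) + 2 * K ^ 2 * (4 * n) := by gcongr
    _ = _ := by ring

/-- **Typical images are good.** -/
theorem image_good {t δ U C : ℝ} (ht : 0 < t) (ht1 : t ≤ 1) (hδ : 0 < δ) (hU : 0 ≤ U) (hC : 0 ≤ C) :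
    ∃ L W : ℝ, 0 < L ∧ 0 < W ∧ ∀ n : ℕ, 0 < n → ∀ (u q s z σ : ℝ) (x Z w : Fin n → ℝ) (ξ : ℝ),
      0 ≤ u → u ≤ U → δ ≤ q → q ≤ 1 - δ → 0 < z → z ≤ δ / 2 → z ≤ 1 → σ ≤ z → s ^ 2 ≤ z →
      XGood t u q C z σ x →
      WGood z σ (fun i => tanh (x i)) (fun i => 2 * tanh (x i) + (x i - (u + t * q)) / (u + t * q)) w →
      ∑ i, (resMean t u x i
        - sumOf √(t * ((∑ j, tanh (x j) ^ 2) / (n : ℝ))) u (fun i => tanh (x i)) Z ξ i) ^ 2
          ≤ z ^ 2 * n →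
      |ξ - √(t * ((∑ j, tanh (x j) ^ 2) / (n : ℝ)))
          * ((∑ i, tanh (x i) * resMean t u x i) / √((∑ j, tanh (x j) ^ 2) / (n : ℝ) * n))
          / (u + t * ((∑ j, tanh (x j) ^ 2) / (n : ℝ)) + s ^ 2 + t * ((∑ j, tanh (x j) ^ 2) / (n : ℝ)))|
        ≤ z * √n →
      ImgOK t ((∑ j, tanh (x j) ^ 2) / (n : ℝ)) (L * z) W
        (2 + (1 - (∑ j, tanh (x j) ^ 2) / (n : ℝ)) / (t * ((∑ j, tanh (x j) ^ 2) / (n : ℝ))) + L * z)
        (L * z) (L * z) σ (fun i => tanh (x i))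
        (imgOf √(t * ((∑ j, tanh (x j) ^ 2) / (n : ℝ))) u (fun i => tanh (x i)) Z w ξ) := by
  set a := t * δ / 2 with had
  have ha : 0 < a := by positivity
  have ha1 : 0 < 1 / a := by positivity
  set L1 := 1 + (U + 5) / a with hL1d
  set L2 := 2 * (L1 + 2) with hL2d
  set L3 := 2 * (1 / a ^ 2 * √C + 1 / a * L2) with hL3d
  set K := 1 / a with hKd
  set Db := √(2 * (8 + C * (2 / a ^ 2)) + 8 / a ^ 2) with hDb
  have hL1 : 0 < L1 := by positivity
  have hL2 : 0 < L2 := by positivity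
  have hL3 : 0 < L3 := by positivity
  set La := 1 + K + L3 with hLad
  set Lb := 3 * K ^ 2 + 2 * K + 2 * Db * L3 + L3 ^ 2 + 1 + (U + 2) / a ^ 2 with hLbd
  set Lc := 3 * (8 + 2 / a ^ 2 + K ^ 2 + L3 ^ 2) with hLcd
  set Lk := (U + 3 + K + L2) * (2 / δ) with hLkd
  set W2 := 4 * (1 + C + 4 + L2 ^ 2) * (2 / δ) with hW2d
  refine ⟨La + Lb + Lc + Lk, √W2 + 1, by positivity, by positivity,
    fun n hn u q s z σ x Z w ξ hu huU hq hq1 hz hzδ hz1 hσz hs hX hW hfar hξ => ?_⟩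
  clear_value a L1 L2 L3 K Db La Lb Lc Lk W2
  have hn' : (0 : ℝ) < n := by exact_mod_cast hn
  set m : Fin n → ℝ := fun i => tanh (x i)
  set qx := (∑ j, tanh (x j) ^ 2) / (n : ℝ) with hqxd
  set px := (∑ i, tanh (x i)) / (n : ℝ) with hpxd
  set G0 := u + t * q
  set y : Fin n → ℝ := fun i => x i - G0
  obtain ⟨hqq, hpq, hBB, hb1, hb2, hy2, hyS⟩ := hX
  have hm1 : ∀ i, |m i| ≤ 1 := fun i => (abs_tanh_lt_one _).le
  have hN : ∑ j, m j ^ 2 = qx * n := by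
    simp only [m, hqxd]; field_simp
  have hqx1 : qx ≤ 1 := (div_le_one hn').2 (le_trans (sum_le_sum fun i _ =>
    (sq_le_one_iff_abs_le_one _).2 (hm1 i)) (by simp))
  have hqx : δ / 2 ≤ qx := by linarith [(abs_le.1 hqq).1]
  have hqx0 : 0 < qx := by linarith
  have hpx1 : |px| ≤ 1 := by
    rw [hpxd, abs_div, abs_of_pos hn', div_le_one hn']
    exact (abs_sum_le_sum_abs _ _).trans ((sum_le_sum fun i _ => hm1 i).trans (by simp))
  have htq : a ≤ t * qx := by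
    have := mul_le_mul_of_nonneg_left hqx ht.le
    rw [had]; linarith
  have hG0a : a ≤ G0 := by
    have := mul_le_mul_of_nonneg_left hq ht.le
    have : 0 < t * δ := mul_pos ht hδ
    simp only [G0]; rw [had]; linarith
  set Gx := u + t * qx
  have hGxa : a ≤ Gx := by simp only [Gx]; linarith
  have hGx : 0 < Gx := lt_of_lt_of_le ha hGxa
  set f := t * qx / Gx
  have hf0 : 0 ≤ f := by positivity
  have hf1 : f ≤ 1 := (div_le_one hGx).2 (by simp only [Gx]; linarith)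
  set σc := √(t * qx) with hσc
  have hσc2 : σc ^ 2 = t * qx := sq_sqrt (by positivity)
  have hr0 : ∀ i, resMean t u x i = y i - t * (px - q) + t * (1 - qx) * m i := fun i => by
    simp only [resMean, y, G0, m, ← hqxd, ← hpxd]; ring
  have hmr : ∑ i, tanh (x i) * resMean t u x i
      = (n : ℝ) * ((∑ i, y i * m i) / (n : ℝ) - t * (px - q) * px + t * (1 - qx) * qx) := by
    simp only [hr0]
    have e : ∀ i, tanh (x i) * (y i - t * (px - q) + t * (1 - qx) * m i)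
        = y i * m i - t * (px - q) * m i + t * (1 - qx) * m i ^ 2 := fun i => by simp only [m]; ring
    simp only [e, sum_add_distrib, sum_sub_distrib, ← mul_sum, hN]
    have : ∑ i, m i = px * n := by simp only [m, hpxd]; field_simp
    rw [this]
    field_simp
  rw [hmr] at hξ
  have hA' := dir_near (B := (∑ i, y i * m i) / (n : ℝ)) hn ht ht1 ha hu huU (by linarith) (by linarith)
    hqx0 hqx1 hz.le hs hqq hpq hpx1 hBB (by linarith [sq_nonneg s]) hξ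
  set A := σc / √(qx * n) * ξ - t * (1 - qx)
  have hA : |A| ≤ L1 * z := hL1d ▸ hA'
  set k0 := σc * √u / √(σc ^ 2 + u)
  set e0 : Fin n → ℝ := fun i => A * (1 - f) * m i
    - f * (resMean t u x i - sumOf σc u m Z ξ i + t * (px - q))
  have hsplit : ∀ i, imgOf σc u m Z w ξ i - t * (1 - qx) * m i = f * y i + k0 * w i + e0 i := fun i =>
    img_split σc u t q qx hσc2 (by rw [hσc2]; positivity) m (resMean t u x) Z w ξ px x i hN (hr0 i)
  have he0 : ∑ i, e0 i ^ 2 ≤ (L2 * z) ^ 2 * n :=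
    hL2d ▸ err_energy ht.le ht1 hz.le hf0 hf1 hL1.le hqx1 hpq hA hN hfar
  have hk0 : |k0| ≤ 1 := by
    simp only [k0]
    rw [abs_of_nonneg (by positivity), mul_div_assoc]
    refine mul_le_one₀ (sqrt_le_one.2 (mul_le_one₀ ht1 hqx0.le hqx1)) (by positivity)
      ((div_le_one (sqrt_pos.2 (by rw [hσc2]; positivity))).2 (sqrt_le_sqrt (by linarith [sq_nonneg σc])))
  set k := k0 / (t * qx)
  have hk : |k| ≤ K := by
    simp only [k, abs_div, abs_of_pos (show 0 < t * qx by linarith)]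
    rw [hKd]; exact div_le_div₀ zero_le_one hk0 ha htq
  have hk2 : k ^ 2 = u / (Gx * (t * qx)) := by
    simp only [k, k0]
    rw [div_pow, div_pow, mul_pow, hσc2, sq_sqrt hu, sq_sqrt (by positivity)]
    simp only [Gx]
    field_simp
    ring
  set b : Fin n → ℝ := fun i => 2 * m i + y i / G0
  set E : Fin n → ℝ := fun i => y i * (1 / Gx - 1 / G0) + e0 i / (t * qx)
  have hspec : ∀ i, specImg t qx m (imgOf σc u m Z w ξ) i = b i + k * w i + E i := fun i => by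
    simp only [specImg, hsplit, b, k, E, f]
    field_simp
    ring
  have hdif : |1 / Gx - 1 / G0| ≤ z / a ^ 2 := by
    rw [div_sub_div _ _ hGx.ne' (by linarith), abs_div, abs_of_pos (mul_pos hGx (by linarith)), pow_two]
    refine div_le_div₀ hz.le ?_ (by positivity) (mul_le_mul hGxa hG0a ha.le hGx.le)
    rw [show 1 * G0 - Gx * 1 = -(t * (qx - q)) by simp only [G0, Gx]; ring, abs_neg, abs_mul,
      abs_of_pos ht]
    exact (mul_le_of_le_one_left (abs_nonneg _) ht1).trans hqq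
  have hE : ∑ i, E i ^ 2 ≤ (L3 * z) ^ 2 * n := by
    have h := sum_sq_lin (y := y) (e := e0) hdif (g := 1 / (t * qx)) (G := 1 / a)
      (by rw [abs_of_nonneg (by positivity)]; exact one_div_le_one_div_of_le ha htq) (sqrt_nonneg C)
      (by positivity : 0 ≤ L2 * z) (by rw [sq_sqrt hC]; exact hy2) he0
    have e : L3 * z = 2 * (z / a ^ 2 * √C + 1 / a * (L2 * z)) := by rw [hL3d, hKd]; ring
    rw [e]
    refine le_of_eq_of_le (sum_congr rfl fun i _ => ?_) h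
    simp only [E]; ring
  obtain ⟨hby, hDb4⟩ : (∀ i, b i ^ 2 ≤ 8 + 2 / a ^ 2 * y i ^ 2) ∧
      ∑ i, (b i + k * w i) ^ 2 ≤ Db ^ 2 * n := by
    obtain ⟨h1, h2⟩ := base_energy (m := m) ha hG0a hk hm1 hy2 hW.2.2.2.2.1
    refine ⟨h1, h2.trans_eq ?_⟩
    rw [hDb, sq_sqrt (by positivity), hKd]; ring
  have hk2' : (1 - q) / G0 + k ^ 2 * (1 - qx) ≤ (1 - qx) / (t * qx) + (U + 2) / a ^ 2 * z := by
    rw [hk2]
    exact base_shift ha ht ht1 hu huU hqx0 hqq hG0a hGxa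
  obtain ⟨r1, r2, r3⟩ := spec_stats hn hz.le hz1 hσz hL3.le (Db := Db) (hDb ▸ sqrt_nonneg _)
    (show (0 : ℝ) ≤ 2 / a ^ 2 by positivity) hk hm1 hb1 hb2 hW (qx := qx) rfl hqx1 hDb4 hE hby hyS
  have hmono : ∀ {L' : ℝ}, L' ≤ La + Lb + Lc + Lk → L' * z * n ≤ (La + Lb + Lc + Lk) * z * n :=
    fun h => mul_le_mul_of_nonneg_right (mul_le_mul_of_nonneg_right h hz.le) hn'.le
  have hDb0 : 0 ≤ Db := hDb ▸ sqrt_nonneg _
  have pa : 0 ≤ La := by rw [hLad]; positivity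
  have pb : 0 ≤ Lb := by rw [hLbd]; positivity
  have pc : 0 ≤ Lc := by rw [hLcd]; positivity
  have pk : 0 ≤ Lk := by rw [hLkd]; positivity
  have hδq : 1 ≤ 2 / δ * qx := by rw [div_mul_eq_mul_div, le_div_iff₀ hδ]; linarith
  refine ⟨?_, ?_, ?_, ?_, fun S hS => ?_⟩
  · rw [hW2d]
    refine le_of_eq_of_le (sum_congr rfl fun i _ => ?_) (img_energy (c := t * (1 - qx)) (f := f) (k := k0)
      (L := L2) hn (pow_le_one₀ (mul_nonneg ht.le (sub_nonneg.2 hqx1))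
        (mul_le_one₀ ht1 (sub_nonneg.2 hqx1) (sub_le_self _ hqx0.le)))
      (pow_le_one₀ hf0 hf1) ((sq_le_one_iff_abs_le_one _).2 hk0) hC hδ hqx hqx1 hN hy2 hW.2.2.2.2.1
      (he0.trans (mul_le_mul_of_nonneg_right
        (pow_le_pow_left₀ (mul_nonneg hL2.le hz.le) (mul_le_of_le_one_right hL2.le hz1) 2) hn'.le)))
    rw [add_assoc, add_assoc, ← add_assoc (f * y i), ← hsplit i, add_sub_cancel]
  · have h := corr_bound (k := k0) (m := m) (y := y) (w := w) (e := e0) hn ht ht1 hu huU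
      (hδ.le.trans hq) (hq1.trans (sub_le_self _ hδ.le)) hqx0 hqx1 hz.le hL2.le hqq hk0 hN hBB hW.2.2.1 he0
    simp only [hsplit]
    refine h.trans ?_
    calc (U + 3 + L2) * z * n = (U + 3 + L2) * z * (1 * n) := by ring
      _ ≤ (U + 3 + L2 + K) * z * (2 / δ * qx * n) := by
          exact mul_le_mul (mul_le_mul_of_nonneg_right (le_add_of_nonneg_right ha1.le) hz.le)
            (mul_le_mul_of_nonneg_right hδq hn'.le) (by positivity) (by positivity)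
      _ = Lk * z * (qx * n) := by rw [hLkd]; ring
      _ ≤ (La + Lb + Lc + Lk) * z * (qx * n) :=
          mul_le_mul_of_nonneg_right (mul_le_mul_of_nonneg_right
            (le_add_of_nonneg_left (add_nonneg (add_nonneg pa pb) pc)) hz.le) (by positivity)
      _ = _ := by ring
  · simp only [hspec]
    exact (hLad ▸ r1).trans (hmono (by linarith only [pb, pc, pk]))
  · simp only [hspec]
    refine r2.trans ?_
    have h := hmono (show Lb ≤ La + Lb + Lc + Lk by linarith only [pa, pc, pk])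
    have h' := mul_le_mul_of_nonneg_right hk2' hn'.le
    rw [hLbd] at h ⊢
    simp only [G0, hKd] at h h' ⊢
    linarith only [h, h']
  · simp only [hspec]
    exact (hLcd ▸ r3 S hS).trans (hmono (by linarith only [pa, pb, pk]))

end Vale.Agent.P150.Fast.Transfer
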