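import Vale.Agent.P150.Fast.Margin
import Vale.Agent.P150.Fast.Tap
import Vale.Agent.P150.Fast.Cond
import Vale.Agent.P150.Fast.TransferBall

/-!
The margin at a typical image (P150): if the conditioned image has the replica-symmetric weighted
statistics and little energy on sparse sets, the ball margin holds outside an exponentially small
event of the compressed coupling.
-/

open MeasureTheory Real Finset Filter Matrix

namespace Vale.Agent.P150.Fast.Transfer

variable {n : ℕ}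

/-- The special direction at an image. -/
noncomputable def specImg (t q : ℝ) (m img : Fin n → ℝ) (i : Fin n) : ℝ :=
  2 * m i + (img i - t * (1 - q) * m i) / (t * q)

/-- The statistics of a typical image: length, correlation, the two weighted moments of the special
direction, and its energy on sparse sets. -/
def ImgOK (t q κ W Sb a e3 σ : ℝ) (m img : Fin n → ℝ) : Prop :=
  ∑ i, img i ^ 2 ≤ W ^ 2 * (q * n) ∧
  |∑ i, m i * (img i - t * (1 - q) * m i) - t * (1 - q) * q * n| ≤ κ * q * n ∧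
  |∑ i, (1 - m i ^ 2) * specImg t q m img i| ≤ a * n ∧
  ∑ i, (1 - m i ^ 2) * specImg t q m img i ^ 2 ≤ Sb * n ∧
  ∀ S : Finset (Fin n), (S.card : ℝ) ≤ σ * n → ∑ i ∈ S, specImg t q m img i ^ 2 ≤ e3 * n

theorem vsec_near {θ : ℝ} (hθ : 0 ≤ θ) {m : Fin n → ℝ} (hm : ∀ i, |m i| ≤ 1) (S : Finset (Fin n))
    (i : Fin n) : 1 - m i ^ 2 ≤ vsec θ m S i ∧
      vsec θ m S i ≤ 1 - m i ^ 2 + 2 * θ + (if i ∈ S then 1 else 0) ∧
      (vsec θ m S i - (1 - m i ^ 2)) ^ 2 ≤ 4 * θ ^ 2 + (if i ∈ S then 1 else 0) := by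
  have h1 := (sq_le_one_iff_abs_le_one _).2 (hm i)
  have h2 := sq_nonneg (m i)
  unfold vsec
  split_ifs with h
  · refine ⟨by linarith, by linarith, ?_⟩
    have : (1 - (1 - m i ^ 2)) ^ 2 ≤ 1 := pow_le_one₀ (by linarith) (by linarith)
    linarith [sq_nonneg θ]
  · refine ⟨le_min (by linarith) (by linarith), ?_, ?_⟩
    · linarith [min_le_right 1 (1 - m i ^ 2 + 2 * θ)]
    · have hlo : 1 - m i ^ 2 ≤ min 1 (1 - m i ^ 2 + 2 * θ) := le_min (by linarith) (by linarith)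
      have hhi := min_le_right 1 (1 - m i ^ 2 + 2 * θ)
      calc (min 1 (1 - m i ^ 2 + 2 * θ) - (1 - m i ^ 2)) ^ 2 ≤ (2 * θ) ^ 2 :=
            pow_le_pow_left₀ (by linarith) (by linarith) 2
        _ = 4 * θ ^ 2 + 0 := by ring

/-- The weighted statistics at the raised weights. -/
theorem img_stats (hn : 0 < n) {t q κ W Sb a e3 σ Cs θ e S1 : ℝ} (ht : 0 < t) (ht1 : t ≤ 1) (hq : 0 < q)
    (hq1 : q ≤ 1) (hθ : 0 < θ) (hσ : 0 ≤ σ) (hCs : 8 + 4 * (W ^ 2 + 1) / (t * q) ^ 2 ≤ Cs)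
    (hS1 : Sb + 2 * θ * Cs + e3 ≤ S1) (hS2 : a + √((4 * θ ^ 2 + σ) * Cs) ≤ e) {m img : Fin n → ℝ}
    (hm : ∑ i, m i ^ 2 = q * n) (hm1 : ∀ i, |m i| ≤ 1) (h : ImgOK t q κ W Sb a e3 σ m img)
    (S : Finset (Fin n)) (hS : (S.card : ℝ) ≤ σ * n) :
    ∑ i, vsec θ m S i * specImg t q m img i ^ 2 ≤ S1 * n ∧
      |∑ i, vsec θ m S i * specImg t q m img i| ≤ e * n ∧
      ∑ i, vsec θ m S i ≤ (1 - q + 2 * θ + σ) * n := by
  classical
  obtain ⟨hW, -, ha, hb, hs⟩ := h
  have hn' : (0 : ℝ) < n := by exact_mod_cast hn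
  set z := specImg t q m img
  set c := t * (1 - q)
  have hc : c ^ 2 ≤ 1 := pow_le_one₀ (mul_nonneg ht.le (by linarith)) (mul_le_one₀ ht1 (by linarith) (by linarith))
  have htot : ∑ i, z i ^ 2 ≤ Cs * n := by
    calc ∑ i, z i ^ 2 ≤ ∑ i, (8 * m i ^ 2 + (4 * img i ^ 2 + 4 * m i ^ 2) / (t * q) ^ 2) := by
          refine sum_le_sum fun i _ => ?_
          simp only [z, specImg]
          have h1 : (img i - c * m i) ^ 2 ≤ 2 * img i ^ 2 + 2 * m i ^ 2 := by
            have := mul_le_mul_of_nonneg_right hc (sq_nonneg (m i))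
            linarith [sq_nonneg (img i + c * m i)]
          have h2 : (2 * m i + (img i - c * m i) / (t * q)) ^ 2
              ≤ 8 * m i ^ 2 + 2 * ((img i - c * m i) ^ 2 / (t * q) ^ 2) := by
            rw [← div_pow]
            linarith [sq_nonneg (2 * m i - (img i - c * m i) / (t * q))]
          refine h2.trans ?_
          rw [← mul_div_assoc]
          gcongr
          linarith
      _ = 8 * (q * n) + (4 * ∑ i, img i ^ 2 + 4 * (q * n)) / (t * q) ^ 2 := by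
          rw [sum_add_distrib, ← mul_sum, ← sum_div, sum_add_distrib, ← mul_sum, ← mul_sum, hm]
      _ ≤ 8 * (q * n) + (4 * (W ^ 2 * (q * n)) + 4 * (q * n)) / (t * q) ^ 2 := by gcongr
      _ = q * ((8 + 4 * (W ^ 2 + 1) / (t * q) ^ 2) * n) := by ring
      _ ≤ Cs * n := (mul_le_of_le_one_left (by positivity) hq1).trans
          (mul_le_mul_of_nonneg_right hCs hn'.le)
  have hind : ∑ i, (if i ∈ S then (1 : ℝ) else 0) = S.card := by simp
  have hv := vsec_near hθ.le hm1 S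
  refine ⟨?_, ?_, ?_⟩
  · calc ∑ i, vsec θ m S i * z i ^ 2
        ≤ ∑ i, ((1 - m i ^ 2) * z i ^ 2 + 2 * θ * z i ^ 2 + (if i ∈ S then z i ^ 2 else 0)) := by
          refine sum_le_sum fun i _ => ?_
          refine (mul_le_mul_of_nonneg_right (hv i).2.1 (sq_nonneg _)).trans (le_of_eq ?_)
          split_ifs <;> ring
      _ = ∑ i, (1 - m i ^ 2) * z i ^ 2 + 2 * θ * ∑ i, z i ^ 2 + ∑ i ∈ S, z i ^ 2 := by
          rw [sum_add_distrib, sum_add_distrib, ← mul_sum, sum_ite_mem, univ_inter]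
      _ ≤ Sb * n + 2 * θ * (Cs * n) + e3 * n := by gcongr; exact hs S hS
      _ = (Sb + 2 * θ * Cs + e3) * n := by ring
      _ ≤ S1 * n := mul_le_mul_of_nonneg_right hS1 hn'.le
  · have hd : |∑ i, (vsec θ m S i - (1 - m i ^ 2)) * z i| ≤ √((4 * θ ^ 2 + σ) * Cs) * n := by
      refine (abs_le_sqrt (sum_mul_sq_le_sq_mul_sq _ _ _)).trans ?_
      have h1 : ∑ i, (vsec θ m S i - (1 - m i ^ 2)) ^ 2 ≤ (4 * θ ^ 2 + σ) * n := by
        refine (sum_le_sum fun i _ => (hv i).2.2).trans ?_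
        rw [sum_add_distrib, hind]
        simp only [sum_const, card_univ, Fintype.card_fin, nsmul_eq_mul]
        linarith
      calc √((∑ i, (vsec θ m S i - (1 - m i ^ 2)) ^ 2) * ∑ i, z i ^ 2)
          ≤ √((4 * θ ^ 2 + σ) * n * (Cs * n)) := sqrt_le_sqrt (mul_le_mul h1 htot
            (sum_nonneg fun i _ => sq_nonneg _) (by positivity))
        _ = √((4 * θ ^ 2 + σ) * Cs) * n := by
            rw [show (4 * θ ^ 2 + σ) * n * (Cs * n) = (4 * θ ^ 2 + σ) * Cs * (n : ℝ) ^ 2 by ring,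
              sqrt_mul' _ (sq_nonneg _), sqrt_sq hn'.le]
    have e : ∑ i, vsec θ m S i * z i
        = ∑ i, (1 - m i ^ 2) * z i + ∑ i, (vsec θ m S i - (1 - m i ^ 2)) * z i := by
      rw [← sum_add_distrib]; exact sum_congr rfl fun i _ => by ring
    rw [e]
    refine (abs_add_le _ _).trans ?_
    have := mul_le_mul_of_nonneg_right hS2 hn'.le
    linarith
  · refine (sum_le_sum fun i _ => (hv i).2.1).trans ?_
    rw [sum_add_distrib, sum_add_distrib, sum_sub_distrib, hm, hind]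
    simp only [sum_const, card_univ, Fintype.card_fin, nsmul_eq_mul, mul_one]
    linarith

/-- **The margin at a typical image**, for the compressed coupling. -/
theorem margin_sparse (hT : GaussTail) (hn : 0 < n) {t q κ W Sb a e3 σ Cs θ e S1 lam η ζ M r : ℝ}
    (ht : 0 < t) (ht1 : t ≤ 1) (hq : 0 < q) (hq1 : q < 1) (hθ : 0 < θ) (hσ : 0 ≤ σ)
    (hCs : 8 + 4 * (W ^ 2 + 1) / (t * q) ^ 2 ≤ Cs) (hW : 0 ≤ W) (hS10 : 0 ≤ S1) (he : 0 < e)
    (hζ : 0 < ζ) (hr : 0 < r) (hr1 : r ≤ 1) (hlam : 1 - q ≤ lam) (hU1 : 1 - q + 2 * θ + σ ≤ 1)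
    (hS1 : Sb + 2 * θ * Cs + e3 ≤ S1) (hS2 : a + √((4 * θ ^ 2 + σ) * Cs) ≤ e)
    (hM1 : t / (2 + (1 - q) / q) * S1 + t * e + (e + e / q * (S1 + 1)) / lam ≤ M)
    (hM2 : t / (2 + (1 - q) / q) * e + t * (1 - q + 2 * θ + σ) + (e + e / q) / lam ≤ M)
    (hM3 : t / (2 + (1 - q) / q) * (e + e / q * (S1 + 1)) + t * (e + e / q)
      + ((√(1 - q + 2 * θ + σ) + e) ^ 2 + 2 * (e / q * e) + (e / q) ^ 2) / lam ≤ M)
    (hMζ : (1 + ζ) * M ≤ 1)
    (hroom : (1 + ζ) * (M + t * lam + κ) + η + 3 * ζ * W ≤ 1 + t * (1 - q))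
    (hlarge : 2 * √t * (1 / (t * lam)) * √(8 * exp (-(2 * e ^ 2 * n / (π ^ 2 * (S1 + 1))))
      + exp (-(2 * e ^ 2 * n / π ^ 2))) ≤ ζ / 2)
    {m img : Fin n → ℝ} (hm : ∑ i, m i ^ 2 = q * n) (hm1 : ∀ i, |m i| ≤ 1)
    (h : ImgOK t q κ W Sb a e3 σ m img) :
    (disX n).real {d | ∃ S : Finset (Fin n), (S.card : ℝ) ≤ σ * n ∧ ∃ u,
        margForm t q η m (vsec θ m S) (fun i => img i - t * (1 - q) * m i) u
          < Ent.qform (kmat n √t d) (projOff m u)}
      ≤ exp ((r + σ * -log r) * n) * exp (-((ζ / 2) ^ 2 * n * (t * lam ^ 2) / π ^ 2)) := by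
  classical
  set F := (univ : Finset (Finset (Fin n))).filter fun S => (S.card : ℝ) ≤ σ * n
  set E := exp (-((ζ / 2) ^ 2 * n * (t * lam ^ 2) / π ^ 2))
  have hsub : {d : Dis n | ∃ S : Finset (Fin n), (S.card : ℝ) ≤ σ * n ∧ ∃ u,
      margForm t q η m (vsec θ m S) (fun i => img i - t * (1 - q) * m i) u
        < Ent.qform (kmat n √t d) (projOff m u)}
      ⊆ ⋃ S ∈ F, {d | ∃ u, margForm t q η m (vsec θ m S) (fun i => img i - t * (1 - q) * m i) u
          < Ent.qform (kmat n √t d) (projOff m u)} := by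
    rintro d ⟨S, hS, hd⟩
    exact Set.mem_iUnion₂.2 ⟨S, mem_filter.2 ⟨mem_univ _, hS⟩, hd⟩
  refine (measureReal_mono hsub (measure_ne_top _ _)).trans ((measureReal_biUnion_finset_le _ _).trans ?_)
  refine (sum_le_card_nsmul _ _ E fun S hS => ?_).trans ?_
  · obtain ⟨s1, s2, s3⟩ := img_stats hn ht ht1 hq hq1.le hθ hσ hCs hS1 hS2 hm hm1 h S (mem_filter.1 hS).2
    refine margin_event hT hn ht hq hq1 hlam hU1 hζ hW hS10 he (fun i => (vsec_pos hθ hm1 S i).1)
      (fun i => (vsec_pos hθ hm1 S i).2) hm s3 hm1 h.2.1 ?_ s1 s2 hM1 hM2 hM3 hMζ hroom hlarge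
    simpa using h.1
  · rw [nsmul_eq_mul]
    exact mul_le_mul_of_nonneg_right (card_sparse hr hr1) (exp_pos _).le

/-- The margin of the compressed coupling at the image gives the ball margin of the planted one. -/
theorem ball_of_image (hn : 0 < n) {β q η θ σ : ℝ} (hβ : 0 ≤ β) (hq : 0 < q) (d : Dis n) {m : Fin n → ℝ}
    (hm : ∑ i, m i ^ 2 = q * n)
    (h : ¬ ∃ S : Finset (Fin n), (S.card : ℝ) ≤ σ * n ∧ ∃ u,
      margForm (β ^ 2) q η m (vsec θ m S)
          (fun i => (kmat n β d *ᵥ m) i - β ^ 2 * (1 - q) * m i) u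
        < Ent.qform (kmat n √(β ^ 2) (pinch m d)) u) :
    BallMargin (plantK n β d) (β ^ 2) η θ σ m := by
  simp only [not_exists, not_and, not_lt] at h
  have hn' : (0 : ℝ) < n := by exact_mod_cast hn
  have e3 : kmat n √(β ^ 2) = kmat n β := by rw [sqrt_sq hβ]
  intro S hS u
  have h2 : ∀ u, Ent.qform (kmat n β d) (projOff m u) ≤ margForm (β ^ 2) q η m (vsec θ m S)
      (fun i => (kmat n β d *ᵥ m) i - β ^ 2 * (1 - q) * m i) u := fun u => by
    rw [← qform_pinch]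
    have := h S hS u
    rwa [e3] at this
  have h3 := margin_of_image hn (e := 0) hq le_rfl (kmat_symm β d) hm h2 (by
    refine le_of_eq ?_
    simp [Matrix.mulVec, dotProduct])
    u
  have eK : Ent.qform (plantK n β d) u
      = Ent.qform (kmat n β d) u + β ^ 2 / n * (∑ i, u i) ^ 2 := by
    simp only [plantK, Ent.qform, Matrix.add_apply, Matrix.smul_apply, vecMulVec_apply, smul_eq_mul,
      mul_one, mul_add, add_mul, sum_add_distrib]
    congr 1
    rw [pow_two (∑ i, u i), sum_mul_sum, mul_sum]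
    refine sum_congr rfl fun i _ => ?_
    rw [mul_sum]
    exact sum_congr rfl fun j _ => by ring
  have eq2 : (∑ j, m j ^ 2) / (n : ℝ) = q := by rw [hm, mul_div_cancel_right₀ _ hn'.ne']
  rw [eK, eq2]
  linarith

end Vale.Agent.P150.Fast.Transfer
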